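import Crest.Agent.R189.AltPres
import Mathlib.GroupTheory.IsPerfect

/-!
# R189: `altOn A` is perfect when `5 ≤ A.card` (helper417)
-/

open Equiv Equiv.Perm Finset
open scoped commutatorElement

set_option linter.unusedSimpArgs false

namespace Crest.Agent.R189.AltPres

variable {Ω : Type*} [DecidableEq Ω]

theorem cyc_commutator {a b c d e : Ω} (hab : a ≠ b) (hac : a ≠ c) (had : a ≠ d) (hae : a ≠ e)
    (hbc : b ≠ c) (hbd : b ≠ d) (hbe : b ≠ e) (hcd : c ≠ d) (hce : c ≠ e) (hde : d ≠ e) :
    ⁅cyc a b d, cyc a c e⁆ = cyc a b c := by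
  have h1 := hab.symm
  have h2 := hac.symm
  have h3 := had.symm
  have h4 := hae.symm
  have h5 := hbc.symm
  have h6 := hbd.symm
  have h7 := hbe.symm
  have h8 := hcd.symm
  have h9 := hce.symm
  have h10 := hde.symm
  ext x
  simp only [commutatorElement_def, cyc, mul_inv_rev, swap_inv, Perm.mul_apply]
  by_cases xa : x = a
  · subst xa; simp [swap_apply_def, *]
  by_cases xb : x = b
  · subst xb; simp [swap_apply_def, *]
  by_cases xc : x = c
  · subst xc; simp [swap_apply_def, *]
  by_cases xd : x = d
  · subst xd; simp [swap_apply_def, *]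
  by_cases xe : x = e
  · subst xe; simp [swap_apply_def, *]
  simp [swap_apply_def, *]

variable [Fintype Ω]

/-- Every 3-cycle is `cyc p q r` for three distinct points. -/
theorem exists_eq_cyc {z : Perm Ω} (hz : z.IsThreeCycle) :
    ∃ p q r : Ω, p ≠ q ∧ p ≠ r ∧ q ≠ r ∧ z = cyc p q r ∧ z.support = {p, q, r} := by
  obtain ⟨p, q, r, hpq, hpr, hqr, hs⟩ := card_eq_three.1 hz.card_support
  have mem : ∀ x, z x ≠ x ↔ x = p ∨ x = q ∨ x = r := by
    intro x
    rw [← mem_support, hs]
    simp
  have hp : z p ≠ p := (mem p).2 (Or.inl rfl)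
  have hq : z q ≠ q := (mem q).2 (Or.inr (Or.inl rfl))
  have hr : z r ≠ r := (mem r).2 (Or.inr (Or.inr rfl))
  have out : ∀ x, x ≠ p → x ≠ q → x ≠ r → z x = x := by
    intro x h1 h2 h3
    by_contra h
    rcases (mem x).1 h with h | h | h
    · exact h1 h
    · exact h2 h
    · exact h3 h
  have zz : ∀ x, z x ≠ x → (z x = p ∨ z x = q ∨ z x = r) := by
    intro x hx
    exact (mem (z x)).1 fun h => hx (z.injective h)
  have inj := z.injective
  have key : (z p = q ∧ z q = r ∧ z r = p) ∨ (z p = r ∧ z r = q ∧ z q = p) := by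
    rcases zz p hp with h | h | h
    · exact absurd h hp
    · left
      rcases zz q hq with h' | h' | h'
      · exfalso
        rcases zz r hr with h'' | h'' | h''
        · exact hqr (inj (h'.trans h''.symm))
        · exact hpr (inj (h.trans h''.symm))
        · exact hr h''
      · exact absurd h' hq
      · rcases zz r hr with h'' | h'' | h''
        · exact ⟨h, h', h''⟩
        · exact absurd (inj (h.trans h''.symm)) hpr
        · exact absurd h'' hr
    · right
      rcases zz r hr with h' | h' | h'
      · exfalso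
        rcases zz q hq with h'' | h'' | h''
        · exact hqr (inj (h''.trans h'.symm))
        · exact hq h''
        · exact hpq (inj (h.trans h''.symm))
      · rcases zz q hq with h'' | h'' | h''
        · exact ⟨h, h', h''⟩
        · exact absurd h'' hq
        · exact absurd (inj (h.trans h''.symm)) hpq
      · exact absurd h' hr
  rcases key with ⟨a1, a2, a3⟩ | ⟨a1, a2, a3⟩
  · refine ⟨p, q, r, hpq, hpr, hqr, ?_, hs⟩
    ext x
    have h1 := hpq.symm
    have h2 := hpr.symm
    have h3 := hqr.symm
    by_cases xa : x = p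
    · subst xa; simp [cyc, swap_apply_def, *]
    by_cases xb : x = q
    · subst xb; simp [cyc, swap_apply_def, *]
    by_cases xc : x = r
    · subst xc; simp [cyc, swap_apply_def, *]
    rw [out x xa xb xc]
    simp [cyc, swap_apply_def, *]
  · refine ⟨p, r, q, hpr, hpq, hqr.symm, ?_, ?_⟩
    · ext x
      have h1 := hpq.symm
      have h2 := hpr.symm
      have h3 := hqr.symm
      by_cases xa : x = p
      · subst xa; simp [cyc, swap_apply_def, *]
      by_cases xb : x = q
      · subst xb; simp [cyc, swap_apply_def, *]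
      by_cases xc : x = r
      · subst xc; simp [cyc, swap_apply_def, *]
      rw [out x xa xb xc]
      simp [cyc, swap_apply_def, *]
    · rw [hs]; congr 1; exact pair_comm _ _

/-- `altOn A` is perfect when `A` has at least five elements. -/
theorem commutator_altOn {A : Finset Ω} (hA : 5 ≤ A.card) : commutator (altOn A) = ⊤ := by
  rw [eq_top_iff]
  have h : (commutator (altOn A)).map (altOn A).subtype = altOn A := by
    refine le_antisymm ?_ ?_
    · rintro _ ⟨x, _, rfl⟩; exact x.2
    · conv_lhs => rw [← closure_threeCycles_altOn A]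
      rw [Subgroup.closure_le]
      rintro z ⟨hz, hzA⟩
      obtain ⟨p, q, r, hpq, hpr, hqr, rfl, hs⟩ := exists_eq_cyc hz
      have h3 : ({p, q, r} : Finset Ω).card = 3 := by
        rw [← hs]; exact hz.card_support
      have hsub : ({p, q, r} : Finset Ω) ⊆ A := hs ▸ hzA
      have hd : 1 < (A \ {p, q, r}).card := by
        have := card_sdiff_add_card_eq_card hsub
        omega
      obtain ⟨d, hd1, e, he1, hde⟩ := one_lt_card.1 hd
      rw [mem_sdiff] at hd1 he1
      simp only [mem_insert, mem_singleton, not_or] at hd1 he1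
      obtain ⟨hdA, hdp, hdq, hdr⟩ := hd1
      obtain ⟨heA, hep, heq, her⟩ := he1
      have hp : p ∈ A := hsub (by simp)
      have hq : q ∈ A := hsub (by simp)
      have hr : r ∈ A := hsub (by simp)
      have m1 : cyc p q d ∈ altOn A := by
        refine threeCycle_mem (cyc_isThreeCycle hpq (Ne.symm hdp) (Ne.symm hdq)) (support_cyc.trans ?_)
        intro x hx
        simp only [mem_insert, mem_singleton] at hx
        rcases hx with rfl | rfl | rfl <;> assumption
      have m2 : cyc p r e ∈ altOn A := by
        refine threeCycle_mem (cyc_isThreeCycle hpr (Ne.symm hep) (Ne.symm her)) (support_cyc.trans ?_)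
        intro x hx
        simp only [mem_insert, mem_singleton] at hx
        rcases hx with rfl | rfl | rfl <;> assumption
      have hmem := Subgroup.commutator_mem_commutator
        (Subgroup.mem_top (⟨cyc p q d, m1⟩ : altOn A)) (Subgroup.mem_top (⟨cyc p r e, m2⟩ : altOn A))
      refine ⟨_, hmem, ?_⟩
      exact cyc_commutator hpq hpr (Ne.symm hdp) (Ne.symm hep) hqr (Ne.symm hdq) (Ne.symm heq)
        (Ne.symm hdr) (Ne.symm her) hde
  intro x _
  have hx : (x : Perm Ω) ∈ (commutator (altOn A)).map (altOn A).subtype := by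
    rw [h]; exact x.2
  obtain ⟨y, hy, hyx⟩ := hx
  have : y = x := Subtype.ext hyx
  exact this ▸ hy


end Crest.Agent.R189.AltPres
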