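import Mathlib
import Crest.Prelude.Def_Amenable

/-!
# Row 189: amenability library (Reiter form, finitely supported probabilities).

* `Rt a` : the family of maps `a : G → S → S` has almost invariant finitely supported
  probabilities;
* `Amen G` : `G` acting on itself by left multiplication.
-/

open scoped Pointwise

set_option linter.unusedSectionVars false

namespace Crest.Agent.R189

section l1
variable {S T : Type*}

/-- `ℓ¹` norm of a finitely supported function -/
noncomputable def l1 (p : S →₀ ℝ) : ℝ := p.sum fun _ a => |a|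

lemma l1_eq {p : S →₀ ℝ} {F : Finset S} (h : p.support ⊆ F) : l1 p = ∑ s ∈ F, |p s| := by
  unfold l1
  exact Finsupp.sum_of_support_subset p h _ (fun _ _ => abs_zero)


@[simp] lemma l1_zero : l1 (0 : S →₀ ℝ) = 0 := by simp [l1]

lemma l1_add_le (p q : S →₀ ℝ) : l1 (p + q) ≤ l1 p + l1 q := by
  classical
  have hp : p.support ⊆ p.support ∪ q.support := Finset.subset_union_left
  have hq : q.support ⊆ p.support ∪ q.support := Finset.subset_union_right
  rw [l1_eq (Finsupp.support_add (g₁ := p) (g₂ := q)), l1_eq hp, l1_eq hq,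
    ← Finset.sum_add_distrib]
  exact Finset.sum_le_sum (fun s _ => by simpa using abs_add_le (p s) (q s))

lemma l1_smul (c : ℝ) (p : S →₀ ℝ) : l1 (c • p) = |c| * l1 p := by
  have h : (c • p).support ⊆ p.support := Finsupp.support_smul
  rw [l1_eq h, l1, Finsupp.sum, Finset.mul_sum]
  exact Finset.sum_congr rfl (fun s _ => by simp [abs_mul])

lemma l1_neg (p : S →₀ ℝ) : l1 (-p) = l1 p := by
  have := l1_smul (-1) p
  simpa using this

lemma l1_sub_comm (p q : S →₀ ℝ) : l1 (p - q) = l1 (q - p) := by
  rw [← l1_neg, neg_sub]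

lemma l1_sub_le (p q r : S →₀ ℝ) : l1 (p - r) ≤ l1 (p - q) + l1 (q - r) := by
  have := l1_add_le (p - q) (q - r)
  simpa using this

lemma l1_sum_le {ι : Type*} (F : Finset ι) (v : ι → S →₀ ℝ) :
    l1 (∑ i ∈ F, v i) ≤ ∑ i ∈ F, l1 (v i) := by
  classical
  induction F using Finset.induction_on with
  | empty => simp
  | insert i F hi ih =>
    rw [Finset.sum_insert hi, Finset.sum_insert hi]
    exact (l1_add_le _ _).trans (by linarith)

lemma l1_single (s : S) (c : ℝ) : l1 (Finsupp.single s c) = |c| := by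
  simp [l1, Finsupp.sum_single_index]

/-- the mass of a finitely supported function -/
noncomputable def mass (p : S →₀ ℝ) : ℝ := p.sum fun _ a => a

lemma mass_eq {p : S →₀ ℝ} {F : Finset S} (h : p.support ⊆ F) : mass p = ∑ s ∈ F, p s := by
  unfold mass
  exact Finsupp.sum_of_support_subset p h _ (fun _ _ => rfl)

lemma mass_lc (p : S →₀ ℝ) : mass p = Finsupp.linearCombination ℝ (fun _ : S => (1:ℝ)) p := by
  simp [mass, Finsupp.linearCombination_apply]

lemma mass_linearCombination (v : S → T →₀ ℝ) (p : S →₀ ℝ) :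
    mass (Finsupp.linearCombination ℝ v p) = p.sum fun s a => a * mass (v s) := by
  simp only [mass_lc]
  rw [Finsupp.apply_linearCombination]
  simp [Finsupp.linearCombination_apply]

/-- key estimate for linear combinations -/
lemma l1_linearCombination_le (v : S → T →₀ ℝ) (p : S →₀ ℝ) {c : ℝ}
    (h : ∀ s ∈ p.support, l1 (v s) ≤ c) : l1 (Finsupp.linearCombination ℝ v p) ≤ c * l1 p := by
  rw [Finsupp.linearCombination_apply, Finsupp.sum]
  refine (l1_sum_le _ _).trans ?_
  rw [l1, Finsupp.sum, Finset.mul_sum]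
  refine Finset.sum_le_sum (fun s hs => ?_)
  rw [l1_smul, mul_comm]
  exact mul_le_mul_of_nonneg_right (h s hs) (abs_nonneg _)

lemma mapDomain_eq_lc (f : S → T) (p : S →₀ ℝ) :
    p.mapDomain f = Finsupp.linearCombination ℝ (fun s => Finsupp.single (f s) (1:ℝ)) p := by
  simp [Finsupp.mapDomain, Finsupp.linearCombination_apply]

lemma l1_mapDomain_le (f : S → T) (p : S →₀ ℝ) : l1 (p.mapDomain f) ≤ l1 p := by
  rw [mapDomain_eq_lc]
  have := l1_linearCombination_le (fun s => Finsupp.single (f s) (1:ℝ)) p (c := 1)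
    (fun s _ => by rw [l1_single]; simp)
  simpa using this

lemma mapDomain_sub (f : S → T) (p q : S →₀ ℝ) :
    (p - q).mapDomain f = p.mapDomain f - q.mapDomain f :=
  map_sub (Finsupp.lmapDomain ℝ ℝ f) p q

lemma mapDomain_lc {U : Type*} (f : T → U) (v : S → T →₀ ℝ) (p : S →₀ ℝ) :
    (Finsupp.linearCombination ℝ v p).mapDomain f
      = Finsupp.linearCombination ℝ (fun s => (v s).mapDomain f) p := by
  have := Finsupp.apply_linearCombination ℝ (Finsupp.lmapDomain ℝ ℝ f) v p
  exact this

/-- finitely supported probability -/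
structure IsProb (p : S →₀ ℝ) : Prop where
  nonneg : ∀ s, 0 ≤ p s
  mass : mass p = 1

lemma IsProb.l1 {p : S →₀ ℝ} (h : IsProb p) : l1 p = 1 := by
  rw [← h.mass]
  exact Finset.sum_congr rfl (fun s _ => abs_of_nonneg (h.nonneg s))

lemma IsProb.lc {p : S →₀ ℝ} (h : IsProb p) {v : S → T →₀ ℝ}
    (hv : ∀ s ∈ p.support, IsProb (v s)) : IsProb (Finsupp.linearCombination ℝ v p) := by
  constructor
  · intro t
    rw [Finsupp.linearCombination_apply, Finsupp.sum, Finsupp.finsetSum_apply]
    refine Finset.sum_nonneg (fun s hs => ?_)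
    simp only [Finsupp.smul_apply, smul_eq_mul]
    exact mul_nonneg (h.nonneg s) ((hv s hs).nonneg t)
  · rw [mass_linearCombination, ← h.mass]
    exact Finset.sum_congr rfl (fun s hs => by simp [(hv s hs).mass])

lemma isProb_single (s : S) : IsProb (Finsupp.single s (1:ℝ)) := by
  classical
  constructor
  · intro t
    rw [Finsupp.single_apply]
    split_ifs <;> norm_num
  · simp [mass]

lemma IsProb.map {p : S →₀ ℝ} (h : IsProb p) (f : S → T) : IsProb (p.mapDomain f) := by
  rw [mapDomain_eq_lc]
  exact h.lc (fun s _ => isProb_single _)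

end l1

/-! ### Reiter property -/

section reiter
variable {G S T : Type*}

/-- almost invariant finitely supported probabilities -/
def Rt (a : G → S → S) : Prop :=
  ∀ (F : Finset G) (ε : ℝ), 0 < ε → ∃ p : S →₀ ℝ, IsProb p ∧
    ∀ g ∈ F, l1 (p.mapDomain (a g) - p) < ε

/-- push forward along an equivariant map -/
lemma Rt.map {a : G → S → S} {b : G → T → T} (h : Rt a) (f : S → T)
    (hf : ∀ g s, f (a g s) = b g (f s)) : Rt b := by
  intro F ε hε
  obtain ⟨p, hp, h⟩ := h F ε hε
  refine ⟨p.mapDomain f, hp.map f, fun g hg => ?_⟩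
  have e : (p.mapDomain f).mapDomain (b g) - p.mapDomain f
      = (p.mapDomain (a g) - p).mapDomain f := by
    rw [mapDomain_sub, ← Finsupp.mapDomain_comp, ← Finsupp.mapDomain_comp]
    congr 2
    funext s
    exact (hf g s).symm
  rw [e]
  exact (l1_mapDomain_le _ _).trans_lt (h g hg)

/-- pull back along any map of index types -/
lemma Rt.comap {H : Type*} {a : G → S → S} (h : Rt a) (φ : H → G) : Rt (fun x => a (φ x)) := by
  classical
  intro F ε hε
  obtain ⟨p, hp, h⟩ := h (F.image φ) ε hε
  exact ⟨p, hp, fun x hx => h _ (Finset.mem_image_of_mem φ hx)⟩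

/-- amenability, Reiter form -/
def Amen (G : Type*) [Group G] : Prop := Rt (fun (g x : G) => g * x)

variable [Group G]

lemma Amen.subgroup (h : Amen G) (H : Subgroup G) : Amen H := by
  classical
  let t : G → G := fun g => Quotient.out (Quotient.mk (QuotientGroup.rightRel H) g)
  have ht : ∀ g, g * (t g)⁻¹ ∈ H := fun g => by
    have h1 : (QuotientGroup.rightRel H).r (t g) g :=
      Quotient.exact (Quotient.out_eq (Quotient.mk (QuotientGroup.rightRel H) g))
    exact QuotientGroup.rightRel_apply.1 h1
  have ht2 : ∀ (x : H) (g : G), t (x * g) = t g := fun x g => by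
    have : (Quotient.mk (QuotientGroup.rightRel H) ((x:G) * g))
        = Quotient.mk (QuotientGroup.rightRel H) g := by
      apply Quotient.sound
      show (QuotientGroup.rightRel H).r _ _
      rw [QuotientGroup.rightRel_apply]
      have : g * ((x:G) * g)⁻¹ = (x:G)⁻¹ := by group
      rw [this]
      exact H.inv_mem x.2
    show Quotient.out _ = Quotient.out _
    rw [this]
  refine (h.comap (fun x : H => (x : G))).map (fun g => (⟨g * (t g)⁻¹, ht g⟩ : H)) ?_
  intro x g
  ext
  show (x:G) * g * (t (x * g))⁻¹ = x * (g * (t g)⁻¹)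
  rw [ht2, mul_assoc]

lemma Amen.of_surj {Q : Type*} [Group Q] (h : Amen G) (φ : G →* Q)
    (hφ : Function.Surjective φ) : Amen Q := by
  have h1 : Rt (fun (g : G) (x : Q) => φ g * x) :=
    Rt.map h (fun x => φ x) (fun g x => map_mul φ g x)
  have h2 := h1.comap (Function.surjInv hφ)
  intro F ε hε
  obtain ⟨p, hp, h⟩ := h2 F ε hε
  refine ⟨p, hp, fun g hg => ?_⟩
  have := h g hg
  simpa [Function.surjInv_eq hφ g] using this

lemma Amen.equiv {Q : Type*} [Group Q] (h : Amen G) (φ : G ≃* Q) : Amen Q :=
  h.of_surj φ.toMonoidHom φ.surjective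

lemma Amen.of_inj {Q : Type*} [Group Q] (h : Amen Q) (φ : G →* Q)
    (hφ : Function.Injective φ) : Amen G :=
  (h.subgroup φ.range).equiv (MonoidHom.ofInjective hφ).symm

/-- local criterion -/
lemma amen_of_local (h : ∀ F : Finset G, ∃ H : Subgroup G, (∀ g ∈ F, g ∈ H) ∧ Amen H) :
    Amen G := by
  classical
  intro F ε hε
  obtain ⟨H, hF, hH⟩ := h F
  let F' : Finset H := F.attach.image (fun g => (⟨g.1, hF g.1 g.2⟩ : H))
  obtain ⟨p, hp, hp2⟩ := hH F' ε hε
  refine ⟨p.mapDomain (fun x : H => (x : G)), hp.map _, fun g hg => ?_⟩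
  have e : (p.mapDomain (fun x : H => (x : G))).mapDomain (fun x => g * x)
      - p.mapDomain (fun x : H => (x : G))
      = (p.mapDomain (fun x : H => (⟨g, hF g hg⟩ : H) * x) - p).mapDomain
        (fun x : H => (x : G)) := by
    rw [mapDomain_sub, ← Finsupp.mapDomain_comp, ← Finsupp.mapDomain_comp]
    rfl
  rw [e]
  refine (l1_mapDomain_le _ _).trans_lt (hp2 _ ?_)
  exact Finset.mem_image.2 ⟨⟨g, hg⟩, Finset.mem_attach _ _, rfl⟩

/-- finite groups are amenable -/
lemma amen_finite [Finite G] : Amen G := by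
  classical
  have := Fintype.ofFinite G
  intro F ε hε
  set c : ℝ := (Fintype.card G : ℝ)⁻¹
  let p : G →₀ ℝ := Finsupp.equivFunOnFinite.symm (fun _ => c)
  have hp : ∀ g, p g = c := fun g => rfl
  have hc : 0 < (Fintype.card G : ℝ) := by exact_mod_cast Fintype.card_pos
  refine ⟨p, ⟨fun g => by rw [hp]; positivity, ?_⟩, fun g _ => ?_⟩
  · rw [mass_eq (Finset.subset_univ _)]
    simp only [hp, Finset.sum_const, Finset.card_univ, nsmul_eq_mul]
    exact mul_inv_cancel₀ hc.ne'
  · have e : p.mapDomain (fun x => g * x) = p := by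
      ext x
      have h1 : x = g * (g⁻¹ * x) := by group
      rw [h1, Finsupp.mapDomain_apply (mul_right_injective g)]
      rfl
    rw [e, sub_self, l1_zero]
    exact hε

/-- averaging along powers of an element -/
lemma l1_avg_le (a : S → S) (p : S →₀ ℝ) (hp : IsProb p) {N : ℕ} (hN : 0 < N) :
    l1 ((((N:ℝ)⁻¹) • ∑ i ∈ Finset.range N, p.mapDomain (a^[i])).mapDomain a
      - ((N:ℝ)⁻¹) • ∑ i ∈ Finset.range N, p.mapDomain (a^[i])) ≤ 2 / N := by
  have hN' : (0:ℝ) < N := by exact_mod_cast hN
  have e1 : (((N:ℝ)⁻¹) • ∑ i ∈ Finset.range N, p.mapDomain (a^[i])).mapDomain a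
      = ((N:ℝ)⁻¹) • ∑ i ∈ Finset.range N, p.mapDomain (a^[i+1]) := by
    have := map_smul (Finsupp.lmapDomain ℝ ℝ a) ((N:ℝ)⁻¹)
      (∑ i ∈ Finset.range N, p.mapDomain (a^[i]))
    rw [map_sum] at this
    refine Eq.trans this ?_
    congr 1
    refine Finset.sum_congr rfl (fun i _ => ?_)
    show (p.mapDomain (a^[i])).mapDomain a = _
    rw [← Finsupp.mapDomain_comp, Function.iterate_succ' a i]
  have e2 : (∑ i ∈ Finset.range N, p.mapDomain (a^[i+1]))
      - ∑ i ∈ Finset.range N, p.mapDomain (a^[i]) = p.mapDomain (a^[N]) - p := by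
    have h := Finset.sum_range_sub (fun i => p.mapDomain (a^[i])) N
    rw [Finset.sum_sub_distrib] at h
    rw [h]
    simp
  rw [e1, ← smul_sub, e2, l1_smul, abs_of_pos (inv_pos.2 hN')]
  have h3 : l1 (p.mapDomain (a^[N]) - p) ≤ 2 := by
    have h4 := l1_add_le (p.mapDomain (a^[N])) (-p)
    rw [l1_neg, (hp.map _).l1, hp.l1] at h4
    rw [sub_eq_add_neg]
    linarith
  rw [div_eq_inv_mul]
  exact mul_le_mul_of_nonneg_left h3 (inv_pos.2 hN').le

/-- commutative groups are amenable -/
lemma amen_comm {G : Type*} [CommGroup G] : Amen G := by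
  classical
  intro F
  induction F using Finset.induction_on with
  | empty =>
    intro ε _
    exact ⟨Finsupp.single 1 1, isProb_single _, fun g hg => absurd hg (Finset.notMem_empty g)⟩
  | insert g F hgF ih =>
    intro ε hε
    obtain ⟨p, hp, hpF⟩ := ih ε hε
    obtain ⟨N, hN⟩ := exists_nat_gt (2 / ε)
    have hN0 : 0 < N := by
      rcases Nat.eq_zero_or_pos N with h | h
      · subst h
        have : 0 < 2 / ε := by positivity
        simp only [Nat.cast_zero] at hN
        linarith
      · exact h
    have hN' : (0:ℝ) < N := by exact_mod_cast hN0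
    set a : G → G := fun x => g * x with ha
    set q : G →₀ ℝ := ((N:ℝ)⁻¹) • ∑ i ∈ Finset.range N, p.mapDomain (a^[i]) with hq
    have hqp : IsProb q := by
      constructor
      · intro x
        rw [hq, Finsupp.smul_apply, Finsupp.finsetSum_apply, smul_eq_mul]
        exact mul_nonneg (inv_pos.2 hN').le
          (Finset.sum_nonneg (fun i _ => (hp.map _).nonneg x))
      · have : mass q = (N:ℝ)⁻¹ * ∑ i ∈ Finset.range N, mass (p.mapDomain (a^[i])) := by
          rw [hq, mass_lc, map_smul, map_sum]
          simp [mass_lc]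
        rw [this]
        simp only [(hp.map _).mass, Finset.sum_const, Finset.card_range, nsmul_eq_mul, mul_one]
        exact inv_mul_cancel₀ hN'.ne'
    refine ⟨q, hqp, fun h hh => ?_⟩
    rcases Finset.mem_insert.1 hh with rfl | hhF
    · refine (l1_avg_le a p hp hN0).trans_lt ?_
      rw [div_lt_iff₀ hN']
      rw [div_lt_iff₀ hε] at hN
      linarith
    · have hcomm : ∀ i : ℕ, ∀ x, h * (a^[i] x) = a^[i] (h * x) := by
        intro i
        induction i with
        | zero => intro x; rfl
        | succ i ihi =>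
          intro x
          rw [Function.iterate_succ', Function.comp_apply, Function.comp_apply]
          show h * (g * (a^[i] x)) = g * (a^[i] (h * x))
          rw [← ihi x]
          exact mul_left_comm _ _ _
      have e : q.mapDomain (fun x => h * x) - q
          = ((N:ℝ)⁻¹) • ∑ i ∈ Finset.range N,
            (p.mapDomain (fun x => h * x) - p).mapDomain (a^[i]) := by
        have h1 : q.mapDomain (fun x => h * x) = ((N:ℝ)⁻¹) • ∑ i ∈ Finset.range N,
            (p.mapDomain (fun x => h * x)).mapDomain (a^[i]) := by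
          have := map_smul (Finsupp.lmapDomain ℝ ℝ (fun x => h * x)) ((N:ℝ)⁻¹)
            (∑ i ∈ Finset.range N, p.mapDomain (a^[i]))
          rw [map_sum] at this
          refine Eq.trans this ?_
          congr 1
          refine Finset.sum_congr rfl (fun i _ => ?_)
          show (p.mapDomain (a^[i])).mapDomain (fun x => h * x) = _
          rw [← Finsupp.mapDomain_comp, ← Finsupp.mapDomain_comp]
          congr 1
          funext x
          exact hcomm i x
        rw [h1, hq, ← smul_sub, ← Finset.sum_sub_distrib]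
        congr 1
        exact Finset.sum_congr rfl (fun i _ => (mapDomain_sub _ _ _).symm)
      rw [e, l1_smul, abs_of_pos (inv_pos.2 hN')]
      have h2 : l1 (∑ i ∈ Finset.range N, (p.mapDomain (fun x => h * x) - p).mapDomain (a^[i]))
          ≤ N * l1 (p.mapDomain (fun x => h * x) - p) := by
        refine (l1_sum_le _ _).trans ?_
        refine (Finset.sum_le_sum (fun i _ => l1_mapDomain_le _ _)).trans ?_
        simp
      calc (N:ℝ)⁻¹ * _ ≤ (N:ℝ)⁻¹ * (N * l1 (p.mapDomain (fun x => h * x) - p)) :=
            mul_le_mul_of_nonneg_left h2 (inv_pos.2 hN').le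
        _ = l1 (p.mapDomain (fun x => h * x) - p) := by field_simp
        _ < ε := hpF h hhF

/-! ### the stabiliser theorem -/

/-- Reiter property with probabilities supported in `S0`, whose points have amenable
stabilisers. -/
theorem amen_of_stab {S : Type*} [MulAction G S] (S0 : Set S)
    (h : ∀ (F : Finset G) (ε : ℝ), 0 < ε → ∃ p : S →₀ ℝ, IsProb p ∧ (∀ s ∈ p.support, s ∈ S0) ∧
      ∀ g ∈ F, l1 (p.mapDomain (fun s => g • s) - p) < ε)
    (hs : ∀ s ∈ S0, Amen (MulAction.stabilizer G s)) : Amen G := by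
  classical
  -- representatives of the orbits
  let R : S → Prop := fun s => ∃ t ∈ S0, ∃ g : G, g • t = s
  have hRep : ∃ r : S → S, ∃ σ : S → G, (∀ s, R s → r s ∈ S0 ∧ σ s • r s = s) ∧
      ∀ (g : G) s, R s → r (g • s) = r s := by
    let X := {s : S // R s}
    let T : MulAction.orbitRel.Quotient G S → S := fun q =>
      if hq : ∃ t ∈ S0, (Quotient.mk (MulAction.orbitRel G S) t) = q then hq.choose
      else Quotient.out q
    have hT : ∀ s, R s → T (Quotient.mk (MulAction.orbitRel G S) s) ∈ S0 ∧
        ∃ g : G, g • T (Quotient.mk (MulAction.orbitRel G S) s) = s := by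
      rintro s ⟨t, ht, g, rfl⟩
      have hq : ∃ t' ∈ S0, (Quotient.mk (MulAction.orbitRel G S) t')
          = Quotient.mk (MulAction.orbitRel G S) (g • t) := by
        refine ⟨t, ht, ?_⟩
        apply Quotient.sound
        exact ⟨g⁻¹, by simp⟩
      have e : T (Quotient.mk (MulAction.orbitRel G S) (g • t)) = hq.choose := dif_pos hq
      rw [e]
      refine ⟨hq.choose_spec.1, ?_⟩
      have h2 := Quotient.exact hq.choose_spec.2
      obtain ⟨x, hx⟩ : ∃ x : G, x • (g • t) = hq.choose := h2
      exact ⟨x⁻¹, by rw [← hx]; simp⟩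
    refine ⟨fun s => T (Quotient.mk (MulAction.orbitRel G S) s),
      fun s => if hR : R s then (hT s hR).2.choose else 1, ?_, ?_⟩
    · intro s hR
      refine ⟨(hT s hR).1, ?_⟩
      simp only [dif_pos hR]
      exact (hT s hR).2.choose_spec
    · intro g s _
      have : (Quotient.mk (MulAction.orbitRel G S) (g • s))
          = Quotient.mk (MulAction.orbitRel G S) s := by
        apply Quotient.sound
        exact ⟨g, rfl⟩
      simp only [this]
  obtain ⟨r, σ, hrσ, hr⟩ := hRep
  have hR1 : ∀ s ∈ S0, R s := fun s hs => ⟨s, hs, 1, one_smul _ _⟩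
  have hR2 : ∀ (g : G) s, R s → R (g • s) := by
    rintro g s ⟨t, ht, x, rfl⟩
    exact ⟨t, ht, g * x, mul_smul _ _ _⟩
  intro F ε hε
  obtain ⟨p, hp, hpS, hpF⟩ := h F (ε / 2) (by linarith)
  -- cocycle values
  have hcoc : ∀ g s, R s → (σ (g • s))⁻¹ * g * σ s ∈ MulAction.stabilizer G (r s) := by
    intro g s hRs
    rw [MulAction.mem_stabilizer_iff]
    have h1 := (hrσ s hRs).2
    have h2 := (hrσ (g • s) (hR2 g s hRs)).2
    rw [hr g s hRs] at h2
    rw [mul_smul, mul_smul, h1, inv_smul_eq_iff]
    exact h2.symm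
  -- almost invariant probabilities on the stabilisers, seen in `G`
  have hq : ∃ q : S → G →₀ ℝ, ∀ t ∈ S0, IsProb (q t) ∧
      ∀ g ∈ F, ∀ s ∈ p.support, r s = t →
        l1 ((q t).mapDomain (fun x => ((σ (g • s))⁻¹ * g * σ s) * x) - q t) < ε / 2 := by
    have : ∀ t : S, ∃ q : G →₀ ℝ, t ∈ S0 → (IsProb q ∧
      ∀ g ∈ F, ∀ s ∈ p.support, r s = t →
        l1 (q.mapDomain (fun x => ((σ (g • s))⁻¹ * g * σ s) * x) - q) < ε / 2) := by
      intro t
      by_cases ht : t ∈ S0
      · -- finite set of elements of the stabiliser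
        let E : Finset (MulAction.stabilizer G t) :=
          ((F ×ˢ p.support).image (fun z => (σ (z.1 • z.2))⁻¹ * z.1 * σ z.2)).subtype
            (fun x => x ∈ MulAction.stabilizer G t)
        obtain ⟨q, hq, hqE⟩ := hs t ht E (ε / 2) (by linarith)
        refine ⟨q.mapDomain (fun x : MulAction.stabilizer G t => (x : G)), fun _ =>
          ⟨hq.map _, fun g hg s hsp hst => ?_⟩⟩
        have hRs := hR1 s (hpS s hsp)
        have hm : (σ (g • s))⁻¹ * g * σ s ∈ MulAction.stabilizer G t := hst ▸ hcoc g s hRs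
        have hE : (⟨_, hm⟩ : MulAction.stabilizer G t) ∈ E := by
          rw [Finset.mem_subtype]
          exact Finset.mem_image.2 ⟨(g, s), Finset.mem_product.2 ⟨hg, hsp⟩, rfl⟩
        have e : (q.mapDomain (fun x : MulAction.stabilizer G t => (x : G))).mapDomain
            (fun x => ((σ (g • s))⁻¹ * g * σ s) * x)
            - q.mapDomain (fun x : MulAction.stabilizer G t => (x : G))
            = (q.mapDomain (fun x => (⟨_, hm⟩ : MulAction.stabilizer G t) * x) - q).mapDomain
              (fun x : MulAction.stabilizer G t => (x : G)) := by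
          rw [mapDomain_sub, ← Finsupp.mapDomain_comp, ← Finsupp.mapDomain_comp]
          rfl
        rw [e]
        exact (l1_mapDomain_le _ _).trans_lt (hqE _ hE)
      · exact ⟨0, fun h => absurd h ht⟩
    choose q hq using this
    exact ⟨q, hq⟩
  obtain ⟨q, hq⟩ := hq
  set v : S → G →₀ ℝ := fun s => (q (r s)).mapDomain (fun x => σ s * x) with hv
  have hvp : ∀ s, R s → IsProb (v s) := fun s hRs => (hq _ (hrσ s hRs).1).1.map _
  set P : G →₀ ℝ := Finsupp.linearCombination ℝ v p with hP
  have hpR : ∀ s ∈ p.support, R s := fun s hs => hR1 s (hpS s hs)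
  refine ⟨P, hp.lc (fun s hs => hvp s (hpR s hs)), fun g hg => ?_⟩
  -- `g P - P_g`
  set Pg : G →₀ ℝ := Finsupp.linearCombination ℝ v (p.mapDomain (fun s => g • s)) with hPg
  have h1 : l1 (P.mapDomain (fun x => g * x) - Pg) ≤ ε / 2 := by
    have e : P.mapDomain (fun x => g * x) - Pg = Finsupp.linearCombination ℝ
        (fun s => (v s).mapDomain (fun x => g * x) - v (g • s)) p := by
      rw [hP, hPg, mapDomain_lc, Finsupp.linearCombination_mapDomain]
      simp only [Finsupp.linearCombination_apply, Finsupp.sum, smul_sub,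
        Finset.sum_sub_distrib, Function.comp]
    rw [e]
    have := l1_linearCombination_le
      (fun s => (v s).mapDomain (fun x => g * x) - v (g • s)) p (c := ε / 2) ?_
    · rwa [hp.l1, mul_one] at this
    · intro s hsp
      have hRs := hpR s hsp
      have e2 : (v s).mapDomain (fun x => g * x) - v (g • s)
          = ((q (r s)).mapDomain (fun x => ((σ (g • s))⁻¹ * g * σ s) * x) - q (r s)).mapDomain
            (fun x => σ (g • s) * x) := by
        rw [mapDomain_sub, hv]
        simp only [hr g s hRs, ← Finsupp.mapDomain_comp]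
        congr 2
        funext x
        simp [mul_assoc]
      rw [e2]
      exact (l1_mapDomain_le _ _).trans ((hq _ (hrσ s hRs).1).2 g hg s hsp rfl).le
  have h2 : l1 (Pg - P) < ε / 2 := by
    have e : Pg - P = Finsupp.linearCombination ℝ v (p.mapDomain (fun s => g • s) - p) := by
      rw [map_sub]
    rw [e]
    have := l1_linearCombination_le v (p.mapDomain (fun s => g • s) - p) (c := 1) ?_
    · exact this.trans_lt (by rw [one_mul]; exact hpF g hg)
    · intro s hs'
      have : R s := by
        have h3 : s ∈ (p.mapDomain (fun s => g • s)).support ∪ p.support :=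
          Finsupp.support_sub hs'
        rcases Finset.mem_union.1 h3 with h4 | h4
        · obtain ⟨t, ht, rfl⟩ := Finset.mem_image.1 (Finsupp.mapDomain_support h4)
          exact hR2 g t (hpR t ht)
        · exact hpR s h4
      rw [(hvp s this).l1]
  calc l1 (P.mapDomain (fun x => g * x) - P) ≤ _ := l1_sub_le _ Pg _
    _ < ε := by linarith

/-- extensions -/
lemma amen_of_ker {Q : Type*} [Group Q] (φ : G →* Q) (hQ : Amen Q) (hk : Amen φ.ker) :
    Amen G := by
  letI : MulAction G Q := MulAction.compHom Q φ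
  refine amen_of_stab (G := G) (S := Q) Set.univ ?_ ?_
  · intro F ε hε
    have h1 : Rt (fun (g : G) (x : Q) => φ g * x) := Rt.comap hQ φ
    obtain ⟨p, hp, hpF⟩ := h1 F ε hε
    exact ⟨p, hp, fun _ _ => Set.mem_univ _, hpF⟩
  · intro s _
    have e : MulAction.stabilizer G s = φ.ker := by
      ext g
      rw [MulAction.mem_stabilizer_iff, MonoidHom.mem_ker]
      show φ g * s = s ↔ _
      constructor
      · intro h; simpa using h
      · intro h; rw [h, one_mul]
    rw [e]
    exact hk

lemma Amen.prod {H : Type*} [Group H] (h : Amen G) (h' : Amen H) : Amen (G × H) := by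
  refine amen_of_ker (MonoidHom.snd G H) h' ?_
  refine Amen.of_inj h ((MonoidHom.fst G H).comp (Subgroup.subtype _)) ?_
  rintro ⟨⟨a, b⟩, hab⟩ ⟨⟨c, d⟩, hcd⟩ h
  have hb : b = 1 := hab
  have hd : d = 1 := hcd
  have h' : a = c := h
  subst hb hd h'
  rfl

end reiter

end Crest.Agent.R189
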