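import Crest.Agent.R189.GpBasic

/-!
Row 189 (S0289), helper474.  The group `Gp` and its clopen events.
-/

set_option autoImplicit false
set_option linter.unusedSectionVars false

namespace Crest.Agent.R189

open Equiv
open scoped commutatorElement

variable {V X A C : Type*} [AddCommGroup V] [AddAction V X] [Fintype C] [DecidableEq C]

/-- the generators of `Gp` -/
def gens (V : Type*) {X A : Type*} [AddCommGroup V] [AddAction V X] (letter : X → A)
    (C : Type*) [Fintype C] [DecidableEq C] : Set (Perm (X × C)) :=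
  {g | ∃ lam : C → V, ∑ c, lam c = 0 ∧ g = H lam} ∪
  {g | ∃ s ∈ alternatingGroup C, g = ev Set.univ s} ∪
  {g | ∃ a : A, ∃ s ∈ alternatingGroup C, g = ev {x | letter x = a} s}

/-- The group: independent translations of the colours with total displacement `0`, even colour
permutations, even colour permutations conditional on the letter at the origin. -/
def Gp (V : Type*) {X A : Type*} [AddCommGroup V] [AddAction V X] (letter : X → A)
    (C : Type*) [Fintype C] [DecidableEq C] : Subgroup (Perm (X × C)) :=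
  Subgroup.closure (gens V letter C)

variable {letter : X → A}

theorem H_mem_Gp {lam : C → V} (h : ∑ c, lam c = 0) : (H lam : Perm (X × C)) ∈ Gp V letter C :=
  Subgroup.subset_closure (Or.inl (Or.inl ⟨lam, h, rfl⟩))

theorem ev_univ_mem_Gp {s : Perm C} (h : s ∈ alternatingGroup C) :
    ev Set.univ s ∈ Gp V letter C :=
  Subgroup.subset_closure (Or.inl (Or.inr ⟨s, h, rfl⟩))

theorem ev_letter_mem_Gp (a : A) {s : Perm C} (h : s ∈ alternatingGroup C) :
    ev {x | letter x = a} s ∈ Gp V letter C :=
  Subgroup.subset_closure (Or.inr ⟨a, s, h, rfl⟩)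

/-! ### colour bookkeeping -/

/-- the displacement which is `v` on `S` and compensates on the colour `d` -/
def lamOf (S : Finset C) (v : V) (d : C) : C → V :=
  fun c => (if c ∈ S then v else 0) - (if c = d then (S.card • v) else 0)

theorem lamOf_sum (S : Finset C) (v : V) (d : C) : ∑ c, lamOf S v d c = 0 := by
  simp [lamOf, Finset.sum_sub_distrib, Finset.sum_ite_mem]

theorem lamOf_mem {S : Finset C} {v : V} {d c : C} (hd : d ∉ S) (hc : c ∈ S) :
    lamOf S v d c = v := by
  have : c ≠ d := fun h => hd (h ▸ hc)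
  simp [lamOf, hc, this]

theorem exists_notMem_of_card_lt {S : Finset C} (h : S.card < Fintype.card C) :
    ∃ d, d ∉ S := by
  by_contra hd
  push Not at hd
  have : S = Finset.univ := Finset.eq_univ_iff_forall.2 hd
  rw [this, Finset.card_univ] at h
  exact lt_irrefl _ h

/-- Every subgroup containing the 3-cycles contains the alternating group. -/
theorem alt_le_of_three_cycles {K : Subgroup (Perm C)}
    (h : ∀ s : Perm C, s.IsThreeCycle → s ∈ K) : alternatingGroup C ≤ K := by
  rw [← Perm.closure_three_cycles_eq_alternating, Subgroup.closure_le]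
  exact fun s hs => h s hs

/-- two sets of colours: conjugates by translations of a family of events -/
theorem ev_translate_mem {K : Subgroup (Perm (X × C))} (hC : 4 ≤ Fintype.card C)
    (hK : ∀ lam : C → V, ∑ c, lam c = 0 → ∀ g ∈ K, H lam * g * (H lam)⁻¹ ∈ K)
    {E : Set X} (hE : ∀ s ∈ alternatingGroup C, ev E s ∈ K) (v : V) :
    ∀ s ∈ alternatingGroup C, ev {x | -v +ᵥ x ∈ E} s ∈ K := by
  have : alternatingGroup C ≤ K.comap (ev {x | -v +ᵥ x ∈ E}) := by
    apply alt_le_of_three_cycles
    intro s hs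
    obtain ⟨d, hd⟩ := exists_notMem_of_card_lt (S := s.support)
      (by rw [hs.card_support]; omega)
    rw [Subgroup.mem_comap, ← H_conj_ev (lamOf s.support v d) v E s
      (fun c hc => lamOf_mem hd (by simpa using hc))]
    exact hK _ (lamOf_sum _ _ _) _ (hE s hs.mem_alternatingGroup)
  exact fun s hs => this hs

/-- the even events over `E` all lie in `K` -/
def EvIn (K : Subgroup (Perm (X × C))) (E : Set X) : Prop :=
  ∀ s ∈ alternatingGroup C, ev E s ∈ K

theorem EvIn.inter {K L : Subgroup (Perm (X × C))} (hC : 5 ≤ Fintype.card C)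
    {E F : Set X} (hE : EvIn K E) (hF : EvIn L F)
    (hKL : ∀ g ∈ K, ∀ h ∈ L, ⁅g, h⁆ ∈ K) : EvIn K (E ∩ F) := by
  have : alternatingGroup C ≤ K.comap (ev (E ∩ F)) := by
    rw [← commutator_alternatingGroup_eq_self (α := C) (by simpa using hC),
      Subgroup.commutator_le]
    intro s hs t ht
    rw [Subgroup.mem_comap, ← ev_comm]
    exact hKL _ (hE s hs) _ (hF t ht)
  exact fun s hs => this hs

theorem EvIn.inter' {K : Subgroup (Perm (X × C))} (hC : 5 ≤ Fintype.card C)
    {E F : Set X} (hE : EvIn K E) (hF : EvIn K F) : EvIn K (E ∩ F) :=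
  hE.inter hC hF (fun _ hg _ hh => K.mul_mem (K.mul_mem (K.mul_mem hg hh) (K.inv_mem hg))
    (K.inv_mem hh))


theorem EvIn.union_disjoint {K : Subgroup (Perm (X × C))} {E F : Set X} (hE : EvIn K E)
    (hF : EvIn K F) (h : Disjoint E F) : EvIn K (E ∪ F) := by
  intro s hs
  rw [ev_union h]
  exact K.mul_mem (hE s hs) (hF s hs)

theorem EvIn.empty (K : Subgroup (Perm (X × C))) : EvIn K (∅ : Set X) := by
  intro s _
  rw [ev_empty]
  exact K.one_mem

theorem EvIn.biUnion_disjoint {K : Subgroup (Perm (X × C))} {ι : Type*} (S : Finset ι)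
    {E : ι → Set X} (h : ∀ i ∈ S, EvIn K (E i))
    (hd : (S : Set ι).PairwiseDisjoint E) : EvIn K (⋃ i ∈ S, E i) := by
  classical
  induction S using Finset.induction_on with
  | empty => simpa using EvIn.empty K
  | insert a S ha ih =>
    rw [Finset.set_biUnion_insert]
    refine (h a (by simp)).union_disjoint (ih (fun i hi => h i (by simp [hi]))
      (hd.subset (by simp))) ?_
    rw [Set.disjoint_iUnion₂_right]
    intro i hi
    exact hd (by simp) (by simp [hi]) (fun hai => ha (hai ▸ hi))

theorem Gp_conj_H (lam : C → V) (h : ∑ c, lam c = 0) (g : Perm (X × C))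
    (hg : g ∈ Gp V letter C) : H lam * g * (H lam)⁻¹ ∈ Gp V letter C :=
  Subgroup.mul_mem _ (Subgroup.mul_mem _ (H_mem_Gp h) hg) (Subgroup.inv_mem _ (H_mem_Gp h))

theorem EvIn_Gp_univ : EvIn (Gp V letter C) (Set.univ : Set X) := fun _ hs => ev_univ_mem_Gp hs

theorem EvIn_Gp_letter (hC : 4 ≤ Fintype.card C) (v : V) (a : A) :
    EvIn (Gp V letter C) {x | letter (v +ᵥ x) = a} := by
  have := ev_translate_mem (K := Gp V letter C) hC Gp_conj_H
    (E := {x | letter x = a}) (fun s hs => ev_letter_mem_Gp a hs) (-v)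
  intro s hs
  have h2 := this s hs
  simpa using h2

/-- All clopen events are in the group. -/
theorem EvIn_Gp [Finite A] (hC : 5 ≤ Fintype.card C) {E : Set X} (hE : Clo V letter E) :
    EvIn (Gp V letter C) E := by
  classical
  have := Fintype.ofFinite A
  obtain ⟨W, hW⟩ := hE
  induction W using Finset.induction_on generalizing E with
  | empty =>
    have hc : E = ∅ ∨ E = Set.univ := by
      by_cases h : E = ∅
      · exact Or.inl h
      · right
        obtain ⟨x, hx⟩ := Set.nonempty_iff_ne_empty.2 h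
        ext y
        simp only [Set.mem_univ, iff_true]
        exact (hW x y (fun v hv => by simp at hv)).1 hx
    rcases hc with h | h
    · rw [h]; exact EvIn.empty _
    · rw [h]; exact EvIn_Gp_univ
  | insert v W hv ih =>
    let F : A → Set X := fun a => {x | ∃ y ∈ E, letter (v +ᵥ y) = a ∧ Agree letter (W : Set V) x y}
    have hF : ∀ a, EvIn (Gp V letter C) (F a) := by
      intro a
      apply ih
      intro x y hxy
      constructor
      · rintro ⟨z, hz, hza, hxz⟩
        exact ⟨z, hz, hza, hxy.symm.trans hxz⟩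
      · rintro ⟨z, hz, hza, hxz⟩
        exact ⟨z, hz, hza, hxy.trans hxz⟩
    have hEq : E = ⋃ a ∈ (Finset.univ : Finset A), (F a ∩ {x | letter (v +ᵥ x) = a}) := by
      ext x
      simp only [Finset.mem_univ, Set.iUnion_true, Set.mem_iUnion]
      constructor
      · intro hx
        exact ⟨letter (v +ᵥ x), ⟨x, hx, rfl, Agree.refl _ _ _⟩, rfl⟩
      · rintro ⟨a, ⟨y, hy, hya, hxy⟩, hxa⟩
        refine (hW x y ?_).2 hy
        intro w hw
        simp only [Finset.coe_insert, Set.mem_insert_iff] at hw
        rcases hw with rfl | hw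
        · rw [hya]; exact hxa
        · exact hxy w hw
    rw [hEq]
    apply EvIn.biUnion_disjoint
    · intro a _
      exact (hF a).inter' hC (EvIn_Gp_letter (by omega) v a)
    · intro a _ b _ hab
      simp only [Function.onFun]
      rw [Set.disjoint_left]
      rintro x ⟨-, hx⟩ ⟨-, hx'⟩
      exact hab (hx.symm.trans hx')

/-! ### local rules -/

/-- `g` acts by a local rule: displacement and new colour depend only on a finite window -/
def IsLoc (V : Type*) {X A : Type*} [AddCommGroup V] [AddAction V X] (letter : X → A)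
    {C : Type*} (g : Perm (X × C)) : Prop :=
  ∃ (W : Finset V) (d : X → C → V) (k : X → C → C),
    (∀ x y, Agree letter (W : Set V) x y → ∀ c, d x c = d y c ∧ k x c = k y c) ∧
    ∀ x c, g (x, c) = (d x c +ᵥ x, k x c)

/-- A function of the letters in a finite window has finite range. -/
theorem finite_range_of_local [Finite A] {B : Type*} {W : Finset V} {f : X → B}
    (hf : ∀ x y, Agree letter (W : Set V) x y → f x = f y) : (Set.range f).Finite := by
  rcases isEmpty_or_nonempty X with h | ⟨⟨x0⟩⟩
  · rw [Set.range_eq_empty]; exact Set.finite_empty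
  let r : X → (W → A) := fun x w => letter ((w : V) +ᵥ x)
  have hr : Function.FactorsThrough f r := fun x y h => hf x y (fun v hv => congrFun h ⟨v, hv⟩)
  have hsub : Set.range f ⊆ Set.range (Function.extend r f (fun _ => f x0)) := by
    rintro _ ⟨x, rfl⟩
    exact ⟨r x, hr.extend_apply _ x⟩
  exact (Set.finite_range _).subset hsub

theorem IsLoc.one : IsLoc V letter (1 : Perm (X × C)) :=
  ⟨∅, fun _ _ => 0, fun _ c => c, fun _ _ _ _ => ⟨rfl, rfl⟩, fun x c => by simp⟩

theorem IsLoc.mul [Finite A] {g h : Perm (X × C)} (hg : IsLoc V letter g)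
    (hh : IsLoc V letter h) : IsLoc V letter (g * h) := by
  classical
  obtain ⟨W, d, k, hdk, hg⟩ := hg
  obtain ⟨W', d', k', hdk', hh⟩ := hh
  have hfin : (Set.range (fun x => d' x)).Finite :=
    finite_range_of_local (letter := letter) (W := W')
      (fun x y hxy => funext fun c => (hdk' x y hxy c).1)
  let D : Finset V := hfin.toFinset.biUnion (fun f => Finset.univ.image f)
  have hD : ∀ x c, d' x c ∈ D := by
    intro x c
    simp only [D, Finset.mem_biUnion, Set.Finite.mem_toFinset, Finset.mem_image]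
    exact ⟨d' x, ⟨x, rfl⟩, c, Finset.mem_univ _, rfl⟩
  refine ⟨W' ∪ (W ×ˢ D).image (fun p => p.1 + p.2),
    fun x c => d (d' x c +ᵥ x) (k' x c) + d' x c, fun x c => k (d' x c +ᵥ x) (k' x c), ?_, ?_⟩
  · intro x y hxy c
    have h1 := hdk' x y (hxy.mono (by simp)) c
    have h2 : Agree letter (W : Set V) (d' x c +ᵥ x) (d' x c +ᵥ y) := by
      intro w hw
      have := hxy (w + d' x c) (by
        simp only [Finset.coe_union, Finset.coe_image]
        right
        exact ⟨(w, d' x c), by simpa using ⟨hw, hD x c⟩, rfl⟩)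
      rwa [add_vadd, add_vadd] at this
    have h3 := hdk _ _ h2 (k' x c)
    constructor
    · simp only [← h1.1, ← h1.2, h3.1]
    · simp only [← h1.1, ← h1.2, h3.2]
  · intro x c
    rw [Perm.mul_apply, hh, hg, add_vadd]

theorem IsLoc.inv [Finite A] {g : Perm (X × C)} (hg : IsLoc V letter g) :
    IsLoc V letter g⁻¹ := by
  classical
  obtain ⟨W, d, k, hdk, hg⟩ := hg
  have hfin : (Set.range (fun x => d x)).Finite :=
    finite_range_of_local (letter := letter) (W := W)
      (fun x y hxy => funext fun c => (hdk x y hxy c).1)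
  let D : Finset V := hfin.toFinset.biUnion (fun f => Finset.univ.image f)
  have hD : ∀ x c, d x c ∈ D := by
    intro x c
    simp only [D, Finset.mem_biUnion, Set.Finite.mem_toFinset, Finset.mem_image]
    exact ⟨d x, ⟨x, rfl⟩, c, Finset.mem_univ _, rfl⟩
  refine ⟨(W ×ˢ D).image (fun p => p.1 - p.2),
    fun x c => - d (g⁻¹ (x, c)).1 (g⁻¹ (x, c)).2, fun x c => (g⁻¹ (x, c)).2, ?_, ?_⟩
  · intro x y hxy c
    obtain ⟨⟨u, c'⟩, hu⟩ : ∃ p, p = g⁻¹ (x, c) := ⟨_, rfl⟩
    have hgu : g (u, c') = (x, c) := by rw [hu, ← Perm.mul_apply, mul_inv_cancel, Perm.one_apply]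
    have hx : d u c' +ᵥ u = x := by
      have := hg u c'
      rw [hgu] at this
      exact (congrArg Prod.fst this).symm
    have hk : k u c' = c := by
      have := hg u c'
      rw [hgu] at this
      exact (congrArg Prod.snd this).symm
    have hu' : u = -d u c' +ᵥ x := by rw [← hx, neg_vadd_vadd]
    have hag : Agree letter (W : Set V) u (-d u c' +ᵥ y) := by
      rw [hu']
      intro w hw
      have h0 := hxy (w - d u c') (by
        simp only [Finset.coe_image]
        exact ⟨(w, d u c'), by simpa using ⟨hw, hD u c'⟩, rfl⟩)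
      rw [sub_eq_add_neg, add_vadd, add_vadd] at h0
      rw [← hu']
      rw [← hu'] at h0
      exact h0
    have h1 := hdk _ _ hag c'
    have hgy : g (-d u c' +ᵥ y, c') = (y, c) := by
      rw [hg, ← h1.1, ← h1.2, hk, vadd_neg_vadd]
    have hgy' : g⁻¹ (y, c) = (-d u c' +ᵥ y, c') := by
      rw [← hgy, ← Perm.mul_apply, inv_mul_cancel, Perm.one_apply]
    show -d (g⁻¹ (x, c)).1 (g⁻¹ (x, c)).2 = -d (g⁻¹ (y, c)).1 (g⁻¹ (y, c)).2 ∧
      (g⁻¹ (x, c)).2 = (g⁻¹ (y, c)).2
    rw [← hu, hgy']
    exact ⟨congrArg Neg.neg h1.1, rfl⟩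
  · intro x c
    have h := hg (g⁻¹ (x, c)).1 (g⁻¹ (x, c)).2
    rw [Prod.mk.eta, ← Perm.mul_apply, mul_inv_cancel, Perm.one_apply] at h
    have hx := congrArg Prod.fst h
    simp only at hx
    ext1
    · simp only
      rw [eq_neg_vadd_iff]
      exact hx.symm
    · rfl

theorem IsLoc.H (lam : C → V) : IsLoc V letter (H lam : Perm (X × C)) :=
  ⟨∅, fun _ c => lam c, fun _ c => c, fun _ _ _ _ => ⟨rfl, rfl⟩, fun _ _ => rfl⟩

open Classical in
theorem IsLoc.ev {E : Set X} (hE : Clo V letter E) (s : Perm C) : IsLoc V letter (ev E s) := by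
  obtain ⟨W, hW⟩ := hE
  refine ⟨W, fun _ _ => 0, fun x c => if x ∈ E then s c else c, ?_, ?_⟩
  · intro x y hxy c
    simp [hW x y hxy]
  · intro x c
    by_cases h : x ∈ E
    · rw [ev_apply_mem h]; simp [h]
    · rw [ev_apply_notMem h]; simp [h]

theorem isLoc_of_mem_Gp [Finite A] {g : Perm (X × C)} (hg : g ∈ Gp V letter C) :
    IsLoc V letter g := by
  induction hg using Subgroup.closure_induction with
  | mem g hg =>
    rcases hg with (⟨lam, -, rfl⟩ | ⟨s, -, rfl⟩) | ⟨a, s, -, rfl⟩
    · exact IsLoc.H lam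
    · exact IsLoc.ev Clo.univ s
    · exact IsLoc.ev (Clo.letter0 a) s
  | one => exact IsLoc.one
  | mul g h _ _ hg hh => exact hg.mul hh
  | inv g _ hg => exact hg.inv

end Crest.Agent.R189
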