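import Crest.Agent.R189.Star

/-!
Row 189 (S0289), helper869.  The explicit configurations `rstar a s : ℤ → ℤ → RStar` (level
parameter `a`, corner star `s`), by recursion on integers.

Coordinates: `x` = index of the P line (column at even levels), `y` = index of the Q line.
`V a s x y` = label of the P edge from `(x,y)` to `(x,y+1)`.
Next level: parameter `a+1`, corner star `s.flip`, coordinates `(y / (3a), x)`.
-/

set_option autoImplicit false

namespace Crest.Agent.R189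

/-- digit of an integer, as a natural number -/
def dg (n : ℕ) (x : ℤ) : ℕ := (x % (n : ℤ)).toNat

theorem dg_cast {n : ℕ} (hn : 0 < n) (x : ℤ) : ((dg n x : ℕ) : ℤ) = x % (n : ℤ) := by
  unfold dg
  exact Int.toNat_of_nonneg (Int.emod_nonneg _ (by exact_mod_cast hn.ne'))

theorem dg_lt {n : ℕ} (hn : 0 < n) (x : ℤ) : dg n x < n := by
  have h1 := dg_cast hn x
  have h2 := Int.emod_lt_of_pos x (b := (n : ℤ)) (by exact_mod_cast hn)
  omega

theorem dg_eq_zero {n : ℕ} (hn : 0 < n) {x : ℤ} : dg n x = 0 ↔ (n : ℤ) ∣ x := by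
  have h1 := dg_cast hn x
  rw [Int.dvd_iff_emod_eq_zero]
  omega

theorem dg_add_mul (n : ℕ) (x k : ℤ) : dg n (x + n * k) = dg n x := by
  unfold dg; rw [Int.add_mul_emod_self_left]

theorem dg_add_mul' (n : ℕ) (x k : ℤ) : dg n (n * k + x) = dg n x := by
  rw [add_comm, dg_add_mul]

theorem dg_eq_of_emod {n : ℕ} {x y : ℤ} (h : x % n = y % n) : dg n x = dg n y := by
  unfold dg; rw [h]

theorem div_mul_add_dg {n : ℕ} (hn : 0 < n) (x : ℤ) : (n : ℤ) * (x / n) + dg n x = x := by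
  rw [dg_cast hn x]; exact Int.mul_ediv_add_emod x n

theorem dg_natCast {n i : ℕ} (hi : i < n) : dg n (i : ℤ) = i := by
  unfold dg; rw [Int.emod_eq_of_lt (by positivity) (by exact_mod_cast hi)]; simp

/-- label of the P edge from `(x,y)` to `(x,y+1)` at level `a`, corner star `s` -/
def V (a : ℕ) (s : Star) (x y : ℤ) : Label :=
  if hx : x = 0 then (if 0 ≤ y then s.Pf else s.Pb)
  else if dg (3 * (a + 1)) x = 0 then V (a + 2) s (x / ((3 * (a + 1) : ℕ) : ℤ)) (y / ((3 * a : ℕ) : ℤ))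
  else ⟨tauOf (a + 1) (dg (3 * (a + 1)) x),
      state (a + 1) (dg (3 * (a + 1)) x) (dg (3 * (a + 2)) (y / ((3 * a : ℕ) : ℤ))),
      umem a (dg (3 * a) y) (dg (3 * (a + 1)) x)⟩
termination_by x.natAbs
decreasing_by
  have hd : ((3 * (a + 1) : ℕ) : ℤ) ∣ x := (dg_eq_zero (by omega)).1 (by assumption)
  obtain ⟨k, rfl⟩ := hd
  rw [Int.mul_ediv_cancel_left _ (by positivity)]
  rw [Int.natAbs_mul]
  have hk : k.natAbs ≠ 0 := by
    intro h; apply hx; rw [Int.natAbs_eq_zero.1 h]; simp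
  have : (((3 * (a + 1) : ℕ) : ℤ)).natAbs = 3 * (a + 1) := rfl
  rw [this]
  nlinarith [Nat.pos_of_ne_zero hk]

theorem V_zero (a : ℕ) (s : Star) (y : ℤ) : V a s 0 y = if 0 ≤ y then s.Pf else s.Pb := by
  rw [V]; simp

theorem V_mul {a : ℕ} (ha : 1 ≤ a) (s : Star) (x y : ℤ) :
    V a s (((3 * (a + 1) : ℕ) : ℤ) * x) y = V (a + 2) s x (y / ((3 * a : ℕ) : ℤ)) := by
  have hp : (0 : ℤ) < ((3 * a : ℕ) : ℤ) := by exact_mod_cast (by omega : 0 < 3 * a)
  by_cases hx : x = 0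
  · subst hx
    rw [mul_zero, V_zero, V_zero]
    have : 0 ≤ y ↔ 0 ≤ y / ((3 * a : ℕ) : ℤ) := by
      constructor
      · intro h; exact Int.ediv_nonneg h hp.le
      · intro h
        by_contra h'
        exact absurd h (not_le.2 (Int.ediv_neg_of_neg_of_pos (not_le.1 h') hp))
    simp only [this]
  · have hne : ((3 * (a + 1) : ℕ) : ℤ) * x ≠ 0 := by
      apply mul_ne_zero _ hx; positivity
    rw [V, dif_neg hne, if_pos ((dg_eq_zero (by omega)).2 (Dvd.intro _ rfl)),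
      Int.mul_ediv_cancel_left _ (by positivity)]

theorem V_of_ne {a : ℕ} (s : Star) {x : ℤ} (y : ℤ) (hx : dg (3 * (a + 1)) x ≠ 0) :
    V a s x y = ⟨tauOf (a + 1) (dg (3 * (a + 1)) x),
      state (a + 1) (dg (3 * (a + 1)) x) (dg (3 * (a + 2)) (y / ((3 * a : ℕ) : ℤ))),
      umem a (dg (3 * a) y) (dg (3 * (a + 1)) x)⟩ := by
  have hx0 : x ≠ 0 := by
    rintro rfl; apply hx; simp [dg]
  rw [V, dif_neg hx0, if_neg hx]

/-- does the P line `x` dominate the Q line `y`? -/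
def dom (a : ℕ) (s : Star) (x y : ℤ) : Bool :=
  if dg (3 * a) y ≠ 0 then true
  else if dg (3 * (a + 1)) x ≠ 0 then false
  else if x = 0 ∧ y = 0 then s.domP
  else if a = 0 then true
  else dom (a + 2) s (x / ((3 * (a + 1) : ℕ) : ℤ)) (y / ((3 * a : ℕ) : ℤ))
termination_by x.natAbs + y.natAbs
decreasing_by
  rename_i h1 h2 h3 _h4
  have h1 : dg (3 * a) y = 0 := not_not.1 h1
  have h2 : dg (3 * (a + 1)) x = 0 := not_not.1 h2
  have hd : ((3 * (a + 1) : ℕ) : ℤ) ∣ x := (dg_eq_zero (by omega)).1 h2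
  have hd' : ((3 * a : ℕ) : ℤ) ∣ y := (dg_eq_zero (by omega)).1 h1
  obtain ⟨k, rfl⟩ := hd
  obtain ⟨l, rfl⟩ := hd'
  have ha : (0 : ℤ) < ((3 * a : ℕ) : ℤ) := by exact_mod_cast (by omega : 0 < 3 * a)
  rw [Int.mul_ediv_cancel_left _ (by positivity), Int.mul_ediv_cancel_left _ ha.ne']
  rw [Int.natAbs_mul, Int.natAbs_mul]
  have e1 : (((3 * (a + 1) : ℕ) : ℤ)).natAbs = 3 * (a + 1) := rfl
  have e2 : (((3 * a : ℕ) : ℤ)).natAbs = 3 * a := rfl
  rw [e1, e2]
  have hkl : k.natAbs ≠ 0 ∨ l.natAbs ≠ 0 := by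
    by_contra h
    push Not at h
    apply h3
    rw [Int.natAbs_eq_zero.1 h.1, Int.natAbs_eq_zero.1 h.2]; simp
  have ha1 : 1 ≤ a := by omega
  rcases hkl with h | h
  · nlinarith [Nat.pos_of_ne_zero h, Nat.zero_le l.natAbs]
  · nlinarith [Nat.pos_of_ne_zero h, Nat.zero_le k.natAbs]

theorem dom_of_ne {a : ℕ} (s : Star) (x : ℤ) {y : ℤ} (h : dg (3 * a) y ≠ 0) :
    dom a s x y = true := by
  rw [dom, if_pos h]

theorem dg_mul {n : ℕ} (hn : 0 < n) (k : ℤ) : dg n ((n : ℤ) * k) = 0 :=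
  (dg_eq_zero hn).2 (Dvd.intro _ rfl)

theorem dom_mul_of_ne {a : ℕ} (ha : 1 ≤ a) (s : Star) {x : ℤ} (y : ℤ)
    (h : dg (3 * (a + 1)) x ≠ 0) : dom a s x (((3 * a : ℕ) : ℤ) * y) = false := by
  rw [dom, if_neg (not_not.2 (dg_mul (by omega) y)), if_pos h]

theorem dom_zero (a : ℕ) (s : Star) : dom a s 0 0 = s.domP := by
  rw [dom]; simp [dg]

theorem dom_mul_mul {a : ℕ} (ha : 1 ≤ a) (s : Star) (x y : ℤ) :
    dom a s (((3 * (a + 1) : ℕ) : ℤ) * x) (((3 * a : ℕ) : ℤ) * y) = dom (a + 2) s x y := by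
  have hp : (0 : ℤ) < ((3 * a : ℕ) : ℤ) := by exact_mod_cast (by omega : 0 < 3 * a)
  by_cases h0 : x = 0 ∧ y = 0
  · obtain ⟨rfl, rfl⟩ := h0
    rw [mul_zero, mul_zero, dom_zero, dom_zero]
  · rw [dom, if_neg (not_not.2 (dg_mul (by omega) y)),
      if_neg (not_not.2 (dg_mul (by omega) x)), if_neg, if_neg (by omega),
      Int.mul_ediv_cancel_left _ (by positivity), Int.mul_ediv_cancel_left _ hp.ne']
    rintro ⟨h1, h2⟩
    apply h0
    constructor
    · rcases mul_eq_zero.1 h1 with h | h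
      · exfalso; have : (0:ℤ) < ((3 * (a + 1) : ℕ) : ℤ) := by positivity
        omega
      · exact h
    · rcases mul_eq_zero.1 h2 with h | h
      · exfalso; omega
      · exact h

/-- forward half edge of the Q line `y` at `x` -/
def Hf (a : ℕ) (s : Star) (x y : ℤ) : Label :=
  if dg (3 * a) y = 0 then V (a + 1) s.flip (y / ((3 * a : ℕ) : ℤ)) x
  else ⟨tauOf a (dg (3 * a) y), state a (dg (3 * a) y) (dg (3 * (a + 1)) x), .A⟩

/-- backward half edge of the Q line `y` at `x` -/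
def Hb (a : ℕ) (s : Star) (x y : ℤ) : Label :=
  if dg (3 * a) y = 0 then V (a + 1) s.flip (y / ((3 * a : ℕ) : ℤ)) (x - 1)
  else ⟨tauOf a (dg (3 * a) y), state a (dg (3 * a) y) (dg (3 * (a + 1)) (x - 1)), .B⟩

/-- the (raw) star at `(x,y)` -/
def rstar (a : ℕ) (s : Star) (x y : ℤ) : RStar :=
  ⟨dom a s x y, V a s x (y - 1), V a s x y, Hb a s x y, Hf a s x y⟩

theorem rstar_zero (a : ℕ) (s : Star) : rstar a s 0 0 = s.1 := by
  simp [rstar, dom_zero, V_zero, Hb, Hf, dg]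
  rfl

theorem dom_flip {a : ℕ} (ha : 1 ≤ a) (s : Star) (x y : ℤ) :
    dom a s x (((3 * a : ℕ) : ℤ) * y) = !dom (a + 1) s.flip y x := by
  suffices h : ∀ (m : ℕ) (a : ℕ) (x y : ℤ), 1 ≤ a → x.natAbs + y.natAbs ≤ m →
      ∀ s : Star, dom a s x (((3 * a : ℕ) : ℤ) * y) = !dom (a + 1) s.flip y x from
    h _ a x y ha le_rfl s
  intro m
  induction m with
  | zero =>
    intro a x y ha hm s
    have h1 : x.natAbs = 0 := by omega
    have h2 : y.natAbs = 0 := by omega
    rw [Int.natAbs_eq_zero] at h1 h2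
    subst h1; subst h2
    rw [mul_zero, dom_zero, dom_zero]; simp
  | succ m ih =>
    intro a x y ha hm s
    by_cases hx : dg (3 * (a + 1)) x = 0
    · obtain ⟨x, rfl⟩ := (dg_eq_zero (by omega)).1 hx
      rw [dom_mul_mul ha]
      by_cases hy : dg (3 * (a + 2)) y = 0
      · obtain ⟨y, rfl⟩ := (dg_eq_zero (by omega)).1 hy
        rw [dom_mul_mul (a := a + 1) (by omega)]
        by_cases h0 : x = 0 ∧ y = 0
        · obtain ⟨rfl, rfl⟩ := h0
          rw [mul_zero, dom_zero, dom_zero]; simp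
        · apply ih (a + 2) x y (by omega)
          rw [Int.natAbs_mul, Int.natAbs_mul] at hm
          have e1 : (((3 * (a + 1) : ℕ) : ℤ)).natAbs = 3 * (a + 1) := rfl
          have e2 : (((3 * (a + 2) : ℕ) : ℤ)).natAbs = 3 * (a + 2) := rfl
          rw [e1, e2] at hm
          have hkl : x.natAbs ≠ 0 ∨ y.natAbs ≠ 0 := by
            by_contra h
            push Not at h
            exact h0 ⟨Int.natAbs_eq_zero.1 h.1, Int.natAbs_eq_zero.1 h.2⟩
          rcases hkl with h | h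
          · nlinarith [Nat.pos_of_ne_zero h, Nat.zero_le y.natAbs, Nat.zero_le (a * y.natAbs),
              Nat.zero_le (a * x.natAbs)]
          · nlinarith [Nat.pos_of_ne_zero h, Nat.zero_le x.natAbs, Nat.zero_le (a * y.natAbs),
              Nat.zero_le (a * x.natAbs)]
      · rw [dom_of_ne (a := a + 2) _ _ hy,
          dom_mul_of_ne (a := a + 1) (by omega) _ _ hy]
        rfl
    · rw [dom_mul_of_ne ha _ _ hx, dom_of_ne (a := a + 1) _ _ hx]
      rfl

/-- `umem` at row `0` is `A` -/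
theorem umem_zero {a : ℕ} (ha : 1 ≤ a) (j : ℕ) : umem a 0 j = .A := by
  unfold umem pos
  split_ifs <;> first | rfl | omega

/-- `umem` at the last row is `B` -/
theorem umem_last {a : ℕ} (ha : 2 ≤ a) (j : ℕ) : umem a (3 * a - 1) j = .B := by
  have h := Nat.mod_lt (j - 1) (show 0 < a + 1 by omega)
  unfold umem pos
  split_ifs <;> first | rfl | omega

theorem dg_mul_sub_one {n : ℕ} (hn : 0 < n) (y : ℤ) : dg n ((n : ℤ) * y - 1) = n - 1 := by
  have h1 : ((n : ℤ) * y - 1) = ((n - 1 : ℕ) : ℤ) + n * (y - 1) := by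
    push_cast [Nat.cast_sub (show 1 ≤ n by omega)]; ring
  rw [h1, dg_add_mul, dg_natCast (by omega)]

theorem mul_sub_one_div {n : ℕ} (hn : 0 < n) (y : ℤ) : ((n : ℤ) * y - 1) / (n : ℤ) = y - 1 := by
  have h1 : ((n : ℤ) * y - 1) = ((n - 1 : ℕ) : ℤ) + n * (y - 1) := by
    push_cast [Nat.cast_sub (show 1 ≤ n by omega)]; ring
  rw [h1, Int.add_mul_ediv_left _ _ (by exact_mod_cast hn.ne'),
    Int.ediv_eq_zero_of_lt (by positivity) (by push_cast [Nat.cast_sub (show 1 ≤ n by omega)]; omega)]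
  ring

theorem V_at_mul {a : ℕ} (ha : 1 ≤ a) (s : Star) (x y : ℤ) :
    V a s x (((3 * a : ℕ) : ℤ) * y) = Hf (a + 1) s.flip y x := by
  have hp : (0 : ℤ) < ((3 * a : ℕ) : ℤ) := by exact_mod_cast (by omega : 0 < 3 * a)
  unfold Hf
  by_cases hx : dg (3 * (a + 1)) x = 0
  · rw [if_pos hx]
    obtain ⟨x, rfl⟩ := (dg_eq_zero (by omega)).1 hx
    rw [V_mul ha, Int.mul_ediv_cancel_left _ hp.ne', Int.mul_ediv_cancel_left _ (by positivity),
      Star.flip_flip]
  · rw [if_neg hx, V_of_ne _ _ hx, dg_mul (by omega), Int.mul_ediv_cancel_left _ hp.ne',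
      umem_zero ha]

theorem V_at_mul_sub_one {a : ℕ} (ha : 2 ≤ a) (s : Star) (x y : ℤ) :
    V a s x (((3 * a : ℕ) : ℤ) * y - 1) = Hb (a + 1) s.flip y x := by
  have hp : (0 : ℤ) < ((3 * a : ℕ) : ℤ) := by exact_mod_cast (by omega : 0 < 3 * a)
  unfold Hb
  by_cases hx : dg (3 * (a + 1)) x = 0
  · rw [if_pos hx]
    obtain ⟨x, rfl⟩ := (dg_eq_zero (by omega)).1 hx
    rw [V_mul (by omega), mul_sub_one_div (by omega), Int.mul_ediv_cancel_left _ (by positivity),
      Star.flip_flip]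
  · rw [if_neg hx, V_of_ne _ _ hx, dg_mul_sub_one (by omega), mul_sub_one_div (by omega),
      umem_last ha]

theorem Hf_mul {a : ℕ} (ha : 1 ≤ a) (s : Star) (x y : ℤ) :
    Hf a s x (((3 * a : ℕ) : ℤ) * y) = V (a + 1) s.flip y x := by
  have hp : (0 : ℤ) < ((3 * a : ℕ) : ℤ) := by exact_mod_cast (by omega : 0 < 3 * a)
  rw [Hf, if_pos (dg_mul (by omega) y), Int.mul_ediv_cancel_left _ hp.ne']

theorem Hb_mul {a : ℕ} (ha : 1 ≤ a) (s : Star) (x y : ℤ) :
    Hb a s x (((3 * a : ℕ) : ℤ) * y) = V (a + 1) s.flip y (x - 1) := by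
  have hp : (0 : ℤ) < ((3 * a : ℕ) : ℤ) := by exact_mod_cast (by omega : 0 < 3 * a)
  rw [Hb, if_pos (dg_mul (by omega) y), Int.mul_ediv_cancel_left _ hp.ne']

/-- SELF-SIMILARITY: the stars at the rows `3a·y` form the configuration of the next level
(parameter `a+1`, corner star flipped, coordinates swapped). -/
theorem rstar_flip {a : ℕ} (ha : 2 ≤ a) (s : Star) (x y : ℤ) :
    rstar a s x (((3 * a : ℕ) : ℤ) * y) = (rstar (a + 1) s.flip y x).flip := by
  simp only [rstar, RStar.flip]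
  rw [dom_flip (by omega), V_at_mul_sub_one ha, V_at_mul (by omega), Hf_mul (by omega),
    Hb_mul (by omega)]

/-- matching along Q lines, `j = 0`: forward label at `x` = backward label at `x+1` -/
theorem Hb_succ_of_zero {a : ℕ} (s : Star) (x : ℤ) {y : ℤ} (h : dg (3 * a) y = 0) :
    Hb a s (x + 1) y = Hf a s x y := by
  rw [Hb, Hf, if_pos h, if_pos h, add_sub_cancel_right]


theorem Hb_succ_st (a : ℕ) (s : Star) (x y : ℤ) : (Hb a s (x + 1) y).st = (Hf a s x y).st := by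
  unfold Hb Hf
  split_ifs <;> simp

/-! ### the space -/

/-- The space: pairs (pointer position, corner star). -/
structure X where
  p : ℤ × ℤ
  s : Star

namespace X

@[ext] theorem ext {x y : X} (h1 : x.p = y.p) (h2 : x.s = y.s) : x = y := by
  cases x; cases y; simp_all

/-- translation action: moves the pointer -/
instance : AddAction (ℤ × ℤ) X where
  vadd v x := ⟨v + x.p, x.s⟩
  zero_vadd x := by ext <;> simp [HVAdd.hVAdd]
  add_vadd v w x := by ext <;> simp [HVAdd.hVAdd, add_assoc]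

@[simp] theorem vadd_p (v : ℤ × ℤ) (x : X) : (v +ᵥ x).p = v + x.p := rfl
@[simp] theorem vadd_s (v : ℤ × ℤ) (x : X) : (v +ᵥ x).s = x.s := rfl

end X

end Crest.Agent.R189
private theorem rz_fef07c50c2 : type_of% @_root_.Crest.Agent.R189.V.eq_1 := @_root_.Crest.Agent.R189.V.eq_1 -- L49
private theorem rz_7a4fa97add : type_of% @_root_.Crest.Agent.R189.dom.eq_1 := @_root_.Crest.Agent.R189.dom.eq_1 -- L97
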