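import Crest.Agent.R189.XGeo
import Crest.Agent.R189.AmenMain
import Crest.Agent.R189.XOK
import Crest.Agent.R189.XSep
import Crest.Agent.R189.XDef
import Crest.Agent.R189.GpGroup
import Crest.Agent.R189.StripDefs

-- ▼ part R189/SysFD
section

/-!
Row 189 (S0289), helper523.  (FD) of helper267: the pattern of radius `M` at `p` depends only on
`p` modulo `(w, h)` up to the choice of the corner star.

`xh a m = ∏_{i<m} 3(a+2i)`.
-/

set_option autoImplicit false

namespace Crest.Agent.R189.FD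

open Crest.Agent.R189

/-- the letters (digit and star) at two positions agree -/
structure Same (a : ℕ) (s : Star) (x y : ℤ) (s' : Star) (x' y' : ℤ) : Prop where
  d : dg (3 * a) y = dg (3 * a) y'
  r : rstar a s x y = rstar a s' x' y'

theorem Same.of_parts {a : ℕ} {s : Star} {x y : ℤ} {s' : Star} {x' y' : ℤ}
    (d : dg (3 * a) y = dg (3 * a) y') (h0 : dom a s x y = dom a s' x' y')
    (h1 : V a s x (y - 1) = V a s' x' (y' - 1)) (h2 : V a s x y = V a s' x' y')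
    (h3 : Hb a s x y = Hb a s' x' y') (h4 : Hf a s x y = Hf a s' x' y') :
    Same a s x y s' x' y' :=
  ⟨d, by simp only [rstar, h0, h1, h2, h3, h4]⟩

/-- `≡` passes to smaller moduli -/
theorem cdvd {a i j : ℕ} (h : i ≤ j) {x : ℤ} (hx : ((xh a j : ℕ) : ℤ) ∣ x) :
    ((xh a i : ℕ) : ℤ) ∣ x := dvd_trans (by exact_mod_cast xh_dvd h) hx

theorem dg_of_xh {a j : ℕ} (hj : 1 ≤ j) {y y' : ℤ} (h : ((xh a j : ℕ) : ℤ) ∣ y - y') :
    dg (3 * a) y = dg (3 * a) y' := by
  obtain ⟨j, rfl⟩ : ∃ i, j = i + 1 := ⟨j - 1, by omega⟩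
  exact dg_congr (Dvd.intro _ (xh_succ a j).symm) h

/-- generic position: neither a column of `xh (a+1) i ℤ` nor a row of `xh a j ℤ` -/
theorem same_low {a : ℕ} (ha : 1 ≤ a) {i j : ℕ} (hij : i ≤ j) (hji : j ≤ i + 1) (s s' : Star)
    {x x' y y' : ℤ} (hx : ¬ ((xh (a + 1) i : ℕ) : ℤ) ∣ x) (hy : ¬ ((xh a j : ℕ) : ℤ) ∣ y)
    (hxx : ((xh (a + 1) j : ℕ) : ℤ) ∣ x - x') (hyy : ((xh a (i + 1) : ℕ) : ℤ) ∣ y - y') :
    Same a s x y s' x' y' := by
  have hyj := cdvd hji hyy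
  have hyy' : ((xh a (i + 1) : ℕ) : ℤ) ∣ (y - 1) - (y' - 1) := by
    rwa [sub_sub_sub_cancel_right]
  exact Same.of_parts (dg_of_xh (by omega) hyy) (dom_congr ha j s s' (Or.inl hy) hyj hxx)
    (V_congr ha i s s' hx (cdvd hij hxx) hyy') (V_congr ha i s s' hx (cdvd hij hxx) hyy)
    (Hb_congr ha j s s' hy hyj hxx) (Hf_congr ha j s s' hy hyj hxx)

/-- on a column `x` of high order, away from rows of high order -/
theorem same_col {a : ℕ} (ha : 1 ≤ a) {j : ℕ} (s s' : Star)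
    {x x' y y' : ℤ} (hy : ¬ ((xh a j : ℕ) : ℤ) ∣ y)
    (hxx : ((xh (a + 1) j : ℕ) : ℤ) ∣ x - x') (hyy : ((xh a j : ℕ) : ℤ) ∣ y - y')
    (h1 : V a s x (y - 1) = V a s' x' (y' - 1)) (h2 : V a s x y = V a s' x' y') :
    Same a s x y s' x' y' := by
  have hj : 1 ≤ j := by
    rcases Nat.eq_zero_or_pos j with rfl | h
    · exact absurd (by simp) hy
    · exact h
  exact Same.of_parts (dg_of_xh hj hyy) (dom_congr ha j s s' (Or.inl hy) hyy hxx) h1 h2
    (Hb_congr ha j s s' hy hyy hxx) (Hf_congr ha j s s' hy hyy hxx)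

/-- on a row `y` of high order, away from columns of high order -/
theorem same_row {a : ℕ} (ha : 1 ≤ a) {i : ℕ} (s s' : Star)
    {x x' y y' : ℤ} (hx : ¬ ((xh (a + 1) i : ℕ) : ℤ) ∣ x)
    (hxx : ((xh (a + 1) i : ℕ) : ℤ) ∣ x - x') (hyy : ((xh a (i + 1) : ℕ) : ℤ) ∣ y - y')
    (h3 : Hb a s x y = Hb a s' x' y') (h4 : Hf a s x y = Hf a s' x' y') :
    Same a s x y s' x' y' := by
  have hyy' : ((xh a (i + 1) : ℕ) : ℤ) ∣ (y - 1) - (y' - 1) := by
    rwa [sub_sub_sub_cancel_right]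
  exact Same.of_parts (dg_of_xh (by omega) hyy)
    (dom_congr ha i s s' (Or.inr hx) (cdvd (by omega) hyy) hxx)
    (V_congr ha i s s' hx hxx hyy') (V_congr ha i s s' hx hxx hyy) h3 h4

theorem Hf_inflate {a : ℕ} (ha : 1 ≤ a) (s : Star) (m : ℕ) (x y : ℤ) :
    Hf a s x ((xh a (m + 1) : ℕ) * y) = V (a + 1 + 2 * m) s.flip y (x / (xh (a + 1) m : ℕ)) := by
  have h1 : ((xh a (m + 1) : ℕ) : ℤ) * y = ((3 * a : ℕ) : ℤ) * ((xh (a + 1 + 1) m : ℕ) * y) := by
    rw [xh_succ]; push_cast; ring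
  rw [h1, Hf_mul ha, V_inflate (by omega)]

theorem Hb_inflate {a : ℕ} (ha : 1 ≤ a) (s : Star) (m : ℕ) (x y : ℤ) :
    Hb a s x ((xh a (m + 1) : ℕ) * y)
      = V (a + 1 + 2 * m) s.flip y ((x - 1) / (xh (a + 1) m : ℕ)) := by
  have h1 : ((xh a (m + 1) : ℕ) : ℤ) * y = ((3 * a : ℕ) : ℤ) * ((xh (a + 1 + 1) m : ℕ) * y) := by
    rw [xh_succ]; push_cast; ring
  rw [h1, Hb_mul ha, V_inflate (by omega)]

theorem Hf_at_zero (a : ℕ) (s : Star) (x : ℤ) :
    Hf a s x 0 = if 0 ≤ x then s.Qf else s.Qb := by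
  have h0 : dg (3 * a) 0 = 0 := by simp [dg]
  rw [Hf, if_pos h0, Int.zero_ediv, V_zero]; simp

theorem Hb_at_zero (a : ℕ) (s : Star) (x : ℤ) :
    Hb a s x 0 = if 0 ≤ x - 1 then s.Qf else s.Qb := by
  have h0 : dg (3 * a) 0 = 0 := by simp [dg]
  rw [Hb, if_pos h0, Int.zero_ediv, V_zero]; simp

/-! ### arithmetic of blocks -/

theorem div_eq_of_block {H t y : ℤ} (h1 : H * t ≤ y) (h2 : y < H * (t + 1)) :
    y / H = t := by
  have hH : 0 < H := by nlinarith
  rw [Int.ediv_eq_iff_of_pos hH]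
  constructor <;> nlinarith

theorem block {H : ℤ} (hH : 0 < H) {M p y : ℤ} (hno : ∀ z, |z - p| ≤ M → ¬ H ∣ z)
    (hy : |y - p| ≤ M) : y / H = p / H ∧ (y - 1) / H = p / H := by
  have h1 : H * (p / H) ≤ p := Int.mul_ediv_self_le hH.ne'
  have h2 : p < H * (p / H + 1) := by
    have := Int.lt_ediv_add_one_mul_self p hH
    linarith [mul_comm H (p / H + 1)]
  have hy1 := abs_le.1 hy
  have h3 : H * (p / H) < y := by
    by_contra h
    push Not at h
    exact hno (H * (p / H)) (abs_le.2 ⟨by linarith, by linarith⟩) (Dvd.intro _ rfl)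
  have h4 : y < H * (p / H + 1) := by
    by_contra h
    push Not at h
    exact hno (H * (p / H + 1)) (abs_le.2 ⟨by linarith, by linarith⟩) (Dvd.intro _ rfl)
  exact ⟨div_eq_of_block h3.le h4, div_eq_of_block (by linarith) (by linarith)⟩

/-- a box without multiples of `H` lies on one side of every multiple -/
theorem side {H : ℤ} {M p z : ℤ} (hz : H ∣ z) (hno : ∀ y, |y - p| ≤ M → ¬ H ∣ y) :
    z < p - M ∨ p + M < z := by
  by_contra h
  push Not at h
  exact hno z (abs_le.2 ⟨by linarith [h.1], by linarith [h.2]⟩) hz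

/-- two different positions in a small box: not both divisible -/
theorem ndvd {H : ℤ} {z y : ℤ} (hz : H ∣ z) (h : |y - z| < H) (hne : y ≠ z) : ¬ H ∣ y := by
  intro hy
  have h1 : H ∣ y - z := dvd_sub hy hz
  have h2 : H ∣ |y - z| := (dvd_abs _ _).2 h1
  have h3 : 0 < |y - z| := abs_pos.2 (sub_ne_zero.2 hne)
  exact absurd (Int.le_of_dvd h3 h2) (not_le.2 h)

/-! ### boxes -/

/-- the patterns in two boxes agree -/
def Box (a M : ℕ) (s : Star) (p1 p2 : ℤ) (s' : Star) (q1 q2 : ℤ) : Prop :=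
  ∀ v1 v2 : ℤ, |v1| ≤ M → |v2| ≤ M → Same a s (p1 + v1) (p2 + v2) s' (q1 + v1) (q2 + v2)

section cases

variable {a : ℕ} (ha : 2 ≤ a) (st : Star → ℤ → ℤ → Star)
  (hst : ∀ s x y, (st s x y).1 = rstar a s x y) {M m : ℕ}
  (s : Star) (p1 p2 : ℤ)

include ha

/-- no column of high order, no row of high order in the box -/
theorem caseA1 (hx : ∀ z, |z - p1| ≤ M → ¬ ((xh (a + 1) (m + 2) : ℕ) : ℤ) ∣ z)
    (hy : ∀ z, |z - p2| ≤ M → ¬ ((xh a (m + 2) : ℕ) : ℤ) ∣ z)
    {x0 y0 : ℤ} (hx0 : ((xh (a + 1) (m + 2) : ℕ) : ℤ) ∣ x0)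
    (hy0 : ((xh a (m + 3) : ℕ) : ℤ) ∣ y0) (s' : Star) :
    Box a M s p1 p2 s' (p1 - x0) (p2 - y0) := by
  intro v1 v2 hv1 hv2
  apply same_low (by omega) (i := m + 2) (j := m + 2) le_rfl (by omega)
  · exact hx _ (by simpa using hv1)
  · exact hy _ (by simpa using hv2)
  · have : p1 + v1 - (p1 - x0 + v1) = x0 := by ring
    rw [this]; exact hx0
  · have : p2 + v2 - (p2 - y0 + v2) = y0 := by ring
    rw [this]; exact hy0

include hst

/-- one column of high order, no row of high order -/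
theorem caseA2 (hM : 2 * (M : ℤ) < ((xh (a + 1) (m + 2) : ℕ) : ℤ))
    (hy : ∀ z, |z - p2| ≤ M → ¬ ((xh a (m + 2) : ℕ) : ℤ) ∣ z)
    {xc y0 : ℤ} (hxc : ((xh (a + 1) (m + 2) : ℕ) : ℤ) ∣ xc) (hxc' : |xc - p1| ≤ M)
    (hy0 : ((xh a (m + 3) : ℕ) : ℤ) ∣ y0) :
    ∃ s', Box a M s p1 p2 s' (p1 - xc) (p2 - y0) := by
  have hH : (0 : ℤ) < ((xh a (m + 2) : ℕ) : ℤ) := by exact_mod_cast xh_pos (by omega) _
  set H : ℤ := ((xh a (m + 2) : ℕ) : ℤ) with hHdef
  set t : ℤ := p2 / H with ht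
  obtain ⟨x1, rfl⟩ := hxc
  -- the label of the column
  have hV : ∀ y, V a s (((xh (a + 1) (m + 2) : ℕ) : ℤ) * x1) y = V (a + 2 * (m + 2)) s x1 (y / H) :=
    fun y => V_inflate (by omega) s (m + 2) x1 y
  have hy0' : H ∣ y0 := cdvd (by omega) hy0
  -- the good star
  obtain ⟨s', hs'⟩ : ∃ s' : Star, ∀ v2 : ℤ, |v2| ≤ M →
      V a s' 0 (p2 - y0 + v2) = V (a + 2 * (m + 2)) s x1 t ∧
      V a s' 0 (p2 - y0 + v2 - 1) = V (a + 2 * (m + 2)) s x1 t := by
    rcases side (H := H) (M := M) (p := p2) hy0' hy with h | h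
    · refine ⟨st s (((xh (a + 1) (m + 2) : ℕ) : ℤ) * x1) (H * t), fun v2 hv2 => ?_⟩
      have hv := abs_le.1 hv2
      have hPf : (st s (((xh (a + 1) (m + 2) : ℕ) : ℤ) * x1) (H * t)).Pf
          = V (a + 2 * (m + 2)) s x1 t := by
        have h1 := congrArg RStar.Pf (hst s (((xh (a + 1) (m + 2) : ℕ) : ℤ) * x1) (H * t))
        have h2 : (rstar a s (((xh (a + 1) (m + 2) : ℕ) : ℤ) * x1) (H * t)).Pf
            = V a s (((xh (a + 1) (m + 2) : ℕ) : ℤ) * x1) (H * t) := rfl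
        rw [h2, hV, Int.mul_ediv_cancel_left _ hH.ne'] at h1
        exact h1
      rw [V_zero, V_zero, if_pos (by linarith), if_pos (by linarith [Int.add_one_le_iff.2 h])]
      exact ⟨hPf, hPf⟩
    · refine ⟨st s (((xh (a + 1) (m + 2) : ℕ) : ℤ) * x1) (H * (t + 1)), fun v2 hv2 => ?_⟩
      have hv := abs_le.1 hv2
      have hPb : (st s (((xh (a + 1) (m + 2) : ℕ) : ℤ) * x1) (H * (t + 1))).Pb
          = V (a + 2 * (m + 2)) s x1 t := by
        have h1 := congrArg RStar.Pb (hst s (((xh (a + 1) (m + 2) : ℕ) : ℤ) * x1) (H * (t + 1)))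
        have h2 : (rstar a s (((xh (a + 1) (m + 2) : ℕ) : ℤ) * x1) (H * (t + 1))).Pb
            = V a s (((xh (a + 1) (m + 2) : ℕ) : ℤ) * x1) (H * (t + 1) - 1) := rfl
        have h3 : (H * (t + 1) - 1) / H = t := div_eq_of_block (by linarith) (by linarith)
        rw [h2, hV, h3] at h1
        exact h1
      rw [V_zero, V_zero, if_neg (by linarith), if_neg (by linarith)]
      exact ⟨hPb, hPb⟩
  refine ⟨s', fun v1 v2 hv1 hv2 => ?_⟩
  have hyv : ¬ H ∣ p2 + v2 := hy _ (by simpa using hv2)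
  have e2 : p2 + v2 - (p2 - y0 + v2) = y0 := by ring
  by_cases hx : p1 + v1 = ((xh (a + 1) (m + 2) : ℕ) : ℤ) * x1
  · have hx' : p1 - ((xh (a + 1) (m + 2) : ℕ) : ℤ) * x1 + v1 = 0 := by linarith
    rw [hx, hx']
    obtain ⟨b1, b2⟩ := block hH (M := M) (p := p2) hy (y := p2 + v2) (by simpa using hv2)
    apply same_col (by omega) (j := m + 2) s s' hyv
    · rw [sub_zero]; exact Dvd.intro _ rfl
    · rw [e2]; exact hy0'
    · rw [hV, b2]; exact (hs' v2 hv2).2.symm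
    · rw [hV, b1]; exact (hs' v2 hv2).1.symm
  · apply same_low (by omega) (i := m + 2) (j := m + 2) le_rfl (by omega) s s' _ hyv
    · have : p1 + v1 - (p1 - ((xh (a + 1) (m + 2) : ℕ) : ℤ) * x1 + v1)
          = ((xh (a + 1) (m + 2) : ℕ) : ℤ) * x1 := by ring
      rw [this]; exact Dvd.intro _ rfl
    · rw [e2]; exact hy0
    · apply ndvd (Dvd.intro x1 rfl) _ hx
      have h1 := abs_le.1 hxc'
      have h2 := abs_le.1 hv1
      exact abs_lt.2 ⟨by linarith, by linarith⟩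

/-- one row of high order, no column of (almost as) high order -/
theorem caseB2 (hM : 2 * (M : ℤ) < ((xh a (m + 2) : ℕ) : ℤ))
    (hx : ∀ z, |z - p1| ≤ M → ¬ ((xh (a + 1) (m + 1) : ℕ) : ℤ) ∣ z)
    {x0 yc : ℤ} (hyc : ((xh a (m + 2) : ℕ) : ℤ) ∣ yc) (hyc' : |yc - p2| ≤ M)
    (hx0 : ((xh (a + 1) (m + 2) : ℕ) : ℤ) ∣ x0) :
    ∃ s', Box a M s p1 p2 s' (p1 - x0) (p2 - yc) := by
  have hW : (0 : ℤ) < ((xh (a + 1) (m + 1) : ℕ) : ℤ) := by exact_mod_cast xh_pos (by omega) _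
  set W : ℤ := ((xh (a + 1) (m + 1) : ℕ) : ℤ) with hWdef
  set t : ℤ := p1 / W with ht
  obtain ⟨y1, rfl⟩ := hyc
  have hF : ∀ x, Hf a s x (((xh a (m + 2) : ℕ) : ℤ) * y1)
      = V (a + 1 + 2 * (m + 1)) s.flip y1 (x / W) :=
    fun x => Hf_inflate (by omega) s (m + 1) x y1
  have hB : ∀ x, Hb a s x (((xh a (m + 2) : ℕ) : ℤ) * y1)
      = V (a + 1 + 2 * (m + 1)) s.flip y1 ((x - 1) / W) :=
    fun x => Hb_inflate (by omega) s (m + 1) x y1
  have hx0' : W ∣ x0 := cdvd (by omega) hx0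
  obtain ⟨s', hs'⟩ : ∃ s' : Star, ∀ v1 : ℤ, |v1| ≤ M →
      Hf a s' (p1 - x0 + v1) 0 = V (a + 1 + 2 * (m + 1)) s.flip y1 t ∧
      Hb a s' (p1 - x0 + v1) 0 = V (a + 1 + 2 * (m + 1)) s.flip y1 t := by
    rcases side (H := W) (M := M) (p := p1) hx0' hx with h | h
    · refine ⟨st s (W * t) (((xh a (m + 2) : ℕ) : ℤ) * y1), fun v1 hv1 => ?_⟩
      have hv := abs_le.1 hv1
      have hQf : (st s (W * t) (((xh a (m + 2) : ℕ) : ℤ) * y1)).Qf
          = V (a + 1 + 2 * (m + 1)) s.flip y1 t := by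
        have h1 := congrArg RStar.Qf (hst s (W * t) (((xh a (m + 2) : ℕ) : ℤ) * y1))
        have h2 : (rstar a s (W * t) (((xh a (m + 2) : ℕ) : ℤ) * y1)).Qf
            = Hf a s (W * t) (((xh a (m + 2) : ℕ) : ℤ) * y1) := rfl
        rw [h2, hF, Int.mul_ediv_cancel_left _ hW.ne'] at h1
        exact h1
      rw [Hf_at_zero, Hb_at_zero, if_pos (by linarith),
        if_pos (by linarith [Int.add_one_le_iff.2 h])]
      exact ⟨hQf, hQf⟩
    · refine ⟨st s (W * (t + 1)) (((xh a (m + 2) : ℕ) : ℤ) * y1), fun v1 hv1 => ?_⟩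
      have hv := abs_le.1 hv1
      have hQb : (st s (W * (t + 1)) (((xh a (m + 2) : ℕ) : ℤ) * y1)).Qb
          = V (a + 1 + 2 * (m + 1)) s.flip y1 t := by
        have h1 := congrArg RStar.Qb (hst s (W * (t + 1)) (((xh a (m + 2) : ℕ) : ℤ) * y1))
        have h2 : (rstar a s (W * (t + 1)) (((xh a (m + 2) : ℕ) : ℤ) * y1)).Qb
            = Hb a s (W * (t + 1)) (((xh a (m + 2) : ℕ) : ℤ) * y1) := rfl
        have h3 : (W * (t + 1) - 1) / W = t := div_eq_of_block (by linarith) (by linarith)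
        rw [h2, hB, h3] at h1
        exact h1
      rw [Hf_at_zero, Hb_at_zero, if_neg (by linarith), if_neg (by linarith)]
      exact ⟨hQb, hQb⟩
  refine ⟨s', fun v1 v2 hv1 hv2 => ?_⟩
  have hxv : ¬ W ∣ p1 + v1 := hx _ (by simpa using hv1)
  have e1 : p1 + v1 - (p1 - x0 + v1) = x0 := by ring
  by_cases hy : p2 + v2 = ((xh a (m + 2) : ℕ) : ℤ) * y1
  · have hy' : p2 - ((xh a (m + 2) : ℕ) : ℤ) * y1 + v2 = 0 := by linarith
    rw [hy, hy']
    obtain ⟨b1, b2⟩ := block hW (M := M) (p := p1) hx (y := p1 + v1) (by simpa using hv1)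
    apply same_row (by omega) (i := m + 1) s s' hxv
    · rw [e1]; exact hx0'
    · rw [sub_zero]; exact Dvd.intro _ rfl
    · rw [hB, b2]; exact (hs' v1 hv1).2.symm
    · rw [hF, b1]; exact (hs' v1 hv1).1.symm
  · apply same_low (by omega) (i := m + 1) (j := m + 2) (by omega) (by omega) s s' hxv
    · apply ndvd (Dvd.intro y1 rfl) _ hy
      have h1 := abs_le.1 hyc'
      have h2 := abs_le.1 hv2
      exact abs_lt.2 ⟨by linarith, by linarith⟩
    · rw [e1]; exact hx0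
    · have : p2 + v2 - (p2 - ((xh a (m + 2) : ℕ) : ℤ) * y1 + v2)
          = ((xh a (m + 2) : ℕ) : ℤ) * y1 := by ring
      rw [this]; exact Dvd.intro _ rfl

/-- a crossing of a column and a row of high order -/
theorem caseB1 (hM : 2 * (M : ℤ) < ((xh (a + 1) m : ℕ) : ℤ))
    (hM' : 2 * (M : ℤ) < ((xh a (m + 1) : ℕ) : ℤ))
    {xc yc : ℤ} (hxc : ((xh (a + 1) (m + 1) : ℕ) : ℤ) ∣ xc) (hxc' : |xc - p1| ≤ M)
    (hyc : ((xh a (m + 2) : ℕ) : ℤ) ∣ yc) (hyc' : |yc - p2| ≤ M) :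
    ∃ s', Box a M s p1 p2 s' (p1 - xc) (p2 - yc) := by
  have hW : (0 : ℤ) < ((xh (a + 1) (m + 1) : ℕ) : ℤ) := by exact_mod_cast xh_pos (by omega) _
  have hH : (0 : ℤ) < ((xh a (m + 1) : ℕ) : ℤ) := by exact_mod_cast xh_pos (by omega) _
  have hWle : ((xh (a + 1) m : ℕ) : ℤ) ≤ ((xh (a + 1) (m + 1) : ℕ) : ℤ) := by
    exact_mod_cast Nat.le_of_dvd (xh_pos (by omega) _) (xh_dvd_succ _ _)
  set W : ℤ := ((xh (a + 1) (m + 1) : ℕ) : ℤ) with hWdef
  set H : ℤ := ((xh a (m + 1) : ℕ) : ℤ) with hHdef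
  have hycH : H ∣ yc := cdvd (by omega) hyc
  refine ⟨st s xc yc, fun v1 v2 hv1 hv2 => ?_⟩
  have hx1 := abs_le.1 hxc'
  have hy1 := abs_le.1 hyc'
  have hv1' := abs_le.1 hv1
  have hv2' := abs_le.1 hv2
  -- displacements from the centre
  obtain ⟨dx, hdx⟩ : ∃ dx, p1 + v1 = xc + dx := ⟨p1 + v1 - xc, by ring⟩
  obtain ⟨dy, hdy⟩ : ∃ dy, p2 + v2 = yc + dy := ⟨p2 + v2 - yc, by ring⟩
  have e1 : p1 - xc + v1 = dx := by linarith
  have e2 : p2 - yc + v2 = dy := by linarith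
  rw [hdx, hdy, e1, e2]
  have hdx1 : -(2 * (M : ℤ)) ≤ dx := by linarith
  have hdx2 : dx ≤ 2 * (M : ℤ) := by linarith
  have hdy1 : -(2 * (M : ℤ)) ≤ dy := by linarith
  have hdy2 : dy ≤ 2 * (M : ℤ) := by linarith
  have f1 : xc + dx - dx = xc := by ring
  have f2 : yc + dy - dy = yc := by ring
  have hPf : (st s xc yc).Pf = V a s xc yc := congrArg RStar.Pf (hst s xc yc)
  have hPb : (st s xc yc).Pb = V a s xc (yc - 1) := congrArg RStar.Pb (hst s xc yc)
  have hQf : (st s xc yc).Qf = Hf a s xc yc := congrArg RStar.Qf (hst s xc yc)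
  have hQb : (st s xc yc).Qb = Hb a s xc yc := congrArg RStar.Qb (hst s xc yc)
  obtain ⟨x1, rfl⟩ := hxc
  have hV : ∀ y, V a s (W * x1) y = V (a + 2 * (m + 1)) s x1 (y / H) :=
    fun y => V_inflate (by omega) s (m + 1) x1 y
  obtain ⟨y1, hy1e⟩ := hyc
  have hF : ∀ x, Hf a s x yc = V (a + 1 + 2 * (m + 1)) s.flip y1 (x / W) := by
    intro x; rw [hy1e]; exact Hf_inflate (by omega) s (m + 1) x y1
  have hB : ∀ x, Hb a s x yc = V (a + 1 + 2 * (m + 1)) s.flip y1 ((x - 1) / W) := by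
    intro x; rw [hy1e]; exact Hb_inflate (by omega) s (m + 1) x y1
  obtain ⟨y2, hy2e⟩ := hycH
  have nx : dx ≠ 0 → ¬ ((xh (a + 1) m : ℕ) : ℤ) ∣ W * x1 + dx := by
    intro h0
    apply ndvd (z := W * x1) (cdvd (i := m) (j := m + 1) (by omega) (Dvd.intro _ rfl))
    · rw [add_sub_cancel_left]; exact abs_lt.2 ⟨by linarith, by linarith⟩
    · simpa using h0
  have ny : dy ≠ 0 → ¬ H ∣ yc + dy := by
    intro h0
    apply ndvd (z := yc) (by rw [hy2e]; exact Dvd.intro _ rfl)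
    · rw [add_sub_cancel_left]; exact abs_lt.2 ⟨by linarith, by linarith⟩
    · simpa using h0
  have Hpos : ∀ z, 0 ≤ z → z < H → (yc + z) / H = y2 := fun z h1 h2 =>
    div_eq_of_block (by rw [hy2e]; linarith) (by rw [hy2e]; linarith)
  have Hneg : ∀ z, z < 0 → -H ≤ z → (yc + z) / H = y2 - 1 := fun z h1 h2 =>
    div_eq_of_block (by rw [hy2e]; linarith) (by rw [hy2e]; linarith)
  have Wpos : ∀ z, 0 ≤ z → z < W → (W * x1 + z) / W = x1 := fun z h1 h2 =>
    div_eq_of_block (by linarith) (by linarith)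
  have Wneg : ∀ z, z < 0 → -W ≤ z → (W * x1 + z) / W = x1 - 1 := fun z h1 h2 =>
    div_eq_of_block (by linarith) (by linarith)
  -- labels of the central column
  have cV : ∀ z, -H ≤ z → z < H → V a s (W * x1) (yc + z) = V a (st s (W * x1) yc) 0 z := by
    intro z h1 h2
    rw [V_zero]
    by_cases hz : 0 ≤ z
    · rw [if_pos hz, hPf, hV, hV, Hpos z hz h2]
      have := Hpos 0 le_rfl hH
      rw [add_zero] at this; rw [this]
    · rw [if_neg hz, hPb, hV, hV, Hneg z (not_le.1 hz) h1]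
      have := Hneg (-1) (by norm_num) (by linarith [Int.add_one_le_iff.2 hH])
      rw [← sub_eq_add_neg] at this; rw [this]
  -- labels of the central row
  have cF : ∀ z, -W ≤ z → z < W →
      V (a + 1 + 2 * (m + 1)) s.flip y1 ((W * x1 + z) / W)
        = if 0 ≤ z then (st s (W * x1) yc).Qf else (st s (W * x1) yc).Qb := by
    intro z h1 h2
    by_cases hz : 0 ≤ z
    · rw [if_pos hz, hQf, hF, Wpos z hz h2]
      have := Wpos 0 le_rfl hW
      rw [add_zero] at this; rw [this]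
    · rw [if_neg hz, hQb, hB, Wneg z (not_le.1 hz) h1]
      have := Wneg (-1) (by norm_num) (by linarith [Int.add_one_le_iff.2 hW])
      rw [← sub_eq_add_neg] at this; rw [this]
  by_cases h0x : dx = 0
  · subst h0x
    by_cases h0y : dy = 0
    · subst h0y
      rw [add_zero, add_zero]
      refine ⟨?_, ?_⟩
      · apply dg_of_xh (j := m + 1) (by omega)
        rw [sub_zero, hy2e]; exact Dvd.intro _ rfl
      · rw [rstar_zero, hst]
    · rw [add_zero]
      apply same_col (by omega) (j := m + 1) s _ (ny h0y)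
      · rw [sub_zero]; exact Dvd.intro _ rfl
      · rw [f2, hy2e]; exact Dvd.intro _ rfl
      · have := cV (dy - 1) (by linarith [Int.add_one_le_iff.2 hM']) (by linarith)
        rw [← add_sub_assoc] at this
        exact this
      · exact cV dy (by linarith) (by linarith)
  · by_cases h0y : dy = 0
    · subst h0y
      rw [add_zero]
      apply same_row (by omega) (i := m) s _ (nx h0x)
      · rw [f1]; exact cdvd (i := m) (j := m + 1) (by omega) (Dvd.intro _ rfl)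
      · rw [sub_zero, hy2e]; exact Dvd.intro _ rfl
      · rw [hB, Hb_at_zero]
        have := cF (dx - 1) (by linarith [Int.add_one_le_iff.2 hM]) (by linarith)
        rw [← add_sub_assoc] at this
        exact this
      · rw [hF, Hf_at_zero]
        exact cF dx (by linarith) (by linarith)
    · apply same_low (by omega) (i := m) (j := m + 1) (by omega) (by omega) s _ (nx h0x) (ny h0y)
      · rw [f1]; exact Dvd.intro _ rfl
      · rw [f2, hy2e]; exact Dvd.intro _ rfl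

/-- (FD) of helper267. -/
theorem fd_box (M : ℕ) : ∃ w h : ℤ, 0 < w ∧ 0 < h ∧ ∀ (s : Star) (p1 p2 i j : ℤ),
    ∃ (s1 s2 : Star) (q1 q2 : ℤ), Box a M s p1 p2 s1 q1 q2 ∧
      Box a M s (p1 + w * i) (p2 + h * j) s2 q1 q2 := by
  set m : ℕ := 2 * M + 1 with hm
  have b1 : 2 * (M : ℤ) < ((xh (a + 1) m : ℕ) : ℤ) := by
    have := lt_xh (a := a + 1) (by omega) m
    have : 2 * M < xh (a + 1) m := by omega
    exact_mod_cast this
  have b2 : 2 * (M : ℤ) < ((xh a (m + 1) : ℕ) : ℤ) := by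
    have := lt_xh (a := a) (by omega) (m + 1)
    have : 2 * M < xh a (m + 1) := by omega
    exact_mod_cast this
  have b3 : 2 * (M : ℤ) < ((xh (a + 1) (m + 2) : ℕ) : ℤ) := by
    have := lt_xh (a := a + 1) (by omega) (m + 2)
    have : 2 * M < xh (a + 1) (m + 2) := by omega
    exact_mod_cast this
  have b4 : 2 * (M : ℤ) < ((xh a (m + 2) : ℕ) : ℤ) := by
    have := lt_xh (a := a) (by omega) (m + 2)
    have : 2 * M < xh a (m + 2) := by omega
    exact_mod_cast this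
  have hw0 : (0 : ℤ) < ((xh (a + 1) (m + 2) : ℕ) : ℤ) := by exact_mod_cast xh_pos (by omega) _
  have hh0 : (0 : ℤ) < ((xh a (m + 3) : ℕ) : ℤ) := by exact_mod_cast xh_pos (by omega) _
  refine ⟨((xh (a + 1) (m + 2) : ℕ) : ℤ), ((xh a (m + 3) : ℕ) : ℤ), hw0, hh0, ?_⟩
  intro s p1 p2 i j
  set w : ℤ := ((xh (a + 1) (m + 2) : ℕ) : ℤ) with hwdef
  set h : ℤ := ((xh a (m + 3) : ℕ) : ℤ) with hhdef
  have dw2 : w ∣ w * i := Dvd.intro _ rfl
  have dw1 : ((xh (a + 1) (m + 1) : ℕ) : ℤ) ∣ w * i := cdvd (by omega) dw2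
  have dh3 : h ∣ h * j := Dvd.intro _ rfl
  have dh2 : ((xh a (m + 2) : ℕ) : ℤ) ∣ h * j := cdvd (by omega) dh3
  -- shifting the absence of multiples
  have shift : ∀ (K : ℤ) (p c : ℤ), K ∣ c → (∀ z, |z - p| ≤ M → ¬ K ∣ z) →
      ∀ z, |z - (p + c)| ≤ M → ¬ K ∣ z := by
    intro K p c hc hno z hz hK
    apply hno (z - c) (by rwa [sub_sub, add_comm c p]) (dvd_sub hK hc)
  by_cases hy : ∃ yc, ((xh a (m + 2) : ℕ) : ℤ) ∣ yc ∧ |yc - p2| ≤ M
  · obtain ⟨yc, hyc, hyc'⟩ := hy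
    have hyc2 : ((xh a (m + 2) : ℕ) : ℤ) ∣ yc + h * j := dvd_add hyc dh2
    have hyc2' : |yc + h * j - (p2 + h * j)| ≤ M := by rwa [add_sub_add_right_eq_sub]
    by_cases hx : ∃ xc, ((xh (a + 1) (m + 1) : ℕ) : ℤ) ∣ xc ∧ |xc - p1| ≤ M
    · obtain ⟨xc, hxc, hxc'⟩ := hx
      obtain ⟨s1, h1⟩ := caseB1 ha st hst s p1 p2 b1 b2 hxc hxc' hyc hyc'
      obtain ⟨s2, h2⟩ := caseB1 ha st hst s (p1 + w * i) (p2 + h * j) b1 b2
        (xc := xc + w * i) (yc := yc + h * j) (dvd_add hxc dw1)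
        (by rwa [add_sub_add_right_eq_sub]) hyc2 hyc2'
      refine ⟨s1, s2, p1 - xc, p2 - yc, h1, ?_⟩
      rwa [add_sub_add_right_eq_sub, add_sub_add_right_eq_sub] at h2
    · push Not at hx
      have hx' : ∀ z, |z - p1| ≤ M → ¬ ((xh (a + 1) (m + 1) : ℕ) : ℤ) ∣ z :=
        fun z hz hK => absurd hz (not_le.2 (hx z hK))
      obtain ⟨s1, h1⟩ := caseB2 ha st hst s p1 p2 b4 hx' hyc hyc' (x0 := 0) (dvd_zero _)
      obtain ⟨s2, h2⟩ := caseB2 ha st hst s (p1 + w * i) (p2 + h * j) b4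
        (shift _ _ _ dw1 hx') hyc2 hyc2' (x0 := w * i) dw2
      refine ⟨s1, s2, p1, p2 - yc, ?_, ?_⟩
      · rwa [sub_zero] at h1
      · rwa [add_sub_cancel_right, add_sub_add_right_eq_sub] at h2
  · push Not at hy
    have hy' : ∀ z, |z - p2| ≤ M → ¬ ((xh a (m + 2) : ℕ) : ℤ) ∣ z :=
      fun z hz hK => absurd hz (not_le.2 (hy z hK))
    by_cases hx : ∃ xc, w ∣ xc ∧ |xc - p1| ≤ M
    · obtain ⟨xc, hxc, hxc'⟩ := hx
      obtain ⟨s1, h1⟩ := caseA2 ha st hst s p1 p2 b3 hy' hxc hxc' (y0 := 0) (dvd_zero _)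
      obtain ⟨s2, h2⟩ := caseA2 ha st hst s (p1 + w * i) (p2 + h * j) b3
        (shift _ _ _ dh2 hy') (xc := xc + w * i) (dvd_add hxc dw2)
        (by rwa [add_sub_add_right_eq_sub]) (y0 := h * j) dh3
      refine ⟨s1, s2, p1 - xc, p2, ?_, ?_⟩
      · rwa [sub_zero] at h1
      · rwa [add_sub_cancel_right, add_sub_add_right_eq_sub] at h2
    · push Not at hx
      have hx' : ∀ z, |z - p1| ≤ M → ¬ w ∣ z :=
        fun z hz hK => absurd hz (not_le.2 (hx z hK))
      have h1 := caseA1 ha (M := M) (m := m) s p1 p2 hx' hy' (x0 := 0) (dvd_zero _)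
        (y0 := 0) (dvd_zero _) s
      have h2 := caseA1 ha (M := M) (m := m) s (p1 + w * i) (p2 + h * j) (shift _ _ _ dw2 hx')
        (shift _ _ _ dh2 hy') (x0 := w * i) dw2 (y0 := h * j) dh3 s
      refine ⟨s, s, p1, p2, ?_, ?_⟩
      · rwa [sub_zero, sub_zero] at h1
      · rwa [add_sub_cancel_right, add_sub_cancel_right] at h2

/-- (FD) in the form of `AmenData.FD`. -/
theorem fd_pat {A : Type*} (L : Star → ℤ × ℤ → A)
    (hL : ∀ (s s' : Star) (q q' : ℤ × ℤ), dg (3 * a) q.2 = dg (3 * a) q'.2 →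
      rstar a s q.1 q.2 = rstar a s' q'.1 q'.2 → L s q = L s' q') (M : ℕ) :
    ∃ w h : ℤ, 0 < w ∧ 0 < h ∧ ∀ (s : Star) (p : ℤ × ℤ) (i j : ℤ), ∃ (s1 s2 : Star) (q : ℤ × ℤ),
      PatEq L M s p s1 q ∧ PatEq L M s (p + (w * i, h * j)) s2 q := by
  obtain ⟨w, h, hw, hh, H⟩ := fd_box ha st hst M
  refine ⟨w, h, hw, hh, fun s p i j => ?_⟩
  obtain ⟨s1, s2, q1, q2, h1, h2⟩ := H s p.1 p.2 i j
  refine ⟨s1, s2, (q1, q2), fun v hv1 hv2 => ?_, fun v hv1 hv2 => ?_⟩
  · have := h1 v.1 v.2 hv1 hv2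
    exact hL _ _ _ _ this.d this.r
  · have := h2 v.1 v.2 hv1 hv2
    exact hL _ _ _ _ this.d this.r

end cases

end Crest.Agent.R189.FD
end

-- ▼ part R189/XSepFD
section

/-!
Row 189 (S0289), helper523.  `Sep` and (FD) for the concrete letter map.
-/

set_option autoImplicit false

namespace Crest.Agent.R189


/-- (FD) for the concrete letter map, in the form of `AmenData.FD` -/
theorem fd_letter (M : ℕ) :
    ∃ w h : ℤ, 0 < w ∧ 0 < h ∧ ∀ (s : Star) (p : ℤ × ℤ) (i j : ℤ), ∃ (s1 s2 : Star) (q : ℤ × ℤ),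
      PatEq (fun s q => letter ⟨q, s⟩) M s p s1 q ∧
        PatEq (fun s q => letter ⟨q, s⟩) M s (p + (w * i, h * j)) s2 q :=
  FD.fd_pat (a := 3) (by norm_num) (star 3) (fun s x y => star_val (by norm_num) s x y)
    (fun s q => letter ⟨q, s⟩)
    (fun s s' q q' h1 h2 => letter_eq_iff.2 ⟨h1, h2⟩) M

end Crest.Agent.R189
end

-- ▼ part R189/AmenRep
section

/-!
Row 189, M14: the representations `ρ_s` of `Gp` on `(ℤ × ℤ) × C` (one for every corner star).
-/

set_option autoImplicit false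
set_option linter.unusedSectionVars false

namespace Crest.Agent.R189

open Equiv

variable {A C : Type} [Finite A] [Fintype C] [DecidableEq C] (letter : X → A)

theorem X.vadd_def (v : ℤ × ℤ) (x : X) : v +ᵥ x = ⟨v + x.p, x.s⟩ := rfl

/-- group elements preserve the corner star -/
theorem Gp_star (g : Gp (ℤ × ℤ) letter C) (x : X) (c : C) :
    (((g : Perm (X × C)) (x, c)).1).s = x.s := by
  obtain ⟨W, d, k, _, h2⟩ := isLoc_of_mem_Gp (V := ℤ × ℤ) (letter := letter) g.2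
  rw [h2]; rfl

/-- the representation attached to the star `s` -/
def rep (s : Star) : Gp (ℤ × ℤ) letter C →* Perm ((ℤ × ℤ) × C) where
  toFun g :=
    { toFun := fun q => (((g : Perm (X × C)) (⟨q.1, s⟩, q.2)).1.p, ((g : Perm (X × C)) (⟨q.1, s⟩, q.2)).2)
      invFun := fun q => ((((g⁻¹ : Gp (ℤ × ℤ) letter C) : Perm (X × C)) (⟨q.1, s⟩, q.2)).1.p,
        (((g⁻¹ : Gp (ℤ × ℤ) letter C) : Perm (X × C)) (⟨q.1, s⟩, q.2)).2)
      left_inv := by
        rintro ⟨p, c⟩
        have h1 := Gp_star letter g ⟨p, s⟩ c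
        have e : ((⟨((g : Perm (X × C)) (⟨p, s⟩, c)).1.p, s⟩ : X), ((g : Perm (X × C)) (⟨p, s⟩, c)).2)
            = (g : Perm (X × C)) (⟨p, s⟩, c) := by
          refine Prod.ext ?_ rfl
          exact X.ext rfl h1.symm
        simp only
        rw [e]
        simp
      right_inv := by
        rintro ⟨p, c⟩
        have h1 := Gp_star letter g⁻¹ ⟨p, s⟩ c
        have e : ((⟨(((g⁻¹ : Gp (ℤ × ℤ) letter C) : Perm (X × C)) (⟨p, s⟩, c)).1.p, s⟩ : X),
            (((g⁻¹ : Gp (ℤ × ℤ) letter C) : Perm (X × C)) (⟨p, s⟩, c)).2)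
            = ((g⁻¹ : Gp (ℤ × ℤ) letter C) : Perm (X × C)) (⟨p, s⟩, c) := by
          refine Prod.ext ?_ rfl
          exact X.ext rfl h1.symm
        simp only
        rw [e]
        simp }
  map_one' := by
    ext q <;> simp
  map_mul' g h := by
    refine Equiv.ext fun q => ?_
    obtain ⟨p, c⟩ := q
    have h1 := Gp_star letter h ⟨p, s⟩ c
    have e : ((⟨((h : Perm (X × C)) (⟨p, s⟩, c)).1.p, s⟩ : X), ((h : Perm (X × C)) (⟨p, s⟩, c)).2)
        = (h : Perm (X × C)) (⟨p, s⟩, c) := by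
      refine Prod.ext ?_ rfl
      exact X.ext rfl h1.symm
    show ((((g * h : Gp (ℤ × ℤ) letter C) : Perm (X × C)) (⟨p, s⟩, c)).1.p, _) = _
    simp only [Perm.mul_apply, Equiv.coe_fn_mk, Subgroup.coe_mul]
    rw [e]

theorem rep_apply (s : Star) (g : Gp (ℤ × ℤ) letter C) (p : ℤ × ℤ) (c : C) :
    rep letter s g (p, c) =
      (((g : Perm (X × C)) (⟨p, s⟩, c)).1.p, ((g : Perm (X × C)) (⟨p, s⟩, c)).2) := rfl

/-- the fibrewise description of a group element -/
theorem coe_apply (g : Gp (ℤ × ℤ) letter C) (x : X) (c : C) :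
    (g : Perm (X × C)) (x, c) = (⟨(rep letter x.s g (x.p, c)).1, x.s⟩, (rep letter x.s g (x.p, c)).2) := by
  refine Prod.ext ?_ rfl
  exact X.ext rfl (Gp_star letter g x c)

theorem rep_inj (g : Gp (ℤ × ℤ) letter C) (h : ∀ s, rep letter s g = 1) : g = 1 := by
  refine Subtype.ext (Equiv.ext fun q => ?_)
  obtain ⟨x, c⟩ := q
  rw [coe_apply, h x.s]
  rfl

theorem rep_loc (g : Gp (ℤ × ℤ) letter C) :
    ∃ M : ℕ, LocRule (fun s p => letter ⟨p, s⟩) (rep letter) g M := by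
  obtain ⟨W, d, k, h1, h2⟩ := isLoc_of_mem_Gp (V := ℤ × ℤ) (letter := letter) g.2
  refine ⟨W.sup fun v => max v.1.natAbs v.2.natAbs, ?_⟩
  intro s p s' p' hp c
  have hag : Agree letter (W : Set (ℤ × ℤ)) ⟨p, s⟩ ⟨p', s'⟩ := by
    intro v hv
    have hle : max v.1.natAbs v.2.natAbs ≤ W.sup fun v => max v.1.natAbs v.2.natAbs :=
      Finset.le_sup (f := fun v : ℤ × ℤ => max v.1.natAbs v.2.natAbs) hv
    have := hp v (by
      have : v.1.natAbs ≤ W.sup fun v => max v.1.natAbs v.2.natAbs := (le_max_left _ _).trans hle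
      rw [Int.abs_eq_natAbs]; exact_mod_cast this) (by
      have : v.2.natAbs ≤ W.sup fun v => max v.1.natAbs v.2.natAbs := (le_max_right _ _).trans hle
      rw [Int.abs_eq_natAbs]; exact_mod_cast this)
    rw [X.vadd_def, X.vadd_def]
    simp only
    rw [add_comm v p, add_comm v p']
    exact this
  obtain ⟨h3, h4⟩ := h1 _ _ hag c
  rw [rep_apply, rep_apply, h2, h2]
  refine ⟨?_, h4⟩
  simp only [X.vadd_p]
  rw [h3]; simp

theorem rep_dis (g : Gp (ℤ × ℤ) letter C) :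
    ∃ M : ℕ, ∀ s p c, |((rep letter s g (p, c)).1 - p).1| ≤ M ∧
      |((rep letter s g (p, c)).1 - p).2| ≤ M := by
  classical
  obtain ⟨W, d, k, h1, h2⟩ := isLoc_of_mem_Gp (V := ℤ × ℤ) (letter := letter) g.2
  have hfin : (Set.range (fun x => d x)).Finite :=
    finite_range_of_local (letter := letter) (W := W) (fun x y hxy => funext fun c => (h1 x y hxy c).1)

  let D : Finset (ℤ × ℤ) := hfin.toFinset.biUnion (fun f => Finset.univ.image f)
  have hD : ∀ x c, d x c ∈ D := by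
    intro x c
    simp only [D, Finset.mem_biUnion, Set.Finite.mem_toFinset, Finset.mem_image]
    exact ⟨d x, ⟨x, rfl⟩, c, Finset.mem_univ _, rfl⟩
  refine ⟨D.sup fun v => max v.1.natAbs v.2.natAbs, fun s p c => ?_⟩
  have e : (rep letter s g (p, c)).1 - p = d ⟨p, s⟩ c := by
    rw [rep_apply, h2]; simp
  rw [e]
  have hle := Finset.le_sup (f := fun v : ℤ × ℤ => max v.1.natAbs v.2.natAbs) (hD ⟨p, s⟩ c)
  have h3 : (d ⟨p, s⟩ c).1.natAbs ≤ D.sup fun v => max v.1.natAbs v.2.natAbs :=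
    (le_max_left _ _).trans hle
  have h4 : (d ⟨p, s⟩ c).2.natAbs ≤ D.sup fun v => max v.1.natAbs v.2.natAbs :=
    (le_max_right _ _).trans hle
  rw [Int.abs_eq_natAbs, Int.abs_eq_natAbs]
  exact ⟨by exact_mod_cast h3, by exact_mod_cast h4⟩

end Crest.Agent.R189
end

-- ▼ part R189/AmenGp

/-!
Row 189, M14: amenability of `Gp` for a system described by `SysData` (facts about the letters,
two strip systems).
-/

set_option autoImplicit false
set_option linter.unusedSectionVars false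

namespace Crest.Agent.R189

open Equiv

variable {A C Θ Λ : Type} [Finite A] [Fintype C] [DecidableEq C] (letter : X → A)

/-- the representation on `Om Θ C` given by a family of stars and coordinates `e` -/
def famRep (st : Θ → Star) (e : (ℤ × ℤ) ≃+ (ℤ × ℤ)) :
    Gp (ℤ × ℤ) letter C →* Perm (Strip.Om Θ C) where
  toFun g :=
    { toFun := fun q => ((e (rep letter (st q.2.2.1) g (e.symm (q.1, q.2.1), q.2.2.2)).1).1,
        (e (rep letter (st q.2.2.1) g (e.symm (q.1, q.2.1), q.2.2.2)).1).2, q.2.2.1,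
        (rep letter (st q.2.2.1) g (e.symm (q.1, q.2.1), q.2.2.2)).2)
      invFun := fun q => ((e (rep letter (st q.2.2.1) g⁻¹ (e.symm (q.1, q.2.1), q.2.2.2)).1).1,
        (e (rep letter (st q.2.2.1) g⁻¹ (e.symm (q.1, q.2.1), q.2.2.2)).1).2, q.2.2.1,
        (rep letter (st q.2.2.1) g⁻¹ (e.symm (q.1, q.2.1), q.2.2.2)).2)
      left_inv := by
        rintro ⟨u, r, τ, c⟩
        have h1 : ∀ x, (rep letter (st τ) g)⁻¹ (rep letter (st τ) g x) = x :=
          fun x => (rep letter (st τ) g).symm_apply_apply x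
        simp only [Prod.mk.eta, AddEquiv.symm_apply_apply, map_inv, h1,
          AddEquiv.apply_symm_apply]
      right_inv := by
        rintro ⟨u, r, τ, c⟩
        have h1 : ∀ x, rep letter (st τ) g ((rep letter (st τ) g)⁻¹ x) = x :=
          fun x => (rep letter (st τ) g).apply_symm_apply x
        simp only [Prod.mk.eta, AddEquiv.symm_apply_apply, map_inv, h1,
          AddEquiv.apply_symm_apply] }
  map_one' := by
    refine Equiv.ext fun q => ?_
    obtain ⟨u, r, τ, c⟩ := q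
    simp
  map_mul' g h := by
    refine Equiv.ext fun q => ?_
    obtain ⟨u, r, τ, c⟩ := q
    simp [Perm.mul_apply]

theorem famRep_apply (st : Θ → Star) (e : (ℤ × ℤ) ≃+ (ℤ × ℤ)) (g : Gp (ℤ × ℤ) letter C)
    (u r : ℤ) (τ : Θ) (c : C) : famRep letter st e g (u, r, τ, c) =
      ((e (rep letter (st τ) g (e.symm (u, r), c)).1).1,
        (e (rep letter (st τ) g (e.symm (u, r), c)).1).2, τ,
        (rep letter (st τ) g (e.symm (u, r), c)).2) := rfl

theorem famRep_eq_iff (st st' : Θ → Star) (e : (ℤ × ℤ) ≃+ (ℤ × ℤ)) (g : Gp (ℤ × ℤ) letter C) :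
    famRep letter st e g = famRep letter st' e g ↔ ∀ τ, rep letter (st τ) g = rep letter (st' τ) g := by
  constructor
  · intro h τ
    refine Equiv.ext fun q => ?_
    obtain ⟨p, c⟩ := q
    have h1 := Equiv.ext_iff.1 h ((e p).1, (e p).2, τ, c)
    rw [famRep_apply, famRep_apply] at h1
    simp only [Prod.mk.eta, AddEquiv.symm_apply_apply, Prod.mk.injEq, true_and] at h1
    refine Prod.ext ?_ h1.2.2
    apply e.injective
    exact Prod.ext h1.1 h1.2.1
  · intro h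
    refine Equiv.ext fun q => ?_
    obtain ⟨u, r, τ, c⟩ := q
    rw [famRep_apply, famRep_apply, h τ]

theorem blind_famRep (st : Λ → Θ → Star) (e : (ℤ × ℤ) ≃+ (ℤ × ℤ)) :
    Strip.blind (fun l => famRep letter (C := C) (st l) e) = blindFam (rep letter) st := by
  ext g
  show (∀ l l', famRep letter (st l) e g = famRep letter (st l') e g) ↔ _
  rw [mem_blindFam]
  simp only [famRep_eq_iff]

/-! ### unit generators -/

/-- generators with displacements bounded by one -/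
def unitGens : Set (Gp (ℤ × ℤ) letter C) :=
  {g | (∃ lam : C → ℤ × ℤ, (∀ c, |(lam c).1| ≤ 1 ∧ |(lam c).2| ≤ 1) ∧
      (g : Perm (X × C)) = H lam) ∨
    (∃ α : A → Perm C, ∀ x c, (g : Perm (X × C)) (x, c) = (x, α (letter x) c))}

/-- elementary displacement -/
def dlt (a b : C) (v : ℤ × ℤ) : C → ℤ × ℤ := Pi.single a v - Pi.single b v

theorem dlt_sum (a b : C) (v : ℤ × ℤ) : ∑ c, dlt a b v c = 0 := by
  simp [dlt, Finset.sum_sub_distrib]

theorem dlt_add (a b : C) (v w : ℤ × ℤ) : dlt a b (v + w) = dlt a b v + dlt a b w := by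
  unfold dlt; rw [Pi.single_add, Pi.single_add]; abel

/-- `v ↦ H (dlt a b v)` -/
def dltHom (a b : C) : Multiplicative (ℤ × ℤ) →* Gp (ℤ × ℤ) letter C where
  toFun v := ⟨H (dlt a b v.toAdd), H_mem_Gp (dlt_sum a b _)⟩
  map_one' := by
    refine Subtype.ext ?_
    show H (dlt a b 0) = 1
    have : dlt a b (0 : ℤ × ℤ) = 0 := by simp [dlt]
    rw [this, H_zero]
  map_mul' v w := by
    refine Subtype.ext ?_
    show H (dlt a b (v.toAdd + w.toAdd)) = _
    rw [dlt_add, H_add]; rfl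

theorem dltHom_mem (a b : C) (v : ℤ × ℤ) :
    dltHom letter a b (Multiplicative.ofAdd v) ∈ Subgroup.closure (unitGens (C := C) letter) := by
  have hunit : ∀ v : ℤ × ℤ, |v.1| ≤ 1 → |v.2| ≤ 1 → a ≠ b →
      dltHom letter a b (Multiplicative.ofAdd v) ∈ Subgroup.closure (unitGens (C := C) letter) := by
    intro v h1 h2 hab
    refine Subgroup.subset_closure (Or.inl ⟨dlt a b v, fun c => ?_, rfl⟩)
    unfold dlt
    by_cases ha : c = a
    · subst ha
      simp only [Pi.sub_apply, Pi.single_eq_same, Pi.single_eq_of_ne hab, sub_zero]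
      exact ⟨h1, h2⟩
    · by_cases hb : c = b
      · subst hb
        simp only [Pi.sub_apply, Pi.single_eq_same, Pi.single_eq_of_ne ha, zero_sub, Prod.fst_neg,
          Prod.snd_neg, abs_neg]
        exact ⟨h1, h2⟩
      · simp [Pi.single_eq_of_ne ha, Pi.single_eq_of_ne hb]
  by_cases hab : a = b
  · subst hab
    have : dltHom letter a a (Multiplicative.ofAdd v) = (1 : Gp (ℤ × ℤ) letter C) := by
      refine Subtype.ext ?_
      show H (dlt a a v) = 1
      have : dlt a a v = 0 := by simp [dlt]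
      rw [this, H_zero]
    rw [this]; exact Subgroup.one_mem _
  · have e : Multiplicative.ofAdd v = (Multiplicative.ofAdd ((1, 0) : ℤ × ℤ)) ^ v.1
        * (Multiplicative.ofAdd ((0, 1) : ℤ × ℤ)) ^ v.2 := by
      rw [← ofAdd_zsmul, ← ofAdd_zsmul, ← ofAdd_add]
      congr 1
      ext <;> simp
    rw [e, map_mul, map_zpow, map_zpow]
    exact Subgroup.mul_mem _ (Subgroup.zpow_mem _ (hunit _ (by simp) (by simp) hab) _)
      (Subgroup.zpow_mem _ (hunit _ (by simp) (by simp) hab) _)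

theorem H_mem_closure (lam : C → ℤ × ℤ) (hlam : ∑ c, lam c = 0) :
    (⟨H lam, H_mem_Gp hlam⟩ : Gp (ℤ × ℤ) letter C) ∈ Subgroup.closure (unitGens (C := C) letter) := by
  classical
  rcases isEmpty_or_nonempty C with hC | ⟨⟨c0⟩⟩
  · have : (⟨H lam, H_mem_Gp hlam⟩ : Gp (ℤ × ℤ) letter C) = 1 := by
      refine Subtype.ext (Equiv.ext fun q => ?_)
      exact isEmptyElim q.2
    rw [this]; exact Subgroup.one_mem _
  · have key : ∀ S : Finset C, ∃ hS : ∑ c, (∑ a ∈ S, dlt a c0 (lam a)) c = 0,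
        (⟨H (∑ a ∈ S, dlt a c0 (lam a)), H_mem_Gp hS⟩ : Gp (ℤ × ℤ) letter C) ∈
          Subgroup.closure (unitGens (C := C) letter) := by
      intro S
      induction S using Finset.induction_on with
      | empty =>
        refine ⟨by simp, ?_⟩
        have : (⟨H (∑ a ∈ (∅ : Finset C), dlt a c0 (lam a)), H_mem_Gp (by simp)⟩ :
            Gp (ℤ × ℤ) letter C) = 1 := Subtype.ext (by simp)
        rw [this]; exact Subgroup.one_mem _
      | insert a S ha ih =>
        obtain ⟨hS, hmem⟩ := ih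
        have hsum : ∑ c, (∑ a ∈ insert a S, dlt a c0 (lam a)) c = 0 := by
          rw [Finset.sum_insert ha]
          simp only [Pi.add_apply, Finset.sum_add_distrib]
          rw [hS, dlt_sum, add_zero]
        refine ⟨hsum, ?_⟩
        have e : (⟨H (∑ a ∈ insert a S, dlt a c0 (lam a)), H_mem_Gp hsum⟩ : Gp (ℤ × ℤ) letter C)
            = dltHom letter a c0 (Multiplicative.ofAdd (lam a)) *
              ⟨H (∑ a ∈ S, dlt a c0 (lam a)), H_mem_Gp hS⟩ := by
          refine Subtype.ext ?_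
          show H (∑ a ∈ insert a S, dlt a c0 (lam a)) = H (dlt a c0 (lam a)) * H _
          rw [Finset.sum_insert ha, H_add]
        rw [e]
        exact Subgroup.mul_mem _ (dltHom_mem letter a c0 (lam a)) hmem
    obtain ⟨hS, hmem⟩ := key Finset.univ
    have e : (∑ a, dlt a c0 (lam a)) = lam := by
      unfold dlt
      rw [Finset.sum_sub_distrib]
      have h1 : ∑ a, Pi.single a (lam a) = lam := Finset.univ_sum_single lam
      have h2 : ∑ a, (Pi.single c0 (lam a) : C → ℤ × ℤ) = Pi.single c0 (∑ a, lam a) := by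
        exact (map_sum (AddMonoidHom.single (fun _ : C => ℤ × ℤ) c0) lam Finset.univ).symm
      rw [h1, h2, hlam]; simp
    have e2 : (⟨H (∑ a, dlt a c0 (lam a)), H_mem_Gp hS⟩ : Gp (ℤ × ℤ) letter C)
        = ⟨H lam, H_mem_Gp hlam⟩ := Subtype.ext (congrArg (fun l => H l) e)
    rw [← e2]; exact hmem

theorem closure_unitGens : Subgroup.closure (unitGens (C := C) letter) = ⊤ := by
  classical
  rw [eq_top_iff]
  rintro ⟨g, hg⟩ _
  induction hg using Subgroup.closure_induction with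
  | mem x hx =>
    rcases hx with (⟨lam, hlam, rfl⟩ | ⟨s, hs, rfl⟩) | ⟨a, s, hs, rfl⟩
    · exact H_mem_closure letter lam hlam
    · refine Subgroup.subset_closure (Or.inr ⟨fun _ => s, fun x c => ?_⟩)
      exact ev_univ_apply s x c
    · refine Subgroup.subset_closure (Or.inr ⟨fun a' => if a' = a then s else 1, fun x c => ?_⟩)
      by_cases h : letter x = a
      · have e1 := ev_apply_mem (E := {x | letter x = a}) (s := s) h c
        simp only [h, if_true]
        exact e1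
      · have e1 := ev_apply_notMem (E := {x | letter x = a}) (s := s) h c
        simp only [if_neg h]
        exact e1
  | one => exact Subgroup.one_mem _
  | mul x y hx hy ihx ihy =>
    exact Subgroup.mul_mem _ (ihx trivial) (ihy trivial)
  | inv x hx ihx => exact Subgroup.inv_mem _ (ihx trivial)

theorem isGen_of_unit (S : Strip.StripSys Θ A Λ) (st : Λ → Θ → Star) (e : (ℤ × ℤ) ≃+ (ℤ × ℤ))
    (he : ∀ p, |p.1| ≤ 1 ∧ |p.2| ≤ 1 → |(e p).1| ≤ 1 ∧ |(e p).2| ≤ 1)
    (hS : ∀ l u r τ, S.lett l u r τ = letter ⟨e.symm (u, r), st l τ⟩)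
    (g : Gp (ℤ × ℤ) letter C) (hg : g ∈ unitGens letter) :
    Strip.IsGen S (fun l => famRep letter (C := C) (st l) e) g := by
  rcases hg with ⟨lam, hlam, hgl⟩ | ⟨α, hα⟩
  · left
    refine ⟨fun c => e (lam c), fun c => he _ (hlam c), fun l => ?_⟩
    refine Equiv.ext fun q => ?_
    obtain ⟨u, r, τ, c⟩ := q
    rw [famRep_apply, rep_apply, hgl, H_apply, Strip.transl_apply]
    simp only [X.vadd_p, map_add, AddEquiv.apply_symm_apply, Prod.fst_add, Prod.snd_add]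
    rw [add_comm u, add_comm r]
  · right
    refine ⟨α, fun l => ?_⟩
    refine Equiv.ext fun q => ?_
    obtain ⟨u, r, τ, c⟩ := q
    rw [famRep_apply, rep_apply, hα, Strip.recol_apply, hS]
    simp only [AddEquiv.apply_symm_apply]

end Crest.Agent.R189
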