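import Mathlib
import Crest.Agent.R189.Amen

-- ▼ part R189/Energy
section

set_option autoImplicit false

/-!
Row 189, amenability toolkit (helper777): two explicit radial profiles with small energy.

`logProf N K` is `π/2` on `[0,N]`, `0` on `[8^K N, ∞)`, with energy `O(1/K)` as soon as the balls
have quadratic growth; `linProf N` is `π/2` on `[0,N]` and `0` on `[2N,∞)`, with energy `O(J/N)`
as soon as the balls have linear growth with constant `J`.
-/

namespace Crest.Agent.R189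

open Finset Real

/-- the elementary linear cut-off: `1` for `r ≤ n`, `0` for `r ≥ 2 n` -/
noncomputable def cut (n r : ℕ) : ℝ := max 0 (min 1 (2 - (r : ℝ) / n))



theorem cut_eq_one {n r : ℕ} (h : r ≤ n) : cut n r = 1 := by
  unfold cut
  rcases Nat.eq_zero_or_pos n with rfl | hn
  · simp
  · have hn' : (0:ℝ) < n := by exact_mod_cast hn
    have : (r:ℝ) / n ≤ 1 := by
      rw [div_le_one hn']
      exact_mod_cast h
    rw [min_eq_left (by linarith)]
    simp

theorem cut_eq_zero {n r : ℕ} (hn : 0 < n) (h : 2 * n ≤ r) : cut n r = 0 := by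
  unfold cut
  have hn' : (0:ℝ) < n := by exact_mod_cast hn
  have : 2 ≤ (r:ℝ) / n := by
    rw [le_div_iff₀ hn']
    exact_mod_cast h
  refine max_eq_left ((min_le_right _ _).trans (by linarith))

theorem abs_clamp_sub_le (a b : ℝ) : |max 0 (min 1 a) - max 0 (min 1 b)| ≤ |a - b| := by
  have h1 : |max 0 (min 1 a) - max 0 (min 1 b)| ≤ |min 1 a - min 1 b| := by
    have := abs_max_sub_max_le_abs (min 1 a) (min 1 b) 0
    rwa [max_comm (min 1 a), max_comm (min 1 b)] at this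
  refine h1.trans ?_
  have h2 := abs_min_sub_min_le_max 1 a 1 b
  simpa using h2

theorem cut_diff_le {n r r' M : ℕ} (hn : 0 < n) (h1 : r ≤ r' + M) (h2 : r' ≤ r + M) :
    |cut n r' - cut n r| ≤ (M : ℝ) / n := by
  unfold cut
  have hn' : (0:ℝ) < n := by exact_mod_cast hn
  refine (abs_clamp_sub_le _ _).trans ?_
  have : (2 - (r':ℝ) / n) - (2 - (r:ℝ) / n) = ((r:ℝ) - r') / n := by ring
  rw [this, abs_div, abs_of_pos hn']
  gcongr
  rw [abs_le]
  have h1' : (r:ℝ) ≤ r' + M := by exact_mod_cast h1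
  have h2' : (r':ℝ) ≤ r + M := by exact_mod_cast h2
  constructor <;> linarith

/-- The difference vanishes off the shell `n - M < r < 2 n + M`. -/
theorem cut_diff_eq_zero {n r r' M : ℕ} (hn : 0 < n) (h1 : r ≤ r' + M) (h2 : r' ≤ r + M)
    (h : r + M ≤ n ∨ 2 * n + M ≤ r) : cut n r' - cut n r = 0 := by
  rcases h with h | h
  · rw [cut_eq_one (by omega), cut_eq_one (by omega), sub_self]
  · rw [cut_eq_zero hn (by omega), cut_eq_zero hn (by omega), sub_self]

/-! ### linear profile -/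

/-- linear profile: `π/2` for `r ≤ N`, `0` for `r ≥ 2 N` -/
noncomputable def linProf (N r : ℕ) : ℝ := π / 2 * cut N r



theorem linProf_eq {N r : ℕ} (h : r ≤ N) : linProf N r = π / 2 := by
  rw [linProf, cut_eq_one h, mul_one]

theorem linProf_eq_zero {N r : ℕ} (hN : 0 < N) (h : 2 * N ≤ r) : linProf N r = 0 := by
  rw [linProf, cut_eq_zero hN h, mul_zero]

/-- **Linear energy.** -/
theorem linProf_energy {Ω : Type*} (ρ : Ω → ℕ) (J : ℝ)
    (hJ : ∀ (n : ℕ) (s : Finset Ω), (∀ ω ∈ s, ρ ω ≤ n) → (s.card : ℝ) ≤ J * (2 * n + 1))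
    {N M : ℕ} (hN : 0 < N) (s : Finset Ω) (g : Ω → Ω)
    (hg1 : ∀ ω ∈ s, ρ ω ≤ ρ (g ω) + M) (hg2 : ∀ ω ∈ s, ρ (g ω) ≤ ρ ω + M) :
    ∑ ω ∈ s, (linProf N (ρ (g ω)) - linProf N (ρ ω)) ^ 2 ≤
      (π / 2) ^ 2 * (J * (4 * N + 2 * M + 1)) * ((M:ℝ) / N) ^ 2 := by
  classical
  have hN' : (0:ℝ) < N := by exact_mod_cast hN
  have hJ0 : 0 ≤ J := by
    have := hJ 0 ∅ (by simp)
    simpa using this
  have h1 : ∀ ω ∈ s, (linProf N (ρ (g ω)) - linProf N (ρ ω)) ^ 2 ≤
      if ρ ω ≤ 2 * N + M then (π / 2) ^ 2 * ((M:ℝ) / N) ^ 2 else 0 := by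
    intro ω hω
    have e : linProf N (ρ (g ω)) - linProf N (ρ ω) = π / 2 * (cut N (ρ (g ω)) - cut N (ρ ω)) := by
      unfold linProf; ring
    rw [e, mul_pow]
    split_ifs with h
    · refine mul_le_mul_of_nonneg_left ?_ (by positivity)
      rw [← sq_abs]
      exact pow_le_pow_left₀ (abs_nonneg _) (cut_diff_le hN (hg1 ω hω) (hg2 ω hω)) 2
    · rw [cut_diff_eq_zero hN (hg1 ω hω) (hg2 ω hω) (Or.inr (by omega))]
      simp
  refine (Finset.sum_le_sum h1).trans ?_
  rw [← Finset.sum_filter, Finset.sum_const, nsmul_eq_mul]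
  have h2 := hJ (2 * N + M) (s.filter fun ω => ρ ω ≤ 2 * N + M) (fun ω hω => (Finset.mem_filter.1 hω).2)
  push_cast at h2
  have h3 : (0:ℝ) ≤ (π / 2) ^ 2 * ((M:ℝ) / N) ^ 2 := by positivity
  calc ((s.filter fun ω => ρ ω ≤ 2 * N + M).card : ℝ) * ((π / 2) ^ 2 * ((M:ℝ) / N) ^ 2)
      ≤ (J * (2 * (2 * N + M) + 1)) * ((π / 2) ^ 2 * ((M:ℝ) / N) ^ 2) :=
        mul_le_mul_of_nonneg_right h2 h3
    _ = _ := by ring

/-! ### logarithmic profile -/

/-- logarithmic profile: `π/2` for `r ≤ N`, `0` for `r ≥ 8 ^ K * N` -/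
noncomputable def logProf (N K r : ℕ) : ℝ :=
  π / 2 * ((K:ℝ)⁻¹ * ∑ j ∈ Finset.range K, cut (8 ^ j * N) r)



theorem logProf_eq {N K r : ℕ} (hK : 0 < K) (h : r ≤ N) : logProf N K r = π / 2 := by
  unfold logProf
  have h1 : ∑ j ∈ Finset.range K, cut (8 ^ j * N) r = K := by
    rw [Finset.sum_congr rfl (g := fun _ => (1:ℝ)) (fun j _ => cut_eq_one ?_)]
    · simp
    · calc r ≤ 1 * N := by omega
        _ ≤ 8 ^ j * N := Nat.mul_le_mul_right _ (Nat.one_le_pow _ _ (by norm_num))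
  have hK' : (0:ℝ) < K := by exact_mod_cast hK
  rw [h1, inv_mul_cancel₀ hK'.ne', mul_one]

theorem logProf_eq_zero {N K r : ℕ} (hN : 0 < N) (h : 8 ^ K * N ≤ r) : logProf N K r = 0 := by
  unfold logProf
  rw [Finset.sum_eq_zero, mul_zero, mul_zero]
  intro j hj
  refine cut_eq_zero (by positivity) ?_
  rw [Finset.mem_range] at hj
  calc 2 * (8 ^ j * N) ≤ 8 ^ (j + 1) * N := by
        rw [pow_succ]
        nlinarith [Nat.zero_le (8 ^ j * N)]
    _ ≤ 8 ^ K * N := Nat.mul_le_mul_right _ (Nat.pow_le_pow_right (by norm_num) hj)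
    _ ≤ r := h

/-- Sums with at most one nonzero term. -/
theorem sq_sum_of_disjoint {ι : Type*} (s : Finset ι) (d : ι → ℝ)
    (h : ∀ i ∈ s, ∀ j ∈ s, i ≠ j → d i = 0 ∨ d j = 0) :
    (∑ i ∈ s, d i) ^ 2 = ∑ i ∈ s, d i ^ 2 := by
  classical
  by_cases hz : ∃ i ∈ s, d i ≠ 0
  · obtain ⟨i, hi, hne⟩ := hz
    have h1 : ∀ j ∈ s, j ≠ i → d j = 0 := fun j hj hji => (h i hi j hj (Ne.symm hji)).resolve_left hne
    rw [Finset.sum_eq_single_of_mem i hi h1,
      Finset.sum_eq_single_of_mem i hi (fun j hj hji => by rw [h1 j hj hji]; simp)]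
  · push Not at hz
    rw [Finset.sum_eq_zero hz, Finset.sum_eq_zero (fun i hi => by rw [hz i hi]; simp)]
    simp

/-- **Logarithmic energy.** -/
theorem logProf_energy {Ω : Type*} (ρ : Ω → ℕ) (A : ℝ)
    (hA : ∀ (n : ℕ) (s : Finset Ω), 1 ≤ n → (∀ ω ∈ s, ρ ω ≤ n) → (s.card : ℝ) ≤ A * n ^ 2)
    {N K M : ℕ} (hN : 0 < N) (hK : 0 < K) (hM : 2 * M ≤ N) (s : Finset Ω) (g : Ω → Ω)
    (hg1 : ∀ ω ∈ s, ρ ω ≤ ρ (g ω) + M) (hg2 : ∀ ω ∈ s, ρ (g ω) ≤ ρ ω + M) :
    ∑ ω ∈ s, (logProf N K (ρ (g ω)) - logProf N K (ρ ω)) ^ 2 ≤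
      9 * (π / 2) ^ 2 * A * (M:ℝ) ^ 2 / K := by
  classical
  have hK' : (0:ℝ) < K := by exact_mod_cast hK
  let n : ℕ → ℕ := fun j => 8 ^ j * N
  have hn0 : ∀ j, 0 < n j := fun j => by positivity
  have hnN : ∀ j, N ≤ n j := fun j => by
    calc N = 1 * N := by ring
      _ ≤ 8 ^ j * N := Nat.mul_le_mul_right _ (Nat.one_le_pow _ _ (by norm_num))
  let d : ℕ → Ω → ℝ := fun j ω => cut (n j) (ρ (g ω)) - cut (n j) (ρ ω)
  have hd0 : ∀ j, ∀ ω ∈ s, ¬ (n j < 2 * ρ ω ∧ ρ ω < 3 * n j) → d j ω = 0 := by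
    intro j ω hω h
    refine cut_diff_eq_zero (hn0 j) (hg1 ω hω) (hg2 ω hω) ?_
    have := hnN j
    by_contra hc
    push Not at hc
    apply h
    constructor <;> omega
  have hd1 : ∀ j, ∀ ω ∈ s, |d j ω| ≤ (M:ℝ) / n j := fun j ω hω =>
    cut_diff_le (hn0 j) (hg1 ω hω) (hg2 ω hω)
  have hdisj : ∀ ω ∈ s, ∀ i ∈ Finset.range K, ∀ j ∈ Finset.range K, i ≠ j →
      d i ω = 0 ∨ d j ω = 0 := by
    have key : ∀ ω ∈ s, ∀ i j, i < j → d i ω = 0 ∨ d j ω = 0 := by
      intro ω hω i j hij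
      by_contra hc
      push Not at hc
      have h1 : n i < 2 * ρ ω ∧ ρ ω < 3 * n i := by
        by_contra h; exact hc.1 (hd0 i ω hω h)
      have h2 : n j < 2 * ρ ω ∧ ρ ω < 3 * n j := by
        by_contra h; exact hc.2 (hd0 j ω hω h)
      have h3 : 8 * n i ≤ n j := by
        calc 8 * n i = 8 ^ (i + 1) * N := by simp only [n]; rw [pow_succ]; ring
          _ ≤ 8 ^ j * N := Nat.mul_le_mul_right _ (Nat.pow_le_pow_right (by norm_num) hij)
      omega
    intro ω hω i _ j _ hij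
    rcases Nat.lt_or_gt_of_ne hij with h | h
    · exact key ω hω i j h
    · exact (key ω hω j i h).symm
  have e : ∀ ω ∈ s, (logProf N K (ρ (g ω)) - logProf N K (ρ ω)) ^ 2 =
      (π / 2) ^ 2 * ((K:ℝ)⁻¹) ^ 2 * ∑ j ∈ Finset.range K, d j ω ^ 2 := by
    intro ω hω
    rw [← sq_sum_of_disjoint _ _ (hdisj ω hω)]
    unfold logProf
    rw [← mul_sub, ← mul_sub, ← Finset.sum_sub_distrib]
    simp only [d, n]
    ring
  rw [Finset.sum_congr rfl e, ← Finset.mul_sum, Finset.sum_comm]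
  have h1 : ∀ j ∈ Finset.range K, ∑ ω ∈ s, d j ω ^ 2 ≤ 9 * A * (M:ℝ) ^ 2 := by
    intro j _
    have hnj : (0:ℝ) < n j := by exact_mod_cast hn0 j
    have h2 : ∀ ω ∈ s, d j ω ^ 2 ≤ if ρ ω ≤ 3 * n j then ((M:ℝ) / n j) ^ 2 else 0 := by
      intro ω hω
      split_ifs with h
      · rw [← sq_abs]
        exact pow_le_pow_left₀ (abs_nonneg _) (hd1 j ω hω) 2
      · rw [hd0 j ω hω (by intro h'; omega)]
        simp
    refine (Finset.sum_le_sum h2).trans ?_
    rw [← Finset.sum_filter, Finset.sum_const, nsmul_eq_mul]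
    have h3 := hA (3 * n j) (s.filter fun ω => ρ ω ≤ 3 * n j) (by have := hn0 j; omega)
      (fun ω hω => (Finset.mem_filter.1 hω).2)
    push_cast at h3
    calc ((s.filter fun ω => ρ ω ≤ 3 * n j).card : ℝ) * ((M:ℝ) / n j) ^ 2
        ≤ (A * (3 * n j) ^ 2) * ((M:ℝ) / n j) ^ 2 :=
          mul_le_mul_of_nonneg_right h3 (by positivity)
      _ = 9 * A * (M:ℝ) ^ 2 := by
        field_simp
        ring
  calc (π / 2) ^ 2 * ((K:ℝ)⁻¹) ^ 2 * ∑ j ∈ Finset.range K, ∑ ω ∈ s, d j ω ^ 2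
      ≤ (π / 2) ^ 2 * ((K:ℝ)⁻¹) ^ 2 * ∑ _j ∈ Finset.range K, (9 * A * (M:ℝ) ^ 2) :=
        mul_le_mul_of_nonneg_left (Finset.sum_le_sum h1) (by positivity)
    _ = 9 * (π / 2) ^ 2 * A * (M:ℝ) ^ 2 / K := by
      rw [Finset.sum_const, Finset.card_range, nsmul_eq_mul]
      field_simp

end Crest.Agent.R189
end

-- ▼ part R189/Bern

/-!
# Row 189, M14: Bernoulli laws on finite subsets

For a finitely supported family of angles `θ : J →₀ ℝ` the law `law θ : Finset J →₀ ℝ` of the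
random finite subset of `J` which contains `j` with probability `sin² (θ j)`, independently.
-/

namespace Crest.Agent.R189

open Finset
open scoped Classical

section bern

variable {J : Type*}

/-- weight of `j` for the outcome `D` -/
noncomputable def bw (θ : J → ℝ) (D : Finset J) (j : J) : ℝ :=
  if j ∈ D then Real.sin (θ j) ^ 2 else Real.cos (θ j) ^ 2

/-- amplitude of `j` for the outcome `D` -/
noncomputable def ba (θ : J → ℝ) (D : Finset J) (j : J) : ℝ :=
  if j ∈ D then Real.sin (θ j) else Real.cos (θ j)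

lemma ba_sq (θ : J → ℝ) (D : Finset J) (j : J) : ba θ D j ^ 2 = bw θ D j := by
  unfold ba bw
  split_ifs <;> rfl

lemma bw_nonneg (θ : J → ℝ) (D : Finset J) (j : J) : 0 ≤ bw θ D j := by
  rw [← ba_sq]
  positivity

/-- the Bernoulli law with angles `θ` -/
noncomputable def law (θ : J →₀ ℝ) : Finset J →₀ ℝ :=
  Finsupp.onFinset θ.support.powerset (fun D => ∏ j ∈ θ.support ∪ D, bw θ D j) (by
    intro D hD
    rw [Finset.mem_powerset]
    intro j hj
    by_contra hjs
    apply hD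
    refine Finset.prod_eq_zero (Finset.mem_union_right _ hj) ?_
    have h0 : θ j = 0 := Finsupp.notMem_support_iff.1 hjs
    simp [bw, hj, h0])

lemma law_apply (θ : J →₀ ℝ) (D : Finset J) :
    law θ D = ∏ j ∈ θ.support ∪ D, bw θ D j := rfl

/-- value computed over any large finite set -/
lemma law_eq {θ : J →₀ ℝ} {D s : Finset J} (hs : θ.support ⊆ s) (hD : D ⊆ s) :
    law θ D = ∏ j ∈ s, bw θ D j := by
  rw [law_apply]
  refine Finset.prod_subset (Finset.union_subset hs hD) ?_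
  intro j _ hj
  rw [Finset.mem_union, not_or] at hj
  have h0 : θ j = 0 := Finsupp.notMem_support_iff.1 hj.1
  simp [bw, hj.2, h0]

lemma law_eq_sq {θ : J →₀ ℝ} {D s : Finset J} (hs : θ.support ⊆ s) (hD : D ⊆ s) :
    law θ D = (∏ j ∈ s, ba θ D j) ^ 2 := by
  rw [law_eq hs hD, ← Finset.prod_pow]
  exact Finset.prod_congr rfl (fun j _ => (ba_sq θ D j).symm)

lemma law_support (θ : J →₀ ℝ) : (law θ).support ⊆ θ.support.powerset :=
  Finsupp.support_onFinset_subset

lemma law_support_of {θ : J →₀ ℝ} {s : Finset J} (hs : θ.support ⊆ s) :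
    (law θ).support ⊆ s.powerset :=
  (law_support θ).trans (Finset.powerset_mono.2 hs)

/-- (B5) the random set is contained in the support of the angles -/
lemma subset_of_mem_law_support {θ : J →₀ ℝ} {D : Finset J} (hD : D ∈ (law θ).support) :
    D ⊆ θ.support := Finset.mem_powerset.1 (law_support θ hD)

/-- (B4) the random set contains all `j` of angle `π / 2` -/
lemma mem_of_mem_law_support {θ : J →₀ ℝ} {D : Finset J} (hD : D ∈ (law θ).support) {j : J}
    (hj : θ j = Real.pi / 2) : j ∈ D := by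
  by_contra hjD
  rw [Finsupp.mem_support_iff] at hD
  apply hD
  rw [law_apply]
  refine Finset.prod_eq_zero (i := j) (Finset.mem_union_left _ ?_) ?_
  · rw [Finsupp.mem_support_iff, hj]
    positivity
  · simp [bw, hjD, hj]


/-- expansion of a product of sums -/
lemma sum_powerset_prod_ite (s : Finset J) (u v : J → ℝ) :
    ∑ D ∈ s.powerset, ∏ j ∈ s, (if j ∈ D then u j else v j) = ∏ j ∈ s, (u j + v j) := by
  rw [Finset.prod_add]
  refine Finset.sum_congr rfl (fun D hD => ?_)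
  have hD' := Finset.mem_powerset.1 hD
  have h := Finset.prod_piecewise s D u v
  rw [Finset.inter_eq_right.2 hD'] at h
  rw [← h]
  rfl

/-- (B1) -/
theorem isProb_law (θ : J →₀ ℝ) : IsProb (law θ) := by
  constructor
  · intro D
    rw [law_apply]
    exact Finset.prod_nonneg (fun j _ => bw_nonneg θ D j)
  · rw [mass_eq (law_support θ)]
    have h1 : ∀ D ∈ θ.support.powerset, law θ D = ∏ j ∈ θ.support,
        (if j ∈ D then Real.sin (θ j) ^ 2 else Real.cos (θ j) ^ 2) := by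
      intro D hD
      exact law_eq (Finset.Subset.refl _) (Finset.mem_powerset.1 hD)
    rw [Finset.sum_congr rfl h1, sum_powerset_prod_ite]
    exact Finset.prod_eq_one (fun j _ => Real.sin_sq_add_cos_sq _)

/-- (B2) equivariance, for an arbitrary injection -/
lemma law_map_emb {J' : Type*} (θ : J →₀ ℝ) (f : J ↪ J') :
    (law θ).mapDomain (Finset.map f) = law (θ.embDomain f) := by
  ext D
  have hsup : (θ.embDomain f).support = θ.support.map f := Finsupp.support_embDomain f θ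
  by_cases hD : ∃ E : Finset J, E.map f = D
  · obtain ⟨E, rfl⟩ := hD
    rw [Finsupp.mapDomain_apply (Finset.map_injective f), law_apply, law_apply, hsup,
      ← Finset.map_union, Finset.prod_map]
    refine Finset.prod_congr rfl (fun j _ => ?_)
    unfold bw
    rw [Finsupp.embDomain_apply_self]
    simp only [Finset.mem_map' f]
  · rw [Finsupp.mapDomain_of_notMem_range _ _ (fun h => hD h)]
    symm
    rw [← Finsupp.notMem_support_iff]
    intro h
    have h2 := subset_of_mem_law_support h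
    rw [hsup] at h2
    obtain ⟨E, _, hE⟩ := Finset.subset_map_iff.1 h2
    exact hD ⟨E, hE.symm⟩

/-- (B2) equivariance, for a permutation -/
lemma law_map_equiv {J' : Type*} (θ : J →₀ ℝ) (σ : J ≃ J') :
    (law θ).mapDomain (Finset.map σ.toEmbedding) = law (θ.mapDomain σ) := by
  rw [law_map_emb, Finsupp.embDomain_eq_mapDomain]
  rfl

/-- (B2) equivariance, for a permutation of `J` -/
theorem law_map (θ : J →₀ ℝ) (σ : Equiv.Perm J) :
    (law θ).mapDomain (Finset.map σ.toEmbedding) = law (θ.mapDomain σ) := law_map_equiv θ σ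

lemma one_sub_prod_le (s : Finset J) (x : J → ℝ) (h0 : ∀ j ∈ s, 0 ≤ x j) (h1 : ∀ j ∈ s, x j ≤ 1) :
    0 ≤ ∏ j ∈ s, (1 - x j) ∧ ∏ j ∈ s, (1 - x j) ≤ 1 ∧ 1 - ∑ j ∈ s, x j ≤ ∏ j ∈ s, (1 - x j) := by
  induction s using Finset.induction_on with
  | empty => simp
  | insert a s ha ih =>
    obtain ⟨i1, i2, i3⟩ := ih (fun j hj => h0 j (Finset.mem_insert_of_mem hj))
      (fun j hj => h1 j (Finset.mem_insert_of_mem hj))
    have a0 := h0 a (Finset.mem_insert_self a s)
    have a1 := h1 a (Finset.mem_insert_self a s)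
    rw [Finset.prod_insert ha, Finset.sum_insert ha]
    refine ⟨mul_nonneg (by linarith) i1, ?_, ?_⟩
    · calc (1 - x a) * ∏ j ∈ s, (1 - x j) ≤ 1 * 1 :=
          mul_le_mul (by linarith) i2 i1 zero_le_one
        _ = 1 := one_mul 1
    · have h2 : x a * ∏ j ∈ s, (1 - x j) ≤ x a * 1 := mul_le_mul_of_nonneg_left i2 a0
      have h3 : (1 - x a) * ∏ j ∈ s, (1 - x j)
        = ∏ j ∈ s, (1 - x j) - x a * ∏ j ∈ s, (1 - x j) := by ring
      rw [h3]
      linarith

/-- (B3) the `ℓ¹`-distance of two Bernoulli laws is at most twice the `ℓ²`-distance of the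
angles -/
theorem l1_law_sub_le (θ θ' : J →₀ ℝ) (s : Finset J) (hs : θ.support ⊆ s)
    (hs' : θ'.support ⊆ s) :
    l1 (law θ - law θ') ≤ 2 * Real.sqrt (∑ j ∈ s, (θ j - θ' j) ^ 2) := by
  have hsup : (law θ - law θ').support ⊆ s.powerset := by
    intro D hD
    rcases Finset.mem_union.1 (Finsupp.support_sub hD) with h | h
    · exact law_support_of hs h
    · exact law_support_of hs' h
  rw [l1_eq hsup]
  set a : Finset J → ℝ := fun D => ∏ j ∈ s, ba θ D j with ha
  set b : Finset J → ℝ := fun D => ∏ j ∈ s, ba θ' D j with hb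
  have e1 : ∀ D ∈ s.powerset, |(law θ - law θ') D| = |a D - b D| * |a D + b D| := by
    intro D hD
    rw [Finsupp.sub_apply, law_eq_sq hs (Finset.mem_powerset.1 hD),
      law_eq_sq hs' (Finset.mem_powerset.1 hD), ← abs_mul]
    congr 1
    ring
  rw [Finset.sum_congr rfl e1]
  have haa : ∑ D ∈ s.powerset, a D ^ 2 = 1 := by
    have h := sum_powerset_prod_ite s (fun j => Real.sin (θ j) ^ 2) (fun j => Real.cos (θ j) ^ 2)
    rw [Finset.prod_eq_one (fun j _ => Real.sin_sq_add_cos_sq _)] at h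
    rw [← h]
    refine Finset.sum_congr rfl (fun D _ => ?_)
    rw [ha]
    simp only
    rw [← Finset.prod_pow]
    exact Finset.prod_congr rfl (fun j _ => ba_sq θ D j)
  have hbb : ∑ D ∈ s.powerset, b D ^ 2 = 1 := by
    have h := sum_powerset_prod_ite s (fun j => Real.sin (θ' j) ^ 2)
      (fun j => Real.cos (θ' j) ^ 2)
    rw [Finset.prod_eq_one (fun j _ => Real.sin_sq_add_cos_sq _)] at h
    rw [← h]
    refine Finset.sum_congr rfl (fun D _ => ?_)
    rw [hb]
    simp only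
    rw [← Finset.prod_pow]
    exact Finset.prod_congr rfl (fun j _ => ba_sq θ' D j)
  set c : ℝ := ∏ j ∈ s, Real.cos (θ j - θ' j) with hc
  have hab : ∑ D ∈ s.powerset, a D * b D = c := by
    have h := sum_powerset_prod_ite s (fun j => Real.sin (θ j) * Real.sin (θ' j))
      (fun j => Real.cos (θ j) * Real.cos (θ' j))
    have h2 : ∏ j ∈ s, (Real.sin (θ j) * Real.sin (θ' j) + Real.cos (θ j) * Real.cos (θ' j))
        = c := by
      rw [hc]
      refine Finset.prod_congr rfl (fun j _ => ?_)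
      rw [Real.cos_sub]
      ring
    rw [← h2, ← h]
    refine Finset.sum_congr rfl (fun D _ => ?_)
    rw [ha, hb]
    simp only
    rw [← Finset.prod_mul_distrib]
    refine Finset.prod_congr rfl (fun j _ => ?_)
    unfold ba
    split_ifs <;> rfl
  have hm : ∑ D ∈ s.powerset, (a D - b D) ^ 2 = 2 - 2 * c := by
    have : ∀ D ∈ s.powerset, (a D - b D) ^ 2 = a D ^ 2 + b D ^ 2 - 2 * (a D * b D) :=
      fun D _ => by ring
    rw [Finset.sum_congr rfl this, Finset.sum_sub_distrib, Finset.sum_add_distrib, haa, hbb,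
      ← Finset.mul_sum, hab]
    ring
  have hp : ∑ D ∈ s.powerset, (a D + b D) ^ 2 = 2 + 2 * c := by
    have : ∀ D ∈ s.powerset, (a D + b D) ^ 2 = a D ^ 2 + b D ^ 2 + 2 * (a D * b D) :=
      fun D _ => by ring
    rw [Finset.sum_congr rfl this, Finset.sum_add_distrib, Finset.sum_add_distrib, haa, hbb,
      ← Finset.mul_sum, hab]
    ring
  -- Cauchy-Schwarz
  have hcs : (∑ D ∈ s.powerset, |a D - b D| * |a D + b D|) ^ 2
      ≤ (∑ D ∈ s.powerset, |a D - b D| ^ 2) * ∑ D ∈ s.powerset, |a D + b D| ^ 2 :=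
    Finset.sum_mul_sq_le_sq_mul_sq _ _ _
  simp only [sq_abs] at hcs
  rw [hm, hp] at hcs
  have hc2 : 1 - c ^ 2 ≤ ∑ j ∈ s, (θ j - θ' j) ^ 2 := by
    have h1 : c ^ 2 = ∏ j ∈ s, (1 - Real.sin (θ j - θ' j) ^ 2) := by
      rw [hc, ← Finset.prod_pow]
      refine Finset.prod_congr rfl (fun j _ => ?_)
      exact Real.cos_sq' _
    have h2 := (one_sub_prod_le s (fun j => Real.sin (θ j - θ' j) ^ 2)
      (fun j _ => sq_nonneg _) (fun j _ => Real.sin_sq_le_one _)).2.2
    rw [← h1] at h2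
    have h3 : ∑ j ∈ s, Real.sin (θ j - θ' j) ^ 2 ≤ ∑ j ∈ s, (θ j - θ' j) ^ 2 :=
      Finset.sum_le_sum (fun j _ => Real.sin_sq_le_sq)
    linarith
  have hfin : (∑ D ∈ s.powerset, |a D - b D| * |a D + b D|) ^ 2
      ≤ (2 * Real.sqrt (∑ j ∈ s, (θ j - θ' j) ^ 2)) ^ 2 := by
    rw [mul_pow, Real.sq_sqrt (Finset.sum_nonneg (fun j _ => sq_nonneg _))]
    refine hcs.trans ?_
    have : (2 - 2 * c) * (2 + 2 * c) = 4 * (1 - c ^ 2) := by ring
    rw [this]
    linarith
  exact (pow_le_pow_iff_left₀ (Finset.sum_nonneg (fun D _ => by positivity)) (by positivity)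
    two_ne_zero).1 hfin



end bern

end Crest.Agent.R189
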