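import Crest.Agent.R189.Amen
import Crest.Agent.R189.Bern_Mg
import Mathlib
import Crest.Agent.R189.AmenMain
import Crest.Agent.R189.FinDiff

-- ▼ part R189/FinRand
section

/-!
Row 189, step C: random finite subsets of `(ℤ × ℤ) × C` which are almost invariant under
finitely many permutations of bounded displacement.
-/

set_option autoImplicit false

namespace Crest.Agent.R189

open Equiv Real

section

variable {C : Type*}

/-- radius of a point -/
def rad (x : (ℤ × ℤ) × C) : ℕ := max x.1.1.natAbs x.1.2.natAbs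

theorem rad_ball [Fintype C] (n : ℕ) (s : Finset ((ℤ × ℤ) × C)) (hn : 1 ≤ n)
    (hs : ∀ ω ∈ s, rad ω ≤ n) : (s.card : ℝ) ≤ (9 * Fintype.card C : ℝ) * n ^ 2 := by
  classical
  have hsub : s ⊆ (Finset.Icc (-(n : ℤ)) n ×ˢ Finset.Icc (-(n : ℤ)) n) ×ˢ (Finset.univ : Finset C) := by
    intro x hx
    have h := hs x hx
    unfold rad at h
    have h1 : x.1.1.natAbs ≤ n := (le_max_left _ _).trans h
    have h2 : x.1.2.natAbs ≤ n := (le_max_right _ _).trans h
    simp only [Finset.mem_product, Finset.mem_Icc, Finset.mem_univ, and_true]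
    omega
  have hc := Finset.card_le_card hsub
  rw [Finset.card_product, Finset.card_product, Int.card_Icc, Finset.card_univ] at hc
  have e : ((n : ℤ) + 1 - -(n : ℤ)).toNat = 2 * n + 1 := by omega
  rw [e] at hc
  have h3 : (2 * n + 1) * (2 * n + 1) * Fintype.card C ≤ (3 * n) * (3 * n) * Fintype.card C := by
    gcongr <;> omega
  have h4 : (s.card : ℝ) ≤ ((3 * n) * (3 * n) * Fintype.card C : ℕ) := by
    exact_mod_cast hc.trans h3
  refine h4.trans (le_of_eq ?_)
  push_cast; ring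

/-- bounded displacement -/
def BddDisp (M : ℕ) (σ : Perm ((ℤ × ℤ) × C)) : Prop :=
  ∀ x, |((σ x).1 - x.1).1| ≤ M ∧ |((σ x).1 - x.1).2| ≤ M

theorem BddDisp.rad_le {M : ℕ} {σ : Perm ((ℤ × ℤ) × C)} (h : BddDisp M σ) (x : (ℤ × ℤ) × C) :
    rad (σ x) ≤ rad x + M ∧ rad x ≤ rad (σ x) + M := by
  obtain ⟨h1, h2⟩ := h x
  have a1 := abs_le.1 h1
  have a2 := abs_le.1 h2
  simp only [Prod.fst_sub, Prod.snd_sub] at a1 a2
  unfold rad
  constructor
  · apply max_le
    · have : x.1.1.natAbs ≤ max x.1.1.natAbs x.1.2.natAbs := le_max_left _ _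
      omega
    · have : x.1.2.natAbs ≤ max x.1.1.natAbs x.1.2.natAbs := le_max_right _ _
      omega
  · apply max_le
    · have : (σ x).1.1.natAbs ≤ max (σ x).1.1.natAbs (σ x).1.2.natAbs := le_max_left _ _
      omega
    · have : (σ x).1.2.natAbs ≤ max (σ x).1.1.natAbs (σ x).1.2.natAbs := le_max_right _ _
      omega

theorem BddDisp.inv {M : ℕ} {σ : Perm ((ℤ × ℤ) × C)} (h : BddDisp M σ) : BddDisp M σ⁻¹ := by
  intro x
  obtain ⟨h1, h2⟩ := h (σ⁻¹ x)
  have e : σ (σ⁻¹ x) = x := σ.apply_symm_apply x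
  rw [e] at h1 h2
  constructor
  · rw [← abs_neg]; simpa using h1
  · rw [← abs_neg]; simpa using h2

theorem BddDisp.mono {M M' : ℕ} {σ : Perm ((ℤ × ℤ) × C)} (h : BddDisp M σ) (hM : M ≤ M') :
    BddDisp M' σ := by
  intro x
  have hM' : (M : ℤ) ≤ M' := by exact_mod_cast hM
  exact ⟨(h x).1.trans hM', (h x).2.trans hM'⟩

theorem finite_rad_lt [Finite C] (n : ℕ) : {x : (ℤ × ℤ) × C | rad x < n}.Finite := by
  classical
  refine Set.Finite.subset (s := ((Set.Icc (-(n : ℤ)) n ×ˢ Set.Icc (-(n : ℤ)) n) ×ˢ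
    (Set.univ : Set C))) ?_ ?_
  · exact ((Set.finite_Icc _ _).prod (Set.finite_Icc _ _)).prod Set.finite_univ
  · intro x hx
    have h : rad x < n := hx
    unfold rad at h
    have h1 : x.1.1.natAbs < n := lt_of_le_of_lt (le_max_left _ _) h
    have h2 : x.1.2.natAbs < n := lt_of_le_of_lt (le_max_right _ _) h
    refine ⟨⟨⟨?_, ?_⟩, ⟨?_, ?_⟩⟩, Set.mem_univ _⟩ <;> omega

/-- the angle function -/
noncomputable def angle (C : Type*) [Finite C] (N K : ℕ) : ((ℤ × ℤ) × C) →₀ ℝ :=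
  Finsupp.onFinset (finite_rad_lt (C := C) (8 ^ K * N)).toFinset
    (fun x => if 0 < N then logProf N K (rad x) else 0) (by
      intro x hx
      rw [Set.Finite.mem_toFinset]
      by_contra h
      have h' : ¬ rad x < 8 ^ K * N := h
      apply hx
      split_ifs with hN
      · exact logProf_eq_zero hN (not_lt.1 h')
      · rfl)

theorem angle_apply [Finite C] {N K : ℕ} (hN : 0 < N) (x : (ℤ × ℤ) × C) :
    angle C N K x = logProf N K (rad x) := by
  unfold angle
  rw [Finsupp.onFinset_apply, if_pos hN]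

/-- **Random finite sets.** -/
theorem exists_random_finset [Finite C] (F : Finset (Perm ((ℤ × ℤ) × C)))
    (hF : ∀ σ ∈ F, ∃ M, BddDisp M σ) (D0 : Finset ((ℤ × ℤ) × C)) {ε : ℝ} (hε : 0 < ε) :
    ∃ p : Finset ((ℤ × ℤ) × C) →₀ ℝ, IsProb p ∧ (∀ D ∈ p.support, D0 ⊆ D) ∧
      ∀ σ ∈ F, l1 (p.mapDomain (Finset.map σ.toEmbedding) - p) < ε := by
  classical
  have := Fintype.ofFinite C
  -- common displacement bound
  obtain ⟨M, hM⟩ : ∃ M : ℕ, ∀ σ ∈ F, BddDisp M σ := by
    choose! m hm using hF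
    exact ⟨F.sup m, fun σ hσ => (hm σ hσ).mono (Finset.le_sup hσ)⟩
  set A : ℝ := 9 * Fintype.card C with hA
  have hA0 : 0 ≤ A := by positivity
  -- choose `N`
  let N : ℕ := 2 * M + 1 + D0.sup rad
  have hN : 0 < N := by omega
  have hMN : 2 * M ≤ N := by omega
  -- choose `K`
  obtain ⟨K, hK⟩ : ∃ K : ℕ, 4 * (9 * (π / 2) ^ 2 * A * (M:ℝ) ^ 2) / ε ^ 2 < K := exists_nat_gt _
  have hK0 : 0 < K := by
    have h1 : (0:ℝ) ≤ 4 * (9 * (π / 2) ^ 2 * A * (M:ℝ) ^ 2) / ε ^ 2 := by positivity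
    have : (0:ℝ) < K := lt_of_le_of_lt h1 hK
    exact_mod_cast this
  refine ⟨law (angle C N K), isProb_law _, ?_, ?_⟩
  · intro D hD x hx
    refine mem_of_mem_law_support hD ?_
    rw [angle_apply hN]
    refine logProf_eq hK0 ?_
    have : rad x ≤ D0.sup rad := Finset.le_sup (f := rad) hx
    omega
  · intro σ hσ
    have hσM := hM σ hσ
    rw [law_map]
    set s : Finset ((ℤ × ℤ) × C) := ((angle C N K).mapDomain σ).support ∪ (angle C N K).support with hs
    have hen := logProf_energy (Ω := (ℤ × ℤ) × C) rad A (fun n s hn hs => rad_ball n s hn hs)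
      hN hK0 hMN s (σ⁻¹ : Perm _) (fun ω _ => (hσM.inv.rad_le ω).2)
      (fun ω _ => (hσM.inv.rad_le ω).1)
    have h1 := l1_law_sub_le ((angle C N K).mapDomain σ) (angle C N K) s
      Finset.subset_union_left Finset.subset_union_right
    have e : ∀ j, (angle C N K).mapDomain σ j = logProf N K (rad ((σ⁻¹ : Perm _) j)) := by
      intro j
      have hj : j = σ ((σ⁻¹ : Perm _) j) := (σ.apply_symm_apply j).symm
      conv_lhs => rw [hj]
      rw [Finsupp.mapDomain_apply σ.injective, angle_apply hN]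
    have e2 : ∑ j ∈ s, ((angle C N K).mapDomain σ j - angle C N K j) ^ 2
        ≤ 9 * (π / 2) ^ 2 * A * (M:ℝ) ^ 2 / K := by
      refine le_trans (le_of_eq ?_) hen
      refine Finset.sum_congr rfl fun j _ => ?_
      rw [e, angle_apply hN]
    refine lt_of_le_of_lt (h1.trans (mul_le_mul_of_nonneg_left (Real.sqrt_le_sqrt e2)
      (by norm_num))) ?_
    have hKpos : (0:ℝ) < K := by exact_mod_cast hK0
    have h5 : 9 * (π / 2) ^ 2 * A * (M:ℝ) ^ 2 / K < (ε / 2) ^ 2 := by
      rw [div_lt_iff₀ hKpos]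
      rw [div_lt_iff₀ (by positivity)] at hK
      nlinarith [hK]
    have h6 := Real.sqrt_lt_sqrt (by positivity) h5
    rw [Real.sqrt_sq (by positivity)] at h6
    linarith

end

end Crest.Agent.R189
end

-- ▼ part R189/PerGp
section

/-!
# Row 189, M14 Step D: groups of doubly periodic permutations of `ℤ² × C` are amenable

* `Per w h C` : the permutations of `(ℤ × ℤ) × C` commuting with the translations by
  `(w i, h j)`; for `w, h ≠ 0` and `C` finite it is virtually abelian, hence `Amen`.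
* `amen_of_per` : a group with an injective hom to `Perm ((ℤ × ℤ) × C)` all of whose finite
  subsets land in some `Per w h C` is `Amen`.
-/

namespace Crest.Agent.R189.PerGp

open Crest.Agent.R189

variable {C : Type*}

/-- translation of the board -/
def tr (v : ℤ × ℤ) (x : (ℤ × ℤ) × C) : (ℤ × ℤ) × C := (x.1 + v, x.2)

@[simp] lemma tr_fst (v : ℤ × ℤ) (x : (ℤ × ℤ) × C) : (tr v x).1 = x.1 + v := rfl
@[simp] lemma tr_snd (v : ℤ × ℤ) (x : (ℤ × ℤ) × C) : (tr v x).2 = x.2 := rfl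

lemma tr_tr (v v' : ℤ × ℤ) (x : (ℤ × ℤ) × C) : tr v (tr v' x) = tr (v' + v) x := by
  ext <;> simp [tr, add_assoc]

/-- permutations commuting with the translations by `(w i, h j)` -/
def Per (w h : ℤ) (C : Type*) : Subgroup (Equiv.Perm ((ℤ × ℤ) × C)) where
  carrier := {π | ∀ (x : (ℤ × ℤ) × C) (i j : ℤ), π (tr (w * i, h * j) x) = tr (w * i, h * j) (π x)}
  mul_mem' := by
    intro a b ha hb x i j
    rw [Equiv.Perm.mul_apply, Equiv.Perm.mul_apply, hb, ha]
  one_mem' := by
    intro x i j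
    rfl
  inv_mem' := by
    intro a ha x i j
    have h1 := ha (a⁻¹ x) i j
    have e1 : a (a⁻¹ x) = x := a.apply_symm_apply x
    rw [e1] at h1
    rw [← h1]
    exact a.symm_apply_apply _

lemma mem_Per {w h : ℤ} {π : Equiv.Perm ((ℤ × ℤ) × C)} :
    π ∈ Per w h C ↔ ∀ (x : (ℤ × ℤ) × C) (i j : ℤ),
      π (tr (w * i, h * j) x) = tr (w * i, h * j) (π x) := Iff.rfl



/-- the finite quotient of the board -/
abbrev Quo (w h : ℤ) (C : Type*) := (ZMod w.natAbs × ZMod h.natAbs) × C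

/-- projection to the finite quotient -/
def quo (w h : ℤ) (x : (ℤ × ℤ) × C) : Quo w h C :=
  (((x.1.1 : ZMod w.natAbs), (x.1.2 : ZMod h.natAbs)), x.2)

lemma quo_surj (w h : ℤ) : Function.Surjective (quo w h : (ℤ × ℤ) × C → Quo w h C) := by
  rintro ⟨⟨a, b⟩, c⟩
  obtain ⟨x, rfl⟩ := ZMod.intCast_surjective a
  obtain ⟨y, rfl⟩ := ZMod.intCast_surjective b
  exact ⟨((x, y), c), rfl⟩

lemma quo_eq_iff {w h : ℤ} {x y : (ℤ × ℤ) × C} :
    quo w h x = quo w h y ↔ ∃ i j : ℤ, y = tr (w * i, h * j) x := by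
  constructor
  · intro H
    simp only [quo, Prod.mk.injEq] at H
    obtain ⟨⟨h1, h2⟩, h3⟩ := H
    rw [ZMod.intCast_eq_intCast_iff_dvd_sub] at h1 h2
    rw [Int.natAbs_dvd] at h1 h2
    obtain ⟨i, hi⟩ := h1
    obtain ⟨j, hj⟩ := h2
    refine ⟨i, j, ?_⟩
    ext
    · simp only [tr_fst, Prod.fst_add]; omega
    · simp only [tr_fst, Prod.snd_add]; omega
    · exact h3.symm
  · rintro ⟨i, j, rfl⟩
    simp only [quo, Prod.mk.injEq, tr_fst, tr_snd, Prod.fst_add, Prod.snd_add]
    refine ⟨⟨?_, ?_⟩, trivial⟩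
    · rw [ZMod.intCast_eq_intCast_iff_dvd_sub, Int.natAbs_dvd]
      exact ⟨i, by ring⟩
    · rw [ZMod.intCast_eq_intCast_iff_dvd_sub, Int.natAbs_dvd]
      exact ⟨j, by ring⟩

lemma quo_congr {w h : ℤ} {π : Equiv.Perm ((ℤ × ℤ) × C)} (hπ : π ∈ Per w h C)
    {x y : (ℤ × ℤ) × C} (H : quo w h x = quo w h y) : quo w h (π x) = quo w h (π y) := by
  rw [quo_eq_iff] at H ⊢
  obtain ⟨i, j, rfl⟩ := H
  exact ⟨i, j, hπ x i j⟩

/-- induced map on the quotient -/
noncomputable def qmap (w h : ℤ) (π : Equiv.Perm ((ℤ × ℤ) × C)) (z : Quo w h C) : Quo w h C :=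
  quo w h (π (Function.surjInv (quo_surj w h) z))

lemma qmap_quo {w h : ℤ} {π : Equiv.Perm ((ℤ × ℤ) × C)} (hπ : π ∈ Per w h C)
    (x : (ℤ × ℤ) × C) : qmap w h π (quo w h x) = quo w h (π x) :=
  quo_congr hπ (Function.surjInv_eq (quo_surj w h) _)

/-- the induced permutation of the finite quotient -/
noncomputable def qhom (w h : ℤ) (C : Type*) : Per w h C →* Equiv.Perm (Quo w h C) where
  toFun π :=
    { toFun := qmap w h π.1
      invFun := qmap w h (π.1)⁻¹
      left_inv := by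
        intro z
        obtain ⟨x, rfl⟩ := quo_surj w h z
        rw [qmap_quo π.2, qmap_quo ((Per w h C).inv_mem π.2)]
        exact congrArg (quo w h) (π.1.symm_apply_apply x)
      right_inv := by
        intro z
        obtain ⟨x, rfl⟩ := quo_surj w h z
        rw [qmap_quo ((Per w h C).inv_mem π.2), qmap_quo π.2]
        exact congrArg (quo w h) (π.1.apply_symm_apply x) }
  map_one' := by
    ext1 z
    obtain ⟨x, rfl⟩ := quo_surj w h z
    exact qmap_quo (Per w h C).one_mem x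
  map_mul' := by
    intro a b
    ext1 z
    obtain ⟨x, rfl⟩ := quo_surj w h z
    show qmap w h (a * b : Per w h C).1 (quo w h x) = qmap w h a.1 (qmap w h b.1 (quo w h x))
    rw [qmap_quo (a * b).2, qmap_quo b.2, qmap_quo a.2]
    rfl

lemma qhom_quo {w h : ℤ} (π : Per w h C) (x : (ℤ × ℤ) × C) :
    qhom w h C π (quo w h x) = quo w h (π.1 x) := qmap_quo π.2 x

/-- elements of the kernel move every point by a lattice vector -/
lemma ker_spec {w h : ℤ} {π : Per w h C} (hπ : π ∈ (qhom w h C).ker) (x : (ℤ × ℤ) × C) :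
    ∃ i j : ℤ, π.1 x = tr (w * i, h * j) x := by
  have h1 : qhom w h C π (quo w h x) = quo w h x := by
    rw [MonoidHom.mem_ker] at hπ
    rw [hπ]
    rfl
  rw [qhom_quo] at h1
  exact quo_eq_iff.1 h1.symm

lemma ker_comm {w h : ℤ} (a b : Per w h C) (ha : a ∈ (qhom w h C).ker)
    (hb : b ∈ (qhom w h C).ker) : a * b = b * a := by
  ext1
  refine Equiv.ext (fun x => ?_)
  show a.1 (b.1 x) = b.1 (a.1 x)
  obtain ⟨i, j, h1⟩ := ker_spec ha x
  obtain ⟨k, l, h2⟩ := ker_spec hb x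
  rw [h1, h2, a.2 x k l, b.2 x i j, h1, h2, tr_tr, tr_tr, add_comm]

/-- groups of doubly periodic permutations are amenable (virtually abelian) -/
theorem amen_Per [Finite C] {w h : ℤ} (hw : w ≠ 0) (hh : h ≠ 0) : Amen (Per w h C) := by
  have : NeZero w.natAbs := ⟨Int.natAbs_ne_zero.2 hw⟩
  have : NeZero h.natAbs := ⟨Int.natAbs_ne_zero.2 hh⟩
  have : Finite (Equiv.Perm (Quo w h C)) := inferInstance
  refine amen_of_ker (qhom w h C) amen_finite ?_
  let _ : CommGroup (qhom w h C).ker :=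
    { (inferInstance : Group (qhom w h C).ker) with
      mul_comm := fun a b => Subtype.ext (ker_comm a.1 b.1 a.2 b.2) }
  exact amen_comm (G := (qhom w h C).ker)

variable {K : Type*} [Group K]

/-- STEP D, finite subsets form -/
theorem amen_of_per [Finite C] (ρ : K →* Equiv.Perm ((ℤ × ℤ) × C)) (hρ : Function.Injective ρ)
    (H : ∀ F : Finset K, ∃ w h : ℤ, w ≠ 0 ∧ h ≠ 0 ∧ ∀ g ∈ F, ρ g ∈ Per w h C) : Amen K := by
  refine amen_of_local (fun F => ?_)
  obtain ⟨w, h, hw, hh, hF⟩ := H F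
  refine ⟨(Per w h C).comap ρ, fun g hg => hF g hg, ?_⟩
  refine Amen.of_inj (amen_Per (C := C) hw hh)
    ((ρ.comp (Subgroup.subtype _)).codRestrict (Per w h C) (fun g => g.2)) ?_
  intro a b hab
  have h1 : ρ a.1 = ρ b.1 := congrArg Subtype.val hab
  exact Subtype.ext (hρ h1)



end Crest.Agent.R189.PerGp
end

-- ▼ part R189/StepC

/-!
Row 189, M14: step C (removing the finite difference) and step D, i.e. the abstract theorem
`AmenData.amen`.
-/

set_option autoImplicit false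
set_option linter.unusedSectionVars false

namespace Crest.Agent.R189

open Equiv

namespace AmenData

variable {G Star Lab Tau A C : Type*} [Group G] (D : AmenData G Star Lab Tau A C)

theorem bddDisp (g : G) (s : Star) : ∃ M, BddDisp M (D.ρ s g) := by
  obtain ⟨M, hM⟩ := D.dis g
  exact ⟨M, fun x => hM s x.1 x.2⟩

/-- one step of step C -/
theorem stepC_one [Nonempty Tau] [Finite C]
    (s0 s : Star)
    (H : Subgroup G) (hH : H ≤ D.G2) (hA : Amen ↥(H ⊓ (D.ρ s0).eqLocus (D.ρ s))) : Amen ↥H := by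
  classical
  refine amen_finDiff ((D.ρ s0).comp H.subtype) ((D.ρ s).comp H.subtype) ?_ ?_ ?_
  · intro g
    exact D.finite_diff (hH g.2) s0 s
  · intro F E ε hε
    obtain ⟨p, hp, hpD, hpF⟩ := exists_random_finset (F.image (fun g : H => D.ρ s0 (g : G)))
      (by
        intro σ hσ
        obtain ⟨g, _, rfl⟩ := Finset.mem_image.1 hσ
        exact D.bddDisp _ _) E hε
    exact ⟨p, hp, hpD, fun g hg => hpF _ (Finset.mem_image_of_mem _ hg)⟩
  · refine Amen.of_inj hA ⟨⟨fun g => ⟨((g : H) : G), ⟨(g : H).2, g.2⟩⟩, rfl⟩, fun _ _ => rfl⟩ ?_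
    intro a b hab
    have := congrArg (fun x : (H ⊓ (D.ρ s0).eqLocus (D.ρ s) : Subgroup G) => (x : G)) hab
    exact Subtype.ext (Subtype.ext this)

theorem stepC [Nonempty Tau] [Finite C] [Finite Star]
    (s0 : Star)
    (hA : Amen ↥(D.G3 s0)) : Amen ↥D.G2 := by
  classical
  have := Fintype.ofFinite Star
  have key : ∀ (T : Finset Star) (H : Subgroup G), H ≤ D.G2 →
      Amen ↥(H ⊓ T.inf (fun s => (D.ρ s0).eqLocus (D.ρ s))) → Amen ↥H := by
    intro T
    induction T using Finset.induction_on with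
    | empty => intro H _ h; rwa [Finset.inf_empty, inf_top_eq] at h
    | insert a T ha ih =>
      intro H hH h
      rw [Finset.inf_insert, ← inf_assoc] at h
      exact D.stepC_one s0 a H hH (ih _ (inf_le_left.trans hH) h)
  refine key Finset.univ _ le_rfl ?_
  have e : (D.G2 ⊓ (Finset.univ : Finset Star).inf (fun s => (D.ρ s0).eqLocus (D.ρ s)) : Subgroup G)
      = D.G3 s0 := by
    ext g
    simp only [Finset.inf_univ_eq_iInf, Subgroup.mem_inf, Subgroup.mem_iInf]
    constructor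
    · rintro ⟨h1, h2⟩
      exact ⟨h1, fun s => (h2 s).symm⟩
    · rintro ⟨h1, h2⟩
      exact ⟨h1, fun s => (h2 s).symm⟩
  rw [e]
  exact hA

/-- step D -/
theorem amen_G3 [Finite C] (s0 : Star) : Amen ↥(D.G3 s0) := by
  refine PerGp.amen_of_per ((D.ρ s0).comp (D.G3 s0).subtype) ?_ ?_
  · rw [← MonoidHom.ker_eq_bot_iff, Subgroup.eq_bot_iff_forall]
    intro g hg
    have hg' : D.ρ s0 (g : G) = 1 := hg
    refine Subtype.ext (D.inj _ fun s => ?_)
    rw [← hg']
    exact g.2.2 s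
  · intro F
    classical
    obtain ⟨w, h, hw, hh, hF⟩ := D.G3_periodic s0 (F.image (fun g : D.G3 s0 => (g : G))) (by
      intro g hg
      obtain ⟨g', _, rfl⟩ := Finset.mem_image.1 hg
      exact g'.2)
    refine ⟨w, h, hw.ne', hh.ne', fun g hg => ?_⟩
    rw [PerGp.mem_Per]
    rintro ⟨p, c⟩ i j
    exact hF _ (Finset.mem_image_of_mem _ hg) i j p c

include D in
/-- **Abstract amenability theorem.** -/
theorem amen [Nonempty Star] [Nonempty Tau] [Finite C] [Finite Star] :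
    Amen G := by
  obtain ⟨s0⟩ := ‹Nonempty Star›
  exact D.amen_of_G2 (D.stepC s0 (D.amen_G3 s0))

end AmenData

end Crest.Agent.R189
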