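import Crest.Agent.R189.XDef

/-!
Row 189 (S0289), helper435.  Coarse-graining of the explicit configurations.

`PW a j = ∏_{i<j} 3(a+2i)`: at level `a` the Q lines (rows) of order `≥ a+2j` are the multiples of
`PW a j`, the P lines (columns) of order `≥ a+1+2j` are the multiples of `PW (a+1) j`.
-/

set_option autoImplicit false

namespace Crest.Agent.R189

/-- `∏_{i<j} 3(a+2i)` -/
def PW (a : ℕ) : ℕ → ℕ
  | 0 => 1
  | j + 1 => 3 * a * PW (a + 2) j
termination_by j => j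

@[simp] theorem PW_zero (a : ℕ) : PW a 0 = 1 := by rw [PW]
theorem PW_succ (a j : ℕ) : PW a (j + 1) = 3 * a * PW (a + 2) j := by rw [PW]

theorem PW_succ' (a j : ℕ) : PW a (j + 1) = PW a j * (3 * (a + 2 * j)) := by
  induction j generalizing a with
  | zero => rw [PW_succ]; simp
  | succ j ih => rw [PW_succ, ih (a + 2), PW_succ a j]; ring

theorem PW_one (a : ℕ) : PW a 1 = 3 * a := by rw [PW_succ, PW_zero, mul_one]

theorem PW_pos {a : ℕ} (ha : 1 ≤ a) (j : ℕ) : 0 < PW a j := by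
  induction j generalizing a with
  | zero => simp
  | succ j ih => rw [PW_succ]; have := ih (a := a + 2) (by omega); positivity

theorem PW_cast_pos {a : ℕ} (ha : 1 ≤ a) (j : ℕ) : (0 : ℤ) < ((PW a j : ℕ) : ℤ) := by
  exact_mod_cast PW_pos ha j


/-! ### congruences -/

theorem modEq_of_dvd {n N : ℕ} {x y : ℤ} (h : n ∣ N) (hxy : x ≡ y [ZMOD (N : ℤ)]) :
    x ≡ y [ZMOD (n : ℤ)] :=
  hxy.of_dvd (by exact_mod_cast h)

theorem dg_congr_mod {n N : ℕ} {x y : ℤ} (h : n ∣ N) (hxy : x ≡ y [ZMOD (N : ℤ)]) :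
    dg n x = dg n y :=
  dg_eq_of_emod (modEq_of_dvd h hxy)

theorem dvd_congr {n N : ℕ} {x y : ℤ} (h : n ∣ N) (hxy : x ≡ y [ZMOD (N : ℤ)]) :
    (n : ℤ) ∣ x ↔ (n : ℤ) ∣ y :=
  (modEq_of_dvd h hxy).dvd_iff

/-- congruence passes to quotients -/
theorem ediv_modEq {n N : ℕ} (hn : 0 < n) {x y : ℤ} (hxy : x ≡ y [ZMOD ((n * N : ℕ) : ℤ)]) :
    x / (n : ℤ) ≡ y / (n : ℤ) [ZMOD (N : ℤ)] := by
  obtain ⟨k, hk⟩ := hxy.dvd
  have hy : y = x + n * (N * k) := by push_cast at hk; linarith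
  have hn' : (n : ℤ) ≠ 0 := by exact_mod_cast hn.ne'
  rw [hy, Int.add_mul_ediv_left _ _ hn', Int.ModEq]
  exact (Int.add_mul_emod_self_left _ _ _).symm

/-- multiplying by a positive factor -/
theorem mul_modEq_mul_iff {n N : ℕ} (hn : 0 < n) {x y : ℤ} :
    (n : ℤ) * x ≡ n * y [ZMOD ((n * N : ℕ) : ℤ)] ↔ x ≡ y [ZMOD (N : ℤ)] := by
  rw [Int.modEq_iff_dvd, Int.modEq_iff_dvd, ← mul_sub]
  push_cast
  exact mul_dvd_mul_iff_left (by exact_mod_cast hn.ne')

theorem mul_dvd_mul_cast_iff {n N : ℕ} (hn : 0 < n) {x : ℤ} :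
    ((n * N : ℕ) : ℤ) ∣ (n : ℤ) * x ↔ (N : ℤ) ∣ x := by
  push_cast
  exact mul_dvd_mul_iff_left (by exact_mod_cast hn.ne')


theorem ediv_ediv_cast (y : ℤ) (n N : ℕ) : y / (n : ℤ) / (N : ℤ) = y / ((n * N : ℕ) : ℤ) := by
  rw [Int.ediv_ediv_of_nonneg (by positivity)]; push_cast; rfl

/-! ### coarse-graining of the vertical labels -/

theorem V_coarse {a : ℕ} (ha : 1 ≤ a) (s : Star) (j : ℕ) (x y : ℤ) :
    V a s (((PW (a + 1) j : ℕ) : ℤ) * x) y = V (a + 2 * j) s x (y / ((PW a j : ℕ) : ℤ)) := by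
  induction j generalizing a x y with
  | zero => simp
  | succ j ih =>
    have e : ((PW (a + 1) (j + 1) : ℕ) : ℤ) * x
        = ((3 * (a + 1) : ℕ) : ℤ) * (((PW (a + 2 + 1) j : ℕ) : ℤ) * x) := by
      rw [PW_succ]; push_cast; ring
    rw [e, V_mul ha, ih (a := a + 2) (by omega), ediv_ediv_cast, ← PW_succ]
    congr 1
    ring

/-- if `x` is not a line of order `≥ a+1+2j` then the label only depends on
`x mod PW (a+1) j` and `y mod PW a (j+1)` -/
theorem V_low {a : ℕ} (ha : 1 ≤ a) (s s' : Star) {j : ℕ} {x x' y y' : ℤ}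
    (hx : ¬ ((PW (a + 1) j : ℕ) : ℤ) ∣ x) (hxx : x ≡ x' [ZMOD ((PW (a + 1) j : ℕ) : ℤ)])
    (hyy : y ≡ y' [ZMOD ((PW a (j + 1) : ℕ) : ℤ)]) : V a s x y = V a s' x' y' := by
  induction j generalizing a x x' y y' with
  | zero => simp at hx
  | succ j ih =>
    have hd : dg (3 * (a + 1)) x = dg (3 * (a + 1)) x' :=
      dg_congr_mod (by rw [PW_succ]; exact Dvd.intro _ rfl) hxx
    have hyy' : y / ((3 * a : ℕ) : ℤ) ≡ y' / ((3 * a : ℕ) : ℤ) [ZMOD ((PW (a + 2) (j + 1) : ℕ) : ℤ)] := by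
      apply ediv_modEq (by omega)
      rwa [← PW_succ]
    by_cases h0 : dg (3 * (a + 1)) x = 0
    · obtain ⟨k, rfl⟩ := (dg_eq_zero (by omega)).1 h0
      obtain ⟨k', rfl⟩ := (dg_eq_zero (by omega)).1 (hd ▸ h0)
      rw [V_mul ha, V_mul ha]
      have e : PW (a + 1) (j + 1) = 3 * (a + 1) * PW (a + 2 + 1) j := PW_succ _ _
      rw [e] at hx hxx
      refine ih (a := a + 2) (by omega) ?_ ?_ hyy'
      · rwa [mul_dvd_mul_cast_iff (by omega)] at hx
      · rwa [mul_modEq_mul_iff (by omega)] at hxx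
    · rw [V_of_ne _ _ h0, V_of_ne _ _ (hd ▸ h0), ← hd]
      have e1 : dg (3 * (a + 2)) (y / ((3 * a : ℕ) : ℤ)) = dg (3 * (a + 2)) (y' / ((3 * a : ℕ) : ℤ)) :=
        dg_congr_mod (by rw [PW_succ]; exact Dvd.intro _ rfl) hyy'
      have e2 : dg (3 * a) y = dg (3 * a) y' :=
        dg_congr_mod (by rw [PW_succ]; exact Dvd.intro _ rfl) hyy
      rw [e1, e2]

theorem lt_PW {a : ℕ} (ha : 1 ≤ a) (j : ℕ) : j < PW a j := by
  induction j with
  | zero => simp
  | succ j ih =>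
    rw [PW_succ']
    have : 3 ≤ 3 * (a + 2 * j) := by omega
    nlinarith

theorem exists_not_dvd {a : ℕ} (ha : 1 ≤ a) {x : ℤ} (hx : x ≠ 0) :
    ∃ j, ¬ ((PW a j : ℕ) : ℤ) ∣ x := by
  refine ⟨x.natAbs, fun h => ?_⟩
  have h1 := Int.natAbs_dvd_natAbs.2 h
  rw [Int.natAbs_natCast] at h1
  have h2 := Nat.le_of_dvd (Int.natAbs_pos.2 hx) h1
  have := lt_PW ha x.natAbs
  omega

/-- at `x ≠ 0` the label does not depend on the corner star -/
theorem V_indep {a : ℕ} (ha : 1 ≤ a) (s s' : Star) {x : ℤ} (y : ℤ) (hx : x ≠ 0) :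
    V a s x y = V a s' x y := by
  obtain ⟨j, hj⟩ := exists_not_dvd (a := a + 1) (by omega) hx
  exact V_low ha s s' hj rfl rfl

/-! ### domination -/

theorem dom_true {a : ℕ} (ha : 1 ≤ a) (s : Star) {j : ℕ} {x y : ℤ}
    (hx : ((PW (a + 1) j : ℕ) : ℤ) ∣ x) (hy : ¬ ((PW a (j + 1) : ℕ) : ℤ) ∣ y) :
    dom a s x y = true := by
  induction j generalizing a x y with
  | zero =>
    apply dom_of_ne
    rw [Ne, dg_eq_zero (by omega)]
    rwa [PW_one] at hy
  | succ j ih =>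
    by_cases h0 : dg (3 * a) y = 0
    · obtain ⟨y, rfl⟩ := (dg_eq_zero (by omega)).1 h0
      rw [PW_succ] at hx
      obtain ⟨x, rfl⟩ : ((3 * (a + 1) : ℕ) : ℤ) ∣ x :=
        dvd_trans (by exact_mod_cast Dvd.intro _ rfl) hx
      rw [dom_mul_mul ha]
      refine ih (a := a + 2) (by omega) ?_ ?_
      · rwa [mul_dvd_mul_cast_iff (by omega)] at hx
      · rwa [PW_succ, mul_dvd_mul_cast_iff (by omega)] at hy
    · exact dom_of_ne _ _ h0

theorem dom_false {a : ℕ} (ha : 1 ≤ a) (s : Star) {j : ℕ} {x y : ℤ}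
    (hx : ¬ ((PW (a + 1) j : ℕ) : ℤ) ∣ x) (hy : ((PW a j : ℕ) : ℤ) ∣ y) :
    dom a s x y = false := by
  induction j generalizing a x y with
  | zero => simp at hx
  | succ j ih =>
    rw [PW_succ] at hy
    obtain ⟨y, rfl⟩ : ((3 * a : ℕ) : ℤ) ∣ y :=
      dvd_trans (by exact_mod_cast Dvd.intro _ rfl) hy
    by_cases h0 : dg (3 * (a + 1)) x = 0
    · obtain ⟨x, rfl⟩ := (dg_eq_zero (by omega)).1 h0
      rw [dom_mul_mul ha]
      refine ih (a := a + 2) (by omega) ?_ ?_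
      · rwa [PW_succ, mul_dvd_mul_cast_iff (by omega)] at hx
      · rwa [mul_dvd_mul_cast_iff (by omega)] at hy
    · exact dom_mul_of_ne ha _ _ h0

/-- if `(x,y)` is not a crossing of lines of orders `≥ a+1+2j`, `≥ a+2j` then `dom` only depends
on the residues mod `PW (a+1) j`, `PW a j` -/
theorem dom_low {a : ℕ} (ha : 1 ≤ a) (s s' : Star) {j : ℕ} {x x' y y' : ℤ}
    (h : ¬ (((PW (a + 1) j : ℕ) : ℤ) ∣ x ∧ ((PW a j : ℕ) : ℤ) ∣ y))
    (hxx : x ≡ x' [ZMOD ((PW (a + 1) j : ℕ) : ℤ)])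
    (hyy : y ≡ y' [ZMOD ((PW a j : ℕ) : ℤ)]) : dom a s x y = dom a s' x' y' := by
  induction j generalizing a x x' y y' with
  | zero => simp at h
  | succ j ih =>
    have hd : dg (3 * (a + 1)) x = dg (3 * (a + 1)) x' :=
      dg_congr_mod (by rw [PW_succ]; exact Dvd.intro _ rfl) hxx
    have hd' : dg (3 * a) y = dg (3 * a) y' :=
      dg_congr_mod (by rw [PW_succ]; exact Dvd.intro _ rfl) hyy
    by_cases h0 : dg (3 * a) y = 0
    · obtain ⟨l, rfl⟩ := (dg_eq_zero (by omega)).1 h0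
      obtain ⟨l', rfl⟩ := (dg_eq_zero (by omega)).1 (hd' ▸ h0)
      by_cases h1 : dg (3 * (a + 1)) x = 0
      · obtain ⟨k, rfl⟩ := (dg_eq_zero (by omega)).1 h1
        obtain ⟨k', rfl⟩ := (dg_eq_zero (by omega)).1 (hd ▸ h1)
        rw [dom_mul_mul ha, dom_mul_mul ha]
        have e : PW (a + 1) (j + 1) = 3 * (a + 1) * PW (a + 2 + 1) j := PW_succ _ _
        rw [e, PW_succ a] at h
        rw [e, mul_modEq_mul_iff (by omega)] at hxx
        rw [PW_succ, mul_modEq_mul_iff (by omega)] at hyy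
        rw [mul_dvd_mul_cast_iff (by omega), mul_dvd_mul_cast_iff (by omega)] at h
        exact ih (a := a + 2) (by omega) h hxx hyy
      · rw [dom_mul_of_ne ha _ _ h1, dom_mul_of_ne ha _ _ (hd ▸ h1)]
    · rw [dom_of_ne _ _ h0, dom_of_ne _ _ (hd' ▸ h0)]

/-- `dom` does not depend on the corner star away from the corner -/
theorem dom_indep {a : ℕ} (ha : 1 ≤ a) (s s' : Star) {x y : ℤ} (h : x ≠ 0 ∨ y ≠ 0) :
    dom a s x y = dom a s' x y := by
  rcases h with h | h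
  · obtain ⟨j, hj⟩ := exists_not_dvd (a := a + 1) (by omega) h
    exact dom_low ha s s' (j := j) (fun h => hj h.1) rfl rfl
  · obtain ⟨j, hj⟩ := exists_not_dvd (a := a) ha h
    exact dom_low ha s s' (j := j) (fun h => hj h.2) rfl rfl

/-! ### horizontal half edges -/

theorem Hf_of_dg_ne {a : ℕ} (s : Star) (x : ℤ) {y : ℤ} (h : dg (3 * a) y ≠ 0) :
    Hf a s x y = ⟨tauOf a (dg (3 * a) y), state a (dg (3 * a) y) (dg (3 * (a + 1)) x), .A⟩ := by
  rw [Hf, if_neg h]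

theorem Hb_of_dg_ne {a : ℕ} (s : Star) (x : ℤ) {y : ℤ} (h : dg (3 * a) y ≠ 0) :
    Hb a s x y = ⟨tauOf a (dg (3 * a) y), state a (dg (3 * a) y) (dg (3 * (a + 1)) (x - 1)), .B⟩ := by
  rw [Hb, if_neg h]

/-- a row which is not of order `≥ a+2(j+1)`: the half edges only depend on `y mod PW a (j+1)` and
`x mod PW (a+1) (j+1)` -/
theorem Hf_low {a : ℕ} (ha : 1 ≤ a) (s s' : Star) {j : ℕ} {x x' y y' : ℤ}
    (hy : ¬ ((PW a j : ℕ) : ℤ) ∣ y) (hxx : x ≡ x' [ZMOD ((PW (a + 1) j : ℕ) : ℤ)])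
    (hyy : y ≡ y' [ZMOD ((PW a j : ℕ) : ℤ)]) : Hf a s x y = Hf a s' x' y' := by
  cases j with
  | zero => simp at hy
  | succ j =>
    have hd' : dg (3 * a) y = dg (3 * a) y' :=
      dg_congr_mod (by rw [PW_succ]; exact Dvd.intro _ rfl) hyy
    by_cases h0 : dg (3 * a) y = 0
    · obtain ⟨l, rfl⟩ := (dg_eq_zero (by omega)).1 h0
      obtain ⟨l', rfl⟩ := (dg_eq_zero (by omega)).1 (hd' ▸ h0)
      rw [Hf_mul ha, Hf_mul ha]
      rw [PW_succ, mul_modEq_mul_iff (by omega)] at hyy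
      rw [PW_succ, mul_dvd_mul_cast_iff (by omega)] at hy
      exact V_low (a := a + 1) (by omega) _ _ (j := j) hy hyy hxx
    · rw [Hf_of_dg_ne _ _ h0, Hf_of_dg_ne _ _ (hd' ▸ h0), ← hd']
      have e : dg (3 * (a + 1)) x = dg (3 * (a + 1)) x' :=
        dg_congr_mod (by rw [PW_succ]; exact Dvd.intro _ rfl) hxx
      rw [e]

theorem Hb_low {a : ℕ} (ha : 1 ≤ a) (s s' : Star) {j : ℕ} {x x' y y' : ℤ}
    (hy : ¬ ((PW a j : ℕ) : ℤ) ∣ y) (hxx : x ≡ x' [ZMOD ((PW (a + 1) j : ℕ) : ℤ)])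
    (hyy : y ≡ y' [ZMOD ((PW a j : ℕ) : ℤ)]) : Hb a s x y = Hb a s' x' y' := by
  have hxx' : x - 1 ≡ x' - 1 [ZMOD ((PW (a + 1) j : ℕ) : ℤ)] := hxx.sub_right 1
  cases j with
  | zero => simp at hy
  | succ j =>
    have hd' : dg (3 * a) y = dg (3 * a) y' :=
      dg_congr_mod (by rw [PW_succ]; exact Dvd.intro _ rfl) hyy
    by_cases h0 : dg (3 * a) y = 0
    · obtain ⟨l, rfl⟩ := (dg_eq_zero (by omega)).1 h0
      obtain ⟨l', rfl⟩ := (dg_eq_zero (by omega)).1 (hd' ▸ h0)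
      rw [Hb_mul ha, Hb_mul ha]
      rw [PW_succ, mul_modEq_mul_iff (by omega)] at hyy
      rw [PW_succ, mul_dvd_mul_cast_iff (by omega)] at hy
      exact V_low (a := a + 1) (by omega) _ _ (j := j) hy hyy hxx'
    · rw [Hb_of_dg_ne _ _ h0, Hb_of_dg_ne _ _ (hd' ▸ h0), ← hd']
      have e : dg (3 * (a + 1)) (x - 1) = dg (3 * (a + 1)) (x' - 1) :=
        dg_congr_mod (by rw [PW_succ]; exact Dvd.intro _ rfl) hxx'
      rw [e]

theorem Hf_indep {a : ℕ} (ha : 1 ≤ a) (s s' : Star) (x : ℤ) {y : ℤ} (hy : y ≠ 0) :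
    Hf a s x y = Hf a s' x y := by
  obtain ⟨j, hj⟩ := exists_not_dvd (a := a) ha hy
  exact Hf_low ha s s' hj rfl rfl

theorem Hb_indep {a : ℕ} (ha : 1 ≤ a) (s s' : Star) (x : ℤ) {y : ℤ} (hy : y ≠ 0) :
    Hb a s x y = Hb a s' x y := by
  obtain ⟨j, hj⟩ := exists_not_dvd (a := a) ha hy
  exact Hb_low ha s s' hj rfl rfl

/-- the row through the corner -/
theorem Hf_zero_right (a : ℕ) (s : Star) (x : ℤ) : Hf a s x 0 = if 0 ≤ x then s.Qf else s.Qb := by
  rw [Hf, if_pos (by simp [dg])]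
  rw [Int.zero_ediv, V_zero]
  rfl

theorem Hb_zero_right (a : ℕ) (s : Star) (x : ℤ) : Hb a s x 0 = if 1 ≤ x then s.Qf else s.Qb := by
  rw [Hb, if_pos (by simp [dg])]
  rw [Int.zero_ediv, V_zero]
  have : (0 ≤ x - 1) ↔ 1 ≤ x := by omega
  simp only [this]
  rfl

/-! ### stars -/

theorem RStar.eq_of_fields {σ τ : RStar} (h0 : σ.domP = τ.domP) (h1 : σ.Pb = τ.Pb) (h2 : σ.Pf = τ.Pf)
    (h3 : σ.Qb = τ.Qb) (h4 : σ.Qf = τ.Qf) : σ = τ := by
  cases σ; cases τ; simp_all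

/-- (F0) -/
theorem rstar_indep {a : ℕ} (ha : 1 ≤ a) (s s' : Star) {x y : ℤ} (hx : x ≠ 0) (hy : y ≠ 0) :
    rstar a s x y = rstar a s' x y := by
  apply RStar.eq_of_fields
  · exact dom_indep ha s s' (Or.inl hx)
  · exact V_indep ha s s' _ hx
  · exact V_indep ha s s' _ hx
  · exact Hb_indep ha s s' _ hy
  · exact Hf_indep ha s s' _ hy

/-- (F1), upper half of the P line through the corner -/
theorem rstar_zero_of_pos {a : ℕ} (ha : 1 ≤ a) {s s' : Star} (h : s.Pf = s'.Pf) {y : ℤ}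
    (hy : 0 < y) : rstar a s 0 y = rstar a s' 0 y := by
  apply RStar.eq_of_fields
  · exact dom_indep ha s s' (Or.inr hy.ne')
  · simp only [rstar]; rw [V_zero, V_zero, if_pos (by omega), if_pos (by omega), h]
  · simp only [rstar]; rw [V_zero, V_zero, if_pos (by omega), if_pos (by omega), h]
  · exact Hb_indep ha s s' _ hy.ne'
  · exact Hf_indep ha s s' _ hy.ne'

/-- (F1), lower half of the P line through the corner -/
theorem rstar_zero_of_neg {a : ℕ} (ha : 1 ≤ a) {s s' : Star} (h : s.Pb = s'.Pb) {y : ℤ}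
    (hy : y < 0) : rstar a s 0 y = rstar a s' 0 y := by
  apply RStar.eq_of_fields
  · exact dom_indep ha s s' (Or.inr hy.ne)
  · simp only [rstar]; rw [V_zero, V_zero, if_neg (by omega), if_neg (by omega), h]
  · simp only [rstar]; rw [V_zero, V_zero, if_neg (by omega), if_neg (by omega), h]
  · exact Hb_indep ha s s' _ hy.ne
  · exact Hf_indep ha s s' _ hy.ne

/-- (F2), right half of the Q line through the corner -/
theorem rstar_zero_right_of_pos {a : ℕ} (ha : 1 ≤ a) {s s' : Star} (h : s.Qf = s'.Qf) {x : ℤ}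
    (hx : 0 < x) : rstar a s x 0 = rstar a s' x 0 := by
  apply RStar.eq_of_fields
  · exact dom_indep ha s s' (Or.inl hx.ne')
  · exact V_indep ha s s' _ hx.ne'
  · exact V_indep ha s s' _ hx.ne'
  · simp only [rstar]; rw [Hb_zero_right, Hb_zero_right, if_pos (by omega), if_pos (by omega), h]
  · simp only [rstar]; rw [Hf_zero_right, Hf_zero_right, if_pos (by omega), if_pos (by omega), h]

/-- (F2), left half of the Q line through the corner -/
theorem rstar_zero_right_of_neg {a : ℕ} (ha : 1 ≤ a) {s s' : Star} (h : s.Qb = s'.Qb) {x : ℤ}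
    (hx : x < 0) : rstar a s x 0 = rstar a s' x 0 := by
  apply RStar.eq_of_fields
  · exact dom_indep ha s s' (Or.inl hx.ne)
  · exact V_indep ha s s' _ hx.ne
  · exact V_indep ha s s' _ hx.ne
  · simp only [rstar]; rw [Hb_zero_right, Hb_zero_right, if_neg (by omega), if_neg (by omega), h]
  · simp only [rstar]; rw [Hf_zero_right, Hf_zero_right, if_neg (by omega), if_neg (by omega), h]



end Crest.Agent.R189
private theorem rz_30b2236f90 : type_of% @_root_.Crest.Agent.R189.PW.eq_1 := @_root_.Crest.Agent.R189.PW.eq_1 -- L15
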