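import Mathlib
import Crest.Prelude.Def_Amenable
import Crest.Agent.R189.Amen
import Crest.Agent.R189.StripLoc
import Crest.Agent.R189.FinDiff
import Crest.Agent.R189.AmenMain
import Crest.Agent.R189.StripD
import Crest.Agent.R189.Bern_Mg
import Crest.Agent.R189.AmenGp_Mg
import Crest.Agent.R189.SysStrip
import Crest.Agent.R189.StepC
import Crest.Agent.R189.HierGeo
import Crest.Agent.R189.SysCoarse
import Crest.Agent.R189.XOK
import Crest.Agent.R189.StripDefs
import Crest.Agent.R189.XMin_Mg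
import Crest.Agent.R189.StarOf

-- ▼ part R189/AmenFin
section

/-!
# Row 189: `Amen G` (Reiter form) implies `Crest.GroupTheory.Amenable G`.
-/

open scoped Pointwise ENNReal

namespace Crest.Agent.R189

section fin
variable {G : Type*} [Group G]

open Classical in
/-- measure of a set for a finitely supported function -/
noncomputable def pm {S : Type*} (p : S →₀ ℝ) (s : Set S) : ℝ := ∑ x ∈ p.support with x ∈ s, p x

open Classical in
lemma pm_eq {S : Type*} {p : S →₀ ℝ} {F : Finset S} (h : p.support ⊆ F) (s : Set S) :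
    pm p s = ∑ x ∈ F with x ∈ s, p x := by
  unfold pm
  refine Finset.sum_subset (Finset.filter_subset_filter _ h) ?_
  intro x hx hx'
  rw [Finset.mem_filter] at hx hx'
  by_contra hc
  exact hx' ⟨Finsupp.mem_support_iff.2 hc, hx.2⟩

lemma pm_sub_le {S : Type*} (p q : S →₀ ℝ) (s : Set S) : pm p s - pm q s ≤ l1 (p - q) := by
  classical
  have hp : p.support ⊆ p.support ∪ q.support := Finset.subset_union_left
  have hq : q.support ⊆ p.support ∪ q.support := Finset.subset_union_right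
  have hd : (p - q).support ⊆ p.support ∪ q.support := by
    intro x hx
    rw [Finsupp.mem_support_iff, Finsupp.sub_apply] at hx
    rw [Finset.mem_union, Finsupp.mem_support_iff, Finsupp.mem_support_iff]
    by_contra hc
    push Not at hc
    rw [hc.1, hc.2, sub_zero] at hx
    exact hx rfl
  rw [pm_eq hp, pm_eq hq, ← Finset.sum_sub_distrib, l1_eq hd]
  calc ∑ x ∈ (p.support ∪ q.support) with x ∈ s, (p x - q x)
      ≤ ∑ x ∈ (p.support ∪ q.support) with x ∈ s, |(p - q) x| :=
        Finset.sum_le_sum (fun x _ => by rw [Finsupp.sub_apply]; exact le_abs_self _)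
    _ ≤ ∑ x ∈ p.support ∪ q.support, |(p - q) x| :=
        Finset.sum_le_sum_of_subset_of_nonneg (Finset.filter_subset _ _)
          (fun _ _ _ => abs_nonneg _)

lemma pm_map_inj {S T : Type*} (p : S →₀ ℝ) {f : S → T} (hf : Function.Injective f) (s : Set T) :
    pm (p.mapDomain f) s = pm p (f ⁻¹' s) := by
  classical
  unfold pm
  rw [Finsupp.mapDomain_support_of_injective hf]
  rw [Finset.sum_filter, Finset.sum_image (fun x _ y _ h => hf h), Finset.sum_filter]
  refine Finset.sum_congr rfl (fun x _ => ?_)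
  rw [Finsupp.mapDomain_apply hf]
  rfl

/-- the Reiter form of amenability gives the frozen definition -/
theorem Amen.amenable (h : Amen G) : Crest.GroupTheory.Amenable G := by
  classical
  -- almost invariant probabilities
  have h' : ∀ i : Finset G × ℕ, ∃ p : G →₀ ℝ, IsProb p ∧
      ∀ g ∈ i.1, l1 (p.mapDomain (fun x => g * x) - p) < 1 / ((i.2 : ℝ) + 1) := by
    intro i
    exact h i.1 _ (by positivity)
  choose p hp hpF using h'
  have hnn : ∀ i (s : Set G), 0 ≤ pm (p i) s := fun i s =>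
    Finset.sum_nonneg (fun x _ => (hp i).nonneg x)
  let m : Finset G × ℕ → Set G → ℝ≥0∞ := fun i s => ENNReal.ofReal (pm (p i) s)
  let U : Ultrafilter (Finset G × ℕ) := Ultrafilter.of Filter.atTop
  have hU : (U : Filter (Finset G × ℕ)) ≤ Filter.atTop := Ultrafilter.of_le _
  obtain ⟨μ, _, hμ⟩ := (isCompact_univ (X := Set G → ℝ≥0∞)).ultrafilter_le_nhds (U.map m) (by simp)
  have ht : Filter.Tendsto m U (nhds μ) := hμ
  have hts : ∀ s : Set G, Filter.Tendsto (fun i => m i s) U (nhds (μ s)) := by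
    intro s
    exact (tendsto_pi_nhds.1 ht) s
  refine ⟨μ, ?_, ?_, ?_⟩
  · have h1 : ∀ i, m i Set.univ = 1 := by
      intro i
      show ENNReal.ofReal (pm (p i) Set.univ) = 1
      have : pm (p i) Set.univ = 1 := by
        rw [← (hp i).mass]
        unfold pm mass
        rw [Finsupp.sum]
        congr 1
        ext x
        simp
      rw [this, ENNReal.ofReal_one]
    have h2 := hts Set.univ
    simp only [h1] at h2
    exact (tendsto_nhds_unique h2 tendsto_const_nhds)
  · intro s t hst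
    have h1 : ∀ i, m i (s ∪ t) = m i s + m i t := by
      intro i
      show ENNReal.ofReal _ = ENNReal.ofReal _ + ENNReal.ofReal _
      rw [← ENNReal.ofReal_add (hnn i s) (hnn i t)]
      congr 1
      unfold pm
      rw [← Finset.sum_union]
      · congr 1
        ext x
        simp only [Finset.mem_filter, Finset.mem_union, Set.mem_union]
        tauto
      · rw [Finset.disjoint_left]
        intro x hx hx'
        rw [Finset.mem_filter] at hx hx'
        exact Set.disjoint_left.1 hst hx.2 hx'.2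
    have h2 := hts (s ∪ t)
    simp only [h1] at h2
    exact tendsto_nhds_unique h2 ((hts s).add (hts t))
  · have key : ∀ (g : G) (s : Set G), μ s ≤ μ (g • s) := by
      intro g s
      -- `m i s ≤ m i (g • s) + 1/(n+1)` eventually
      have hev : ∀ᶠ i in (U : Filter (Finset G × ℕ)), m i s ≤ m i (g • s)
          + ENNReal.ofReal (1 / ((i.2 : ℝ) + 1)) := by
        have : ∀ᶠ i in (Filter.atTop : Filter (Finset G × ℕ)), g ∈ i.1 := by
          filter_upwards [Filter.eventually_ge_atTop (({g}, 0) : Finset G × ℕ)] with i hi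
          exact hi.1 (Finset.mem_singleton_self g)
        filter_upwards [hU this] with i hi
        have h1 := hpF i g hi
        have h2 : pm (p i) s = pm ((p i).mapDomain (fun x => g * x)) (g • s) := by
          rw [pm_map_inj _ (mul_right_injective g)]
          congr 1
          ext x
          simp [Set.mem_smul_set_iff_inv_smul_mem]
        have h3 := pm_sub_le ((p i).mapDomain (fun x => g * x)) (p i) (g • s)
        rw [← h2] at h3
        show ENNReal.ofReal _ ≤ ENNReal.ofReal _ + ENNReal.ofReal _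
        rw [← ENNReal.ofReal_add (hnn i _) (by positivity)]
        apply ENNReal.ofReal_le_ofReal
        linarith
      have ht0 : Filter.Tendsto (fun i : Finset G × ℕ => ENNReal.ofReal (1 / ((i.2 : ℝ) + 1)))
          (U : Filter (Finset G × ℕ)) (nhds 0) := by
        have h1 : Filter.Tendsto (fun i : Finset G × ℕ => 1 / ((i.2 : ℝ) + 1))
            (Filter.atTop : Filter (Finset G × ℕ)) (nhds 0) := by
          have h2 := tendsto_one_div_add_atTop_nhds_zero_nat (𝕜 := ℝ)
          refine h2.comp ?_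
          rw [← Filter.prod_atTop_atTop_eq]
          exact Filter.tendsto_snd
        have h3 := (ENNReal.tendsto_ofReal h1).mono_left hU
        simpa using h3
      have h4 := (hts (g • s)).add ht0
      rw [add_zero] at h4
      exact le_of_tendsto_of_tendsto (hts s) h4 hev
    intro g s
    apply le_antisymm
    · have := key g⁻¹ (g • s)
      rwa [inv_smul_smul] at this
    · exact key g s

end fin

end Crest.Agent.R189
end

-- ▼ part R189/PerGen
section

/-!
# Row 189, M14: centralisers of cofinite abelian actions are amenable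

* `Cent A Ω` : the permutations of `Ω` commuting with the action of the abelian group `A`;
  if the number of orbits is finite, it is virtually abelian, hence `Amen` (`amen_Cent`).
* one dimensional form: `Per1 w F` : the permutations of `ℤ × F` commuting with the translation
  by `w i`; `amen_Per1` for `w ≠ 0`, `F` finite, and the local criteria `amen_of_per1` (finite
  subsets) and `amen_of_per1_lcm` (each element has some period).
-/

namespace Crest.Agent.R189.PerGp

open Crest.Agent.R189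

section general

variable (A Ω : Type*) [CommGroup A] [MulAction A Ω]

/-- permutations commuting with the action of `A` -/
def Cent : Subgroup (Equiv.Perm Ω) where
  carrier := {π | ∀ (a : A) (x : Ω), π (a • x) = a • π x}
  mul_mem' := by
    intro a b ha hb t x
    rw [Equiv.Perm.mul_apply, Equiv.Perm.mul_apply, hb, ha]
  one_mem' := by
    intro t x
    rfl
  inv_mem' := by
    intro a ha t x
    have h1 := ha t (a⁻¹ x)
    have e1 : a (a⁻¹ x) = x := a.apply_symm_apply x
    rw [e1] at h1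
    rw [← h1]
    exact a.symm_apply_apply _

variable {A Ω}


lemma cent_congr {π : Equiv.Perm Ω} (hπ : π ∈ Cent A Ω) {x y : Ω}
    (H : MulAction.orbitRel A Ω x y) : MulAction.orbitRel A Ω (π x) (π y) := by
  rw [MulAction.orbitRel_apply, MulAction.mem_orbit_iff] at H ⊢
  obtain ⟨a, rfl⟩ := H
  exact ⟨a, (hπ a y).symm⟩

/-- the induced map on the orbit space -/
def cmap (π : Equiv.Perm Ω) (hπ : π ∈ Cent A Ω) :
    MulAction.orbitRel.Quotient A Ω → MulAction.orbitRel.Quotient A Ω :=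
  Quotient.map π (fun _ _ H => cent_congr hπ H)

variable (A Ω) in
/-- the induced permutation of the orbit space -/
def chom : Cent A Ω →* Equiv.Perm (MulAction.orbitRel.Quotient A Ω) where
  toFun π :=
    { toFun := cmap π.1 π.2
      invFun := cmap (π.1)⁻¹ ((Cent A Ω).inv_mem π.2)
      left_inv := by
        intro z
        induction z using Quotient.inductionOn with
        | h x => exact congrArg (Quotient.mk _) (π.1.symm_apply_apply x)
      right_inv := by
        intro z
        induction z using Quotient.inductionOn with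
        | h x => exact congrArg (Quotient.mk _) (π.1.apply_symm_apply x) }
  map_one' := by
    ext1 z
    induction z using Quotient.inductionOn with
    | h x => rfl
  map_mul' := by
    intro a b
    ext1 z
    induction z using Quotient.inductionOn with
    | h x => rfl

lemma cker_spec {π : Cent A Ω} (hπ : π ∈ (chom A Ω).ker) (x : Ω) : ∃ a : A, π.1 x = a • x := by
  have h1 : chom A Ω π (Quotient.mk _ x) = Quotient.mk _ x := by
    rw [MonoidHom.mem_ker] at hπ
    rw [hπ]
    rfl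
  have h2 : MulAction.orbitRel A Ω (π.1 x) x := Quotient.exact h1
  rw [MulAction.orbitRel_apply, MulAction.mem_orbit_iff] at h2
  obtain ⟨a, ha⟩ := h2
  exact ⟨a, ha.symm⟩

lemma cker_comm (a b : Cent A Ω) (ha : a ∈ (chom A Ω).ker) (hb : b ∈ (chom A Ω).ker) :
    a * b = b * a := by
  ext1
  refine Equiv.ext (fun x => ?_)
  show a.1 (b.1 x) = b.1 (a.1 x)
  obtain ⟨s, h1⟩ := cker_spec ha x
  obtain ⟨t, h2⟩ := cker_spec hb x
  rw [h1, h2, a.2 t x, b.2 s x, h1, h2, smul_smul, smul_smul, mul_comm]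

/-- the centraliser of a cofinite abelian action is amenable -/
theorem amen_Cent [Finite (MulAction.orbitRel.Quotient A Ω)] : Amen (Cent A Ω) := by
  have : Finite (Equiv.Perm (MulAction.orbitRel.Quotient A Ω)) := inferInstance
  refine amen_of_ker (chom A Ω) amen_finite ?_
  let _ : CommGroup (chom A Ω).ker :=
    { (inferInstance : Group (chom A Ω).ker) with
      mul_comm := fun a b => Subtype.ext (cker_comm a.1 b.1 a.2 b.2) }
  exact amen_comm (G := (chom A Ω).ker)

end general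

section oneD

variable {F : Type*}

/-- permutations of `ℤ × F` commuting with the translation by `w` -/
def Per1 (w : ℤ) (F : Type*) : Subgroup (Equiv.Perm (ℤ × F)) where
  carrier := {π | ∀ (x : ℤ × F) (i : ℤ), π (x.1 + w * i, x.2) = ((π x).1 + w * i, (π x).2)}
  mul_mem' := by
    intro a b ha hb x i
    rw [Equiv.Perm.mul_apply, Equiv.Perm.mul_apply, hb, ha]
  one_mem' := by
    intro x i
    rfl
  inv_mem' := by
    intro a ha x i
    have h1 := ha (a⁻¹ x) i
    have e1 : a (a⁻¹ x) = x := a.apply_symm_apply x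
    rw [e1] at h1
    rw [← h1]
    exact a.symm_apply_apply _

lemma mem_Per1 {w : ℤ} {π : Equiv.Perm (ℤ × F)} :
    π ∈ Per1 w F ↔ ∀ (x : ℤ × F) (i : ℤ), π (x.1 + w * i, x.2) = ((π x).1 + w * i, (π x).2) :=
  Iff.rfl

lemma Per1_mono {w w' : ℤ} (hw : w ∣ w') : Per1 w F ≤ Per1 w' F := by
  intro π hπ x i
  obtain ⟨a, rfl⟩ := hw
  rw [mul_assoc]
  exact hπ x (a * i)

/-- the action of the lattice `wℤ` -/
@[instance_reducible] def act1 (w : ℤ) (F : Type*) : MulAction (Multiplicative ℤ) (ℤ × F) where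
  smul i x := (x.1 + w * Multiplicative.toAdd i, x.2)
  one_smul x := by
    show (x.1 + w * (0 : ℤ), x.2) = x
    simp
  mul_smul i j x := by
    show (x.1 + w * (Multiplicative.toAdd i + Multiplicative.toAdd j), x.2)
      = (x.1 + w * Multiplicative.toAdd j + w * Multiplicative.toAdd i, x.2)
    ext
    · show x.1 + _ = _ + _
      ring
    · rfl

theorem amen_Per1 [Finite F] {w : ℤ} (hw : w ≠ 0) : Amen (Per1 w F) := by
  let _ : MulAction (Multiplicative ℤ) (ℤ × F) := act1 w F
  have hf : Finite (MulAction.orbitRel.Quotient (Multiplicative ℤ) (ℤ × F)) := by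
    have : NeZero w.natAbs := ⟨Int.natAbs_ne_zero.2 hw⟩
    let f : Fin w.natAbs × F → MulAction.orbitRel.Quotient (Multiplicative ℤ) (ℤ × F) :=
      fun z => Quotient.mk _ ((z.1 : ℕ), z.2)
    refine Finite.of_surjective f ?_
    intro z
    induction z using Quotient.inductionOn with
    | h x =>
      have hlt : (x.1 % w).toNat < w.natAbs := by
        have h1 := Int.emod_lt_abs x.1 hw
        have h2 := Int.emod_nonneg x.1 hw
        have h3 : ((w.natAbs : ℕ) : ℤ) = |w| := Int.natCast_natAbs w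
        omega
      refine ⟨(⟨(x.1 % w).toNat, hlt⟩, x.2), Quotient.sound ?_⟩
      show MulAction.orbitRel (Multiplicative ℤ) (ℤ × F) _ _
      rw [MulAction.orbitRel_apply, MulAction.mem_orbit_iff]
      refine ⟨Multiplicative.ofAdd (-(x.1 / w)), ?_⟩
      show (x.1 + w * (-(x.1 / w)), x.2) = (((x.1 % w).toNat : ℤ), x.2)
      ext
      · show x.1 + w * (-(x.1 / w)) = ((x.1 % w).toNat : ℤ)
        have h2 := Int.emod_nonneg x.1 hw
        rw [Int.toNat_of_nonneg h2]
        have h3 := Int.emod_add_mul_ediv x.1 w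
        linarith
      · rfl
  refine Amen.of_inj (amen_Cent (A := Multiplicative ℤ) (Ω := ℤ × F))
    ((Subgroup.subtype (Per1 w F)).codRestrict (Cent (Multiplicative ℤ) (ℤ × F))
      (fun g a x => g.2 x (Multiplicative.toAdd a))) ?_
  intro a b hab
  exact Subtype.ext (congrArg (fun z : Cent (Multiplicative ℤ) (ℤ × F) => z.1) hab)

variable {K : Type*} [Group K]

/-- finite subsets form -/
theorem amen_of_per1 [Finite F] (ρ : K →* Equiv.Perm (ℤ × F)) (hρ : Function.Injective ρ)
    (H : ∀ S : Finset K, ∃ w : ℤ, w ≠ 0 ∧ ∀ g ∈ S, ρ g ∈ Per1 w F) : Amen K := by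
  refine amen_of_local (fun S => ?_)
  obtain ⟨w, hw, hF⟩ := H S
  refine ⟨(Per1 w F).comap ρ, fun g hg => hF g hg, ?_⟩
  refine Amen.of_inj (amen_Per1 (F := F) hw)
    ((ρ.comp (Subgroup.subtype _)).codRestrict (Per1 w F) (fun g => g.2)) ?_
  intro a b hab
  have h1 : ρ a.1 = ρ b.1 := congrArg Subtype.val hab
  exact Subtype.ext (hρ h1)

/-- each element has some period -/
theorem amen_of_per1_lcm [Finite F] (ρ : K →* Equiv.Perm (ℤ × F))
    (hρ : Function.Injective ρ) (H : ∀ g : K, ∃ w : ℤ, w ≠ 0 ∧ ρ g ∈ Per1 w F) : Amen K := by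
  classical
  choose w hw hg using H
  refine amen_of_per1 ρ hρ (fun S => ⟨∏ g ∈ S, w g, ?_, fun g hgF => ?_⟩)
  · exact Finset.prod_ne_zero_iff.2 (fun g _ => hw g)
  · exact Per1_mono (Finset.dvd_prod_of_mem w hgF) (hg g)

end oneD

end Crest.Agent.R189.PerGp
end

-- ▼ part R189/StripK
section

/-!
# Row 189: the groups `K_D` of a strip system are amenable (helper710)
-/

set_option autoImplicit false

namespace Crest.Agent.R189.Strip

open Equiv

namespace StripSys

variable {Θ A Λ C : Type} (S : StripSys Θ A Λ)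

/-- the type of a line at a nonzero place does not depend on the copy -/
theorem col_indep : ∀ (n : ℕ) (j : ℕ) (q : ℤ), q.natAbs ≤ n → q ≠ 0 → ∀ τ τ' : Θ,
    S.col (S.w j * q) τ = S.col (S.w j * q) τ' := by
  intro n
  induction n with
  | zero =>
    intro j q hn hq
    exact absurd (Int.natAbs_eq_zero.1 (Nat.le_zero.1 hn)) hq
  | succ n ih =>
    intro j q hn hq τ τ'
    by_cases h : q % (3 * (S.b j : ℤ)) = 0
    · obtain ⟨q', hq'⟩ := Int.dvd_of_emod_eq_zero h
      have hb := S.three_le_b j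
      have e : (S.w j : ℤ) * q = S.w (j + 1) * q' := by
        rw [S.w_succ, hq']; push_cast; ring
      rw [e]
      have hq'0 : q' ≠ 0 := by
        rintro rfl; simp at hq'; exact hq hq'
      refine ih (j + 1) q' ?_ hq'0 τ τ'
      have h1 : q.natAbs = 3 * S.b j * q'.natAbs := by
        rw [hq', Int.natAbs_mul, Int.natAbs_mul]; simp
      have h2 : 1 ≤ q'.natAbs := Nat.one_le_iff_ne_zero.2 (by simpa using hq'0)
      nlinarith
    · rw [S.col_level j q τ h, S.col_level j q τ' h]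

/-- far from the origin the copies are similar -/
theorem sim_of_far {j : ℕ} {u : ℤ} (h0 : u / S.w j ≠ 0) (h1 : u / S.w j ≠ -1) (τ τ' : Θ) :
    S.Sim j u τ u τ' :=
  ⟨Int.ModEq.refl _, S.col_indep _ j _ le_rfl h0 τ τ',
    S.col_indep _ j _ le_rfl (by omega) τ τ'⟩

/-- same move of `k` at `(u, r, τ, c)` and `(u', r, τ', c)` -/
def SameMv (k : Perm (Om Θ C)) (r : ℤ) (c : C) (u : ℤ) (τ : Θ) (u' : ℤ) (τ' : Θ) : Prop :=
  (k (u, r, τ, c)).1 - u = (k (u', r, τ', c)).1 - u' ∧
  (k (u, r, τ, c)).2.1 = (k (u', r, τ', c)).2.1 ∧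
  (k (u, r, τ, c)).2.2.2 = (k (u', r, τ', c)).2.2.2

lemma SameMv.symm {k : Perm (Om Θ C)} {r : ℤ} {c : C} {u : ℤ} {τ : Θ} {u' : ℤ} {τ' : Θ}
    (h : SameMv k r c u τ u' τ') : SameMv k r c u' τ' u τ :=
  ⟨h.1.symm, h.2.1.symm, h.2.2.symm⟩

lemma SameMv.trans {k : Perm (Om Θ C)} {r : ℤ} {c : C} {u : ℤ} {τ : Θ} {u' : ℤ} {τ' : Θ} {u'' : ℤ}
    {τ'' : Θ} (h : SameMv k r c u τ u' τ') (h' : SameMv k r c u' τ' u'' τ'') :
    SameMv k r c u τ u'' τ'' :=
  ⟨h.1.trans h'.1, h.2.1.trans h'.2.1, h.2.2.trans h'.2.2⟩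

variable {S}

/-- the move of a locally determined permutation at similar points -/
theorem LocOn.sameMv {k : Perm (Om Θ C)} {M R j : ℕ} (h : S.LocOn k M R j) {u u' : ℤ} {τ τ' : Θ}
    (hs : S.Sim j u τ u' τ') {r : ℤ} (hr : |r| ≤ R) (c : C) : SameMv k r c u τ u' τ' := by
  obtain ⟨du, dr, c', _, _, e1, e2⟩ := h u τ u' τ' hs r hr c
  unfold SameMv
  rw [e1, e2]
  exact ⟨by simp, rfl, rfl⟩

theorem LocOn.tau {k : Perm (Om Θ C)} {M R j : ℕ} (h : S.LocOn k M R j) {u r : ℤ} {τ : Θ}
    (hr : |r| ≤ R) (c : C) : (k (u, r, τ, c)).2.2.1 = τ := by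
  obtain ⟨du, dr, c', _, _, e1, e2⟩ := h u τ u τ ⟨Int.ModEq.refl _, rfl, rfl⟩ r hr c
  rw [e1]

theorem LocOn.disp {k : Perm (Om Θ C)} {M R j : ℕ} (h : S.LocOn k M R j) {u r : ℤ} {τ : Θ}
    (hr : |r| ≤ R) (c : C) : |(k (u, r, τ, c)).1 - u| ≤ M := by
  obtain ⟨du, dr, c', h1, _, e1, e2⟩ := h u τ u τ ⟨Int.ModEq.refl _, rfl, rfl⟩ r hr c
  rw [e1]
  simpa using h1

theorem IsLoc.tau {k : Perm (Om Θ C)} (h : S.IsLoc k) (p : Om Θ C) :
    (k p).2.2.1 = p.2.2.1 := by
  obtain ⟨M, hM⟩ := h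
  obtain ⟨j, hj⟩ := hM p.2.1.natAbs
  exact hj.tau (by simp) p.2.2.2

/-- a locally determined permutation which does not see the copy is periodic -/
theorem LocOn.periodic {k : Perm (Om Θ C)} {M R j : ℕ} (h : S.LocOn k M R j)
    (hb : ∀ (u r : ℤ) (c : C) (τ τ' : Θ), |r| ≤ R → SameMv k r c u τ u τ')
    {u u' : ℤ} (huu : u ≡ u' [ZMOD S.w (j + 1)]) {r : ℤ} (hr : |r| ≤ R) (c : C) (τ : Θ) :
    SameMv k r c u τ u' τ := by
  have hw : (0 : ℤ) < S.w j := by exact_mod_cast S.w_pos j
  have hb3 := S.three_le_b j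
  have hB : (0 : ℤ) < 3 * (S.b j : ℤ) := by omega
  have h9 : (9 : ℤ) ≤ 3 * (S.b j : ℤ) := by omega
  -- u' = u + w_j * (3 b_j * m)
  obtain ⟨m, hm⟩ := huu.dvd
  have hu' : u' = u + S.w j * (3 * S.b j * m) := by
    rw [S.w_succ] at hm
    push_cast at hm
    linarith
  have hq : u' / S.w j = u / S.w j + 3 * S.b j * m := by
    rw [hu', Int.add_mul_ediv_left _ _ hw.ne']
  have hmod : u' % S.w j = u % S.w j := by
    rw [hu', Int.add_mul_emod_self_left]
  have he : (u' / S.w j) % (3 * (S.b j : ℤ)) = (u / S.w j) % (3 * (S.b j : ℤ)) := by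
    rw [hq, Int.add_mul_emod_self_left]
  have he0 := Int.emod_nonneg (u / S.w j) hB.ne'
  have he1 := Int.emod_lt_of_pos (u / S.w j) hB
  -- type of the line on the left, on the right
  have hL : ∀ v : ℤ, (v / S.w j) % (3 * (S.b j : ℤ)) ≠ 0 → ∀ t,
      S.colL j v t = S.tauOf j ((v / S.w j) % (3 * (S.b j : ℤ))).toNat := fun v hv t =>
    S.col_level j _ t hv
  have hR1 : ∀ v : ℤ, (v / S.w j) % (3 * (S.b j : ℤ)) + 1 < 3 * (S.b j : ℤ) →
      (v / S.w j + 1) % (3 * (S.b j : ℤ)) = (v / S.w j) % (3 * (S.b j : ℤ)) + 1 := by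
    intro v hv
    rw [Int.add_emod, Int.emod_eq_of_lt (a := 1) (by norm_num) (by omega)]
    exact Int.emod_eq_of_lt (by have := Int.emod_nonneg (v / S.w j) hB.ne'; omega) hv
  have hR : ∀ v : ℤ, (v / S.w j) % (3 * (S.b j : ℤ)) + 1 < 3 * (S.b j : ℤ) → ∀ t,
      S.colR j v t = S.tauOf j ((v / S.w j) % (3 * (S.b j : ℤ)) + 1).toNat := by
    intro v hv t
    have h1 := hR1 v hv
    have h0 := Int.emod_nonneg (v / S.w j) hB.ne'
    have h2 := S.col_level j (v / S.w j + 1) t (by rw [h1]; omega)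
    rw [h1] at h2
    exact h2
  by_cases c0 : (u / S.w j) % (3 * (S.b j : ℤ)) = 0
  · -- first block
    have key : ∀ v : ℤ, (v / S.w j) % (3 * (S.b j : ℤ)) = 0 →
        SameMv k r c v τ (v % S.w j) τ := by
      intro v hv
      have hz : (v % S.w j) / S.w j = 0 := Int.ediv_eq_zero_of_lt (Int.emod_nonneg _ hw.ne')
        (Int.emod_lt_of_pos _ hw)
      have h1 : S.Sim j v τ (v % S.w j) (S.colL j v τ) := by
        refine ⟨(Int.mod_modEq _ _).symm, ?_, ?_⟩
        · unfold colL
          rw [hz, mul_zero, S.col_zero]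
        · rw [hR v (by omega), hR (v % S.w j) (by rw [hz]; simp; omega), hv, hz, Int.zero_emod]
      exact (h.sameMv h1 hr c).trans (hb _ _ _ _ _ hr)
    have k1 := key u c0
    have k2 := key u' (he.trans c0)
    rw [hmod] at k2
    exact k1.trans k2.symm
  · by_cases c1 : (u / S.w j) % (3 * (S.b j : ℤ)) + 1 = 3 * (S.b j : ℤ)
    · -- last block
      have key : ∀ v : ℤ, (v / S.w j) % (3 * (S.b j : ℤ)) + 1 = 3 * (S.b j : ℤ) →
          SameMv k r c v τ (v % S.w j - S.w j) τ := by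
        intro v hv
        have hz : (v % S.w j - S.w j) / S.w j = -1 := by
          have : v % S.w j - S.w j = v % S.w j + S.w j * (-1) := by ring
          rw [this, Int.add_mul_ediv_left _ _ hw.ne', Int.ediv_eq_zero_of_lt
            (Int.emod_nonneg _ hw.ne') (Int.emod_lt_of_pos _ hw)]
          norm_num
        have hm1 : (-1 : ℤ) % (3 * (S.b j : ℤ)) = 3 * (S.b j : ℤ) - 1 := by
          have : (-1 : ℤ) = (3 * (S.b j : ℤ) - 1) + 3 * (S.b j : ℤ) * (-1) := by ring
          rw [this, Int.add_mul_emod_self_left]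
          exact Int.emod_eq_of_lt (by omega) (by omega)
        have h1 : S.Sim j v τ (v % S.w j - S.w j) (S.colR j v τ) := by
          refine ⟨?_, ?_, ?_⟩
          · refine (Int.mod_modEq v (S.w j)).symm.trans ?_
            have : v % S.w j = (v % S.w j - S.w j) + S.w j * 1 := by ring
            conv_lhs => rw [this]
            exact Int.modEq_add_fac_self
          · rw [hL v (by omega), hL _ (by rw [hz, hm1]; omega), hz, hm1]
            congr 2
            omega
          · have e : ∀ t : Θ, S.colR j (v % S.w j - S.w j) t = t := by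
              intro t
              unfold colR
              rw [hz, show (-1 + 1 : ℤ) = 0 by norm_num, mul_zero, S.col_zero]
            exact (e _).symm
        exact (h.sameMv h1 hr c).trans (hb _ _ _ _ _ hr)
      have k1 := key u c1
      have k2 := key u' (by rw [he]; exact c1)
      rw [hmod] at k2
      exact k1.trans k2.symm
    · -- middle
      have h1 : S.Sim j u τ u' τ := by
        refine ⟨?_, ?_, ?_⟩
        · rw [hu']
          exact Int.modEq_add_fac_self.symm
        · rw [hL u c0, hL u' (by rw [he]; exact c0), he]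
        · rw [hR u (by omega), hR u' (by omega), he]
      exact h.sameMv h1 hr c

/-! ### the cross-section -/

/-- finite cross-section of the strip -/
abbrev Cross (R : ℕ) (C : Type) := {r : ℤ // |r| ≤ (R : ℤ)} × C

instance finiteCross (R : ℕ) (C : Type) [Finite C] : Finite (Cross R C) := by
  have : Finite {r : ℤ // |r| ≤ (R : ℤ)} := by
    refine Set.Finite.subset (s := Set.Icc (-(R : ℤ)) R) (Set.finite_Icc _ _) ?_
    intro r hr
    exact abs_le.1 hr
  infer_instance

theorem KD_strip {D : Set (Om Θ C)} {R : ℕ} (hR : ∀ p ∈ D, |p.2.1| ≤ (R : ℤ)) {k : Perm (Om Θ C)}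
    (hk : k ∈ S.KD D) {p : Om Θ C} (hp : |p.2.1| ≤ (R : ℤ)) : |(k p).2.1| ≤ (R : ℤ) := by
  by_cases h : k p ∈ D
  · exact hR _ h
  · have h1 := k.injective ((mem_KD S).1 hk |>.2 _ h)
    rw [h1]; exact hp

/-- the copy `τ` of the strip -/
def lift {R : ℕ} (τ : Θ) (x : ℤ × Cross R C) : Om Θ C := (x.1, x.2.1.1, τ, x.2.2)

theorem lift_inj {R : ℕ} {τ : Θ} {x y : ℤ × Cross R C} (h : lift τ x = lift τ y) : x = y := by
  obtain ⟨a, ⟨r, hr⟩, c⟩ := x
  obtain ⟨a', ⟨r', hr'⟩, c'⟩ := y
  simp only [lift, Prod.mk.injEq] at h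
  obtain ⟨h1, h2, -, h3⟩ := h
  subst h1 h2 h3
  rfl

variable {D : Set (Om Θ C)} {R : ℕ}

/-- restriction to a copy, as a function -/
def resFun (hR : ∀ p ∈ D, |p.2.1| ≤ (R : ℤ)) (τ : Θ) (k : S.KD D) (x : ℤ × Cross R C) :
    ℤ × Cross R C :=
  ((k.1 (lift τ x)).1, ⟨(k.1 (lift τ x)).2.1, KD_strip hR k.2 x.2.1.2⟩, (k.1 (lift τ x)).2.2.2)

theorem lift_resFun (hR : ∀ p ∈ D, |p.2.1| ≤ (R : ℤ)) (τ : Θ) (k : S.KD D) (x : ℤ × Cross R C) :
    lift τ (resFun hR τ k x) = k.1 (lift τ x) := by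
  have h : (k.1 (lift τ x)).2.2.1 = τ := IsLoc.tau ((mem_Loc S).1 ((mem_KD S).1 k.2).1) (lift τ x)
  refine Prod.ext rfl (Prod.ext rfl (Prod.ext ?_ rfl))
  exact h.symm

/-- restriction to a copy -/
def res (hR : ∀ p ∈ D, |p.2.1| ≤ (R : ℤ)) (τ : Θ) : S.KD D →* Perm (ℤ × Cross R C) where
  toFun k :=
    { toFun := resFun hR τ k
      invFun := resFun hR τ k⁻¹
      left_inv := fun x => lift_inj (τ := τ) (by
        rw [lift_resFun, lift_resFun]
        exact k.1.symm_apply_apply _)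
      right_inv := fun x => lift_inj (τ := τ) (by
        rw [lift_resFun, lift_resFun]
        exact k.1.apply_symm_apply _) }
  map_one' := by
    ext1 x
    exact lift_inj (τ := τ) (by
      show lift τ (resFun hR τ 1 x) = lift τ x
      rw [lift_resFun]; rfl)
  map_mul' := by
    intro a b
    ext1 x
    refine lift_inj (τ := τ) ?_
    show lift τ (resFun hR τ (a * b) x) = lift τ (resFun hR τ a (resFun hR τ b x))
    rw [lift_resFun, lift_resFun, lift_resFun]
    rfl

theorem lift_res (hR : ∀ p ∈ D, |p.2.1| ≤ (R : ℤ)) (τ : Θ) (k : S.KD D) (x : ℤ × Cross R C) :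
    lift τ (res hR τ k x) = k.1 (lift τ x) := lift_resFun hR τ k x

theorem res_fst (hR : ∀ p ∈ D, |p.2.1| ≤ (R : ℤ)) (τ : Θ) (k : S.KD D) (x : ℤ × Cross R C) :
    (res hR τ k x).1 = (k.1 (x.1, x.2.1.1, τ, x.2.2)).1 := rfl

theorem res_snd (hR : ∀ p ∈ D, |p.2.1| ≤ (R : ℤ)) (τ : Θ) (k : S.KD D) (x : ℤ × Cross R C) :
    (res hR τ k x).2.1.1 = (k.1 (x.1, x.2.1.1, τ, x.2.2)).2.1 := rfl

theorem res_col (hR : ∀ p ∈ D, |p.2.1| ≤ (R : ℤ)) (τ : Θ) (k : S.KD D) (x : ℤ × Cross R C) :
    (res hR τ k x).2.2 = (k.1 (x.1, x.2.1.1, τ, x.2.2)).2.2.2 := rfl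

/-- an element which is trivial in all copies is trivial -/
theorem res_faithful (hR : ∀ p ∈ D, |p.2.1| ≤ (R : ℤ)) {k k' : S.KD D}
    (h : ∀ τ, res hR τ k = res hR τ k') : k = k' := by
  refine Subtype.ext (Equiv.ext (fun p => ?_))
  by_cases hp : |p.2.1| ≤ (R : ℤ)
  · have e : p = lift (R := R) p.2.2.1 (p.1, ⟨p.2.1, hp⟩, p.2.2.2) := rfl
    rw [e, ← lift_res hR, ← lift_res hR, h]
  · have hpD : p ∉ D := fun hc => hp (hR p hc)
    rw [((mem_KD S).1 k.2).2 p hpD, ((mem_KD S).1 k'.2).2 p hpD]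

theorem KD_locOn (k : S.KD D) (R : ℕ) : ∃ M j, S.LocOn k.1 M R j := by
  obtain ⟨M, hM⟩ := (mem_Loc S).1 ((mem_KD S).1 k.2).1
  exact ⟨M, hM R⟩

/-- two copies differ only near the origin -/
theorem res_finite [Finite C] (hR : ∀ p ∈ D, |p.2.1| ≤ (R : ℤ)) (τ τ' : Θ) (k : S.KD D) :
    {x | res hR τ k x ≠ res hR τ' k x}.Finite := by
  obtain ⟨M, j, h⟩ := KD_locOn k R
  have hw : (0 : ℤ) < S.w j := by exact_mod_cast S.w_pos j
  refine Set.Finite.subset (s := (Set.Icc (-(S.w j : ℤ)) (S.w j)) ×ˢ Set.univ)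
    ((Set.finite_Icc _ _).prod Set.finite_univ) ?_
  intro x hx
  by_contra hc
  apply hx
  have hx1 : ¬ (-(S.w j : ℤ) ≤ x.1 ∧ x.1 ≤ S.w j) := fun h' => hc ⟨h', Set.mem_univ _⟩
  have h0 : x.1 / S.w j ≠ 0 := by
    intro h0
    apply hx1
    have h1 := Int.mul_ediv_add_emod x.1 (S.w j)
    rw [h0] at h1
    have h2 := Int.emod_nonneg x.1 hw.ne'
    have h3 := Int.emod_lt_of_pos x.1 hw
    constructor <;> omega
  have h1 : x.1 / S.w j ≠ -1 := by
    intro h0
    apply hx1
    have h1 := Int.mul_ediv_add_emod x.1 (S.w j)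
    rw [h0] at h1
    have h2 := Int.emod_nonneg x.1 hw.ne'
    have h3 := Int.emod_lt_of_pos x.1 hw
    constructor <;> omega
  have hs := h.sameMv (S.sim_of_far h0 h1 τ τ') x.2.1.2 x.2.2
  refine Prod.ext ?_ (Prod.ext (Subtype.ext ?_) ?_)
  · rw [res_fst, res_fst]; have := hs.1; omega
  · rw [res_snd, res_snd]; exact hs.2.1
  · rw [res_col, res_col]; exact hs.2.2

theorem res_disp (hR : ∀ p ∈ D, |p.2.1| ≤ (R : ℤ)) (k : S.KD D) :
    ∃ M : ℕ, ∀ τ x, |(res hR τ k x).1 - x.1| ≤ M := by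
  obtain ⟨M, j, h⟩ := KD_locOn k R
  exact ⟨M, fun τ x => h.disp x.2.1.2 x.2.2⟩

/-- elements which act in the same way on all copies -/
theorem KD_amen_aux [Finite C] (hR : ∀ p ∈ D, |p.2.1| ≤ (R : ℤ)) (τ₀ : Θ)
    (E : Subgroup (S.KD D)) (hE : ∀ k ∈ E, ∀ τ, res hR τ₀ k = res hR τ k) : Amen E := by
  refine PerGp.amen_of_per1_lcm ((res hR τ₀).comp E.subtype) ?_ ?_
  · intro a b hab
    have hab' : res hR τ₀ a.1 = res hR τ₀ b.1 := hab
    refine Subtype.ext (res_faithful hR (fun τ => ?_))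
    rw [← hE a.1 a.2 τ, ← hE b.1 b.2 τ, hab']
  · intro k
    obtain ⟨M, j, h⟩ := KD_locOn k.1 R
    have hw : (0 : ℤ) < S.w (j + 1) := by exact_mod_cast S.w_pos (j + 1)
    refine ⟨S.w (j + 1), hw.ne', ?_⟩
    rw [PerGp.mem_Per1]
    intro x i
    have hb : ∀ (u r : ℤ) (c : C) (τ τ' : Θ), |r| ≤ R → SameMv k.1.1 r c u τ u τ' := by
      have key : ∀ (u r : ℤ) (c : C) (τ : Θ), |r| ≤ R → SameMv k.1.1 r c u τ₀ u τ := by
        intro u r c τ hr
        have e := DFunLike.congr_fun (hE k.1 k.2 τ) (u, (⟨r, hr⟩, c))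
        refine ⟨?_, ?_, ?_⟩
        · have := congrArg (fun z => z.1) e
          simp only [res_fst] at this
          rw [this]
        · have := congrArg (fun z => z.2.1.1) e
          simpa only [res_snd] using this
        · have := congrArg (fun z => z.2.2) e
          simpa only [res_col] using this
      intro u r c τ τ' hr
      exact (key u r c τ hr).symm.trans (key u r c τ' hr)
    have hp := h.periodic hb (u := x.1 + S.w (j + 1) * i) (u' := x.1)
      (Int.modEq_add_fac_self) x.2.1.2 x.2.2 τ₀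
    have e0 : ∀ y : ℤ × Cross R C, ((res hR τ₀).comp E.subtype) k y = res hR τ₀ k.1 y :=
      fun y => rfl
    rw [e0, e0]
    refine Prod.ext ?_ (Prod.ext (Subtype.ext ?_) ?_)
    · rw [res_fst]
      have := hp.1
      show _ = (res hR τ₀ k.1 x).1 + _
      rw [res_fst]
      simp only
      omega
    · rw [res_snd]
      exact hp.2.1
    · rw [res_col]
      exact hp.2.2

/-- **the groups `K_D` are amenable** -/
theorem KD_amen_of_bdd [Finite Θ] [Finite C] (hR : ∀ p ∈ D, |p.2.1| ≤ (R : ℤ)) :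
    Amen (S.KD D) := by
  classical
  have := Fintype.ofFinite Θ
  rcases isEmpty_or_nonempty Θ with hΘ | ⟨⟨τ₀⟩⟩
  · have : Subsingleton (S.KD D) := ⟨fun a b => res_faithful hR (fun τ => isEmptyElim τ)⟩
    exact amen_finite
  · have key : Amen (⊤ : Subgroup (S.KD D)) := by
      refine amen_iterate (Finset.univ : Finset Θ)
        (fun τ => MonoidHom.eqLocus (res hR τ₀) (res hR τ)) (fun τ _ H hH => ?_) ⊤ ?_
      · refine amen_oneD (res hR τ₀) (res hR τ) (fun g => res_finite hR τ₀ τ g) (fun g => ?_) H hH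
        obtain ⟨M, hM⟩ := res_disp hR g
        exact ⟨M, fun x => hM τ₀ x⟩
      · refine KD_amen_aux hR τ₀ _ (fun k hk τ => ?_)
        have h1 := (Subgroup.mem_inf.1 hk).2
        rw [Finset.inf_univ_eq_iInf, Subgroup.mem_iInf] at h1
        exact h1 τ
    exact key.equiv Subgroup.topEquiv

variable (S) in
theorem KD_amen [Finite Θ] [Finite C] {D : Set (Om Θ C)} (hD : S.IsDom D) : Amen (S.KD D) := by
  obtain ⟨⟨R, hR⟩, -⟩ := hD
  exact KD_amen_of_bdd (R := R) hR

end StripSys

end Crest.Agent.R189.Strip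
end

-- ▼ part R189/StripP
section

/-!
# Row 189: the almost invariant random strip subsets (helper777)

`ang n N K` : the angle function on the pieces (linear profile of radius `n` on the periodic
pieces, logarithmic profile from radius `N` to `8^K N` on the local pieces).
Main result: `StripSys.exists_meas`.
-/

set_option autoImplicit false

namespace Crest.Agent.R189.Strip

open Finset Real

namespace StripSys

section angles

variable {w : ℕ} {Θ C : Type}

/-- the angles -/
noncomputable def ang (n N K : ℕ) : Pc Θ C w → ℝ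
  | .inl (_, _, r, _) => linProf n r.natAbs
  | .inr (_, _, x, r, _) => logProf N K (max x.natAbs r.natAbs)

@[simp] theorem ang_inl (n N K : ℕ) (i : ZMod w) (z : Fin 3) (r : ℤ) (c : C) :
    ang n N K (.inl (i, z, r, c) : Pc Θ C w) = linProf n r.natAbs := rfl

@[simp] theorem ang_inr (n N K : ℕ) (k : Fin 3) (t : Θ) (x r : ℤ) (c : C) :
    ang n N K (.inr (k, t, x, r, c) : Pc Θ C w) = logProf N K (max x.natAbs r.natAbs) := rfl

theorem ang_inl_eq {n N K : ℕ} {r : ℤ} (h : r.natAbs ≤ n) (i : ZMod w) (z : Fin 3) (c : C) :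
    ang n N K (.inl (i, z, r, c) : Pc Θ C w) = π / 2 := linProf_eq h

theorem ang_inr_eq {n N K : ℕ} (hK : 0 < K) (k : Fin 3) (t : Θ) {x r : ℤ} (c : C)
    (hx : x.natAbs ≤ N) (hr : r.natAbs ≤ N) :
    ang n N K (.inr (k, t, x, r, c) : Pc Θ C w) = π / 2 := logProf_eq hK (max_le hx hr)

/-- position of a nonzero angle, periodic case -/
theorem lt_of_ang_inl_ne {n N K : ℕ} (hn : 0 < n) {r : ℤ} {i : ZMod w} {z : Fin 3} {c : C}
    (h : ang n N K (.inl (i, z, r, c) : Pc Θ C w) ≠ 0) : r.natAbs < 2 * n := by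
  by_contra hc
  exact h (linProf_eq_zero hn (not_lt.1 hc))

/-- position of a nonzero angle, local case -/
theorem lt_of_ang_inr_ne {n N K : ℕ} (hN : 0 < N) {k : Fin 3} {t : Θ} {x r : ℤ} {c : C}
    (h : ang n N K (.inr (k, t, x, r, c) : Pc Θ C w) ≠ 0) :
    x.natAbs < 8 ^ K * N ∧ r.natAbs < 8 ^ K * N := by
  by_contra hc
  refine h (logProf_eq_zero hN ?_)
  rcases not_and_or.1 hc with h' | h'
  · exact (not_lt.1 h').trans (le_max_left _ _)
  · exact (not_lt.1 h').trans (le_max_right _ _)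

variable [NeZero w] [Fintype Θ] [Fintype C]

theorem card_per_le (n : ℕ) (s : Finset (ZMod w × Fin 3 × ℤ × C))
    (h : ∀ j ∈ s, j.2.2.1.natAbs ≤ n) :
    (s.card : ℝ) ≤ (w * 3 * Fintype.card C : ℝ) * (2 * n + 1) := by
  classical
  have h1 : s ⊆ (Finset.univ : Finset (ZMod w)) ×ˢ (Finset.univ : Finset (Fin 3)) ×ˢ
      (Finset.Icc (-(n:ℤ)) n) ×ˢ (Finset.univ : Finset C) := by
    intro j hj
    have := h j hj
    simp only [Finset.mem_product, Finset.mem_Icc, Finset.mem_univ, true_and, and_true]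
    omega
  have h2 := Finset.card_le_card h1
  simp only [Finset.card_product, Finset.card_univ, Int.card_Icc, Fintype.card_fin, ZMod.card]
    at h2
  have h3 : ((n:ℤ) + 1 - -(n:ℤ)).toNat = 2 * n + 1 := by omega
  rw [h3] at h2
  calc (s.card : ℝ) ≤ ((w * (3 * ((2 * n + 1) * Fintype.card C)) : ℕ) : ℝ) := by exact_mod_cast h2
    _ = _ := by push_cast; ring

theorem card_loc_le (n : ℕ) (s : Finset (Fin 3 × Θ × ℤ × ℤ × C)) (hn : 1 ≤ n)
    (h : ∀ j ∈ s, max j.2.2.1.natAbs j.2.2.2.1.natAbs ≤ n) :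
    (s.card : ℝ) ≤ (27 * Fintype.card Θ * Fintype.card C : ℝ) * n ^ 2 := by
  classical
  have h1 : s ⊆ (Finset.univ : Finset (Fin 3)) ×ˢ (Finset.univ : Finset Θ) ×ˢ
      (Finset.Icc (-(n:ℤ)) n) ×ˢ (Finset.Icc (-(n:ℤ)) n) ×ˢ (Finset.univ : Finset C) := by
    intro j hj
    have := h j hj
    simp only [Finset.mem_product, Finset.mem_Icc, Finset.mem_univ, true_and, and_true]
    have h5 := (le_max_left _ _).trans this
    have h6 := (le_max_right _ _).trans this
    omega
  have h2 := Finset.card_le_card h1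
  simp only [Finset.card_product, Finset.card_univ, Int.card_Icc, Fintype.card_fin] at h2
  have h3 : ((n:ℤ) + 1 - -(n:ℤ)).toNat = 2 * n + 1 := by omega
  rw [h3] at h2
  have hn' : (1:ℝ) ≤ n := by exact_mod_cast hn
  calc (s.card : ℝ) ≤ ((3 * (Fintype.card Θ * ((2 * n + 1) * ((2 * n + 1) * Fintype.card C))) : ℕ) : ℝ) := by
        exact_mod_cast h2
    _ = (3 * Fintype.card Θ * Fintype.card C : ℝ) * (2 * n + 1) ^ 2 := by push_cast; ring
    _ ≤ (3 * Fintype.card Θ * Fintype.card C : ℝ) * (3 * n) ^ 2 := by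
        refine mul_le_mul_of_nonneg_left ?_ (by positivity)
        exact pow_le_pow_left₀ (by positivity) (by linarith) 2
    _ = _ := by ring

/-- the support of the angle function is finite -/
theorem ang_finite {n N : ℕ} (K : ℕ) (hn : 0 < n) (hN : 0 < N) :
    {j : Pc Θ C w | ang n N K j ≠ 0}.Finite := by
  classical
  let s : Finset (Pc Θ C w) :=
    ((Finset.univ : Finset (ZMod w)) ×ˢ (Finset.univ : Finset (Fin 3)) ×ˢ
      (Finset.Icc (-((2 * n : ℕ):ℤ)) (2 * n : ℕ)) ×ˢ (Finset.univ : Finset C)).map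
      Function.Embedding.inl ∪
    ((Finset.univ : Finset (Fin 3)) ×ˢ (Finset.univ : Finset Θ) ×ˢ
      (Finset.Icc (-((8 ^ K * N : ℕ):ℤ)) (8 ^ K * N : ℕ)) ×ˢ
      (Finset.Icc (-((8 ^ K * N : ℕ):ℤ)) (8 ^ K * N : ℕ)) ×ˢ (Finset.univ : Finset C)).map
      Function.Embedding.inr
  refine s.finite_toSet.subset ?_
  rintro (⟨i, z, r, c⟩ | ⟨k, t, x, r, c⟩) hj
  · have := lt_of_ang_inl_ne hn hj
    rw [Finset.mem_coe, Finset.mem_union]
    left
    rw [Finset.mem_map]
    refine ⟨(i, z, r, c), ?_, rfl⟩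
    simp only [Finset.mem_product, Finset.mem_Icc, Finset.mem_univ, and_true, true_and]
    omega
  · have := lt_of_ang_inr_ne hN hj
    rw [Finset.mem_coe, Finset.mem_union]
    right
    rw [Finset.mem_map]
    refine ⟨(k, t, x, r, c), ?_, rfl⟩
    simp only [Finset.mem_product, Finset.mem_Icc, Finset.mem_univ, and_true, true_and]
    omega

/-- **Energy of a map of displacement at most one.** -/
theorem energy_of_unit (n N K : ℕ) (hn : 0 < n) (hN : 2 ≤ N) (hK : 0 < K)
    (σ : Pc Θ C w → Pc Θ C w)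
    (hσ1 : ∀ i z r c, ∃ i' z' r' c', σ (.inl (i, z, r, c)) = .inl (i', z', r', c') ∧
      r.natAbs ≤ r'.natAbs + 1 ∧ r'.natAbs ≤ r.natAbs + 1)
    (hσ2 : ∀ k t x r c, ∃ k' t' x' r' c', σ (.inr (k, t, x, r, c)) = .inr (k', t', x', r', c') ∧
      max x.natAbs r.natAbs ≤ max x'.natAbs r'.natAbs + 1 ∧
      max x'.natAbs r'.natAbs ≤ max x.natAbs r.natAbs + 1)
    (s : Finset (Pc Θ C w)) :
    ∑ j ∈ s, (ang n N K (σ j) - ang n N K j) ^ 2 ≤
      (π / 2) ^ 2 * ((w * 3 * Fintype.card C : ℝ) * (4 * n + 3)) * (1 / n) ^ 2 +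
      9 * (π / 2) ^ 2 * (27 * Fintype.card Θ * Fintype.card C : ℝ) / K := by
  classical
  -- split the sum
  have hs : s = (s.preimage Sum.inl (Sum.inl_injective.injOn)).map Function.Embedding.inl ∪
      (s.preimage Sum.inr (Sum.inr_injective.injOn)).map Function.Embedding.inr := by
    ext j
    rw [Finset.mem_union, Finset.mem_map, Finset.mem_map]
    rcases j with a | a <;> simp
  have hdisj : Disjoint ((s.preimage Sum.inl (Sum.inl_injective.injOn)).map
      (Function.Embedding.inl : _ ↪ Pc Θ C w))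
      ((s.preimage Sum.inr (Sum.inr_injective.injOn)).map
      (Function.Embedding.inr : _ ↪ Pc Θ C w)) := by
    rw [Finset.disjoint_left]
    intro j h1 h2
    rw [Finset.mem_map] at h1 h2
    obtain ⟨a, -, rfl⟩ := h1
    obtain ⟨b, -, h⟩ := h2
    simp at h
  rw [hs, Finset.sum_union hdisj, Finset.sum_map, Finset.sum_map]
  refine add_le_add ?_ ?_
  · -- periodic part
    let g : (ZMod w × Fin 3 × ℤ × C) → (ZMod w × Fin 3 × ℤ × C) := fun a =>
      Sum.elim id (fun _ => a) (σ (Sum.inl a) : Pc Θ C w)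
    have hg : ∀ a, (σ (Sum.inl a) : Pc Θ C w) = Sum.inl (g a) ∧
        a.2.2.1.natAbs ≤ (g a).2.2.1.natAbs + 1 ∧ (g a).2.2.1.natAbs ≤ a.2.2.1.natAbs + 1 := by
      rintro ⟨i, z, r, c⟩
      obtain ⟨i', z', r', c', h1, h2, h3⟩ := hσ1 i z r c
      have : g (i, z, r, c) = (i', z', r', c') := by
        simp only [g]
        rw [h1]
        rfl
      rw [this]
      exact ⟨h1, h2, h3⟩
    have := linProf_energy (fun a : ZMod w × Fin 3 × ℤ × C => a.2.2.1.natAbs)
      (w * 3 * Fintype.card C : ℝ) card_per_le (N := n) (M := 1) hn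
      (s.preimage Sum.inl (Sum.inl_injective.injOn)) g (fun a _ => (hg a).2.1)
      (fun a _ => (hg a).2.2)
    have e : ∀ a ∈ s.preimage Sum.inl (Sum.inl_injective.injOn),
        (ang n N K (σ (Function.Embedding.inl a)) -
          ang n N K (Function.Embedding.inl a : Pc Θ C w)) ^ 2 =
        (linProf n (g a).2.2.1.natAbs - linProf n a.2.2.1.natAbs) ^ 2 := by
      intro a _
      change (ang n N K (σ (Sum.inl a)) - _) ^ 2 = _
      rw [(hg a).1]
      rfl
    rw [Finset.sum_congr rfl e]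
    refine this.trans (le_of_eq ?_)
    push_cast
    ring
  · -- local part
    let g : (Fin 3 × Θ × ℤ × ℤ × C) → (Fin 3 × Θ × ℤ × ℤ × C) := fun a =>
      Sum.elim (fun _ => a) id (σ (Sum.inr a) : Pc Θ C w)
    have hg : ∀ a, (σ (Sum.inr a) : Pc Θ C w) = Sum.inr (g a) ∧
        max a.2.2.1.natAbs a.2.2.2.1.natAbs ≤
          max (g a).2.2.1.natAbs (g a).2.2.2.1.natAbs + 1 ∧
        max (g a).2.2.1.natAbs (g a).2.2.2.1.natAbs ≤
          max a.2.2.1.natAbs a.2.2.2.1.natAbs + 1 := by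
      rintro ⟨k, t, x, r, c⟩
      obtain ⟨k', t', x', r', c', h1, h2, h3⟩ := hσ2 k t x r c
      have : g (k, t, x, r, c) = (k', t', x', r', c') := by
        simp only [g]
        rw [h1]
        rfl
      rw [this]
      exact ⟨h1, h2, h3⟩
    have := logProf_energy (fun a : Fin 3 × Θ × ℤ × ℤ × C => max a.2.2.1.natAbs a.2.2.2.1.natAbs)
      (27 * Fintype.card Θ * Fintype.card C : ℝ) card_loc_le (N := N) (K := K) (M := 1)
      (by omega) hK (by omega)
      (s.preimage Sum.inr (Sum.inr_injective.injOn)) g (fun a _ => (hg a).2.1)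
      (fun a _ => (hg a).2.2)
    have e : ∀ a ∈ s.preimage Sum.inr (Sum.inr_injective.injOn),
        (ang n N K (σ (Function.Embedding.inr a)) -
          ang n N K (Function.Embedding.inr a : Pc Θ C w)) ^ 2 =
        (logProf N K (max (g a).2.2.1.natAbs (g a).2.2.2.1.natAbs) -
          logProf N K (max a.2.2.1.natAbs a.2.2.2.1.natAbs)) ^ 2 := by
      intro a _
      change (ang n N K (σ (Sum.inr a)) - _) ^ 2 = _
      rw [(hg a).1]
      rfl
    rw [Finset.sum_congr rfl e]
    refine this.trans (le_of_eq ?_)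
    push_cast
    ring

/-- energy of the translations -/
theorem energy_phiT (n N K : ℕ) (hn : 0 < n) (hN : 2 ≤ N) (hK : 0 < K) (v : C → ℤ × ℤ)
    (hv : ∀ c, |(v c).1| ≤ 1 ∧ |(v c).2| ≤ 1) (s : Finset (Pc Θ C w)) :
    ∑ j ∈ s, (ang n N K ((phiT w v).symm j : Pc Θ C w) - ang n N K j) ^ 2 ≤
      (π / 2) ^ 2 * ((w * 3 * Fintype.card C : ℝ) * (4 * n + 3)) * (1 / n) ^ 2 +
      9 * (π / 2) ^ 2 * (27 * Fintype.card Θ * Fintype.card C : ℝ) / K := by
  refine energy_of_unit n N K hn hN hK _ ?_ ?_ s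
  · intro i z r c
    refine ⟨i - (((v c).1 : ℤ) : ZMod w), z, r - (v c).2, c, rfl, ?_⟩
    have h := (hv c).2
    rw [Int.abs_eq_natAbs] at h
    omega
  · intro k t x r c
    refine ⟨k, t, x - (v c).1, r - (v c).2, c, rfl, ?_⟩
    have h := (hv c).2
    have h' := (hv c).1
    rw [Int.abs_eq_natAbs] at h h'
    omega

end angles

variable {Θ A Λ C : Type} (S : StripSys Θ A Λ)

theorem ang_phiC (l : Λ) (j : ℕ) (α : A → Equiv.Perm C) (n N K : ℕ) (x : Pc Θ C (S.w j)) :
    ang n N K ((S.phiC l j α).symm x) = ang n N K x := by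
  rcases x with ⟨i, z, r, c⟩ | ⟨k, t, x, r, c⟩ <;> rfl

/-- the comparison of the laws of `D(ω)` -/
theorem l1_law_Dset_le (j : ℕ) (θ : Pc Θ C (S.w j) →₀ ℝ) (g : Equiv.Perm (Om Θ C))
    (φ : Equiv.Perm (Pc Θ C (S.w j)))
    (hφ : ∀ ω ∈ (law θ).support, g '' (S.Dset j ω) = S.Dset j (ω.map φ.toEmbedding)) {δ : ℝ}
    (hδ : ∀ s : Finset (Pc Θ C (S.w j)), ∑ x ∈ s, (θ (φ.symm x) - θ x) ^ 2 ≤ δ) :
    l1 (((law θ).mapDomain (S.Dset j)).mapDomain (fun D => g '' D) -
      (law θ).mapDomain (S.Dset j)) ≤ 2 * √δ := by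
  classical
  have e1 : ((law θ).mapDomain (S.Dset j)).mapDomain (fun D => g '' D) =
      (law (θ.mapDomain φ)).mapDomain (S.Dset j) := by
    rw [← law_map, ← Finsupp.mapDomain_comp, ← Finsupp.mapDomain_comp]
    exact Finsupp.mapDomain_congr fun ω hω => hφ ω hω
  rw [e1, ← mapDomain_sub]
  refine (l1_mapDomain_le _ _).trans ?_
  have h := l1_law_sub_le (θ.mapDomain φ) θ ((θ.mapDomain φ).support ∪ θ.support)
    Finset.subset_union_left Finset.subset_union_right
  refine h.trans ?_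
  refine mul_le_mul_of_nonneg_left ?_ (by norm_num)
  refine Real.sqrt_le_sqrt ?_
  refine le_trans (le_of_eq ?_) (hδ ((θ.mapDomain φ).support ∪ θ.support))
  refine Finset.sum_congr rfl fun x _ => ?_
  rw [Finsupp.mapDomain_equiv_apply]

/-- **Almost invariant random strip subsets.** -/
theorem exists_meas [Finite Θ] [Finite C] (l : Λ) {ε : ℝ} (hε : 0 < ε) :
    ∃ P : Set (Om Θ C) →₀ ℝ, IsProb P ∧
      (∀ D ∈ P.support, S.IsDom D ∧ ∀ p : Om Θ C, p.2.1 = 0 → p ∈ D) ∧
      ∀ g : Equiv.Perm (Om Θ C),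
        ((∃ v : C → ℤ × ℤ, (∀ c, |(v c).1| ≤ 1 ∧ |(v c).2| ≤ 1) ∧ g = transl v) ∨
        (∃ α : A → Equiv.Perm C, g = recol (S.lett l) α)) →
        l1 (P.mapDomain (fun D => g '' D) - P) < ε := by
  classical
  let _ := Fintype.ofFinite Θ
  let _ := Fintype.ofFinite C
  -- constants
  set δ : ℝ := ε ^ 2 / 16 with hδ
  have hδ0 : 0 < δ := by positivity
  obtain ⟨C₀, hC₀⟩ := exists_nat_ge ((π / 2) ^ 2 * (21 * Fintype.card C) / (δ / 2) + 1)
  obtain ⟨K, hK⟩ := exists_nat_ge
    (9 * (π / 2) ^ 2 * (27 * Fintype.card Θ * Fintype.card C : ℝ) / (δ / 2) + 1)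
  have hC₀1 : (1:ℝ) ≤ C₀ := by
    refine le_trans ?_ hC₀
    have : 0 ≤ (π / 2) ^ 2 * (21 * Fintype.card C) / (δ / 2) := by positivity
    linarith
  have hK1 : (1:ℝ) ≤ K := by
    refine le_trans ?_ hK
    have : 0 ≤ 9 * (π / 2) ^ 2 * (27 * Fintype.card Θ * Fintype.card C : ℝ) / (δ / 2) := by
      positivity
    linarith
  have hC₀n : 0 < C₀ := by
    have : (0:ℝ) < C₀ := by linarith
    exact_mod_cast this
  have hKn : 0 < K := by
    have : (0:ℝ) < K := by linarith
    exact_mod_cast this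
  obtain ⟨j, hj⟩ := S.H_grow (8 ^ K * (2 * C₀))
  have hw := S.w_pos j
  have : NeZero (S.w j) := ⟨hw.ne'⟩
  set n : ℕ := C₀ * S.w j with hn
  have hn0 : 0 < n := Nat.mul_pos hC₀n hw
  set N : ℕ := 2 * n with hN
  have hN2 : 2 ≤ N := by omega
  have h8 : 8 ^ K * N ≤ S.H j := by
    refine le_trans (le_of_eq ?_) hj
    rw [hN, hn]; ring
  have hNH : N ≤ S.H j := by
    refine le_trans ?_ h8
    exact Nat.le_mul_of_pos_left _ (by positivity)
  have hwn : S.w j ≤ n := Nat.le_mul_of_pos_left _ hC₀n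
  let θ : Pc Θ C (S.w j) →₀ ℝ := Finsupp.ofSupportFinite (ang n N K) (ang_finite K hn0 (by omega))
  have hθ : ∀ x, θ x = ang n N K x := fun x => rfl
  -- the sets in the support are good
  have hgood : ∀ ω ∈ (law θ).support, S.Good j N ω := by
    intro ω hω
    have hsub := subset_of_mem_law_support hω
    refine ⟨by omega, by omega, hNH, ?_, ?_, ?_⟩
    · intro i z r c h
      have h1 : ang n N K (Sum.inl (i, z, r, c) : Pc Θ C (S.w j)) ≠ 0 := by
        have := hsub h
        rwa [Finsupp.mem_support_iff] at this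
      have h2 := lt_of_ang_inl_ne hn0 h1
      rw [Int.abs_eq_natAbs]
      exact_mod_cast h2.le
    · intro cls t dx r c h
      have h1 : ang n N K (Sum.inr (cls, t, dx, r, c) : Pc Θ C (S.w j)) ≠ 0 := by
        have := hsub h
        rwa [Finsupp.mem_support_iff] at this
      have h2 := lt_of_ang_inr_ne (by omega) h1
      have h3 := S.H_le j
      rw [Int.abs_eq_natAbs, Int.abs_eq_natAbs]
      constructor
      · exact_mod_cast lt_of_lt_of_le h2.1 (h8.trans h3)
      · exact_mod_cast (lt_of_lt_of_le h2.2 h8).le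
    · intro cls t dx r c hdx hr
      refine mem_of_mem_law_support hω ?_
      rw [hθ]
      rw [Int.abs_eq_natAbs] at hdx hr
      exact ang_inr_eq hKn cls t c (by exact_mod_cast hdx) (by exact_mod_cast hr)
  have hzero : ∀ ω ∈ (law θ).support, ∀ (i : ZMod (S.w j)) (z : Fin 3) (c : C),
      Sum.inl (i, z, (0 : ℤ), c) ∈ ω := by
    intro ω hω i z c
    refine mem_of_mem_law_support hω ?_
    rw [hθ]
    exact ang_inl_eq (by simp) i z c
  refine ⟨(law θ).mapDomain (S.Dset j), (isProb_law θ).map _, ?_, ?_⟩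
  · intro D hD
    have := Finsupp.mapDomain_support hD
    rw [Finset.mem_image] at this
    obtain ⟨ω, hω, rfl⟩ := this
    exact ⟨S.isDom_Dset j ω, fun p hp => S.zero_mem_Dset (hzero ω hω) p hp⟩
  · -- almost invariance
    have hper : (π / 2) ^ 2 * ((S.w j * 3 * Fintype.card C : ℝ) * (4 * n + 3)) * (1 / n) ^ 2 ≤
        δ / 2 := by
      have hnr : (1:ℝ) ≤ n := by exact_mod_cast hn0
      have hwr : (0:ℝ) < S.w j := by exact_mod_cast hw
      have hnw : (n:ℝ) = C₀ * S.w j := by rw [hn]; push_cast; ring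
      calc (π / 2) ^ 2 * ((S.w j * 3 * Fintype.card C : ℝ) * (4 * n + 3)) * (1 / n) ^ 2
          ≤ (π / 2) ^ 2 * ((S.w j * 3 * Fintype.card C : ℝ) * (7 * n)) * (1 / n) ^ 2 := by
            gcongr
            linarith
        _ = (π / 2) ^ 2 * (21 * Fintype.card C) * (S.w j / n) := by
            field_simp
            ring
        _ = (π / 2) ^ 2 * (21 * Fintype.card C) / C₀ := by
            rw [hnw]
            field_simp
        _ ≤ δ / 2 := by
            rw [div_le_iff₀ (by linarith)]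
            have h1 : (π / 2) ^ 2 * (21 * Fintype.card C) / (δ / 2) ≤ C₀ := by linarith
            rw [div_le_iff₀ (by positivity)] at h1
            linarith
    have hloc : 9 * (π / 2) ^ 2 * (27 * Fintype.card Θ * Fintype.card C : ℝ) / K ≤ δ / 2 := by
      rw [div_le_iff₀ (by linarith)]
      have h1 : 9 * (π / 2) ^ 2 * (27 * Fintype.card Θ * Fintype.card C : ℝ) / (δ / 2) ≤ K := by
        linarith
      rw [div_le_iff₀ (by positivity)] at h1
      linarith
    have hfin : 2 * √δ < ε := by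
      have : √δ = ε / 4 := by
        rw [hδ, show ε ^ 2 / 16 = (ε / 4) ^ 2 by ring]
        exact Real.sqrt_sq (by positivity)
      rw [this]
      linarith
    intro g hg
    refine lt_of_le_of_lt ?_ hfin
    rcases hg with ⟨v, hv, rfl⟩ | ⟨α, rfl⟩
    · refine S.l1_law_Dset_le j θ _ (phiT (S.w j) v)
        (fun ω hω => S.image_transl_Dset (hgood ω hω) v hv) (fun s => ?_)
      simp only [hθ]
      refine (energy_phiT n N K hn0 hN2 hKn v hv s).trans ?_
      linarith
    · refine S.l1_law_Dset_le j θ _ (S.phiC l j α)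
        (fun ω hω => S.image_recol_Dset (hgood ω hω) l α) (fun s => ?_)
      simp only [hθ, ang_phiC, sub_self]
      simp
      positivity

end StripSys

end Crest.Agent.R189.Strip
end

-- ▼ part R189/StripMain
section

/-!
# Row 189: STEP A / STEP B, the strip theorem (helper84)
-/

set_option autoImplicit false

namespace Crest.Agent.R189.Strip

open Equiv

/-- almost invariance under generators gives almost invariance under words -/
lemma word_bound {G S : Type*} [Group G] (a : G → S → S) (h1 : a 1 = id)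
    (hmul : ∀ g h, a (g * h) = a g ∘ a h) {Gen : Set G} {g : G} (hg : g ∈ Subgroup.closure Gen) :
    ∃ n : ℕ, ∀ (p : S →₀ ℝ) (ε : ℝ), 0 ≤ ε → (∀ s ∈ Gen, l1 (p.mapDomain (a s) - p) ≤ ε) →
      l1 (p.mapDomain (a g) - p) ≤ n * ε := by
  induction hg using Subgroup.closure_induction with
  | mem x hx => exact ⟨1, fun p ε _ h => by simpa using h x hx⟩
  | one =>
    refine ⟨0, fun p ε _ _ => ?_⟩
    rw [h1, Finsupp.mapDomain_id, sub_self]
    simp
  | mul x y _ _ ihx ihy =>
    obtain ⟨n, hn⟩ := ihx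
    obtain ⟨m, hm⟩ := ihy
    refine ⟨n + m, fun p ε hε h => ?_⟩
    have e : p.mapDomain (a (x * y)) = (p.mapDomain (a y)).mapDomain (a x) := by
      rw [hmul, Finsupp.mapDomain_comp]
    have h2 := l1_sub_le (p.mapDomain (a (x * y))) (p.mapDomain (a x)) p
    have h3 : l1 (p.mapDomain (a (x * y)) - p.mapDomain (a x)) ≤ m * ε := by
      rw [e, ← mapDomain_sub]
      exact (l1_mapDomain_le _ _).trans (hm p ε hε h)
    have h4 := hn p ε hε h
    push_cast
    linarith
  | inv x _ ih =>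
    obtain ⟨n, hn⟩ := ih
    refine ⟨n, fun p ε hε h => ?_⟩
    have e : p.mapDomain (a x⁻¹) - p = (p - p.mapDomain (a x)).mapDomain (a x⁻¹) := by
      rw [mapDomain_sub, ← Finsupp.mapDomain_comp, ← hmul, inv_mul_cancel, h1,
        Finsupp.mapDomain_id]
    rw [e]
    refine (l1_mapDomain_le _ _).trans ?_
    rw [l1_sub_comm]
    exact hn p ε hε h

section act

variable {Ω : Type} {G : Type} [Group G] (ρ ρ' : G →* Perm Ω)

/-- twisted action on pairs (domain, set of permutations) -/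
def pact (g : G) (x : Set Ω × Set (Perm Ω)) : Set Ω × Set (Perm Ω) :=
  (ρ g '' x.1, (fun k => ρ' g * k * (ρ g)⁻¹) '' x.2)

lemma pact_one : pact ρ ρ' 1 = id := by
  funext x
  simp [pact]

lemma pact_mul (g h : G) : pact ρ ρ' (g * h) = pact ρ ρ' g ∘ pact ρ ρ' h := by
  funext x
  simp only [pact, Function.comp, Set.image_image, map_mul, mul_inv_rev, Perm.coe_mul]
  refine Prod.ext rfl ?_
  simp only [mul_assoc]

/-- the twisted action as a `MulAction` -/
@[reducible] def pactAction : MulAction G (Set Ω × Set (Perm Ω)) where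
  smul := pact ρ ρ'
  one_smul x := congrFun (pact_one ρ ρ') x
  mul_smul g h x := congrFun (pact_mul ρ ρ' g h) x

end act

namespace StripSys

variable {Θ A Λ C : Type} (S : StripSys Θ A Λ)

lemma KD_ext {D : Set (Om Θ C)} {k k' : Perm (Om Θ C)} (hk : k ∈ S.KD D) (hk' : k' ∈ S.KD D)
    (h : ∀ p ∈ D, k p = k' p) : k = k' := by
  ext1 p
  by_cases hp : p ∈ D
  · exact h p hp
  · rw [((S.mem_KD).1 hk).2 p hp, ((S.mem_KD).1 hk').2 p hp]

lemma KD_maps {D : Set (Om Θ C)} {k : Perm (Om Θ C)} (hk : k ∈ S.KD D) {p : Om Θ C} :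
    k p ∈ D ↔ p ∈ D := by
  constructor
  · intro h
    by_contra hp
    have := ((S.mem_KD).1 hk).2 p hp
    rw [this] at h
    exact hp h
  · intro hp
    by_contra h
    have h1 := ((S.mem_KD).1 hk).2 _ h
    have h2 := k.injective h1
    rw [h2] at h
    exact h hp

lemma image_of_KD {D : Set (Om Θ C)} {k : Perm (Om Θ C)} (hk : k ∈ S.KD D) : k '' D = D := by
  ext p
  rw [Equiv.image_eq_preimage_symm, Set.mem_preimage]
  have := S.KD_maps hk (p := k.symm p)
  rw [← this, Equiv.apply_symm_apply]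

/-- stabilisers are amenable -/
lemma amen_stab [Finite Θ] [Finite C] {K : Type} [Group K] (ρ ρ' : K →* Perm (Om Θ C))
    (hρ : ∀ g, ρ g ∈ S.Loc C) (hρ' : ∀ g, ρ' g ∈ S.Loc C) {D : Set (Om Θ C)} (hD : S.IsDom D)
    (hK : Amen (ρ.eqLocus ρ')) (L : Subgroup K)
    (hL : ∀ g ∈ L, ρ g '' D = D ∧ ρ' g * (ρ g)⁻¹ ∈ S.KD D) : Amen L := by
  have hL' : ∀ g ∈ L, ρ' g '' D = D := by
    intro g hg
    obtain ⟨h1, h2⟩ := hL g hg
    have h3 := S.image_of_KD h2
    have e : (ρ' g : Perm (Om Θ C)) = (ρ' g * (ρ g)⁻¹) * ρ g := by group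
    rw [e, Perm.coe_mul, Set.image_comp, h1, h3]
  choose f hf1 hf2 using fun g : L => S.exists_restr (hρ g) hD (hL g g.2).1
  choose f' hf1' hf2' using fun g : L => S.exists_restr (hρ' g) hD (hL' g g.2)
  have hmem : ∀ (g : L) (p : Om Θ C), p ∈ D → ρ g p ∈ D := by
    intro g p hp
    have := (hL g g.2).1
    rw [← this]
    exact ⟨p, hp, rfl⟩
  have hmem' : ∀ (g : L) (p : Om Θ C), p ∈ D → ρ' g p ∈ D := by
    intro g p hp
    have := hL' g g.2
    rw [← this]
    exact ⟨p, hp, rfl⟩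
  let φ : L →* (S.KD D) × (S.KD D) :=
    { toFun := fun g => (⟨f g, hf1 g⟩, ⟨f' g, hf1' g⟩)
      map_one' := by
        refine Prod.ext (Subtype.ext ?_) (Subtype.ext ?_)
        · refine S.KD_ext (hf1 1) (one_mem _) (fun p hp => ?_)
          rw [hf2 1 p hp]; simp
        · refine S.KD_ext (hf1' 1) (one_mem _) (fun p hp => ?_)
          rw [hf2' 1 p hp]; simp
      map_mul' := by
        intro g h
        refine Prod.ext (Subtype.ext ?_) (Subtype.ext ?_)
        · refine S.KD_ext (hf1 _) (mul_mem (hf1 g) (hf1 h)) (fun p hp => ?_)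
          show f (g * h) p = f g (f h p)
          rw [hf2 _ p hp, hf2 h p hp, hf2 g _ (hmem h p hp)]
          simp
        · refine S.KD_ext (hf1' _) (mul_mem (hf1' g) (hf1' h)) (fun p hp => ?_)
          show f' (g * h) p = f' g (f' h p)
          rw [hf2' _ p hp, hf2' h p hp, hf2' g _ (hmem' h p hp)]
          simp }
  refine amen_of_ker φ (Amen.prod (S.KD_amen hD) (S.KD_amen hD)) ?_
  have hker : ∀ g : L, φ g = 1 → (g : K) ∈ ρ.eqLocus ρ' := by
    intro g hg
    show ρ g = ρ' g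
    have h1 : f g = 1 := congrArg (fun x => (x.1 : Perm (Om Θ C))) hg
    have h2 : f' g = 1 := congrArg (fun x => (x.2 : Perm (Om Θ C))) hg
    ext1 p
    by_cases hp : p ∈ D
    · rw [← hf2 g p hp, ← hf2' g p hp, h1, h2]
    · have h3 : ρ g p ∉ D := by
        intro h
        rw [← (hL g g.2).1] at h
        obtain ⟨q, hq, hqp⟩ := h
        exact hp ((ρ g).injective hqp ▸ hq)
      have h4 := ((S.mem_KD).1 (hL g g.2).2).2 _ h3
      rw [Perm.mul_apply] at h4
      simpa using h4.symm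
  refine Amen.of_inj hK ⟨⟨fun g => ⟨(g : L), hker g (MonoidHom.mem_ker.1 g.2)⟩, rfl⟩,
    fun _ _ => rfl⟩ ?_
  intro a b hab
  have := congrArg (fun x : ρ.eqLocus ρ' => (x : K)) hab
  exact Subtype.ext (Subtype.ext this)

/-- almost invariant probabilities on pairs -/
lemma exists_approx [Finite Θ] [Finite C] {G : Type} [Group G]
    (ρ : Λ → G →* Perm (Om Θ C)) {Gen : Set G} (hGen : Subgroup.closure Gen = ⊤)
    (hg : ∀ g ∈ Gen, IsGen S ρ g) (l l' : Λ) (F : Finset G) {ε : ℝ} (hε : 0 < ε) :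
    ∃ p : (Set (Om Θ C) × Set (Perm (Om Θ C))) →₀ ℝ, IsProb p ∧
      (∀ s ∈ p.support, ∃ D, S.IsDom D ∧ s = (D, (S.KD D : Set (Perm (Om Θ C))))) ∧
      ∀ g ∈ F, l1 (p.mapDomain (pact (ρ l) (ρ l') g) - p) < ε := by
  classical
  have hword : ∀ g : G, ∃ n : ℕ, ∀ (p : (Set (Om Θ C) × Set (Perm (Om Θ C))) →₀ ℝ) (ε : ℝ), 0 ≤ ε →
      (∀ s ∈ Gen, l1 (p.mapDomain (pact (ρ l) (ρ l') s) - p) ≤ ε) →
      l1 (p.mapDomain (pact (ρ l) (ρ l') g) - p) ≤ n * ε := by
    intro g
    exact word_bound (pact (ρ l) (ρ l')) (pact_one _ _) (pact_mul _ _)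
      (by rw [hGen]; exact Subgroup.mem_top g)
  choose n hn using hword
  let N : ℕ := ∑ g ∈ F, n g
  have hNle : ∀ g ∈ F, n g ≤ N := fun g hgF =>
    Finset.single_le_sum (f := n) (fun _ _ => Nat.zero_le _) hgF
  let δ : ℝ := ε / (N + 1)
  have hN1 : (0 : ℝ) < (N : ℝ) + 1 := by positivity
  have hδ : 0 < δ := div_pos hε hN1
  obtain ⟨P, hP, hPs, hPg⟩ := S.exists_meas (C := C) l hδ
  refine ⟨P.mapDomain (fun D => (D, (S.KD D : Set (Perm (Om Θ C))))), hP.map _, ?_, ?_⟩
  · intro s hs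
    have := Finsupp.mapDomain_support hs
    rw [Finset.mem_image] at this
    obtain ⟨D, hD, rfl⟩ := this
    exact ⟨D, (hPs D hD).1, rfl⟩
  · intro g hgF
    have hgen : ∀ s ∈ Gen, l1 ((P.mapDomain (fun D => (D, (S.KD D : Set (Perm (Om Θ C)))))).mapDomain
        (pact (ρ l) (ρ l') s) - P.mapDomain (fun D => (D, (S.KD D : Set (Perm (Om Θ C)))))) ≤ δ := by
      intro s hs
      have hgs := hg s hs
      have e1 : (P.mapDomain (fun D => (D, (S.KD D : Set (Perm (Om Θ C)))))).mapDomain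
          (pact (ρ l) (ρ l') s) = (P.mapDomain (fun D => ρ l s '' D)).mapDomain
            (fun D => (D, (S.KD D : Set (Perm (Om Θ C))))) := by
        rw [← Finsupp.mapDomain_comp, ← Finsupp.mapDomain_comp]
        refine Finsupp.mapDomain_congr (fun D hD => ?_)
        obtain ⟨hD1, hD0⟩ := hPs D hD
        simp only [Function.comp, pact]
        refine Prod.ext rfl ?_
        have hk := S.kappa_mem_KD ρ hgs l l' hD1 hD0
        have hl : ρ l s ∈ S.Loc C := S.rho_mem_Loc ρ hGen hg l s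
        ext x
        simp only [Set.mem_image, SetLike.mem_coe]
        constructor
        · rintro ⟨k, hk2, rfl⟩
          have h3 := (S.KD_conj hl D k).2 hk2
          have e : ρ l' s * k * (ρ l s)⁻¹ = (ρ l' s * (ρ l s)⁻¹) * (ρ l s * k * (ρ l s)⁻¹) := by
            group
          rw [e]
          exact mul_mem hk h3
        · intro hx
          refine ⟨(ρ l' s)⁻¹ * x * ρ l s, ?_, by group⟩
          rw [← S.KD_conj hl]
          have e : ρ l s * ((ρ l' s)⁻¹ * x * ρ l s) * (ρ l s)⁻¹ = (ρ l' s * (ρ l s)⁻¹)⁻¹ * x := by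
            group
          rw [e]
          exact mul_mem (inv_mem hk) hx
      rw [e1, ← mapDomain_sub]
      refine (l1_mapDomain_le _ _).trans (le_of_lt ?_)
      apply hPg
      rcases hgs with ⟨v, hv, h⟩ | ⟨α, h⟩
      · exact Or.inl ⟨v, hv, h l⟩
      · exact Or.inr ⟨α, h l⟩
    have h5 := hn g _ δ hδ.le hgen
    refine lt_of_le_of_lt h5 ?_
    have h6 : (n g : ℝ) ≤ N := by exact_mod_cast hNle g hgF
    have h7 : (n g : ℝ) * δ ≤ N * δ := mul_le_mul_of_nonneg_right h6 hδ.le
    have h8 : (N : ℝ) * δ + δ = ε := by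
      simp only [δ]
      field_simp
    linarith

/-- two labels -/
theorem strip_amen_pair [Finite Θ] [Finite C] {G : Type} [Group G]
    (ρ : Λ → G →* Perm (Om Θ C)) {Gen : Set G} (hGen : Subgroup.closure Gen = ⊤)
    (hg : ∀ g ∈ Gen, IsGen S ρ g) (l l' : Λ) (K : Subgroup G)
    (hK : Amen (K ⊓ (ρ l).eqLocus (ρ l') : Subgroup G)) : Amen K := by
  classical
  let σ : K →* Perm (Om Θ C) := (ρ l).comp K.subtype
  let σ' : K →* Perm (Om Θ C) := (ρ l').comp K.subtype
  let _ : MulAction K (Set (Om Θ C) × Set (Perm (Om Θ C))) := pactAction σ σ'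
  refine amen_of_stab (G := K) {s : Set (Om Θ C) × Set (Perm (Om Θ C)) |
    ∃ D, S.IsDom D ∧ s = (D, (S.KD D : Set (Perm (Om Θ C))))} ?_ ?_
  · intro F ε hε
    obtain ⟨p, hp, hps, hpg⟩ := S.exists_approx ρ hGen hg l l' (F.image (fun g : K => (g : G))) hε
    exact ⟨p, hp, hps, fun g hgF => hpg g (Finset.mem_image_of_mem _ hgF)⟩
  · rintro s ⟨D, hD, rfl⟩
    refine S.amen_stab σ σ' (fun g => S.rho_mem_Loc ρ hGen hg l g)
      (fun g => S.rho_mem_Loc ρ hGen hg l' g) hD ?_ _ ?_
    · refine Amen.of_inj hK ⟨⟨fun g => ⟨((g : K) : G), ⟨(g : K).2, g.2⟩⟩, rfl⟩,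
        fun _ _ => rfl⟩ ?_
      intro a b hab
      have := congrArg (fun x : (K ⊓ (ρ l).eqLocus (ρ l') : Subgroup G) => (x : G)) hab
      exact Subtype.ext (Subtype.ext this)
    · intro g hgs
      rw [MulAction.mem_stabilizer_iff] at hgs
      have hgs' : (σ g '' D, (fun k => σ' g * k * (σ g)⁻¹) '' (S.KD D : Set (Perm (Om Θ C))))
        = (D, (S.KD D : Set (Perm (Om Θ C)))) := hgs
      refine ⟨congrArg Prod.fst hgs', ?_⟩
      have h2 := congrArg Prod.snd hgs'
      simp only at h2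
      have h3 : σ' g * 1 * (σ g)⁻¹ ∈ (S.KD D : Set (Perm (Om Θ C))) := by
        rw [← h2]
        exact ⟨1, one_mem _, rfl⟩
      simpa using h3

/-- iterate over a finite family of subgroups. -/
lemma amen_iter {G : Type} [Group G] {ι : Type} (T : Finset ι) (E : ι → Subgroup G)
    (h : ∀ i ∈ T, ∀ H : Subgroup G, Amen (H ⊓ E i : Subgroup G) → Amen H) (H : Subgroup G)
    (hA : Amen (H ⊓ T.inf E : Subgroup G)) : Amen H := by
  classical
  induction T using Finset.induction_on generalizing H with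
  | empty => rwa [Finset.inf_empty, inf_top_eq] at hA
  | insert a s ha ih =>
    rw [Finset.inf_insert, ← inf_assoc] at hA
    have h1 : Amen (H ⊓ E a : Subgroup G) :=
      ih (fun i hi => h i (Finset.mem_insert_of_mem hi)) (H ⊓ E a) hA
    exact h a (Finset.mem_insert_self a s) H h1

/-- STEP A and STEP B -/
theorem strip_amen' [Finite Θ] [Finite C] [Finite Λ] {G : Type} [Group G]
    (ρ : Λ → G →* Perm (Om Θ C)) {Gen : Set G} (hGen : Subgroup.closure Gen = ⊤)
    (hg : ∀ g ∈ Gen, IsGen S ρ g) (K : Subgroup G) (hK : Amen (K ⊓ blind ρ : Subgroup G)) :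
    Amen K := by
  classical
  have := Fintype.ofFinite Λ
  refine amen_iter (Finset.univ : Finset (Λ × Λ)) (fun x => (ρ x.1).eqLocus (ρ x.2))
    (fun x _ H hH => S.strip_amen_pair ρ hGen hg x.1 x.2 H hH) K ?_
  have e : (Finset.univ : Finset (Λ × Λ)).inf (fun x => (ρ x.1).eqLocus (ρ x.2)) = blind ρ := by
    ext g
    simp only [Finset.inf_univ_eq_iInf, Subgroup.mem_iInf]
    exact ⟨fun h l l' => h (l, l'), fun h x => h x.1 x.2⟩
  rw [e]
  exact hK

end StripSys

end Crest.Agent.R189.Strip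
end

-- ▼ part R189/AmenX
section

/-!
# Row 189: the concrete amenability data and the amenability of `Gp` (helper31, integration)
-/

set_option autoImplicit false

namespace Crest.Agent.R189

open Equiv

/-- letters agree if digit and star agree -/
theorem letter_congr {q q' : ℤ × ℤ} {s s' : Star} (h1 : dg 9 q.2 = dg 9 q'.2)
    (h2 : rstar 3 s q.1 q.2 = rstar 3 s' q'.1 q'.2) : letter ⟨q, s⟩ = letter ⟨q', s'⟩ :=
  letter_eq_iff.2 ⟨h1, h2⟩

/-- exchange of the coordinates -/
def swapE : (ℤ × ℤ) ≃+ (ℤ × ℤ) := AddEquiv.prodComm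

section data
variable (C : Type) [Fintype C] [DecidableEq C]

/-- the concrete data, from two strip systems -/
noncomputable def amenDataX
    (SR : Strip.StripSys Tau (Fin 9 × Star) VLab)
    (hSR : ∀ (l : VLab) (u r : ℤ) (t : Tau), SR.lett l u r t = letter ⟨(u, r), hStar l t⟩)
    (SC : Strip.StripSys Tau (Fin 9 × Star) VLab)
    (hSC : ∀ (l : VLab) (u r : ℤ) (t : Tau), SC.lett l u r t = letter ⟨(r, u), vStar l t⟩) :
    AmenData (Gp (ℤ × ℤ) letter C) Star VLab Tau (Fin 9 × Star) C where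
  L s q := letter ⟨q, s⟩
  ρ s := rep letter s
  hs := hStar
  vs := vStar
  up s := ⟨s.Pf, s.Pf_valid⟩
  down s := ⟨s.Pb, s.Pb_valid⟩
  left s := ⟨s.Qb, s.Qb_valid⟩
  right s := ⟨s.Qf, s.Qf_valid⟩
  inj g h := rep_inj letter g h
  loc g := rep_loc letter g
  dis g := rep_dis letter g
  F0 s s' q h1 h2 := letter_congr rfl (rstar_indep (a := 3) (by norm_num) s s' h1 h2)
  F1u s t q h1 h2 := by
    obtain ⟨x, y⟩ := q
    simp only at h1 h2
    subst h1
    exact letter_congr rfl (rstar_zero_of_pos (a := 3) (s := s) (s' := vStar ⟨s.Pf, s.Pf_valid⟩ t)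
      (by norm_num) rfl h2)
  F1d s t q h1 h2 := by
    obtain ⟨x, y⟩ := q
    simp only at h1 h2
    subst h1
    exact letter_congr rfl (rstar_zero_of_neg (a := 3) (s := s) (s' := vStar ⟨s.Pb, s.Pb_valid⟩ t)
      (by norm_num) rfl h2)
  F2r s t q h1 h2 := by
    obtain ⟨x, y⟩ := q
    simp only at h1 h2
    subst h1
    exact letter_congr rfl (rstar_zero_right_of_pos (a := 3) (s := s) (s' := hStar ⟨s.Qf, s.Qf_valid⟩ t)
      (by norm_num) rfl h2)
  F2l s t q h1 h2 := by
    obtain ⟨x, y⟩ := q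
    simp only at h1 h2
    subst h1
    exact letter_congr rfl (rstar_zero_right_of_neg (a := 3) (s := s) (s' := hStar ⟨s.Qb, s.Qb_valid⟩ t)
      (by norm_num) rfl h2)
  FD M := fd_letter M
  row H h := by
    refine SR.strip_amen' (fun l => famRep letter (hStar l) (AddEquiv.refl _))
      (closure_unitGens letter) (fun g hg => isGen_of_unit letter SR hStar (AddEquiv.refl _)
        (fun v hv => hv) (fun l u r t => hSR l u r t) g hg) H ?_
    rw [blind_famRep]
    exact h
  col H h := by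
    refine SC.strip_amen' (fun l => famRep letter (vStar l) swapE)
      (closure_unitGens letter) (fun g hg => isGen_of_unit letter SC vStar swapE
        (fun v hv => ⟨hv.2, hv.1⟩) (fun l u r t => hSC l u r t) g hg) H ?_
    rw [blind_famRep]
    exact h

/-- amenability of `Gp`, from the two strip systems -/
theorem amen_Gp_of
    (SR : Strip.StripSys Tau (Fin 9 × Star) VLab)
    (hSR : ∀ (l : VLab) (u r : ℤ) (t : Tau), SR.lett l u r t = letter ⟨(u, r), hStar l t⟩)
    (SC : Strip.StripSys Tau (Fin 9 × Star) VLab)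
    (hSC : ∀ (l : VLab) (u r : ℤ) (t : Tau), SC.lett l u r t = letter ⟨(r, u), vStar l t⟩) :
    Amen (Gp (ℤ × ℤ) letter C) := by
  have : Nonempty Star := ⟨hStar l0 .f0⟩
  have : Nonempty Tau := ⟨.f0⟩
  exact (amenDataX C SR hSR SC hSC).amen

end data

end Crest.Agent.R189
end

-- ▼ part R189/Growth
section

/-!
# Row 189: growth of the boxes (helper777)

The width/height ratio of the boxes tends to infinity along even levels, and the height/width
ratio tends to infinity along odd levels.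
-/

set_option autoImplicit false

namespace Crest.Agent.R189

open Filter Finset

variable {a₀ : ℕ}

theorem tendsto_sum_inv_add (a c : ℕ) (h : 0 < a) :
    Tendsto (fun m : ℕ => ∑ i ∈ range m, (1:ℝ) / (a + c + 2 * i)) atTop atTop := by
  have h1 := Real.tendsto_sum_range_one_div_nat_succ_atTop
  have h2 : (0:ℝ) < 1 / ((a:ℝ) + c + 2) := by positivity
  have h3 := h1.const_mul_atTop h2
  refine tendsto_atTop_mono (fun m => ?_) h3
  rw [mul_sum]
  refine sum_le_sum fun i _ => ?_
  have ha : (1:ℝ) ≤ a := by exact_mod_cast h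
  rw [one_div_mul_one_div]
  refine one_div_le_one_div_of_le (by positivity) ?_
  have hi : (0:ℝ) ≤ i := by positivity
  have hc : (0:ℝ) ≤ c := by positivity
  nlinarith [mul_nonneg hi hc, mul_nonneg hi (zero_le_one.trans ha)]

/-- multiplicative recursion with divergent increments -/
theorem ratio_ge (r : ℕ → ℝ) (a c : ℕ) (h : 0 < a) (h0 : 1 ≤ r 0)
    (hr : ∀ m, r (m + 1) = r m * (1 + 1 / (a + c + 2 * m))) (m : ℕ) :
    1 + ∑ i ∈ range m, (1:ℝ) / (a + c + 2 * i) ≤ r m := by
  have ha : (1:ℝ) ≤ a := by exact_mod_cast h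
  induction m with
  | zero => simpa using h0
  | succ m ih =>
    rw [sum_range_succ, hr]
    have h1 : (0:ℝ) < 1 / (a + c + 2 * m) := by positivity
    have h2 : (0:ℝ) ≤ ∑ i ∈ range m, (1:ℝ) / (a + c + 2 * i) :=
      sum_nonneg fun i _ => by positivity
    nlinarith








end Crest.Agent.R189
end

-- ▼ part R189/PWGrow
section

/-!
# Row 189 (S0289), helper697: growth of `PW` (fields `H_le`, `H_grow` of the two strip systems)

Rows: `w j = PW 4 j`, `b j = 4+2j`, `H j = PW 3 j * (3+2j) - 1`.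
Columns: `w j = PW 3 (j+1)`, `b j = 5+2j`, `H j = PW 4 j * (4+2j) - 1`.
-/

set_option autoImplicit false

namespace Crest.Agent.R189

open Filter Finset

theorem PW_mono {a a' : ℕ} (h : a ≤ a') (j : ℕ) : PW a j ≤ PW a' j := by
  induction j with
  | zero => simp
  | succ j ih =>
    rw [PW_succ', PW_succ']
    exact Nat.mul_le_mul ih (by omega)

theorem PW_ratio_rec {a : ℕ} (ha : 1 ≤ a) (m : ℕ) :
    ((PW a (m + 1) : ℝ) * (a + 2 * ((m + 1 : ℕ) : ℝ)) / PW (a + 1) (m + 1)) =
      ((PW a m : ℝ) * (a + 2 * (m : ℝ)) / PW (a + 1) m) * (1 + 1 / (a + (1 : ℕ) + 2 * m)) := by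
  have h1 : (0 : ℝ) < PW (a + 1) m := by exact_mod_cast PW_pos (by omega) m
  have ha' : (0 : ℝ) < a := by exact_mod_cast ha
  rw [PW_succ', PW_succ']
  push_cast
  field_simp
  ring

/-- the growth lemma -/
theorem PW_grow {a : ℕ} (ha : 1 ≤ a) (M : ℕ) :
    ∃ j, M * PW (a + 1) j ≤ PW a j * (a + 2 * j) - 1 := by
  have h1 := tendsto_sum_inv_add a 1 ha
  obtain ⟨m, hm⟩ := (h1.eventually_ge_atTop ((M : ℝ) + 1)).exists
  refine ⟨m, ?_⟩
  have h2 := ratio_ge (fun m => (PW a m : ℝ) * (a + 2 * (m : ℝ)) / PW (a + 1) m) a 1 ha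
    (by simp; exact_mod_cast ha) (PW_ratio_rec ha) m
  have h3 : (0 : ℝ) < PW (a + 1) m := by exact_mod_cast PW_pos (by omega) m
  have h4 : ((M : ℝ) + 1) ≤ (PW a m : ℝ) * (a + 2 * (m : ℝ)) / PW (a + 1) m := by
    refine le_trans ?_ h2
    linarith
  rw [le_div_iff₀ h3] at h4
  have h5 : (M + 1) * PW (a + 1) m ≤ PW a m * (a + 2 * m) := by exact_mod_cast h4
  have h6 := PW_pos (a := a + 1) (by omega) m
  have h7 : (M + 1) * PW (a + 1) m = M * PW (a + 1) m + PW (a + 1) m := by ring
  omega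

/-- `H_grow` of the rows -/
theorem PW_grow_row (M : ℕ) : ∃ j, M * PW 4 j ≤ PW 3 j * (3 + 2 * j) - 1 :=
  PW_grow (a := 3) (by omega) M

/-- `H_grow` of the columns -/
theorem PW_grow_col (M : ℕ) : ∃ j, M * PW 3 (j + 1) ≤ PW 4 j * (4 + 2 * j) - 1 := by
  obtain ⟨j, hj⟩ := PW_grow (a := 4) (by omega) (M * 9)
  refine ⟨j, le_trans (le_of_eq ?_) hj⟩
  rw [PW_succ]; ring

/-- `H_le` of the rows -/
theorem PW_H_le_row (j : ℕ) : PW 3 j * (3 + 2 * j) - 1 ≤ (4 + 2 * j) * PW 4 j := by
  have h := PW_mono (show 3 ≤ 4 by omega) j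
  have : PW 3 j * (3 + 2 * j) ≤ (4 + 2 * j) * PW 4 j := by
    rw [mul_comm]; exact Nat.mul_le_mul (by omega) h
  omega

/-- `H_le` of the columns -/
theorem PW_H_le_col (j : ℕ) : PW 4 j * (4 + 2 * j) - 1 ≤ (5 + 2 * j) * PW 3 (j + 1) := by
  have h := PW_mono (show 4 ≤ 5 by omega) j
  have h2 : PW 5 j ≤ PW 3 (j + 1) := by rw [PW_succ]; show PW 5 j ≤ 3 * 3 * PW 5 j; omega
  have : PW 4 j * (4 + 2 * j) ≤ (5 + 2 * j) * PW 3 (j + 1) := by
    rw [mul_comm]; exact Nat.mul_le_mul (by omega) (h.trans h2)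
  omega

end Crest.Agent.R189
end

-- ▼ part R189/StripInst
section

/-!
Row 189 (S0289), helper435.  The two instances of helper84's `Strip.StripSys` for the concrete
system: `rowSys` (infinite Q line, `u = x`, `r = y`) and `colSys` (infinite P line, `u = y`,
`r = x`).
-/

set_option autoImplicit false

namespace Crest.Agent.R189

/-- types in the three zones -/
def zoneTau (z : ℕ) : Tau := if z = 0 then .t00 else if z = 1 then .t11 else .t22

theorem Sys.tauOf_zone {b e : ℕ} (hb : 2 ≤ b) (_h0 : 0 < e) (h1 : e < 3 * b) (h2 : e ≠ 1) (h3 : e ≠ b)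
    (h4 : e ≠ 2 * b) (h5 : e + 1 ≠ 3 * b) : tauOf b e = zoneTau (e / b) := by
  unfold tauOf zoneTau
  rcases lt_or_ge e b with h | h
  · rw [Nat.div_eq_of_lt h, if_neg h2, if_pos h, if_pos rfl]
  · rcases lt_or_ge e (2 * b) with h' | h'
    · have : e / b = 1 := by
        rw [Nat.div_eq_iff (by omega)]; constructor <;> omega
      rw [this, if_neg h2, if_neg (by omega), if_neg h3, if_pos h', if_neg (by omega), if_pos rfl]
    · have : e / b = 2 := by
        rw [Nat.div_eq_iff (by omega)]; constructor <;> omega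
      rw [this, if_neg h2, if_neg (by omega), if_neg h3, if_neg (by omega), if_neg h4,
        if_pos (by omega), if_neg (by omega), if_neg (by omega)]

/-- letter at `(x,y)` in the configuration with corner star `s` -/
def lett (s : Star) (x y : ℤ) : Fin 9 × Star := letter ⟨(x, y), s⟩

theorem lett_eq {s s' : Star} {x y x' y' : ℤ} (h1 : dg 9 y = dg 9 y')
    (h2 : rstar 3 s x y = rstar 3 s' x' y') : lett s x y = lett s' x' y' :=
  letter_eq_iff.2 ⟨h1, h2⟩

/-- the rows -/
noncomputable def rowSys : Strip.StripSys Tau (Fin 9 × Star) VLab where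
  w j := PW 4 j
  b j := 4 + 2 * j
  H j := PW 3 j * (3 + 2 * j) - 1
  w_zero := by simp
  w_succ j := by rw [PW_succ']; ring
  three_le_b j := by omega
  tauOf j e := tauOf (4 + 2 * j) e
  zt := zoneTau
  tau_zone j e h0 h1 h2 h3 h4 h5 := Sys.tauOf_zone (by omega) h0 h1 h2 h3 h4 h5
  col u t := ptau 3 t u
  col_zero t := ptau_zero 3 t
  col_level j q t hq := by
    have e : ((PW (3 + 1) j : ℕ) : ℤ) * q = (PW 4 j : ℤ) * q := rfl
    rw [← e, ptau_coarse (by omega), ptau_of_ne]
    · have e1 : 3 + 2 * j + 1 = 4 + 2 * j := by ring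
      rw [e1]; rfl
    · rw [Ne, dg_eq_zero (by omega), Int.dvd_iff_emod_eq_zero]
      have e1 : ((3 * (3 + 2 * j + 1) : ℕ) : ℤ) = 3 * ((4 + 2 * j : ℕ) : ℤ) := by push_cast; ring
      rwa [e1]
  lett L u r t := lett (hStar L t) u r
  lett_off L L' u r t hr := lett_eq rfl (rstar_row_off (by omega) L L' t u hr)
  lett_strip L j r hr u u' t t' huu hcol := by
    refine lett_eq rfl (rstar_row (a := 3) (by omega) L t t' (j := j) ?_ huu hcol)
    have hp := PW_pos (a := 3) (by omega) j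
    have h2 : 0 < PW 3 j * (3 + 2 * j) := by positivity
    have : ((PW 3 j * (3 + 2 * j) - 1 : ℕ) : ℤ) = ((PW 3 j * (3 + 2 * j) : ℕ) : ℤ) - 1 := by
      push_cast [Nat.cast_sub (show 1 ≤ PW 3 j * (3 + 2 * j) by omega)]; ring
    rw [this] at hr
    omega
  H_le j := PW_H_le_row j
  H_grow M := PW_grow_row M

/-- the columns -/
noncomputable def colSys : Strip.StripSys Tau (Fin 9 × Star) VLab where
  w j := PW 3 (j + 1)
  b j := 5 + 2 * j
  H j := PW 4 j * (4 + 2 * j) - 1
  w_zero := PW_pos (by omega) _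
  w_succ j := by rw [PW_succ']; ring
  three_le_b j := by omega
  tauOf j e := tauOf (5 + 2 * j) e
  zt := zoneTau
  tau_zone j e h0 h1 h2 h3 h4 h5 := Sys.tauOf_zone (by omega) h0 h1 h2 h3 h4 h5
  col u t := qtau 3 t u
  col_zero t := qtau_zero 3 t
  col_level j q t hq := by
    have e : (PW 3 (j + 1) : ℤ) * q = ((3 * 3 : ℕ) : ℤ) * (((PW (4 + 1) j : ℕ) : ℤ) * q) := by
      rw [PW_succ]; push_cast; ring
    rw [e, qtau_mul (by omega), ptau_coarse (by omega), ptau_of_ne]
    · have e1 : 3 + 1 + 2 * j + 1 = 5 + 2 * j := by ring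
      rw [e1]; rfl
    · rw [Ne, dg_eq_zero (by omega), Int.dvd_iff_emod_eq_zero]
      have e1 : ((3 * (3 + 1 + 2 * j + 1) : ℕ) : ℤ) = 3 * ((5 + 2 * j : ℕ) : ℤ) := by
        push_cast; ring
      rwa [e1]
  lett L u r t := lett (vStar L t) r u
  lett_off L L' u r t hr := lett_eq rfl (rstar_col_off (by omega) L L' t u hr)
  lett_strip L j r hr u u' t t' huu hcol := by
    refine lett_eq (dg_congr_mod (N := PW 3 (j + 1)) ?_ huu)
      (rstar_col (a := 3) (by omega) L t t' (j := j) ?_ huu hcol)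
    · rw [PW_succ]; exact Dvd.intro _ rfl
    · have hp := PW_pos (a := 4) (by omega) j
      have h2 : 0 < PW 4 j * (4 + 2 * j) := by positivity
      have : ((PW 4 j * (4 + 2 * j) - 1 : ℕ) : ℤ) = ((PW 4 j * (4 + 2 * j) : ℕ) : ℤ) - 1 := by
        push_cast [Nat.cast_sub (show 1 ≤ PW 4 j * (4 + 2 * j) by omega)]; ring
      rw [this] at hr
      show |r| < ((PW 4 j * (4 + 2 * j) : ℕ) : ℤ)
      omega
  H_le j := PW_H_le_col j
  H_grow M := PW_grow_col M

end Crest.Agent.R189
end

-- ▼ part R189/AmenFinal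
section

/-!
# Row 189: `Gp` is amenable (helper31, integration)
-/

set_option autoImplicit false

namespace Crest.Agent.R189

/-- **Amenability of the group** (Reiter form) -/
theorem amen_Gp (C : Type) [Fintype C] [DecidableEq C] :
    Amen (Gp (ℤ × ℤ) letter C) :=
  amen_Gp_of C rowSys (fun _ _ _ _ => rfl) colSys (fun _ _ _ _ => rfl)


end Crest.Agent.R189
end

-- ▼ part R189/Asm

/-!
Row 189 (S0289), helper474.  Assembly: the group is `Gp (ℤ × ℤ) letter (Fin 30)`.
-/

set_option autoImplicit false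

namespace Crest.Agent.R189

instance asmNonemptyStar : Nonempty Star := ⟨quietStar ⟨.f0, none, .A⟩ rfl⟩

instance asmNonemptyX : Nonempty X := ⟨⟨0, Classical.arbitrary Star⟩⟩

/-- colours -/
abbrev Col : Type := Fin 30

/-- the group -/
abbrev GG : Type := Gp (ℤ × ℤ) letter Col

theorem GG_infinite : Infinite GG :=
  infinite_Gp (by simp) letter_sep

theorem GG_simple : IsSimpleGroup GG :=
  isSimpleGroup_Gp (by simp) letter_sep letter_minl

theorem S0289_of (hfp : Group.IsFinitelyPresented GG) (ha : Amen GG) :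
    ∃ (G : Type) (_ : Group G), Infinite G ∧ Group.IsFinitelyPresented G ∧ IsSimpleGroup G ∧
      Crest.GroupTheory.Amenable G :=
  ⟨GG, inferInstance, GG_infinite, hfp, GG_simple, ha.amenable⟩

/-- only finite presentability is missing -/
theorem S0289_of_fp (hfp : Group.IsFinitelyPresented GG) :
    ∃ (G : Type) (_ : Group G), Infinite G ∧ Group.IsFinitelyPresented G ∧ IsSimpleGroup G ∧
      Crest.GroupTheory.Amenable G :=
  S0289_of hfp (amen_Gp Col)

end Crest.Agent.R189
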