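import Crest.Agent.R189.EvOrder
import Crest.Agent.R189.AltPres
import Crest.Agent.R189.Romp

-- ▼ part R189/EvSpecker
section

/-!
Row 189: the commutation criterion (Specker principle) for events of a centreless coloured group,
helper418.

`crit` : if `T` is centreless and `⁅a s, b t⁆ = ⁅b s, a t⁆` for all `s t` then there is an event
`k ≤ a, b` with `⁅a s, b t⁆ = k ⁅s, t⁆` (so `a`, `b` commute with meet `k`).
-/

set_option autoImplicit false

namespace Crest.Agent.R189

open Equiv Equiv.Perm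
open scoped commutatorElement

variable {C : Type} [Fintype C] [DecidableEq C] {V : Type} [AddCommGroup V] {T : Type} [Group T]

/-- a 3-cycle supported in a set of size at least 5 is a commutator inside this set -/
theorem exists_comm_of_threeCycle {A : Finset C} (hA : 5 ≤ A.card) {σ : alternatingGroup C}
    (hσ : (σ : Perm C).IsThreeCycle) (hs : (σ : Perm C).support ⊆ A) :
    ∃ s t : alternatingGroup C, (s : Perm C).support ⊆ A ∧ (t : Perm C).support ⊆ A ∧ ⁅s, t⁆ = σ := by
  classical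
  have h2 : ∀ x, (σ : Perm C) x ≠ x → x ∈ A := fun x hx => hs (mem_support.2 hx)
  have h1 : ∀ x, (σ : Perm C) x ∈ A ↔ x ∈ A := by
    intro x
    by_cases hx : (σ : Perm C) x = x
    · rw [hx]
    · refine ⟨fun _ => h2 _ hx, fun _ => h2 _ fun h => hx ((σ : Perm C).injective h)⟩
  set g' : Perm {x // x ∈ A} := (σ : Perm C).subtypePerm h1 with hg'
  have e1 : ofSubtype g' = (σ : Perm C) := ofSubtype_subtypePerm h1 h2
  have e2 : g'.IsThreeCycle := by
    have := hσ
    rw [← e1, IsThreeCycle, cycleType_ofSubtype] at this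
    exact this
  have e3 : (⟨g', e2.mem_alternatingGroup⟩ : alternatingGroup {x // x ∈ A}) ∈ commutatorSet _ :=
    IsThreeCycle.mem_commutatorSet_alternatingGroup (by simpa using hA) e2
  obtain ⟨u, v, huv⟩ := e3
  have hsup : ∀ u : alternatingGroup {x // x ∈ A}, (ofSubtype (u : Perm {x // x ∈ A})).support ⊆ A := by
    intro u x hx
    rw [mem_support] at hx
    by_contra hxA
    exact hx (ofSubtype_apply_of_not_mem _ hxA)
  have halt : ∀ u : alternatingGroup {x // x ∈ A}, ofSubtype (u : Perm {x // x ∈ A}) ∈ alternatingGroup C := by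
    intro u
    rw [mem_alternatingGroup, sign_ofSubtype]
    exact mem_alternatingGroup.1 u.2
  refine ⟨⟨ofSubtype (u : Perm {x // x ∈ A}), halt u⟩, ⟨ofSubtype (v : Perm {x // x ∈ A}), halt v⟩,
    hsup u, hsup v, ?_⟩
  apply Subtype.ext
  have h3 : ((⁅u, v⁆ : alternatingGroup {x // x ∈ A}) : Perm {x // x ∈ A}) = g' := by rw [huv]
  rw [← e1, ← h3]
  simp [commutatorElement_def]

theorem alt_perfect_hom (h5 : 5 ≤ Nat.card C) {G : Type} [CommGroup G] (f : alternatingGroup C →* G)
    (σ) : f σ = 1 := by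
  have h1 : σ ∈ commutator (alternatingGroup C) := by
    rw [commutator_alternatingGroup_eq_top h5]; trivial
  exact (Abelianization.commutator_subset_ker f) h1

namespace Ev

section Crit

variable {S : ColGrp C V T} (a b : Ev S)

/-- `Φ(s,t)` -/
def Phi (s t : alternatingGroup C) : T := ⁅a.hom s, b.hom t⁆

/-- the subgroup generated by all `Φ(s,t)` -/
def PP : Subgroup T := Subgroup.closure {y | ∃ s t, y = Phi a b s t}

theorem Phi_mem (s t) : Phi a b s t ∈ PP a b := Subgroup.subset_closure ⟨s, t, rfl⟩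

/-- as elements of the subgroup -/
def ph (s t : alternatingGroup C) : PP a b := ⟨Phi a b s t, Phi_mem a b s t⟩

theorem conj_a (u s t) : a.hom u * Phi a b s t * (a.hom u)⁻¹ =
    Phi a b (u * s) t * (Phi a b u t)⁻¹ := by
  simp only [Phi, map_mul, commutatorElement_def]; group

variable (h : ∀ s t, ⁅a.hom s, b.hom t⁆ = ⁅b.hom s, a.hom t⁆)

include h in
theorem conj_b (u s t) : b.hom u * Phi a b s t * (b.hom u)⁻¹ =
    Phi a b (u * s) t * (Phi a b u t)⁻¹ := by
  simp only [Phi, h]
  simp only [map_mul, commutatorElement_def]; group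

theorem conj_mem (u) {y : T} (hy : y ∈ PP a b) : a.hom u * y * (a.hom u)⁻¹ ∈ PP a b := by
  have h1 : (PP a b).map (MulAut.conj (a.hom u)).toMonoidHom ≤ PP a b := by
    rw [PP, MonoidHom.map_closure, Subgroup.closure_le]
    rintro _ ⟨_, ⟨s, t, rfl⟩, rfl⟩
    show a.hom u * Phi a b s t * (a.hom u)⁻¹ ∈ PP a b
    rw [conj_a]
    exact (PP a b).mul_mem (Phi_mem a b _ _) ((PP a b).inv_mem (Phi_mem a b _ _))
  exact h1 ⟨y, hy, rfl⟩

include h in
theorem conj_ab (u) {y : T} (hy : y ∈ PP a b) :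
    b.hom u * y * (b.hom u)⁻¹ = a.hom u * y * (a.hom u)⁻¹ := by
  have : Set.EqOn (MulAut.conj (b.hom u)).toMonoidHom (MulAut.conj (a.hom u)).toMonoidHom
      {y | ∃ s t, y = Phi a b s t} := by
    rintro _ ⟨s, t, rfl⟩
    show b.hom u * Phi a b s t * (b.hom u)⁻¹ = a.hom u * Phi a b s t * (a.hom u)⁻¹
    rw [conj_a, conj_b a b h]
  exact MonoidHom.eqOn_closure this hy

/-- the action of `Alt(C)` on `P` through `a` -/
def rho : alternatingGroup C →* MulAut (PP a b) where
  toFun u :=
    { toFun := fun y => ⟨a.hom u * y * (a.hom u)⁻¹, conj_mem a b u y.2⟩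
      invFun := fun y => ⟨a.hom u⁻¹ * y * (a.hom u⁻¹)⁻¹, conj_mem a b u⁻¹ y.2⟩
      left_inv := by intro y; apply Subtype.ext; simp only [map_inv]; group
      right_inv := by intro y; apply Subtype.ext; simp only [map_inv]; group
      map_mul' := by intro x y; apply Subtype.ext; simp only [Subgroup.coe_mul]; group }
  map_one' := by ext y; simp
  map_mul' := by intro u v; ext y; simp [mul_assoc]

@[simp] theorem rho_coe (u) (y : PP a b) : ((rho a b u y : PP a b) : T) = a.hom u * y * (a.hom u)⁻¹ := rfl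

include h in
theorem rho_comm (s t) : rho a b ⁅s, t⁆ = MulAut.conj (ph a b s t) := by
  ext y
  rw [MulAut.conj_apply]
  simp only [rho_coe, Subgroup.coe_mul, Subgroup.coe_inv, ph]
  have h1 : ∀ u, ∀ y ∈ PP a b, b.hom u * y * (b.hom u)⁻¹ = a.hom u * y * (a.hom u)⁻¹ :=
    fun u y hy => conj_ab a b h u hy
  have h2 : (b.hom t)⁻¹ * (y : T) * (b.hom t) = (a.hom t)⁻¹ * y * a.hom t := by
    have := h1 t⁻¹ y y.2
    simpa using this
  have h3 : (a.hom t)⁻¹ * (y : T) * a.hom t ∈ PP a b := by
    have := conj_mem a b t⁻¹ y.2; simpa using this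
  have h4 : (a.hom s)⁻¹ * ((a.hom t)⁻¹ * (y : T) * a.hom t) * a.hom s ∈ PP a b := by
    have := conj_mem a b s⁻¹ h3; simpa using this
  have h5 := h1 t _ h4
  calc a.hom ⁅s, t⁆ * (y : T) * (a.hom ⁅s, t⁆)⁻¹
      = a.hom s * (a.hom t * ((a.hom s)⁻¹ * ((a.hom t)⁻¹ * y * a.hom t) * a.hom s) * (a.hom t)⁻¹) * (a.hom s)⁻¹ := by
        simp only [commutatorElement_def, map_mul, map_inv]; group
    _ = a.hom s * (b.hom t * ((a.hom s)⁻¹ * ((b.hom t)⁻¹ * y * b.hom t) * a.hom s) * (b.hom t)⁻¹) * (a.hom s)⁻¹ := by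
        rw [← h5, h2]
    _ = Phi a b s t * y * (Phi a b s t)⁻¹ := by
        simp only [Phi, commutatorElement_def]; group

/-- a subgroup of `Alt(C)` containing all commutators is everything -/
theorem alt_all (h5 : 5 ≤ Nat.card C) {P : alternatingGroup C → Prop}
    (h1 : ∀ s t : alternatingGroup C, P ⁅s, t⁆) (hone : P 1) (hmul : ∀ s t, P s → P t → P (s * t))
    (hinv : ∀ s, P s → P s⁻¹) (s) : P s := by
  refine alt_induction ?_ hone hmul hinv s
  intro σ hσ
  obtain ⟨x, y, hxy⟩ := hσ.mem_commutatorSet_alternatingGroup h5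
  rw [← hxy]; exact h1 x y

include h in
theorem of_rho (h5 : 5 ≤ Nat.card C) (u) (y : PP a b) :
    (Abelianization.of (rho a b u y) : Abelianization (PP a b)) = Abelianization.of y := by
  have key : ∀ u, ∀ y : PP a b, (Abelianization.of (rho a b u y) : Abelianization (PP a b)) =
      Abelianization.of y := by
    intro u
    refine alt_all (P := fun u => ∀ y : PP a b, (Abelianization.of (rho a b u y) :
      Abelianization (PP a b)) = Abelianization.of y) h5 ?_ ?_ ?_ ?_ u
    · intro s t y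
      rw [rho_comm a b h, MulAut.conj_apply, map_mul, map_mul, map_inv, mul_comm, inv_mul_cancel_left]
    · intro y; simp
    · intro s t hs ht y
      rw [map_mul, MulAut.mul_apply, hs, ht]
    · intro s hs y
      rw [← hs, ← MulAut.mul_apply, ← map_mul]; simp
  exact key u y

theorem ph_mul (u s t) : ph a b (u * s) t = rho a b u (ph a b s t) * ph a b u t := by
  apply Subtype.ext
  simp only [Subgroup.coe_mul, rho_coe, ph, conj_a]; group

include h in
/-- `P` is perfect -/
theorem PP_perfect (h5 : 5 ≤ Nat.card C) : commutator (PP a b) = ⊤ := by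
  have h1 : ∀ s t, (Abelianization.of (ph a b s t) : Abelianization (PP a b)) = 1 := by
    intro s t
    let f : alternatingGroup C →* Abelianization (PP a b) :=
      { toFun := fun s => Abelianization.of (ph a b s t)
        map_one' := by
          have : ph a b 1 t = 1 := by apply Subtype.ext; simp [ph, Phi]
          rw [this, map_one]
        map_mul' := by
          intro u s
          rw [ph_mul a b, map_mul, of_rho a b h h5, mul_comm] }
    exact alt_perfect_hom h5 f s
  rw [eq_top_iff]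
  have h2 : ∀ y : T, ∀ hy : y ∈ PP a b, (⟨y, hy⟩ : PP a b) ∈ commutator (PP a b) := by
    intro y hy
    induction hy using Subgroup.closure_induction with
    | mem x hx =>
      obtain ⟨s, t, rfl⟩ := hx
      have h3 := h1 s t
      rw [← MonoidHom.mem_ker, Abelianization.ker_of] at h3
      exact h3
    | one => exact one_mem _
    | mul x y hx hy ihx ihy => exact mul_mem ihx ihy
    | inv x hx ih => exact inv_mem ih
  intro y _
  exact h2 y.1 y.2

theorem perfect_hom {P : Type} [Group P] (hP : commutator P = ⊤) {G : Type} [Group G]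
    (f : P →* G) (hc : ∀ x y, f x * f y = f y * f x) (x : P) : f x = 1 := by
  have h1 : commutator P ≤ f.ker := by
    rw [commutator_def, Subgroup.commutator_le]
    intro x _ y _
    rw [MonoidHom.mem_ker, map_commutatorElement, commutatorElement_eq_one_iff_mul_comm]
    exact hc x y
  rw [hP] at h1
  exact h1 (Subgroup.mem_top x)

include h in
theorem rho_center (h5 : 5 ≤ Nat.card C) (u) {z : PP a b} (hz : z ∈ Subgroup.center (PP a b)) :
    rho a b u z = z := by
  refine alt_all (P := fun u => rho a b u z = z) h5 ?_ ?_ ?_ ?_ u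
  · intro s t
    rw [rho_comm a b h, MulAut.conj_apply]
    rw [Subgroup.mem_center_iff] at hz
    rw [hz, mul_inv_cancel_right]
  · simp
  · intro s t hs ht
    rw [map_mul, MulAut.mul_apply, ht, hs]
  · intro s hs
    nth_rewrite 1 [← hs]
    rw [← MulAut.mul_apply, ← map_mul]; simp

include h in
theorem conj_mem_range (y : PP a b) : MulAut.conj y ∈ (rho a b).range := by
  have h2 : ∀ y : T, ∀ hy : y ∈ PP a b, MulAut.conj (⟨y, hy⟩ : PP a b) ∈ (rho a b).range := by
    intro y hy
    induction hy using Subgroup.closure_induction with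
    | mem x hx =>
      obtain ⟨s, t, rfl⟩ := hx
      exact ⟨⁅s, t⁆, rho_comm a b h s t⟩
    | one =>
      have : (⟨1, (PP a b).one_mem⟩ : PP a b) = 1 := rfl
      rw [this, map_one]; exact one_mem _
    | mul x y hx hy ihx ihy =>
      have : (⟨x * y, mul_mem hx hy⟩ : PP a b) = ⟨x, hx⟩ * ⟨y, hy⟩ := rfl
      rw [this, map_mul]; exact mul_mem ihx ihy
    | inv x hx ih =>
      have : (⟨x⁻¹, inv_mem hx⟩ : PP a b) = ⟨x, hx⟩⁻¹ := rfl
      rw [this, map_inv]; exact inv_mem ih
  exact h2 y.1 y.2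

/-! ### the faithful case -/

section Faithful

variable (h5 : 5 ≤ Nat.card C) (hker : Function.Injective (rho a b))

/-- the projection `π : P → Alt(C)` -/
noncomputable def pr (hker : Function.Injective (rho a b)) : PP a b →* alternatingGroup C :=
  (MonoidHom.ofInjective hker).symm.toMonoidHom.comp
    (MulAut.conj.codRestrict (rho a b).range (conj_mem_range a b h))

theorem rho_pr (y : PP a b) : rho a b (pr a b h hker y) = MulAut.conj y := by
  have h1 := congrArg Subtype.val ((MonoidHom.ofInjective hker).apply_symm_apply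
    (MulAut.conj.codRestrict (rho a b).range (conj_mem_range a b h) y))
  exact h1

theorem pr_eq {y : PP a b} {u} (hu : rho a b u = MulAut.conj y) : pr a b h hker y = u :=
  hker ((rho_pr a b h hker y).trans hu.symm)

theorem pr_ph (s t) : pr a b h hker (ph a b s t) = ⁅s, t⁆ :=
  pr_eq a b h hker (rho_comm a b h s t)

theorem pr_ker {y : PP a b} (hy : pr a b h hker y = 1) : y ∈ Subgroup.center (PP a b) := by
  have h1 := rho_pr a b h hker y
  rw [hy, map_one] at h1
  rw [Subgroup.mem_center_iff]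
  intro g
  have h2 : (1 : MulAut (PP a b)) g = MulAut.conj y g := by rw [h1]
  rw [MulAut.conj_apply, MulAut.one_apply] at h2
  calc g * y = (y * g * y⁻¹) * y := by rw [← h2]
    _ = y * g := by group

include h5 in
/-- an endomorphism of `P` over `Alt(C)` is the identity -/
theorem rigid (β : PP a b →* PP a b) (hβ : ∀ y, pr a b h hker (β y) = pr a b h hker y) (y) : β y = y := by
  have hz : ∀ y, β y * y⁻¹ ∈ Subgroup.center (PP a b) := by
    intro y
    refine pr_ker a b h hker ?_
    rw [map_mul, hβ, map_inv, mul_inv_cancel]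
  let f : PP a b →* PP a b :=
    { toFun := fun y => β y * y⁻¹
      map_one' := by simp
      map_mul' := by
        intro x y
        have h1 := (Subgroup.mem_center_iff.1 (hz y)) (β x)
        calc β (x * y) * (x * y)⁻¹ = β x * (β y * y⁻¹) * x⁻¹ := by rw [map_mul]; group
          _ = β y * y⁻¹ * (β x * x⁻¹) := by rw [h1]; group
          _ = β x * x⁻¹ * (β y * y⁻¹) := ((Subgroup.mem_center_iff.1 (hz x)) _) }
  have h1 := perfect_hom (PP_perfect a b h h5) f (fun x y => (Subgroup.mem_center_iff.1 (hz y)) _) y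
  exact mul_inv_eq_one.1 h1

theorem pr_rho (u) (y : PP a b) : pr a b h hker (rho a b u y) = u * pr a b h hker y * u⁻¹ := by
  refine pr_eq a b h hker ?_
  rw [map_mul, map_mul, rho_pr, map_inv]
  ext x
  have h1 : (((rho a b u)⁻¹ x : PP a b) : T) = (a.hom u)⁻¹ * x * a.hom u := by
    rw [← map_inv, rho_coe, map_inv, inv_inv]
  simp only [MulAut.mul_apply, MulAut.conj_apply, rho_coe, Subgroup.coe_mul, Subgroup.coe_inv]
  rw [h1]
  group

theorem one_conj_mem (u) {y : T} (hy : y ∈ PP a b) : S.one u * y * (S.one u)⁻¹ ∈ PP a b := by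
  have h1 : (PP a b).map (MulAut.conj (S.one u)).toMonoidHom ≤ PP a b := by
    rw [PP, MonoidHom.map_closure, Subgroup.closure_le]
    rintro _ ⟨_, ⟨s, t, rfl⟩, rfl⟩
    show S.one u * Phi a b s t * (S.one u)⁻¹ ∈ PP a b
    have : S.one u * Phi a b s t * (S.one u)⁻¹ = Phi a b (u * s * u⁻¹) (u * t * u⁻¹) := by
      simp only [Phi]
      rw [← a.equivar, ← b.equivar]
      simp only [commutatorElement_def]; group
    rw [this]
    exact Phi_mem a b _ _
  exact h1 ⟨y, hy, rfl⟩

/-- conjugation by `one u` -/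
def oneA (u : alternatingGroup C) : PP a b →* PP a b where
  toFun y := ⟨S.one u * y * (S.one u)⁻¹, one_conj_mem a b u y.2⟩
  map_one' := by apply Subtype.ext; simp
  map_mul' := by intro x y; apply Subtype.ext; simp

theorem oneA_ph (u s t) : oneA a b u (ph a b s t) = ph a b (u * s * u⁻¹) (u * t * u⁻¹) := by
  apply Subtype.ext
  show S.one u * Phi a b s t * (S.one u)⁻¹ = Phi a b (u * s * u⁻¹) (u * t * u⁻¹)
  simp only [Phi]
  rw [← a.equivar, ← b.equivar]
  simp only [commutatorElement_def]; group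

theorem PP_induction {P : PP a b → Prop} (hph : ∀ s t, P (ph a b s t)) (h1 : P 1)
    (hmul : ∀ x y, P x → P y → P (x * y)) (hinv : ∀ x, P x → P x⁻¹) (y) : P y := by
  have h2 : ∀ y : T, ∀ hy : y ∈ PP a b, P ⟨y, hy⟩ := by
    intro y hy
    induction hy using Subgroup.closure_induction with
    | mem x hx => obtain ⟨s, t, rfl⟩ := hx; exact hph s t
    | one => exact h1
    | mul x y hx hy ihx ihy => exact hmul _ _ ihx ihy
    | inv x hx ih => exact hinv _ ih
  exact h2 y.1 y.2

theorem pr_oneA (u) (y : PP a b) : pr a b h hker (oneA a b u y) = u * pr a b h hker y * u⁻¹ := by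
  refine PP_induction a b (P := fun y => pr a b h hker (oneA a b u y) = u * pr a b h hker y * u⁻¹)
    ?_ ?_ ?_ ?_ y
  · intro s t
    rw [oneA_ph, pr_ph, pr_ph]
    simp only [commutatorElement_def]; group
  · simp
  · intro x y hx hy; rw [map_mul, map_mul, map_mul, hx, hy]; group
  · intro x hx; rw [map_inv, map_inv, map_inv, hx]; group

include h h5 hker in
theorem oneA_eq (u) (y : PP a b) : oneA a b u y = rho a b u y := by
  have h1 := rigid a b h h5 hker ((rho a b u⁻¹).toMonoidHom.comp (oneA a b u)) (by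
    intro y
    show pr a b h hker (rho a b u⁻¹ (oneA a b u y)) = pr a b h hker y
    rw [pr_rho, pr_oneA]; group) y
  have h2 : rho a b u⁻¹ (oneA a b u y) = y := h1
  have h3 : rho a b u (rho a b u⁻¹ (oneA a b u y)) = rho a b u y := by rw [h2]
  rw [← MulAut.mul_apply, ← map_mul] at h3
  simpa using h3

/-- local subgroups -/
def PA (A : Finset C) : Subgroup (PP a b) :=
  Subgroup.closure {y | ∃ s t : alternatingGroup C, (s : Perm C).support ⊆ A ∧
    (t : Perm C).support ⊆ A ∧ y = ph a b s t}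

theorem PA_mono {A B : Finset C} (hAB : A ⊆ B) : PA a b A ≤ PA a b B := by
  refine Subgroup.closure_mono ?_
  rintro y ⟨s, t, h1, h2, h3⟩
  exact ⟨s, t, h1.trans hAB, h2.trans hAB, h3⟩

theorem PA_sub {A : Finset C} (hA : 5 ≤ A.card) {y : PP a b} (hy : y ∈ PA a b A) : (y : T) ∈ S.sub A := by
  have h1 : PA a b A ≤ (S.sub A).comap (PP a b).subtype := by
    rw [PA, Subgroup.closure_le]
    rintro _ ⟨s, t, h1, h2, rfl⟩
    show ⁅a.hom s, b.hom t⁆ ∈ S.sub A
    have ha := a.mem s A h1 hA
    have hb := b.mem t A h2 hA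
    rw [commutatorElement_def]
    exact mul_mem (mul_mem (mul_mem ha hb) (inv_mem ha)) (inv_mem hb)
  exact h1 hy

include h h5 hker in
theorem center_PA (hZ : Subgroup.center T = ⊥) {A : Finset C} (hA : 5 ≤ A.card) (hA' : A.card ≤ 22)
    {z : PP a b} (hz : z ∈ Subgroup.center (PP a b)) (hzA : z ∈ PA a b A) : z = 1 := by
  have h1 : ∀ u, S.one u * (z : T) * (S.one u)⁻¹ = z := by
    intro u
    have := congrArg Subtype.val ((oneA_eq a b h h5 hker u z).trans (rho_center a b h h5 u hz))
    exact this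
  have h2 : (z : T) ∈ Subgroup.center T := by
    rw [Subgroup.mem_center_iff]
    intro g
    have hg : g ∈ S.sub Finset.univ := by rw [S.sub_univ]; trivial
    refine (S.comm_of_gen (x := (z : T)) ?_ g hg).symm
    intro B _ hB y hy
    obtain ⟨ρ, hρ, -⟩ := S.exists_move B A ∅ (by simp) (by
      simp only [Finset.card_empty]; omega)
    have h3 : S.one ρ * y * (S.one ρ)⁻¹ ∈ S.sub (B.image (ρ : Perm C)) := S.one_sub ρ B y hy
    have h4 := S.sub_comm A (B.image (ρ : Perm C)) hρ.symm _ (PA_sub a b hA hzA) _ h3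
    have h5 := h1 ρ
    nth_rewrite 1 [← h5] at h4
    nth_rewrite 2 [← h5] at h4
    have h6 : S.one ρ * ((z : T) * y) * (S.one ρ)⁻¹ = S.one ρ * (y * (z : T)) * (S.one ρ)⁻¹ := by
      calc _ = S.one ρ * (z : T) * (S.one ρ)⁻¹ * (S.one ρ * y * (S.one ρ)⁻¹) := by group
        _ = _ := by rw [h4]; group
    exact mul_left_cancel (mul_right_cancel h6)
  rw [hZ, Subgroup.mem_bot] at h2
  exact Subtype.ext h2

include h5 in
theorem PA_inj (hZ : Subgroup.center T = ⊥) {A : Finset C} (hA : 5 ≤ A.card) (hA' : A.card ≤ 22)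
    {x y : PP a b} (hx : x ∈ PA a b A) (hy : y ∈ PA a b A)
    (hxy : pr a b h hker x = pr a b h hker y) : x = y := by
  have h1 : x * y⁻¹ = 1 := by
    refine center_PA a b h h5 hker hZ hA hA' (pr_ker a b h hker ?_) (mul_mem hx (inv_mem hy))
    rw [map_mul, map_inv, hxy, mul_inv_cancel]
  exact mul_inv_eq_one.1 h1

/-- uniqueness across different small sets -/
theorem PA_inj' (h5 : 5 ≤ Nat.card C) (hZ : Subgroup.center T = ⊥) {A B : Finset C} (hA : 5 ≤ A.card)
    (hAB : A.card + B.card ≤ 22)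
    {x y : PP a b} (hx : x ∈ PA a b A) (hy : y ∈ PA a b B)
    (hxy : pr a b h hker x = pr a b h hker y) : x = y := by
  have hc := Finset.card_union_le A B
  have hc' := Finset.card_le_card (Finset.subset_union_left (s₁ := A) (s₂ := B))
  exact PA_inj a b h h5 hker hZ (A := A ∪ B) (by omega) (by omega)
    (PA_mono a b Finset.subset_union_left hx) (PA_mono a b Finset.subset_union_right hy) hxy

theorem PA_onto {A : Finset C} (hA : 5 ≤ A.card) (σ : alternatingGroup C)
    (hσ : (σ : Perm C).support ⊆ A) : ∃ y ∈ PA a b A, pr a b h hker y = σ := by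
  have h1 : (σ : Perm C) ∈ Subgroup.closure {z : Perm C | z.IsThreeCycle ∧ z.support ⊆ A} := by
    rw [AltPres.closure_threeCycles_altOn]; exact ⟨σ.2, hσ⟩
  have h2 : ∀ π ∈ Subgroup.closure {z : Perm C | z.IsThreeCycle ∧ z.support ⊆ A},
      ∃ y ∈ PA a b A, ((pr a b h hker y : alternatingGroup C) : Perm C) = π := by
    intro π hπ
    induction hπ using Subgroup.closure_induction with
    | mem z hz =>
      obtain ⟨s, t, hs, ht, hst⟩ := exists_comm_of_threeCycle hA
        (σ := ⟨z, hz.1.mem_alternatingGroup⟩) hz.1 hz.2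
      refine ⟨ph a b s t, Subgroup.subset_closure ⟨s, t, hs, ht, rfl⟩, ?_⟩
      rw [pr_ph, hst]
    | one => exact ⟨1, one_mem _, by simp⟩
    | mul x y hx hy ihx ihy =>
      obtain ⟨x', hx', hx''⟩ := ihx
      obtain ⟨y', hy', hy''⟩ := ihy
      exact ⟨x' * y', mul_mem hx' hy', by simp [hx'', hy'']⟩
    | inv x hx ih =>
      obtain ⟨x', hx', hx''⟩ := ih
      exact ⟨x'⁻¹, inv_mem hx', by simp [hx'']⟩
  obtain ⟨y, hy, hy'⟩ := h2 _ h1
  exact ⟨y, hy, Subtype.ext hy'⟩

include h5 in
/-- the section of `π` -/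
theorem exists_section (hZ : Subgroup.center T = ⊥) (h30 : 30 ≤ Fintype.card C) :
    ∃ k : alternatingGroup C →* PP a b, ∀ (σ : alternatingGroup C) (A : Finset C),
      (σ : Perm C).support ⊆ A → 5 ≤ A.card → k σ ∈ PA a b A ∧ pr a b h hker (k σ) = σ := by
  classical
  -- a 5-set containing the support of a 3-cycle
  have hA0 : ∀ z : Perm C, ∃ A : Finset C, z.IsThreeCycle → z.support ⊆ A ∧ A.card = 5 := by
    intro z
    by_cases hz : z.IsThreeCycle
    · obtain ⟨A, h1, h2, h3⟩ := Finset.exists_subsuperset_card_eq (s := z.support) (t := Finset.univ)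
        (n := 5) (Finset.subset_univ _) (by rw [IsThreeCycle.card_supp hz]; omega)
        (by rw [Finset.card_univ]; omega)
      exact ⟨A, fun _ => ⟨h1, h3⟩⟩
    · exact ⟨∅, fun h => absurd h hz⟩
  choose A0 hA0 using hA0
  have hφ : ∀ z : Perm C, ∃ y : PP a b, ∀ hz : z.IsThreeCycle, y ∈ PA a b (A0 z) ∧
      pr a b h hker y = ⟨z, hz.mem_alternatingGroup⟩ := by
    intro z
    by_cases hz : z.IsThreeCycle
    · obtain ⟨y, h1, h2⟩ := PA_onto a b h hker (A := A0 z) (by rw [(hA0 z hz).2])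
        ⟨z, hz.mem_alternatingGroup⟩ (hA0 z hz).1
      exact ⟨y, fun _ => ⟨h1, h2⟩⟩
    · exact ⟨1, fun h => absurd h hz⟩
  choose φ hφ using hφ
  have hloc : ∀ B : Finset C, B.card = 5 → ∃ θ : AltPres.altOn B →* PP a b, AltPres.Agrees φ θ := by
    intro B hB
    have hθ : ∀ σ : AltPres.altOn B, ∃ y ∈ PA a b B, pr a b h hker y = ⟨(σ : Perm C), σ.2.1⟩ := by
      intro σ
      exact PA_onto a b h hker (by omega) _ σ.2.2
    choose θ hθ1 hθ2 using hθ
    refine ⟨{ toFun := θ, map_one' := ?_, map_mul' := ?_ }, ?_⟩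
    · refine PA_inj a b h h5 hker hZ (A := B) (by omega) (by omega) (hθ1 _) (one_mem _) ?_
      rw [hθ2 1, map_one]; rfl
    · intro x y
      refine PA_inj a b h h5 hker hZ (A := B) (by omega) (by omega) (hθ1 _)
        (mul_mem (hθ1 _) (hθ1 _)) ?_
      rw [map_mul, hθ2, hθ2, hθ2]; rfl
    · intro z hz hzB
      refine PA_inj' a b h hker h5 hZ (A := B) (B := A0 z) (by omega)
        (by rw [(hA0 z hz).2]; omega) (hθ1 _) (hφ z hz).1 ?_
      exact (hθ2 _).trans (hφ z hz).2.symm
  obtain ⟨k, hk⟩ := AltPres.exists_alt_hom' (by omega) hloc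
  refine ⟨k, ?_⟩
  intro σ A hσ hA
  have h1 : (σ : Perm C) ∈ Subgroup.closure {z : Perm C | z.IsThreeCycle ∧ z.support ⊆ A} := by
    rw [AltPres.closure_threeCycles_altOn]; exact ⟨σ.2, hσ⟩
  have h2 : ∀ π ∈ Subgroup.closure {z : Perm C | z.IsThreeCycle ∧ z.support ⊆ A},
      ∃ hπ : π ∈ alternatingGroup C, k ⟨π, hπ⟩ ∈ PA a b A ∧ pr a b h hker (k ⟨π, hπ⟩) = ⟨π, hπ⟩ := by
    intro π hπ
    induction hπ using Subgroup.closure_induction with
    | mem z hz =>
      refine ⟨hz.1.mem_alternatingGroup, ?_, ?_⟩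
      · rw [hk z hz.1]
        obtain ⟨A', hA1, hA2, hA3⟩ := Finset.exists_subsuperset_card_eq (n := 5) hz.2
          (by rw [IsThreeCycle.card_supp hz.1]; omega) hA
        obtain ⟨y, hy1, hy2⟩ := PA_onto a b h hker (A := A') (by omega)
          ⟨z, hz.1.mem_alternatingGroup⟩ hA1
        have : φ z = y := by
          refine PA_inj' a b h hker h5 hZ (A := A0 z) (B := A') (by rw [(hA0 z hz.1).2])
            (by rw [(hA0 z hz.1).2]; omega) (hφ z hz.1).1 hy1 ?_
          rw [(hφ z hz.1).2, hy2]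
        rw [this]
        exact PA_mono a b hA2 hy1
      · rw [hk z hz.1, (hφ z hz.1).2]
    | one =>
      refine ⟨one_mem _, ?_, ?_⟩
      · have : (⟨1, one_mem _⟩ : alternatingGroup C) = 1 := rfl
        rw [this, map_one]; exact one_mem _
      · have : (⟨1, one_mem _⟩ : alternatingGroup C) = 1 := rfl
        rw [this, map_one, map_one]
    | mul x y hx hy ihx ihy =>
      obtain ⟨hx0, hx1, hx2⟩ := ihx
      obtain ⟨hy0, hy1, hy2⟩ := ihy
      refine ⟨mul_mem hx0 hy0, ?_, ?_⟩
      · have : (⟨x * y, mul_mem hx0 hy0⟩ : alternatingGroup C) = ⟨x, hx0⟩ * ⟨y, hy0⟩ := rfl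
        rw [this, map_mul]; exact mul_mem hx1 hy1
      · have : (⟨x * y, mul_mem hx0 hy0⟩ : alternatingGroup C) = ⟨x, hx0⟩ * ⟨y, hy0⟩ := rfl
        rw [this, map_mul, map_mul, hx2, hy2]
    | inv x hx ih =>
      obtain ⟨hx0, hx1, hx2⟩ := ih
      refine ⟨inv_mem hx0, ?_, ?_⟩
      · have : (⟨x⁻¹, inv_mem hx0⟩ : alternatingGroup C) = ⟨x, hx0⟩⁻¹ := rfl
        rw [this, map_inv]; exact inv_mem hx1
      · have : (⟨x⁻¹, inv_mem hx0⟩ : alternatingGroup C) = ⟨x, hx0⟩⁻¹ := rfl
        rw [this, map_inv, map_inv, hx2]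
  obtain ⟨_, h3⟩ := h2 _ h1
  exact h3

include h5 in
/-- `y = k (π y)` -/
theorem section_eq {k : alternatingGroup C →* PP a b} (hk : ∀ σ, pr a b h hker (k σ) = σ)
    (y : PP a b) : k (pr a b h hker y) = y := by
  exact rigid a b h h5 hker (k.comp (pr a b h hker)) (fun y => hk _) y

end Faithful

include h in
/-- **The commutation criterion.** -/
theorem crit (hZ : Subgroup.center T = ⊥) :
    ∃ k : Ev S, k ≤ a ∧ k ≤ b ∧ ∀ s t, ⁅a.hom s, b.hom t⁆ = k.hom ⁅s, t⁆ := by
  have h5 : 5 ≤ Nat.card C := S.natCard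
  have hsimple : IsSimpleGroup (alternatingGroup C) := alternatingGroup.isSimpleGroup h5
  rcases hsimple.eq_bot_or_eq_top_of_normal (rho a b).ker inferInstance with hk | hk
  · -- faithful case
    have hker : Function.Injective (rho a b) := (MonoidHom.ker_eq_bot_iff _).1 hk
    obtain ⟨k, hk⟩ := exists_section a b h h5 hker hZ S.card_C
    have hk' : ∀ σ, pr a b h hker (k σ) = σ := fun σ =>
      (hk σ Finset.univ (Finset.subset_univ _) (by
        rw [Finset.card_univ]; have := S.card_C; omega)).2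
    have hsec := section_eq a b h h5 hker hk'
    have hone : ∀ σ τ : alternatingGroup C, oneA a b τ (k σ) = k (τ * σ * τ⁻¹) := by
      intro σ τ
      rw [← hsec (oneA a b τ (k σ)), pr_oneA, hk']
    have hrho : ∀ σ τ : alternatingGroup C, rho a b τ (k σ) = k (τ * σ * τ⁻¹) := by
      intro σ τ
      rw [← hsec (rho a b τ (k σ)), pr_rho, hk']
    refine ⟨⟨(PP a b).subtype.comp k, ?_, ?_⟩, ?_, ?_, ?_⟩
    · intro σ A h1 h2
      exact PA_sub a b h2 (hk σ A h1 h2).1
    · intro σ τ
      exact congrArg Subtype.val (hone σ τ)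
    · intro σ τ
      exact congrArg Subtype.val (hrho σ τ)
    · intro σ τ
      show b.hom τ * (k σ : T) * (b.hom τ)⁻¹ = k (τ * σ * τ⁻¹)
      rw [conj_ab a b h τ (k σ).2]
      exact congrArg Subtype.val (hrho σ τ)
    · intro s t
      have h1 := hsec (ph a b s t)
      rw [pr_ph] at h1
      exact (congrArg Subtype.val h1).symm
  · -- trivial case
    have hr : ∀ u, rho a b u = 1 := fun u => by
      have : u ∈ (rho a b).ker := by rw [hk]; trivial
      exact this
    have hc : ∀ x y : PP a b, x * y = y * x := by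
      have h1 : ∀ s t, ∀ y : PP a b, ph a b s t * y = y * ph a b s t := by
        intro s t y
        have h2 := rho_comm a b h s t
        rw [hr] at h2
        have h3 : (1 : MulAut (PP a b)) y = MulAut.conj (ph a b s t) y := by rw [h2]
        rw [MulAut.conj_apply, MulAut.one_apply] at h3
        exact (eq_mul_inv_iff_mul_eq.1 h3).symm
      intro x y
      refine PP_induction a b (P := fun x => x * y = y * x) (fun s t => h1 s t y) (by simp) ?_ ?_ x
      · intro u v hu hv; rw [mul_assoc, hv, ← mul_assoc, hu, mul_assoc]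
      · intro u hu
        rw [inv_mul_eq_iff_eq_mul, ← mul_assoc, hu]; group
    have htriv : ∀ y : PP a b, y = 1 := fun y =>
      perfect_hom (PP_perfect a b h h5) (MonoidHom.id _) (fun x y => hc x y) y
    refine ⟨zero S, zero_le _, zero_le _, ?_⟩
    intro s t
    have := congrArg Subtype.val (htriv (ph a b s t))
    exact this

end Crit

end Ev

end Crest.Agent.R189
end

-- ▼ part R189/EvRomp
section

/-!
Row 189: the events of a coloured group form an orthomodular poset (`OMP`), a regular one (`ROMP`)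
if the group is centreless (helper418).
-/

set_option autoImplicit false

namespace Crest.Agent.R189

open Equiv Equiv.Perm
open scoped commutatorElement

variable {C : Type} [Fintype C] [DecidableEq C] {V : Type} [AddCommGroup V] {T : Type} [Group T]

namespace Ev

variable {S : ColGrp C V T}

theorem isLUB_add {e f : Ev S} (h : Orth e f) : IsLUB {e, f} (add e f h) := by
  constructor
  · rintro x hx
    rcases hx with rfl | hx
    · exact le_add_left h
    · rw [Set.mem_singleton_iff] at hx; subst hx; exact le_add_right h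
  · intro x hx
    exact add_le h (hx (by simp)) (hx (by simp))

instance instOMP : OMP (Ev S) where
  top := unit S
  le_top := le_unit
  bot := zero S
  bot_le := zero_le
  cpl := compl
  cpl_cpl' := compl_compl'
  cpl_le_cpl' := compl_anti
  eq_bot_of_le_cpl' := fun h => eq_zero_of_orth_self (orth_iff_le_compl.2 h)
  exists_lub' := fun h => ⟨_, isLUB_add (orth_iff_le_compl.2 h)⟩
  orthomodular' := by
    intro e f x y h hx hy
    obtain ⟨h', hd⟩ := diff_eq_compl h
    have hx' : x = add e (compl f) h' := hx.unique (isLUB_add h')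
    subst hx'
    rw [← hd] at hy
    rw [hy.unique (isLUB_add (orth_diff h)), add_diff]

theorem romp_orth {e f : Ev S} : Romp.Orth e f ↔ Orth e f := orth_iff_le_compl.symm

theorem romp_cpl (e : Ev S) : Romp.cpl e = compl e := rfl

theorem romp_bot : (⊥ : Ev S) = zero S := rfl


theorem romp_add {e f : Ev S} (h : Orth e f) : Romp.add e f = add e f h :=
  Romp.lub_eq (isLUB_add h)

/-- value of the sum -/
theorem romp_add_hom {e f : Ev S} (h : Romp.Orth e f) (σ) :
    (Romp.add e f).hom σ = e.hom σ * f.hom σ := by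
  rw [romp_add (romp_orth.1 h)]; rfl



/-- `a ⊥ v`, `x = u + v` (as homs) then `⁅a s, x t⁆ = ⁅a s, u t⁆`. -/
theorem comm_add {a x u v : Ev S} (hx : ∀ σ, x.hom σ = u.hom σ * v.hom σ) (h : Orth a v) (s t) :
    ⁅a.hom s, x.hom t⁆ = ⁅a.hom s, u.hom t⁆ := by
  have h1 := h s t
  rw [hx]
  simp only [commutatorElement_def]
  calc a.hom s * (u.hom t * v.hom t) * (a.hom s)⁻¹ * (u.hom t * v.hom t)⁻¹
      = a.hom s * u.hom t * (v.hom t * (a.hom s)⁻¹) * (v.hom t)⁻¹ * (u.hom t)⁻¹ := by group
    _ = a.hom s * u.hom t * (a.hom s)⁻¹ * (u.hom t)⁻¹ := by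
        have h2 : v.hom t * (a.hom s)⁻¹ = (a.hom s)⁻¹ * v.hom t := by
          rw [eq_inv_mul_iff_mul_eq, ← mul_assoc, h1]; group
        rw [h2]; group

theorem comm_diff {a x u : Ev S} (hu : u ≤ x) (h : Orth a (diff x u hu)) (s t) :
    ⁅a.hom s, x.hom t⁆ = ⁅a.hom s, u.hom t⁆ :=
  comm_add (hom_eq_of_le hu) h s t


/-- the criterion gives `Comm`. -/
theorem romp_comm_of_crit {a x : Ev S} (hZ : Subgroup.center T = ⊥)
    (h : ∀ s t, ⁅a.hom s, x.hom t⁆ = ⁅x.hom s, a.hom t⁆) : Romp.Comm x a := by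
  obtain ⟨k, hka, hkx, hk⟩ := crit a x h hZ
  refine ⟨k, diff x k hkx, ?_, ?_, hka, ?_⟩
  · rw [romp_orth]; exact orth_diff hkx
  · rw [romp_add (orth_diff hkx), add_diff]
  · rw [romp_cpl]
    refine le_compl_of_orth (Orth.symm ?_)
    intro s t
    rw [diff_hom]
    have h1 := hk s t
    have h2 := hka t s
    have h3 := (orth_diff hkx) ⁅s, t⁆ t
    rw [diff_hom] at h3
    -- a s * x t = k⁅s,t⁆ * x t * a s
    have h4 : a.hom s * x.hom t = k.hom ⁅s, t⁆ * x.hom t * a.hom s := by
      rw [← h1]; simp only [commutatorElement_def]; group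
    have h5 : a.hom s * (k.hom t)⁻¹ = (k.hom (s * t * s⁻¹))⁻¹ * a.hom s := by
      rw [← h2]; group
    have h6 : (k.hom ⁅s, t⁆) * k.hom t = k.hom (s * t * s⁻¹) := by
      rw [← map_mul, commutatorElement_def]; congr 1; group
    calc a.hom s * (x.hom t * (k.hom t)⁻¹)
        = (a.hom s * x.hom t) * (k.hom t)⁻¹ := by group
      _ = k.hom ⁅s, t⁆ * x.hom t * (a.hom s * (k.hom t)⁻¹) := by rw [h4]; group
      _ = k.hom ⁅s, t⁆ * x.hom t * (k.hom ⁅s, t⁆ * k.hom t)⁻¹ * a.hom s := by
          rw [h5, ← h6]; group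
      _ = (k.hom ⁅s, t⁆ * (x.hom t * (k.hom t)⁻¹)) * (k.hom ⁅s, t⁆)⁻¹ * a.hom s := by group
      _ = x.hom t * (k.hom t)⁻¹ * a.hom s := by rw [h3]; group

/-- unfolding of `Comm` -/
theorem romp_comm_iff {x a : Ev S} : Romp.Comm x a ↔
    ∃ k : Ev S, k ≤ a ∧ ∃ hkx : k ≤ x, Orth a (diff x k hkx) := by
  constructor
  · rintro ⟨P, Q, h1, h2, h3, h4⟩
    have h1' := romp_orth.1 h1
    rw [romp_add h1'] at h2
    have hPx : P ≤ x := by rw [h2]; exact le_add_left h1'
    refine ⟨P, h3, hPx, ?_⟩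
    have : diff x P hPx = Q := by
      ext σ
      rw [diff_hom, h2, add_hom, h1' σ σ]; group
    rw [this]
    exact (orth_iff_le_compl.2 h4).symm
  · rintro ⟨k, hka, hkx, h⟩
    refine ⟨k, diff x k hkx, romp_orth.2 (orth_diff hkx), ?_, hka, ?_⟩
    · rw [romp_add (orth_diff hkx), add_diff]
    · exact orth_iff_le_compl.1 h.symm

theorem specker_aux (hZ : Subgroup.center T = ⊥) {x p q g : Ev S} (hpq : Romp.Orth p q)
    (hpg : p ≤ g) (hqg : q ≤ Romp.cpl g) (h1 : Romp.Comm x (Romp.add p q)) (h2 : Romp.Comm x g) :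
    Romp.Comm x p := by
  have hpq' := romp_orth.1 hpq
  have hqg' : Orth q g := orth_iff_le_compl.2 hqg
  rw [romp_add hpq'] at h1
  obtain ⟨c, hce, hcx, hd⟩ := romp_comm_iff.1 h1
  obtain ⟨b, hbg, hbx, hd'⟩ := romp_comm_iff.1 h2
  set e := add p q hpq' with he
  -- ⁅p s, x t⁆ = ⁅p s, c t⁆ = ⁅p s, b t⁆
  have hpe : p ≤ e := le_add_left hpq'
  have i1 : ∀ s t, ⁅p.hom s, x.hom t⁆ = ⁅p.hom s, c.hom t⁆ :=
    comm_diff hcx (Orth.mono hd hpe le_rfl)
  have i2 : ∀ s t, ⁅p.hom s, x.hom t⁆ = ⁅p.hom s, b.hom t⁆ :=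
    comm_diff hbx (Orth.mono hd' hpg le_rfl)
  -- ⁅b s, p t⁆ = ⁅b s, e t⁆ = ⁅b s, c t⁆
  have i3 : ∀ s t, ⁅b.hom s, e.hom t⁆ = ⁅b.hom s, p.hom t⁆ :=
    comm_add (fun σ => rfl) (Orth.mono hqg'.symm hbg le_rfl)
  have o1 : Orth (diff e c hce) x := by
    have : x = add c (diff x c hcx) (orth_diff hcx) := (add_diff hcx).symm
    rw [this]
    exact orth_add _ (orth_diff hce).symm (Orth.mono hd (diff_le hce) le_rfl)
  have i4 : ∀ s t, ⁅b.hom s, e.hom t⁆ = ⁅b.hom s, c.hom t⁆ :=
    comm_diff hce (Orth.mono o1.symm hbx le_rfl)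
  -- ⁅c s, p t⁆ = ⁅c s, g t⁆ = ⁅c s, b t⁆
  have o2 : Orth e (diff g p hpg) := by
    refine (orth_add _ (orth_diff hpg).symm ?_).symm
    exact Orth.mono hqg'.symm (diff_le hpg) le_rfl
  have i5 : ∀ s t, ⁅c.hom s, g.hom t⁆ = ⁅c.hom s, p.hom t⁆ :=
    comm_diff hpg (Orth.mono o2 hce le_rfl)
  have o3 : Orth (diff g b hbg) x := by
    have : x = add b (diff x b hbx) (orth_diff hbx) := (add_diff hbx).symm
    rw [this]
    exact orth_add _ (orth_diff hbg).symm (Orth.mono hd' (diff_le hbg) le_rfl)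
  have i6 : ∀ s t, ⁅c.hom s, g.hom t⁆ = ⁅c.hom s, b.hom t⁆ :=
    comm_diff hbg (Orth.mono o3.symm hcx le_rfl)
  -- chain
  have key : ∀ s t, ⁅p.hom s, x.hom t⁆ = ⁅b.hom s, p.hom t⁆ := by
    intro s t
    rw [i1, ← commutatorElement_inv, ← i5, i6, commutatorElement_inv, ← i4, i3]
  refine romp_comm_of_crit hZ ?_
  intro s t
  calc ⁅p.hom s, x.hom t⁆ = ⁅b.hom s, p.hom t⁆ := key s t
    _ = ⁅p.hom t, b.hom s⁆⁻¹ := (commutatorElement_inv _ _).symm
    _ = ⁅p.hom t, x.hom s⁆⁻¹ := by rw [i2]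
    _ = ⁅x.hom s, p.hom t⁆ := commutatorElement_inv _ _

end Ev

/-- the class of centreless groups -/
class Centreless (T : Type) [Group T] : Prop where
  center_eq : Subgroup.center T = ⊥

instance Ev.instROMP [Centreless T] {S : ColGrp C V T} : ROMP (Ev S) where
  toOMP := Ev.instOMP
  specker' := fun h1 h2 h3 h4 h5 => Ev.specker_aux Centreless.center_eq h1 h2 h3 h4 h5

end Crest.Agent.R189
end

-- ▼ part R189/EvTrans

/-!
Row 189: translation `v.e` of the events of a coloured group, action of `V` by automorphisms of the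
event poset (helper418).
-/

set_option autoImplicit false

namespace Crest.Agent.R189

open Equiv Equiv.Perm
open scoped commutatorElement

variable {C : Type} [Fintype C] [DecidableEq C] {V : Type} [AddCommGroup V] {T : Type} [Group T]

/-- the function equal to `v` on `D`, to `-|D| v` at `c0`, zero elsewhere -/
def lamD (v : V) (D : Finset C) (c0 : C) : C → V :=
  fun c => if c ∈ D then v else if c = c0 then -(D.card • v) else 0

theorem lamD_sum (v : V) (D : Finset C) {c0 : C} (h : c0 ∉ D) : ∑ c, lamD v D c0 c = 0 := by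
  have h1 : ∀ c, lamD v D c0 c = (if c ∈ D then v else 0) + (if c = c0 then -(D.card • v) else 0) := by
    intro c
    unfold lamD
    by_cases hc : c ∈ D
    · have : c ≠ c0 := fun h' => h (h' ▸ hc)
      simp [hc, this]
    · simp [hc]
  simp only [h1]
  rw [Finset.sum_add_distrib, Finset.sum_ite_mem, Finset.univ_inter, Finset.sum_const,
    Finset.sum_ite_eq' Finset.univ c0]
  simp

theorem lamD_mem (v : V) {D : Finset C} {c0 : C} {c : C} (h : c ∈ D) : lamD v D c0 c = v := by
  simp [lamD, h]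

theorem lamD_off (v : V) {D : Finset C} {c0 : C} {c : C} (h : c ∉ D) (h' : c ≠ c0) :
    lamD v D c0 c = 0 := by
  simp [lamD, h, h']

namespace ColGrp

variable (S : ColGrp C V T)

theorem H_zero : S.H 0 = 1 := by
  have h1 := S.H_add 0 0 (by simp) (by simp)
  rw [add_zero] at h1
  exact (mul_eq_left.1 h1.symm)

theorem H_neg {l : C → V} (h : ∑ c, l c = 0) : S.H (-l) = (S.H l)⁻¹ := by
  rw [eq_inv_iff_mul_eq_one, ← S.H_add _ _ (by simp [h]) h, neg_add_cancel, H_zero]

theorem H_sub {l m : C → V} (h : ∑ c, l c = 0) (h' : ∑ c, m c = 0) :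
    S.H (l - m) = S.H l * (S.H m)⁻¹ := by
  rw [sub_eq_add_neg, S.H_add _ _ h (by simp [h']), S.H_neg h']

theorem H_comm {l m : C → V} (h : ∑ c, l c = 0) (h' : ∑ c, m c = 0) :
    S.H l * S.H m = S.H m * S.H l := by
  rw [← S.H_add _ _ h h', ← S.H_add _ _ h' h, add_comm]

include S in
theorem exists_off {D : Finset C} (hD : D.card < 30) : ∃ c0, c0 ∉ D := by
  by_contra hc
  push Not at hc
  have h1 : D = Finset.univ := Finset.eq_univ_iff_forall.2 hc
  have := S.card_C
  rw [h1, Finset.card_univ] at hD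
  omega

/-- `H(λ)` commutes with `one(σ)` if `λ` is constant on the support of `σ` -/
theorem H_one {l : C → V} (hl : ∑ c, l c = 0) {v : V} {σ : alternatingGroup C}
    (h : ∀ c ∈ (σ : Perm C).support, l c = v) : S.H l * S.one σ * (S.H l)⁻¹ = S.one σ := by
  have h1 := S.one_H σ l hl
  have h2 : (fun c => l ((σ : Perm C)⁻¹ c)) = l := by
    funext c
    by_cases hc : c ∈ (σ : Perm C).support
    · rw [h c hc, h _ ?_]
      rw [← Perm.support_inv] at hc ⊢
      exact Perm.apply_mem_support.2 hc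
    · have : (σ : Perm C)⁻¹ c = c := by
        rw [← Perm.support_inv, Perm.notMem_support] at hc; exact hc
      rw [this]
  rw [h2] at h1
  rw [mul_inv_eq_iff_eq_mul] at h1 ⊢
  exact h1.symm

end ColGrp

namespace Ev

variable {S : ColGrp C V T}

/-- closure induction for even permutations supported in a set -/
theorem altOn_induction {A : Finset C} {P : alternatingGroup C → Prop}
    (h3 : ∀ σ : alternatingGroup C, (σ : Perm C).IsThreeCycle → (σ : Perm C).support ⊆ A → P σ)
    (h1 : P 1) (hmul : ∀ σ τ, P σ → P τ → P (σ * τ)) (hinv : ∀ σ, P σ → P σ⁻¹)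
    (σ : alternatingGroup C) (hσ : (σ : Perm C).support ⊆ A) : P σ := by
  have h : (σ : Perm C) ∈ Subgroup.closure {z : Perm C | z.IsThreeCycle ∧ z.support ⊆ A} := by
    rw [AltPres.closure_threeCycles_altOn]; exact ⟨σ.2, hσ⟩
  have h2 : ∀ π ∈ Subgroup.closure {z : Perm C | z.IsThreeCycle ∧ z.support ⊆ A},
      ∃ hπ : π ∈ alternatingGroup C, P ⟨π, hπ⟩ := by
    intro π hπ
    induction hπ using Subgroup.closure_induction with
    | mem z hz => exact ⟨hz.1.mem_alternatingGroup, h3 _ hz.1 hz.2⟩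
    | one => exact ⟨one_mem _, h1⟩
    | mul x y _ _ ihx ihy =>
      obtain ⟨hx, hx'⟩ := ihx
      obtain ⟨hy, hy'⟩ := ihy
      exact ⟨mul_mem hx hy, hmul _ _ hx' hy'⟩
    | inv x _ ih =>
      obtain ⟨hx, hx'⟩ := ih
      exact ⟨inv_mem hx, hinv _ hx'⟩
  obtain ⟨_, h⟩ := h2 _ h
  exact h

theorem ext3 {e f : Ev S} (h : ∀ σ : alternatingGroup C, (σ : Perm C).IsThreeCycle →
    e.hom σ = f.hom σ) : e = f := by
  ext σ
  refine alt_induction (P := fun σ => e.hom σ = f.hom σ) h ?_ ?_ ?_ σ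
  · simp
  · intro a b ha hb; simp [ha, hb]
  · intro a ha; simp [ha]

/-- conjugation by `H(λ)` of `e(σ)` depends only on `λ` on the support of `σ` -/
theorem conj_H_eq (e : Ev S) {σ : alternatingGroup C} (hσ : (σ : Perm C).support.card ≤ 20)
    {l m : C → V} (hl : ∑ c, l c = 0) (hm : ∑ c, m c = 0)
    (h : ∀ c ∈ (σ : Perm C).support, l c = m c) :
    S.H l * e.hom σ * (S.H l)⁻¹ = S.H m * e.hom σ * (S.H m)⁻¹ := by
  have h1 : S.H (l - m) ∈ S.sub (Finset.univ \ (σ : Perm C).support) := by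
    refine S.H_mem _ _ (by simp [hl, hm]) ?_
    intro c hc
    have : c ∈ (σ : Perm C).support := by simpa using hc
    simp [h c this]
  have h2 := e.comm_sub σ hσ (Finset.disjoint_sdiff) h1
  rw [S.H_sub hl hm] at h2
  have h3 := S.H_comm hl hm
  have h4 : S.H l * (S.H m)⁻¹ = (S.H m)⁻¹ * S.H l := by
    rw [mul_inv_eq_iff_eq_mul, mul_assoc, h3, inv_mul_cancel_left]
  rw [h4] at h2
  calc S.H l * e.hom σ * (S.H l)⁻¹
      = S.H m * (((S.H m)⁻¹ * S.H l) * e.hom σ) * (S.H l)⁻¹ := by group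
    _ = S.H m * e.hom σ * (S.H m)⁻¹ := by rw [← h2]; group

/-- a translated event, from its values on 3-cycles -/
theorem exists_trans (v : V) (e : Ev S) : ∃ e' : Ev S, IsTrans v e e' := by
  classical
  have hC := S.card_C
  -- a point off a small set
  have hoff : ∀ D : Finset C, ∃ c0, D.card < 30 → c0 ∉ D := by
    intro D
    by_cases hD : D.card < 30
    · obtain ⟨c0, h⟩ := S.exists_off hD; exact ⟨c0, fun _ => h⟩
    · have : Nonempty C := Fintype.card_pos_iff.1 (by omega)
      exact ⟨Classical.arbitrary C, fun h => absurd h hD⟩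
  choose c0 hc0 using hoff
  let φ : Perm C → T := fun z => if hz : z ∈ alternatingGroup C then
    S.H (lamD v z.support (c0 z.support)) * e.hom ⟨z, hz⟩ * (S.H (lamD v z.support (c0 z.support)))⁻¹
    else 1
  have hφ : ∀ (σ : alternatingGroup C), (σ : Perm C).support.card ≤ 20 → ∀ l : C → V, ∑ c, l c = 0 →
      (∀ c ∈ (σ : Perm C).support, l c = v) → φ σ = S.H l * e.hom σ * (S.H l)⁻¹ := by
    intro σ hσ l hl hlv
    have h1 : φ (σ : Perm C) = S.H (lamD v (σ : Perm C).support (c0 (σ : Perm C).support)) * e.hom σ *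
        (S.H (lamD v (σ : Perm C).support (c0 (σ : Perm C).support)))⁻¹ := by
      simp only [φ]
      rw [dif_pos σ.2]
    rw [h1]
    refine e.conj_H_eq hσ (lamD_sum v _ (hc0 _ (by omega))) hl ?_
    intro c hc
    rw [lamD_mem v hc, hlv c hc]
  have hloc : ∀ B : Finset C, B.card = 5 → ∃ θ : AltPres.altOn B →* T, AltPres.Agrees φ θ := by
    intro B hB
    set l := lamD v B (c0 B) with hl
    have hl0 : ∑ c, l c = 0 := lamD_sum v B (hc0 B (by omega))
    refine ⟨(MulAut.conj (S.H l)).toMonoidHom.comp (e.hom.comp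
      (Subgroup.inclusion (fun _ h => h.1 : AltPres.altOn B ≤ alternatingGroup C))), ?_⟩
    intro z hz hzB
    have h1 := hφ ⟨z, hz.mem_alternatingGroup⟩ (by
      have := IsThreeCycle.card_supp hz
      show z.support.card ≤ 20
      omega) l hl0 (fun c hc => lamD_mem v (hzB hc))
    rw [show φ z = _ from h1]
    rfl
  obtain ⟨k, hk⟩ := AltPres.exists_alt_hom' (by omega) hloc
  have hk3 : ∀ (σ : alternatingGroup C), (σ : Perm C).IsThreeCycle → ∀ l : C → V, ∑ c, l c = 0 →
      (∀ c ∈ (σ : Perm C).support, l c = v) → k σ = S.H l * e.hom σ * (S.H l)⁻¹ := by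
    intro σ hσ l hl hlv
    have h1 := hk σ hσ
    have h2 : (⟨(σ : Perm C), hσ.mem_alternatingGroup⟩ : alternatingGroup C) = σ := rfl
    rw [h2] at h1
    rw [h1]
    exact hφ σ (by rw [IsThreeCycle.card_supp hσ]; omega) l hl hlv
  refine ⟨⟨k, ?_, ?_⟩, ?_⟩
  · intro σ A hσ hA
    refine altOn_induction (P := fun σ => k σ ∈ S.sub A) ?_ ?_ ?_ ?_ σ hσ
    · intro z hz hzA
      have h3 := IsThreeCycle.card_supp hz
      obtain ⟨c, hc, hc'⟩ : ∃ c ∈ A, c ∉ (z : Perm C).support := by
        by_contra hcon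
        push Not at hcon
        have := Finset.card_le_card (show A ⊆ (z : Perm C).support from hcon)
        omega
      have hl0 := lamD_sum v _ hc'
      rw [hk3 z hz (lamD v (z : Perm C).support c) hl0 (fun c hc => lamD_mem v hc)]
      have h4 : S.H (lamD v (z : Perm C).support c) ∈ S.sub A := by
        refine S.H_mem _ _ hl0 ?_
        intro d hd
        exact lamD_off v (fun h => hd (hzA h)) (fun h => hd (h ▸ hc))
      exact mul_mem (mul_mem h4 (e.mem z A hzA hA)) (inv_mem h4)
    · rw [map_one]; exact one_mem _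
    · intro x y hx hy; rw [map_mul]; exact mul_mem hx hy
    · intro x hx; rw [map_inv]; exact inv_mem hx
  · intro σ τ
    refine alt_induction (P := fun σ => S.one τ * k σ * (S.one τ)⁻¹ = k (τ * σ * τ⁻¹)) ?_ ?_ ?_ ?_ σ
    · intro z hz
      have h3 := IsThreeCycle.card_supp hz
      obtain ⟨c, hc⟩ := S.exists_off (D := (z : Perm C).support) (by omega)
      have hl0 := lamD_sum v _ hc
      rw [hk3 z hz (lamD v (z : Perm C).support c) hl0 (fun c hc => lamD_mem v hc)]
      set l := lamD v (z : Perm C).support c with hl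
      have h4 : ∑ d, l ((τ : Perm C)⁻¹ d) = 0 := by
        rw [← hl0]
        exact Equiv.sum_comp ((τ : Perm C)⁻¹) l
      have h5 : ((τ * z * τ⁻¹ : alternatingGroup C) : Perm C) = (τ : Perm C) * z * (τ : Perm C)⁻¹ := rfl
      have h6 : ((τ * z * τ⁻¹ : alternatingGroup C) : Perm C).IsThreeCycle := by
        rw [h5, IsThreeCycle, Perm.cycleType_conj]; exact hz
      rw [hk3 (τ * z * τ⁻¹) h6 (fun d => l ((τ : Perm C)⁻¹ d)) h4]
      · rw [← S.one_H τ l hl0, ← e.equivar]; group
      · intro d hd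
        rw [h5, Perm.support_conj, Finset.mem_map] at hd
        obtain ⟨d', hd', rfl⟩ := hd
        have h7 : (τ : Perm C)⁻¹ ((τ : Perm C) d') = d' := by simp
        show l ((τ : Perm C)⁻¹ ((τ : Perm C) d')) = v
        rw [h7]
        exact lamD_mem v hd'
    · simp
    · intro x y hx hy
      have : τ * (x * y) * τ⁻¹ = (τ * x * τ⁻¹) * (τ * y * τ⁻¹) := by group
      rw [this, map_mul, map_mul, ← hx, ← hy]; group
    · intro x hx
      have : τ * x⁻¹ * τ⁻¹ = (τ * x * τ⁻¹)⁻¹ := by group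
      rw [this, map_inv, map_inv, ← hx]; group
  · intro σ l hl hlv
    refine altOn_induction (A := (σ : Perm C).support)
      (P := fun σ => k σ = S.H l * e.hom σ * (S.H l)⁻¹) ?_ ?_ ?_ ?_ σ (Finset.Subset.refl _)
    · intro z hz hzσ
      exact hk3 z hz l hl (fun c hc => hlv c (hzσ hc))
    · simp
    · intro x y hx hy; rw [map_mul, map_mul, hx, hy]; group
    · intro x hx; rw [map_inv, map_inv, hx]; group

/-- the translate `v.e` -/
noncomputable def trans (v : V) (e : Ev S) : Ev S := Classical.choose (exists_trans v e)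

theorem isTrans_trans (v : V) (e : Ev S) : IsTrans v e (trans v e) :=
  Classical.choose_spec (exists_trans v e)

/-- the defining formula -/
theorem trans_hom (v : V) (e : Ev S) {σ : alternatingGroup C} {l : C → V} (hl : ∑ c, l c = 0)
    (h : ∀ c ∈ (σ : Perm C).support, l c = v) :
    (trans v e).hom σ = S.H l * e.hom σ * (S.H l)⁻¹ := isTrans_trans v e σ l hl h

include S in
theorem exists_lam (v : V) {D : Finset C} (hD : D.card < 30) :
    ∃ l : C → V, ∑ c, l c = 0 ∧ ∀ c ∈ D, l c = v := by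
  obtain ⟨c0, hc0⟩ := S.exists_off hD
  exact ⟨lamD v D c0, lamD_sum v D hc0, fun c hc => lamD_mem v hc⟩

theorem eq_trans {v : V} {e e' : Ev S}
    (h : ∀ σ : alternatingGroup C, (σ : Perm C).IsThreeCycle → ∃ l : C → V, ∑ c, l c = 0 ∧
      (∀ c ∈ (σ : Perm C).support, l c = v) ∧ e'.hom σ = S.H l * e.hom σ * (S.H l)⁻¹) :
    e' = trans v e := by
  refine ext3 ?_
  intro σ hσ
  obtain ⟨l, hl, hlv, h1⟩ := h σ hσ
  rw [h1, trans_hom v e hl hlv]

theorem IsTrans.eq {v : V} {e e' : Ev S} (h : IsTrans v e e') : e' = trans v e := by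
  refine eq_trans ?_
  intro σ hσ
  obtain ⟨l, hl, hlv⟩ := exists_lam (S := S) v (D := (σ : Perm C).support)
    (by rw [IsThreeCycle.card_supp hσ]; omega)
  exact ⟨l, hl, hlv, h σ l hl hlv⟩

theorem trans_zero (e : Ev S) : trans 0 e = e := by
  refine (eq_trans ?_).symm
  intro σ _
  exact ⟨0, by simp, by simp, by rw [S.H_zero]; group⟩

theorem trans_add (v w : V) (e : Ev S) : trans (v + w) e = trans v (trans w e) := by
  refine (eq_trans ?_).symm
  intro σ hσ
  have hc : (σ : Perm C).support.card < 30 := by rw [IsThreeCycle.card_supp hσ]; omega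
  obtain ⟨l, hl, hlv⟩ := exists_lam (S := S) v hc
  obtain ⟨m, hm, hmw⟩ := exists_lam (S := S) w hc
  refine ⟨l + m, by simp [Finset.sum_add_distrib, hl, hm], fun c hc => by simp [hlv c hc, hmw c hc], ?_⟩
  rw [trans_hom v _ hl hlv, trans_hom w _ hm hmw, S.H_add _ _ hl hm]; group

theorem le_of_threeCycle {e f : Ev S} (h : ∀ σ τ : alternatingGroup C, (σ : Perm C).IsThreeCycle →
    (τ : Perm C).IsThreeCycle → f.hom τ * e.hom σ * (f.hom τ)⁻¹ = e.hom (τ * σ * τ⁻¹)) : e ≤ f := by
  have h1 : ∀ τ : alternatingGroup C, (τ : Perm C).IsThreeCycle → ∀ σ,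
      f.hom τ * e.hom σ * (f.hom τ)⁻¹ = e.hom (τ * σ * τ⁻¹) := by
    intro τ hτ σ
    refine alt_induction (P := fun σ => f.hom τ * e.hom σ * (f.hom τ)⁻¹ = e.hom (τ * σ * τ⁻¹))
      ?_ ?_ ?_ ?_ σ
    · intro σ hσ; exact h σ τ hσ hτ
    · simp
    · intro x y hx hy
      have : τ * (x * y) * τ⁻¹ = (τ * x * τ⁻¹) * (τ * y * τ⁻¹) := by group
      rw [this, map_mul, map_mul, ← hx, ← hy]; group
    · intro x hx
      have : τ * x⁻¹ * τ⁻¹ = (τ * x * τ⁻¹)⁻¹ := by group
      rw [this, map_inv, map_inv, ← hx]; group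
  intro σ τ
  have h2 : ∀ σ, f.hom τ * e.hom σ * (f.hom τ)⁻¹ = e.hom (τ * σ * τ⁻¹) := by
    refine alt_induction (P := fun τ => ∀ σ, f.hom τ * e.hom σ * (f.hom τ)⁻¹ = e.hom (τ * σ * τ⁻¹))
      ?_ ?_ ?_ ?_ τ
    · exact h1
    · intro σ; simp
    · intro x y hx hy σ
      have : x * y * σ * (x * y)⁻¹ = x * (y * σ * y⁻¹) * x⁻¹ := by group
      rw [this, ← hx, ← hy, map_mul]; group
    · intro x hx σ
      have h3 := hx (x⁻¹ * σ * x)
      have h4 : x * (x⁻¹ * σ * x) * x⁻¹ = σ := by group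
      rw [h4] at h3
      have h5 : x⁻¹ * σ * x⁻¹⁻¹ = x⁻¹ * σ * x := by group
      rw [h5, map_inv, ← h3]; group
  exact h2 σ

theorem trans_le {v : V} {e f : Ev S} (h : e ≤ f) : trans v e ≤ trans v f := by
  refine le_of_threeCycle ?_
  intro σ τ hσ hτ
  have hc : ((σ : Perm C).support ∪ (τ : Perm C).support).card < 30 := by
    have := Finset.card_union_le (σ : Perm C).support (τ : Perm C).support
    rw [IsThreeCycle.card_supp hσ, IsThreeCycle.card_supp hτ] at this
    omega
  obtain ⟨l, hl, hlv⟩ := exists_lam (S := S) v hc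
  rw [trans_hom v e hl (fun c hc => hlv c (Finset.mem_union_left _ hc)),
    trans_hom v f hl (fun c hc => hlv c (Finset.mem_union_right _ hc)),
    trans_hom v e (σ := τ * σ * τ⁻¹) hl, ← h σ τ]
  · group
  · intro c hc
    refine hlv c ?_
    have h5 : ((τ * σ * τ⁻¹ : alternatingGroup C) : Perm C) = (τ : Perm C) * σ * (τ : Perm C)⁻¹ := rfl
    rw [h5, Perm.support_conj, Finset.mem_map] at hc
    obtain ⟨d, hd, rfl⟩ := hc
    by_cases h6 : (τ : Perm C) d = d
    · refine Finset.mem_union_left _ ?_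
      simpa [h6] using hd
    · refine Finset.mem_union_right _ ?_
      simp only [Equiv.coe_toEmbedding, Perm.mem_support]
      exact fun h7 => h6 ((τ : Perm C).injective h7)

theorem trans_compl (v : V) (e : Ev S) : trans v (compl e) = compl (trans v e) := by
  refine ext3 ?_
  intro σ hσ
  have hc : (σ : Perm C).support.card < 30 := by rw [IsThreeCycle.card_supp hσ]; omega
  obtain ⟨l, hl, hlv⟩ := exists_lam (S := S) v hc
  have h1 := S.H_one hl hlv
  rw [trans_hom v _ hl hlv, compl_hom, compl_hom, trans_hom v e hl hlv]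
  nth_rewrite 2 [← h1]
  group





noncomputable instance : MulAction (Multiplicative V) (Ev S) where
  smul v e := trans v.toAdd e
  one_smul e := trans_zero e
  mul_smul v w e := trans_add v.toAdd w.toAdd e


theorem ofAdd_smul (v : V) (e : Ev S) : Multiplicative.ofAdd v • e = trans v e := rfl

noncomputable instance instOMPAct : OMPAct (Multiplicative V) (Ev S) where
  smul_le_smul' := fun _ _ _ h => trans_le h
  smul_cpl' := fun v e => trans_compl v.toAdd e

end Ev

end Crest.Agent.R189
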