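import Mathlib

/-!
Row 189 (S0289), helper474.  The concrete group `Gp` attached to a symbolic `V`-system
(`V` an additive commutative group, in the application `ℤ × ℤ`) with a finite colour set `C`:
the subgroup of `Perm (X × C)` generated by independent colour translations `H lam`
(`∑ lam = 0`) and events `ev E s` (`E` a letter set, `s` an even permutation of the colours).
-/

set_option autoImplicit false

namespace Crest.Agent.R189

open Equiv
open scoped commutatorElement

/-! ### translations and events -/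

section Defs

variable {V X C : Type*} [AddCommGroup V] [AddAction V X]

/-- independent translation of the colours: `(x, c) ↦ (lam c +ᵥ x, c)` -/
def H (lam : C → V) : Perm (X × C) where
  toFun p := (lam p.2 +ᵥ p.1, p.2)
  invFun p := (-lam p.2 +ᵥ p.1, p.2)
  left_inv p := by simp
  right_inv p := by simp

@[simp] theorem H_apply (lam : C → V) (x : X) (c : C) :
    (H lam : Perm (X × C)) (x, c) = (lam c +ᵥ x, c) := rfl

@[simp] theorem H_symm_apply (lam : C → V) (x : X) (c : C) :
    (H lam : Perm (X × C)).symm (x, c) = (-lam c +ᵥ x, c) := rfl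

@[simp] theorem H_inv_apply (lam : C → V) (x : X) (c : C) :
    (H lam : Perm (X × C))⁻¹ (x, c) = (-lam c +ᵥ x, c) := rfl

@[simp] theorem H_zero : (H (0 : C → V) : Perm (X × C)) = 1 := by
  ext ⟨x, c⟩ <;> simp

theorem H_add (lam mu : C → V) : (H (lam + mu) : Perm (X × C)) = H lam * H mu := by
  ext ⟨x, c⟩ <;> simp [add_vadd]

theorem H_neg (lam : C → V) : (H (-lam) : Perm (X × C)) = (H lam)⁻¹ := by
  ext ⟨x, c⟩ <;> simp

/-- `H` as a homomorphism -/
def Hhom : Multiplicative (C → V) →* Perm (X × C) where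
  toFun lam := H lam.toAdd
  map_one' := by simp
  map_mul' a b := by simpa using H_add a.toAdd b.toAdd

end Defs

section Ev

variable {X C : Type*}

open Classical in
/-- the event `E` with colour permutation `s`: `(x, c) ↦ (x, s c)` if `x ∈ E`, else fixed -/
noncomputable def ev (E : Set X) : Perm C →* Perm (X × C) where
  toFun s :=
    { toFun := fun p => (p.1, if p.1 ∈ E then s p.2 else p.2)
      invFun := fun p => (p.1, if p.1 ∈ E then s⁻¹ p.2 else p.2)
      left_inv := fun p => by by_cases h : p.1 ∈ E <;> simp [h]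
      right_inv := fun p => by by_cases h : p.1 ∈ E <;> simp [h] }
  map_one' := by ext ⟨x, c⟩ <;> simp
  map_mul' s t := by
    ext ⟨x, c⟩
    · simp
    · by_cases h : x ∈ E <;> simp [h]

theorem ev_apply_mem {E : Set X} {s : Perm C} {x : X} (h : x ∈ E) (c : C) :
    ev E s (x, c) = (x, s c) := by simp [ev, h]

theorem ev_apply_notMem {E : Set X} {s : Perm C} {x : X} (h : x ∉ E) (c : C) :
    ev E s (x, c) = (x, c) := by simp [ev, h]

@[simp] theorem ev_fst (E : Set X) (s : Perm C) (p : X × C) : (ev E s p).1 = p.1 := by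
  simp [ev]

theorem ev_univ_apply (s : Perm C) (x : X) (c : C) : ev Set.univ s (x, c) = (x, s c) :=
  ev_apply_mem (Set.mem_univ x) c

@[simp] theorem ev_empty (s : Perm C) : ev (∅ : Set X) s = 1 := by
  ext ⟨x, c⟩ <;> simp [ev]

/-- the basic commutator relation -/
theorem ev_comm (E F : Set X) (s t : Perm C) : ⁅ev E s, ev F t⁆ = ev (E ∩ F) ⁅s, t⁆ := by
  rw [commutatorElement_def, commutatorElement_def, ← map_inv, ← map_inv]
  apply Equiv.ext
  rintro ⟨x, c⟩
  by_cases hE : x ∈ E <;> by_cases hF : x ∈ F
  · rw [ev_apply_mem (show x ∈ E ∩ F from ⟨hE, hF⟩)]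
    simp only [Perm.mul_apply, ev_apply_mem hE, ev_apply_mem hF]
  · rw [ev_apply_notMem (show x ∉ E ∩ F from fun h => hF h.2)]
    simp only [Perm.mul_apply, ev_apply_mem hE, ev_apply_notMem hF]
    rw [← Perm.mul_apply, mul_inv_cancel, Perm.one_apply]
  · rw [ev_apply_notMem (show x ∉ E ∩ F from fun h => hE h.1)]
    simp only [Perm.mul_apply, ev_apply_notMem hE, ev_apply_mem hF]
    rw [← Perm.mul_apply, mul_inv_cancel, Perm.one_apply]
  · rw [ev_apply_notMem (show x ∉ E ∩ F from fun h => hE h.1)]
    simp only [Perm.mul_apply, ev_apply_notMem hE, ev_apply_notMem hF]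

theorem ev_union {E F : Set X} (h : Disjoint E F) (s : Perm C) :
    ev (E ∪ F) s = ev E s * ev F s := by
  apply Equiv.ext
  rintro ⟨x, c⟩
  by_cases hE : x ∈ E
  · have hF : x ∉ F := fun hF => Set.disjoint_left.1 h hE hF
    rw [ev_apply_mem (show x ∈ E ∪ F from Or.inl hE), Perm.mul_apply, ev_apply_notMem hF, ev_apply_mem hE]
  · by_cases hF : x ∈ F
    · rw [ev_apply_mem (show x ∈ E ∪ F from Or.inr hF), Perm.mul_apply, ev_apply_mem hF, ev_apply_notMem hE]
    · rw [ev_apply_notMem (show x ∉ E ∪ F by rintro (h | h) <;> contradiction), Perm.mul_apply,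
        ev_apply_notMem hF, ev_apply_notMem hE]

theorem ev_compl (E : Set X) (s : Perm C) : ev Eᶜ s = ev Set.univ s * (ev E s)⁻¹ := by
  rw [eq_mul_inv_iff_mul_eq, ← ev_union disjoint_compl_left, Set.compl_union_self]


theorem ev_disjoint_commute {E F : Set X} (h : Disjoint E F) (s t : Perm C) :
    Commute (ev E s) (ev F t) := by
  rw [← commutatorElement_eq_one_iff_commute, ev_comm, h.inter_eq, ev_empty]

/-- conjugation by a global colour permutation -/
theorem ev_univ_conj (E : Set X) (s t : Perm C) :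
    ev Set.univ t * ev E s * (ev Set.univ t)⁻¹ = ev E (t * s * t⁻¹) := by
  apply Equiv.ext
  rintro ⟨x, c⟩
  by_cases hE : x ∈ E
  · rw [← map_inv, Perm.mul_apply, Perm.mul_apply, ev_univ_apply, ev_apply_mem hE, ev_univ_apply,
      ev_apply_mem hE]
    rfl
  · rw [← map_inv, Perm.mul_apply, Perm.mul_apply, ev_univ_apply, ev_apply_notMem hE,
      ev_univ_apply, ev_apply_notMem hE]
    simp

end Ev

section HEv

variable {V X C : Type*} [AddCommGroup V] [AddAction V X]

/-- conjugation of an event by a translation which is constant `= v` on the moved colours -/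
theorem H_conj_ev (lam : C → V) (v : V) (E : Set X) (s : Perm C)
    (h : ∀ c, s c ≠ c → lam c = v) :
    H lam * ev E s * (H lam)⁻¹ = ev {x | -v +ᵥ x ∈ E} s := by
  apply Equiv.ext
  rintro ⟨x, c⟩
  rw [Perm.mul_apply, Perm.mul_apply, H_inv_apply]
  by_cases hc : s c = c
  · have e1 : ev E s (-lam c +ᵥ x, c) = (-lam c +ᵥ x, c) := by
      by_cases hE : -lam c +ᵥ x ∈ E
      · rw [ev_apply_mem hE, hc]
      · rw [ev_apply_notMem hE]
    have e2 : ev {x | -v +ᵥ x ∈ E} s (x, c) = (x, c) := by
      by_cases hE : x ∈ {x | -v +ᵥ x ∈ E}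
      · rw [ev_apply_mem hE, hc]
      · rw [ev_apply_notMem hE]
    rw [e1, e2]
    simp
  · have h1 := h c hc
    have h2 : lam (s c) = v := h (s c) (fun h' => hc (s.injective h'))
    rw [h1]
    by_cases hE : -v +ᵥ x ∈ E
    · rw [ev_apply_mem hE, ev_apply_mem (show x ∈ {x | -v +ᵥ x ∈ E} from hE), H_apply, h2]
      simp
    · rw [ev_apply_notMem hE, ev_apply_notMem (show x ∉ {x | -v +ᵥ x ∈ E} from hE), H_apply, h1]
      simp

/-- conjugating a translation by a global colour permutation permutes the colours -/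
theorem ev_univ_conj_H (lam : C → V) (s : Perm C) :
    ev Set.univ s * H lam * (ev Set.univ s)⁻¹ = (H (lam ∘ (s⁻¹ : Perm C)) : Perm (X × C)) := by
  apply Equiv.ext
  rintro ⟨x, c⟩
  rw [← map_inv, Perm.mul_apply, Perm.mul_apply, ev_univ_apply, H_apply, ev_univ_apply, H_apply]
  simp

end HEv

/-! ### local ("clopen") sets -/

section Clo

variable {V X A : Type*} [AddCommGroup V] [AddAction V X]

/-- `x` and `y` have the same letters on the window `W` -/
def Agree (letter : X → A) (W : Set V) (x y : X) : Prop :=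
  ∀ v ∈ W, letter (v +ᵥ x) = letter (v +ᵥ y)

theorem Agree.refl (letter : X → A) (W : Set V) (x : X) : Agree letter W x x := fun _ _ => rfl

theorem Agree.symm {letter : X → A} {W : Set V} {x y : X} (h : Agree letter W x y) :
    Agree letter W y x := fun v hv => (h v hv).symm

theorem Agree.trans {letter : X → A} {W : Set V} {x y z : X} (h : Agree letter W x y)
    (h' : Agree letter W y z) : Agree letter W x z := fun v hv => (h v hv).trans (h' v hv)

theorem Agree.mono {letter : X → A} {W W' : Set V} (hW : W ⊆ W') {x y : X}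
    (h : Agree letter W' x y) : Agree letter W x y := fun v hv => h v (hW hv)

/-- membership in `E` only depends on the letters in some finite window -/
def Clo (V : Type*) {X A : Type*} [AddCommGroup V] [AddAction V X] (letter : X → A)
    (E : Set X) : Prop :=
  ∃ W : Finset V, ∀ x y, Agree letter (W : Set V) x y → (x ∈ E ↔ y ∈ E)

variable {letter : X → A}

theorem Clo.let_mem (v : V) (a : A) : Clo V letter {x | letter (v +ᵥ x) = a} := by
  refine ⟨{v}, fun x y h => ?_⟩
  have := h v (by simp)
  simp [this]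

theorem Clo.letter0 (a : A) : Clo V letter {x | letter x = a} := by
  have := Clo.let_mem (letter := letter) (0 : V) a
  simpa using this

theorem Clo.univ : Clo V letter (Set.univ : Set X) := ⟨∅, fun _ _ _ => by simp⟩

theorem Clo.empty : Clo V letter (∅ : Set X) := ⟨∅, fun _ _ _ => by simp⟩

theorem Clo.compl {E : Set X} (h : Clo V letter E) : Clo V letter Eᶜ := by
  obtain ⟨W, hW⟩ := h
  exact ⟨W, fun x y h => by simp [hW x y h]⟩

theorem Clo.inter {E F : Set X} (hE : Clo V letter E) (hF : Clo V letter F) :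
    Clo V letter (E ∩ F) := by
  classical
  obtain ⟨W, hW⟩ := hE
  obtain ⟨W', hW'⟩ := hF
  refine ⟨W ∪ W', fun x y h => ?_⟩
  have h1 := hW x y (h.mono (by simp))
  have h2 := hW' x y (h.mono (by simp))
  simp [h1, h2]

theorem Clo.union {E F : Set X} (hE : Clo V letter E) (hF : Clo V letter F) :
    Clo V letter (E ∪ F) := by
  have := (hE.compl.inter hF.compl).compl
  rwa [Set.compl_inter, compl_compl, compl_compl] at this

theorem Clo.diff {E F : Set X} (hE : Clo V letter E) (hF : Clo V letter F) :
    Clo V letter (E \ F) := hE.inter hF.compl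

theorem Clo.biUnion {ι : Type*} (S : Finset ι) {E : ι → Set X}
    (h : ∀ i ∈ S, Clo V letter (E i)) : Clo V letter (⋃ i ∈ S, E i) := by
  classical
  induction S using Finset.induction_on with
  | empty => simpa using Clo.empty
  | insert a S ha ih =>
    rw [Finset.set_biUnion_insert]
    exact (h a (by simp)).union (ih (fun i hi => h i (by simp [hi])))

theorem Clo.biInter {ι : Type*} (S : Finset ι) {E : ι → Set X}
    (h : ∀ i ∈ S, Clo V letter (E i)) : Clo V letter (⋂ i ∈ S, E i) := by
  classical
  induction S using Finset.induction_on with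
  | empty => simpa using Clo.univ
  | insert a S ha ih =>
    rw [Finset.set_biInter_insert]
    exact (h a (by simp)).inter (ih (fun i hi => h i (by simp [hi])))

theorem Clo.preimage {E : Set X} (hE : Clo V letter E) (v : V) :
    Clo V letter {x | v +ᵥ x ∈ E} := by
  classical
  obtain ⟨W, hW⟩ := hE
  refine ⟨W.image (· + v), fun x y h => hW _ _ (fun w hw => ?_)⟩
  have := h (w + v) (by simp only [Finset.coe_image]; exact ⟨w, hw, rfl⟩)
  rwa [add_vadd, add_vadd] at this

/-- local functions have clopen fibres -/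
theorem Clo.fibre {B : Type*} {f : X → B} {W : Finset V}
    (hf : ∀ x y, Agree letter (W : Set V) x y → f x = f y) (b : B) :
    Clo V letter {x | f x = b} :=
  ⟨W, fun x y h => by simp [hf x y h]⟩

/-- separation: distinct points in one orbit are separated by a letter -/
def Sep (V : Type*) {X A : Type*} [AddCommGroup V] [AddAction V X] (letter : X → A) : Prop :=
  ∀ v : V, v ≠ 0 → ∀ x : X, ∃ w : V, letter (w +ᵥ x) ≠ letter (w +ᵥ (v +ᵥ x))

/-- minimality: every nonempty clopen set has finitely many translates covering `X` -/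
def Minl (V : Type*) {X A : Type*} [AddCommGroup V] [AddAction V X] (letter : X → A) : Prop :=
  ∀ E : Set X, Clo V letter E → E.Nonempty → ∃ W : Finset V, ∀ x : X, ∃ w ∈ W, w +ᵥ x ∈ E

theorem Sep.free (h : Sep V letter) {v : V} {x : X} (hx : v +ᵥ x = x) : v = 0 := by
  by_contra hv
  obtain ⟨w, hw⟩ := h v hv x
  exact hw (by rw [hx])

theorem Sep.vadd_inj (h : Sep V letter) {v w : V} {x : X} (hx : v +ᵥ x = w +ᵥ x) : v = w := by
  have : (v - w) +ᵥ x = x := by
    rw [sub_eq_neg_add, add_vadd, hx, neg_vadd_vadd]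
  exact sub_eq_zero.1 (h.free this)

/-- a clopen neighbourhood disjoint from its translate -/
theorem Sep.exists_clo (h : Sep V letter) {v : V} (hv : v ≠ 0) (x : X) :
    ∃ E : Set X, Clo V letter E ∧ x ∈ E ∧ ∀ y ∈ E, v +ᵥ y ∉ E := by
  obtain ⟨w, hw⟩ := h v hv x
  refine ⟨{y | letter (w +ᵥ y) = letter (w +ᵥ x)} ∩
    {y | letter ((w + v) +ᵥ y) = letter ((w + v) +ᵥ x)}, (Clo.let_mem _ _).inter (Clo.let_mem _ _),
    ⟨rfl, rfl⟩, ?_⟩
  rintro y ⟨-, h2⟩ ⟨h3, -⟩
  simp only [Set.mem_ofPred_eq, add_vadd] at h2 h3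
  exact hw (h3.symm.trans h2)

end Clo

end Crest.Agent.R189
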