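import Crest.Agent.R189.EvTrans
import Crest.Agent.R189.GpBasic
import Crest.Agent.R189.RompHom
import Crest.Agent.R189.SetAct
import Crest.Agent.R189.TowerBase
import Crest.Agent.R189.AltPerf
import Crest.Agent.R189.GlueT
import Crest.Agent.R189.Tper

-- ▼ part R189/Sem
section

/-!
# Row 189: semantics of the events of a coloured group in a concrete system (helper516)

`Rep S X` : a homomorphism `T →* Perm (X × C)` under which `one s`, `H l` are the concrete
permutations and `T[A]` acts on the colours `A` only.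

* `R.set e : Set X` : the set of an event `e : Ev S`;
* `R.hom_eq : R.toHom (e.hom s) = ev (R.set e) s`  for EVERY event `e`;
* `R.ompHom : OMPHom (Ev S) (Set X)`, equivariant.
-/

set_option autoImplicit false

namespace Crest.Agent.R189

open Equiv Equiv.Perm
open scoped commutatorElement

variable {C : Type} [Fintype C] [DecidableEq C] {V : Type} [AddCommGroup V] {T : Type} [Group T]
variable {X : Type*} [AddAction V X]

/-- a concrete representation of a coloured group on `X × C` -/
structure Rep (S : ColGrp C V T) (X : Type*) [AddAction V X] where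
  toHom : T →* Perm (X × C)
  one : ∀ s : alternatingGroup C, toHom (S.one s) = ev Set.univ (s : Perm C)
  H : ∀ l : C → V, ∑ c, l c = 0 → toHom (S.H l) = Crest.Agent.R189.H l
  sub : ∀ (A : Finset C) (t : T), t ∈ S.sub A → ∀ (x : X) (c : C), c ∉ A → toHom t (x, c) = (x, c)

/-- semantics of an event -/
def Sem {S : ColGrp C V T} (R : Rep S X) (e : Ev S) (E : Set X) : Prop :=
  ∀ s : alternatingGroup C, R.toHom (e.hom s) = ev E (s : Perm C)


/-- the alternating group is transitive on triples of distinct points -/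
theorem exists_even_triple (hC : 5 ≤ Fintype.card C) {a b c a' b' c' : C} (hab : a ≠ b)
    (hac : a ≠ c) (hbc : b ≠ c) (hab' : a' ≠ b') (hac' : a' ≠ c') (hbc' : b' ≠ c') :
    ∃ t : alternatingGroup C, (t : Perm C) a = a' ∧ (t : Perm C) b = b' ∧ (t : Perm C) c = c' := by
  have hN : 5 ≤ Nat.card C := by rwa [Nat.card_eq_fintype_card]
  have h1 : MulAction.IsMultiplyPretransitive (alternatingGroup C) C (Nat.card C - 2) :=
    alternatingGroup.isMultiplyPretransitive C
  have h3 : MulAction.IsMultiplyPretransitive (alternatingGroup C) C 3 :=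
    MulAction.isMultiplyPretransitive_of_le (n := Nat.card C - 2) (by omega) (by omega)
  rw [MulAction.isMultiplyPretransitive_iff] at h3
  have inj : ∀ {a b c : C}, a ≠ b → a ≠ c → b ≠ c →
      Function.Injective (![a, b, c] : Fin 3 → C) := by
    intro a b c h1 h2 h3 i j hij
    fin_cases i <;> fin_cases j <;> simp_all
  obtain ⟨t, ht⟩ := h3 ⟨![a, b, c], inj hab hac hbc⟩ ⟨![a', b', c'], inj hab' hac' hbc'⟩
  refine ⟨t, ?_, ?_, ?_⟩
  · exact DFunLike.congr_fun ht 0
  · exact DFunLike.congr_fun ht 1
  · exact DFunLike.congr_fun ht 2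

namespace Rep

variable {S : ColGrp C V T} (R : Rep S X)

/-- an event acts trivially off the support (small support) -/
theorem hom_apply_of_notMem (e : Ev S) {s : alternatingGroup C}
    (hs : (s : Perm C).support.card ≤ 20) {c : C} (hc : c ∉ (s : Perm C).support) (x : X) :
    R.toHom (e.hom s) (x, c) = (x, c) := by
  obtain ⟨A, h1, h2, h3⟩ := S.exists_superset (A := (s : Perm C).support) (B := {c})
    (by simpa using hc) 20 hs (by simp)
  exact R.sub A _ (e.mem s A h1 (by omega)) x c (by simpa using h3)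

theorem equivar (e : Ev S) (s t : alternatingGroup C) :
    ev Set.univ (t : Perm C) * R.toHom (e.hom s) * (ev Set.univ (t : Perm C))⁻¹ =
      R.toHom (e.hom (t * s * t⁻¹)) := by
  rw [← e.equivar s t, map_mul, map_mul, map_inv, R.one]

/-- the value at `(t x)` of the conjugate -/
theorem hom_conj_apply (e : Ev S) (s t : alternatingGroup C) {x y : X} {c d : C}
    (h : R.toHom (e.hom s) (x, c) = (y, d)) :
    R.toHom (e.hom (t * s * t⁻¹)) (x, (t : Perm C) c) = (y, (t : Perm C) d) := by
  have h1 : ((t : Perm C))⁻¹ ((t : Perm C) c) = c := by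
    rw [← Perm.mul_apply, inv_mul_cancel, Perm.one_apply]
  have h2 : ev Set.univ ((t : Perm C))⁻¹ (x, (t : Perm C) c) = (x, c) := by
    rw [ev_univ_apply, h1]
  rw [← R.equivar e s t, Perm.mul_apply, Perm.mul_apply, ← map_inv, h2, h, ev_univ_apply]

/-- transport to another triple -/
theorem hom_triple_apply (e : Ev S) {a b c : C} (hab : a ≠ b) (hac : a ≠ c) (hbc : b ≠ c)
    (t : alternatingGroup C) {x y : X} {u v : C}
    (h : R.toHom (e.hom (Tower.acyc a b c)) (x, u) = (y, v)) :
    R.toHom (e.hom (Tower.acyc ((t : Perm C) a) ((t : Perm C) b) ((t : Perm C) c)))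
      (x, (t : Perm C) u) = (y, (t : Perm C) v) := by
  rw [← Tower.conj_acyc t hab hac hbc]
  exact R.hom_conj_apply e _ t h

theorem acyc_inv {a b c : C} (hab : a ≠ b) (hac : a ≠ c) (hbc : b ≠ c) :
    Tower.acyc b a c = (Tower.acyc a b c)⁻¹ := by
  rw [eq_inv_iff_mul_eq_one]
  apply Subtype.ext
  apply Equiv.ext
  intro x
  rw [Subgroup.coe_mul, Tower.coe_acyc hab.symm hbc hac, Tower.coe_acyc hab hac hbc,
    Perm.mul_apply]
  show _ = x
  by_cases h1 : x = a
  · subst h1; rw [Tower.cyc_apply_fst hab hbc, Tower.cyc_apply_fst hab.symm hac]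
  by_cases h2 : x = b
  · subst h2; rw [Tower.cyc_apply_snd, Tower.cyc_apply_trd hbc hac]
  by_cases h3 : x = c
  · subst h3; rw [Tower.cyc_apply_trd hac hbc, Tower.cyc_apply_snd]
  rw [Tower.cyc_apply_of_ne h1 h2 h3, Tower.cyc_apply_of_ne h2 h1 h3]

/-- **fibres are preserved** -/
theorem hom_cyc_apply (e : Ev S) {a b c : C} (hab : a ≠ b) (hac : a ≠ c) (hbc : b ≠ c) (x : X) :
    R.toHom (e.hom (Tower.acyc a b c)) (x, a) = (x, a) ∨
    R.toHom (e.hom (Tower.acyc a b c)) (x, a) = (x, b) ∨
    R.toHom (e.hom (Tower.acyc a b c)) (x, a) = (x, c) := by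
  have hC := S.card_C
  set σ := Tower.acyc a b c with hσ
  set g := R.toHom (e.hom σ) with hg
  have hsupp : (σ : Perm C).support = {a, b, c} := Tower.support_acyc hab hac hbc
  have hoff : ∀ (y : X) (d : C), d ∉ ({a, b, c} : Finset C) → g (y, d) = (y, d) := by
    intro y d hd
    exact R.hom_apply_of_notMem e (by rw [hsupp]; exact (Finset.card_le_three).trans (by norm_num))
      (by rw [hsupp]; exact hd) y
  -- rotation
  have hrot : ∀ {y z : X} {u v : C}, g (y, u) = (z, v) → g (y, (σ : Perm C) u) = (z, (σ : Perm C) v) := by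
    intro y z u v h
    have := R.hom_conj_apply e σ σ h
    rwa [mul_inv_cancel_right] at this
  have σa : (σ : Perm C) a = b := by rw [hσ, Tower.coe_acyc hab hac hbc, Tower.cyc_apply_fst hab hbc]
  have σb : (σ : Perm C) b = c := by rw [hσ, Tower.coe_acyc hab hac hbc, Tower.cyc_apply_snd]
  have σc : (σ : Perm C) c = a := by rw [hσ, Tower.coe_acyc hab hac hbc, Tower.cyc_apply_trd hac hbc]
  -- reflection
  obtain ⟨τ, τa, τb, τc⟩ := exists_even_triple (by omega) hab hac hbc hab.symm hbc hac
  have hrefl : ∀ {y z : X} {u v : C}, g (y, u) = (z, v) → g (z, (τ : Perm C) v) = (y, (τ : Perm C) u) := by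
    intro y z u v h
    have h1 := R.hom_triple_apply e hab hac hbc τ h
    rw [τa, τb, τc, acyc_inv hab hac hbc, map_inv, map_inv, Perm.inv_eq_iff_eq] at h1
    exact h1.symm
  -- order three
  have h3 : ∀ p, g (g (g p)) = p := by
    intro p
    have h1 : σ ^ 3 = 1 := by
      apply Subtype.ext
      rw [Subgroup.coe_pow, hσ, Tower.coe_acyc hab hac hbc]
      have := (AltPres.cyc_isThreeCycle hab hac hbc).orderOf
      rw [← this, pow_orderOf_eq_one]; rfl
    have h2 : g ^ 3 = 1 := by rw [hg, ← map_pow, ← map_pow, h1, map_one, map_one]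
    have := congrArg (fun f : Perm (X × C) => f p) h2
    simpa [pow_succ] using this
  rcases hxy : g (x, a) with ⟨y, d⟩
  have hd : d ∈ ({a, b, c} : Finset C) := by
    by_contra hd
    have h1 := hoff y d hd
    have h2 : g (y, d) = g (x, a) := h1.trans hxy.symm
    have h3 := (Prod.ext_iff.1 (g.injective h2)).2
    simp only at h3
    rw [h3] at hd
    simp at hd
  have hyx : y = x := by
    simp only [Finset.mem_insert, Finset.mem_singleton] at hd
    rcases hd with rfl | rfl | rfl
    · -- g (x,b) = (y,b)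
      have h1 := hrot hxy
      rw [σa] at h1
      have h2 := hrefl h1
      rw [τb] at h2
      have h4 := h3 (x, d)
      rw [hxy, h2, hxy] at h4
      exact (Prod.ext_iff.1 h4).1
    · have h1 := hrot hxy
      rw [σa, σb] at h1
      have h2 := hrefl h1
      rw [τb, τc] at h2
      have h4 := h3 (x, d)
      rw [h1, h2, hxy] at h4
      exact (Prod.ext_iff.1 h4).1
    · have h1 := hrot hxy
      rw [σa, σc] at h1
      have h2 := hrefl h1
      rw [τa, τb] at h2
      have h1' := hrot h1
      rw [σb, σa] at h1'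
      have h4 := h3 (x, d)
      rw [h1', h2, hxy] at h4
      exact (Prod.ext_iff.1 h4).1
  subst hyx
  simp only [Finset.mem_insert, Finset.mem_singleton] at hd
  rcases hd with rfl | rfl | rfl
  · exact Or.inl rfl
  · exact Or.inr (Or.inl rfl)
  · exact Or.inr (Or.inr rfl)

/-- the case `a ↦ c` cannot occur -/
theorem hom_cyc_apply_ne (e : Ev S) {a b c : C} (hab : a ≠ b) (hac : a ≠ c) (hbc : b ≠ c) (x : X) :
    R.toHom (e.hom (Tower.acyc a b c)) (x, a) ≠ (x, c) := by
  have hC := S.card_C
  intro h
  -- two more colours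
  obtain ⟨A, h1, h2, h3⟩ := S.exists_superset (A := ({a, b, c} : Finset C)) (B := ∅)
    (Finset.disjoint_empty_right _) 5 ((Finset.card_le_three).trans (by norm_num)) (by simp)
  have hd : 1 < (A \ {a, b, c}).card := by
    have h4 := Finset.card_sdiff_add_card_eq_card h1
    have h5 : ({a, b, c} : Finset C).card ≤ 3 := Finset.card_le_three
    omega
  obtain ⟨d, hd1, e', he1, hde⟩ := Finset.one_lt_card.1 hd
  rw [Finset.mem_sdiff] at hd1 he1
  simp only [Finset.mem_insert, Finset.mem_singleton, not_or] at hd1 he1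
  obtain ⟨_, hda, hdb, hdc⟩ := hd1
  obtain ⟨_, hea, heb, hec⟩ := he1
  -- every triple is rotated backwards
  have key : ∀ {a' b' c' : C}, a' ≠ b' → a' ≠ c' → b' ≠ c' →
      R.toHom (e.hom (Tower.acyc a' b' c')) (x, a') = (x, c') := by
    intro a' b' c' h1 h2 h3
    obtain ⟨t, ta, tb, tc⟩ := exists_even_triple (by omega) hab hac hbc h1 h2 h3
    have := R.hom_triple_apply e hab hac hbc t h
    rwa [ta, tb, tc] at this
  have hcomm : ⁅Tower.acyc a b d, Tower.acyc a c e'⁆ = Tower.acyc a b c := by
    apply Subtype.ext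
    rw [Tower.coe_acyc hab hac hbc, ← AltPres.cyc_commutator hab hac (Ne.symm hda) (Ne.symm hea)
      hbc (Ne.symm hdb) (Ne.symm heb) (Ne.symm hdc) (Ne.symm hec) hde,
      ← Tower.coe_acyc hab (Ne.symm hda) (Ne.symm hdb),
      ← Tower.coe_acyc hac (Ne.symm hea) (Ne.symm hec)]
    rfl
  set g1 := R.toHom (e.hom (Tower.acyc a b d)) with hg1
  set g2 := R.toHom (e.hom (Tower.acyc a c e')) with hg2
  have e1 : R.toHom (e.hom (Tower.acyc a b c)) = g1 * g2 * g1⁻¹ * g2⁻¹ := by
    rw [← hcomm, map_commutatorElement, map_commutatorElement, commutatorElement_def]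
  have k1 : g2 (x, c) = (x, a) := by
    have := key (Ne.symm hec) hac.symm hea
    rw [← Tower.acyc_rot hac (Ne.symm hea) (Ne.symm hec)] at this
    exact this
  have k2 : g1 (x, c) = (x, c) := by
    refine R.hom_apply_of_notMem e ?_ ?_ x
    · rw [Tower.support_acyc hab (Ne.symm hda) (Ne.symm hdb)]
      exact (Finset.card_le_three).trans (by norm_num)
    · rw [Tower.support_acyc hab (Ne.symm hda) (Ne.symm hdb)]
      simp only [Finset.mem_insert, Finset.mem_singleton, not_or]
      exact ⟨hac.symm, hbc.symm, Ne.symm hdc⟩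
  have k3 : g1 (x, a) = (x, d) := key hab (Ne.symm hda) (Ne.symm hdb)
  have k4 : R.toHom (e.hom (Tower.acyc a b c)) (x, a) = (x, d) := by
    have i1 : g2⁻¹ (x, a) = (x, c) := by rw [Perm.inv_eq_iff_eq]; exact k1.symm
    have i2 : g1⁻¹ (x, c) = (x, c) := by rw [Perm.inv_eq_iff_eq]; exact k2.symm
    rw [e1, Perm.mul_apply, Perm.mul_apply, Perm.mul_apply, i1, i2, k1, k3]
  rw [h] at k4
  exact hdc (Prod.ext_iff.1 k4).2.symm

/-- the set of an event -/
def set (e : Ev S) : Set X := {x | ∃ (s : alternatingGroup C) (c : C), R.toHom (e.hom s) (x, c) ≠ (x, c)}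

/-- on a 3-cycle an event is concrete -/
theorem hom_cyc_eq (e : Ev S) {a b c : C} (hab : a ≠ b) (hac : a ≠ c) (hbc : b ≠ c) :
    R.toHom (e.hom (Tower.acyc a b c)) =
      ev {x | R.toHom (e.hom (Tower.acyc a b c)) (x, a) = (x, b)} (AltPres.cyc a b c) := by
  have hoff : ∀ (x : X) (d : C), d ∉ ({a, b, c} : Finset C) →
      R.toHom (e.hom (Tower.acyc a b c)) (x, d) = (x, d) := by
    intro x d hd
    exact R.hom_apply_of_notMem e (by
      rw [Tower.support_acyc hab hac hbc]; exact (Finset.card_le_three).trans (by norm_num))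
      (by rw [Tower.support_acyc hab hac hbc]; exact hd) x
  have σa : (Tower.acyc a b c : Perm C) a = b := by
    rw [Tower.coe_acyc hab hac hbc, Tower.cyc_apply_fst hab hbc]
  have σb : (Tower.acyc a b c : Perm C) b = c := by
    rw [Tower.coe_acyc hab hac hbc, Tower.cyc_apply_snd]
  have σc : (Tower.acyc a b c : Perm C) c = a := by
    rw [Tower.coe_acyc hab hac hbc, Tower.cyc_apply_trd hac hbc]
  have hrot : ∀ {y z : X} {u v : C}, R.toHom (e.hom (Tower.acyc a b c)) (y, u) = (z, v) →
      R.toHom (e.hom (Tower.acyc a b c)) (y, (Tower.acyc a b c : Perm C) u) =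
        (z, (Tower.acyc a b c : Perm C) v) := by
    intro y z u v h
    have := R.hom_conj_apply e (Tower.acyc a b c) (Tower.acyc a b c) h
    rwa [mul_inv_cancel_right] at this
  apply Equiv.ext
  rintro ⟨x, d⟩
  by_cases hx : R.toHom (e.hom (Tower.acyc a b c)) (x, a) = (x, b)
  · rw [ev_apply_mem (show x ∈ {x | R.toHom (e.hom (Tower.acyc a b c)) (x, a) = (x, b)} from hx)]
    by_cases hd : d ∈ ({a, b, c} : Finset C)
    · simp only [Finset.mem_insert, Finset.mem_singleton] at hd
      have h1 := hrot hx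
      have h2 := hrot h1
      rw [σa, σb] at h1
      rw [σa, σb, σc] at h2
      rcases hd with rfl | rfl | rfl
      · rw [hx, Tower.cyc_apply_fst hab hbc]
      · rw [h1, Tower.cyc_apply_snd]
      · rw [h2, Tower.cyc_apply_trd hac hbc]
    · rw [hoff x d hd]
      simp only [Finset.mem_insert, Finset.mem_singleton, not_or] at hd
      rw [Tower.cyc_apply_of_ne hd.1 hd.2.1 hd.2.2]
  · rw [ev_apply_notMem (show x ∉ {x | R.toHom (e.hom (Tower.acyc a b c)) (x, a) = (x, b)} from hx)]
    have h0 : R.toHom (e.hom (Tower.acyc a b c)) (x, a) = (x, a) := by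
      rcases R.hom_cyc_apply e hab hac hbc x with h | h | h
      · exact h
      · exact absurd h hx
      · exact absurd h (R.hom_cyc_apply_ne e hab hac hbc x)
    by_cases hd : d ∈ ({a, b, c} : Finset C)
    · simp only [Finset.mem_insert, Finset.mem_singleton] at hd
      have h1 := hrot h0
      have h2 := hrot h1
      rw [σa] at h1
      rw [σa, σb] at h2
      rcases hd with rfl | rfl | rfl
      · exact h0
      · exact h1
      · exact h2
    · exact hoff x d hd

theorem mem_set_iff_aux (e : Ev S) {a b c a' b' c' : C} (hab : a ≠ b) (hac : a ≠ c) (hbc : b ≠ c)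
    (hab' : a' ≠ b') (hac' : a' ≠ c') (hbc' : b' ≠ c') (x : X)
    (h : R.toHom (e.hom (Tower.acyc a b c)) (x, a) = (x, b)) :
    R.toHom (e.hom (Tower.acyc a' b' c')) (x, a') = (x, b') := by
  have hC := S.card_C
  obtain ⟨t, ta, tb, tc⟩ := exists_even_triple (by omega) hab hac hbc hab' hac' hbc'
  have := R.hom_triple_apply e hab hac hbc t h
  rwa [ta, tb, tc] at this

/-- **every event of a coloured group is concrete** -/
theorem exists_set (e : Ev S) : ∃ E : Set X, Sem R e E := by
  have hC := S.card_C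
  obtain ⟨a, b, c, hab, hac, hbc⟩ := Fintype.two_lt_card_iff.1 (show 2 < Fintype.card C by omega)
  refine ⟨{x | R.toHom (e.hom (Tower.acyc a b c)) (x, a) = (x, b)}, ?_⟩
  intro s
  induction s using alt_induction with
  | h3 s hs =>
    obtain ⟨a', b', c', hab', hac', hbc', hs'⟩ := Tower.exists_cyc hs
    have : s = Tower.acyc a' b' c' := Subtype.ext (by rw [hs', Tower.coe_acyc hab' hac' hbc'])
    rw [hs', this, R.hom_cyc_eq e hab' hac' hbc']
    congr 2
    ext x
    exact ⟨R.mem_set_iff_aux e hab' hac' hbc' hab hac hbc x,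
      R.mem_set_iff_aux e hab hac hbc hab' hac' hbc' x⟩
  | h1 => simp
  | hmul s t hs ht => rw [map_mul, map_mul, hs, ht, Subgroup.coe_mul, map_mul]
  | hinv s hs => rw [map_inv, map_inv, hs, Subgroup.coe_inv, map_inv]

theorem set_eq_of_sem {e : Ev S} {E : Set X} (h : Sem R e E) : R.set e = E := by
  have hC := S.card_C
  obtain ⟨a, b, c, hab, hac, hbc⟩ := Fintype.two_lt_card_iff.1 (show 2 < Fintype.card C by omega)
  ext x
  constructor
  · rintro ⟨s, d, hs⟩
    by_contra hx
    rw [h s, ev_apply_notMem hx] at hs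
    exact hs rfl
  · intro hx
    refine ⟨Tower.acyc a b c, a, ?_⟩
    rw [h, ev_apply_mem hx, Tower.coe_acyc hab hac hbc, Tower.cyc_apply_fst hab hbc]
    exact fun h' => hab (Prod.ext_iff.1 h').2.symm

/-- **semantics of an arbitrary event** -/
theorem sem_set (e : Ev S) : Sem R e (R.set e) := by
  obtain ⟨E, hE⟩ := R.exists_set e
  rwa [R.set_eq_of_sem hE]

theorem hom_eq (e : Ev S) (s : alternatingGroup C) :
    R.toHom (e.hom s) = ev (R.set e) (s : Perm C) := R.sem_set e s



theorem set_zero : R.set (Ev.zero S) = ∅ :=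
  R.set_eq_of_sem fun s => by
    rw [ev_empty]
    exact map_one R.toHom

theorem set_compl (e : Ev S) : R.set (Ev.compl e) = (R.set e)ᶜ :=
  R.set_eq_of_sem fun s => by
    rw [Ev.compl_hom, map_mul, map_inv, R.one, R.hom_eq, ev_compl]

theorem sem_of_threeCycle {e : Ev S} {E : Set X}
    (h : ∀ s : alternatingGroup C, (s : Perm C).IsThreeCycle →
      R.toHom (e.hom s) = ev E (s : Perm C)) : Sem R e E := by
  intro s
  induction s using alt_induction with
  | h3 s hs => exact h s hs
  | h1 => simp
  | hmul s t hs ht => rw [map_mul, map_mul, hs, ht, Subgroup.coe_mul, map_mul]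
  | hinv s hs => rw [map_inv, map_inv, hs, Subgroup.coe_inv, map_inv]

theorem disjoint_set {e f : Ev S} (h : Ev.Orth e f) : Disjoint (R.set e) (R.set f) := by
  have hC := S.card_C
  obtain ⟨a, b, c, hab, hac, hbc⟩ := Fintype.two_lt_card_iff.1 (show 2 < Fintype.card C by omega)
  obtain ⟨d, hd⟩ : ∃ d, d ∉ ({a, b, c} : Finset C) := by
    by_contra hne
    push Not at hne
    have h1 : ({a, b, c} : Finset C) = Finset.univ := Finset.eq_univ_iff_forall.2 hne
    have h2 : ({a, b, c} : Finset C).card ≤ 3 := Finset.card_le_three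
    rw [h1, Finset.card_univ] at h2
    omega
  simp only [Finset.mem_insert, Finset.mem_singleton, not_or] at hd
  obtain ⟨hda, hdb, hdc⟩ := hd
  rw [Set.disjoint_left]
  intro x hx hy
  have h1 := congrArg (fun t => R.toHom t (x, a)) (h (Tower.acyc a b c) (Tower.acyc a b d))
  simp only [map_mul, R.hom_eq, Perm.mul_apply, ev_apply_mem hx, ev_apply_mem hy,
    Tower.coe_acyc hab hac hbc, Tower.coe_acyc hab (Ne.symm hda) (Ne.symm hdb),
    Tower.cyc_apply_fst hab hbc, Tower.cyc_apply_fst hab (Ne.symm hdb), Tower.cyc_apply_snd] at h1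
  exact hdc (Prod.ext_iff.1 h1).2.symm

theorem set_mono {e f : Ev S} (h : e ≤ f) : R.set e ⊆ R.set f := by
  have h1 : Ev.Orth e (Ev.compl f) := by
    rw [Ev.orth_iff_le_compl, Ev.compl_compl']; exact h
  have h2 := R.disjoint_set h1
  rw [set_compl] at h2
  exact Set.disjoint_compl_right_iff_subset.1 h2

theorem set_add {e f : Ev S} (h : Ev.Orth e f) : R.set (Ev.add e f h) = R.set e ∪ R.set f :=
  R.set_eq_of_sem fun s => by
    rw [Ev.add_hom, map_mul, R.hom_eq, R.hom_eq, ev_union (R.disjoint_set h)]

/-- sets of translates -/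
theorem set_isTrans {v : V} {e e' : Ev S} (h : Ev.IsTrans v e e') :
    R.set e' = {x | -v +ᵥ x ∈ R.set e} := by
  have hC := S.card_C
  refine R.set_eq_of_sem (R.sem_of_threeCycle fun s hs => ?_)
  obtain ⟨l, hl, hls⟩ := Tower.exists_lam (s : Perm C).support (fun h => by
    have := hs.card_support
    rw [h, Finset.card_univ] at this
    omega) (fun _ => v)
  rw [h s l hl hls, map_mul, map_mul, map_inv, R.H l hl, R.hom_eq]
  exact H_conj_ev l v _ _ fun c hc => hls c (Perm.mem_support.2 hc)

theorem set_smul (v : Multiplicative V) (e : Ev S) : R.set (v • e) = v • R.set e :=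
  R.set_isTrans (Ev.isTrans_trans v.toAdd e)

/-- **the morphism `Ev S → Set X`** -/
noncomputable def ompHom : Romp.OMPHom (Ev S) (Set X) where
  toFun := R.set
  mono' h := R.set_mono h
  map_cpl' e := R.set_compl e
  map_bot' := R.set_zero
  map_add' h := by
    rw [Ev.romp_add (Ev.romp_orth.1 h), Romp.set_add]
    exact R.set_add _

@[simp] theorem ompHom_apply (e : Ev S) : R.ompHom e = R.set e := rfl

theorem ompHom_equiv : Romp.OMPHom.Equiv (Multiplicative V) R.ompHom := fun v e => R.set_smul v e

end Rep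

end Crest.Agent.R189
end

-- ▼ part R189/Glue

/-!
# Row 189: concrete representations of the models of `T` (helper516)

`Conc m letter φ` : the homomorphism `φ : G →* Perm (X × C)` has the concrete values on the
generators of the model `m : TModel M C G`.  Then `Conc.rep : Rep (m.colGrp hC) X` and
`R.set (letterEv x) = {y | letter y = x}`.

* `qT letter M hM : TGrp M C →* Perm (X × C)`  and  `qTbar : TGrp M C ⧸ center →* Perm (X × C)`.
-/

set_option autoImplicit false

namespace Crest.Agent.R189

open Equiv Equiv.Perm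
open scoped IsMulCommutative

theorem sum_dl_self {C : Type} [Fintype C] [DecidableEq C] {lam : C → ℤ × ℤ}
    (hlam : ∑ c, lam c = 0) (c0 : C) : ∑ c, dl (lam c) c c0 = lam := by
  unfold dl
  rw [Finset.sum_sub_distrib, Finset.univ_sum_single]
  have : ∑ c, (Pi.single c0 (lam c) : C → ℤ × ℤ) = Pi.single c0 (∑ c, lam c) := by
    ext a <;> rw [Finset.sum_apply, Pi.single_apply] <;> by_cases ha : a = c0
    · subst ha; simp
    · simp [ha]
    · subst ha; simp
    · simp [ha]
  rw [this, hlam, Pi.single_zero, sub_zero]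

section

variable {X A C : Type} [AddAction (ℤ × ℤ) X] [Fintype C] [DecidableEq C] [Fintype A]
variable {M : MatchData A} {G : Type} [Group G]

/-- `φ` has the concrete values on the generators of the model `m` -/
structure Conc (m : TModel M C G) (letter : X → A) (φ : G →* Perm (X × C)) : Prop where
  one : ∀ s : alternatingGroup C, φ (m.one s) = ev Set.univ (s : Perm C)
  h : ∀ i a b, φ (m.h i a b) = H (dl (uv i) a b)
  e : ∀ x (s : alternatingGroup C), φ (m.e x s) = ev {y | letter y = x} (s : Perm C)

namespace Conc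

variable {m : TModel M C G} {letter : X → A} {φ : G →* Perm (X × C)}

theorem hpow_eq (hφ : Conc m letter φ) (v : ℤ × ℤ) (a b : C) :
    φ (hpow m.h v a b) = H (dl v a b) := by
  rw [map_hpow]
  simp only [hpow, hφ.h]
  conv_rhs => rw [← uv_decomp v, dl_add, dl_zsmul, dl_zsmul, H_add, H_zsmul, H_zsmul]

theorem HK_eq (hφ : Conc m letter φ) (c0 : C) {l : C → ℤ × ℤ} (hl : ∑ c, l c = 0) :
    φ (m.HK c0 l : G) = H l := by
  have key : ∀ S : Finset C, φ ((∏ c ∈ S, m.pK c c0 (Multiplicative.ofAdd (l c)) : m.K) : G) =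
      H (∑ c ∈ S, dl (l c) c c0) := by
    intro S
    induction S using Finset.induction_on with
    | empty => simp
    | insert a S ha ih =>
      rw [Finset.prod_insert ha, Finset.sum_insert ha, H_add, Subgroup.coe_mul, map_mul, ih,
        m.pK_coe, hφ.hpow_eq]
  have h1 := key Finset.univ
  rwa [sum_dl_self hl] at h1

/-- **the concrete representation of a model** -/
noncomputable def rep (hC : 30 ≤ Fintype.card C) (hφ : Conc m letter φ) :
    Rep (m.colGrp hC) X where
  toHom := φ
  one := hφ.one
  H l hl := hφ.HK_eq _ hl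
  sub B t ht x c hc := by
    change t ∈ m.sub B at ht
    unfold TModel.sub at ht
    induction ht using Subgroup.closure_induction with
    | mem t ht =>
      rcases ht with (⟨s, hs, rfl⟩ | ⟨i, a, b, ha, hb, rfl⟩) | ⟨y, s, hs, rfl⟩
      · rw [hφ.one, ev_univ_apply]
        have : c ∉ (s : Perm C).support := fun h => hc (hs h)
        rw [Perm.notMem_support.1 this]
      · rw [hφ.h, H_apply]
        have h1 : c ≠ a := fun h => hc (h ▸ ha)
        have h2 : c ≠ b := fun h => hc (h ▸ hb)
        simp [dl, h1, h2]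
      · rw [hφ.e]
        have : c ∉ (s : Perm C).support := fun h => hc (hs h)
        by_cases hy : x ∈ {z | letter z = y}
        · rw [ev_apply_mem hy, Perm.notMem_support.1 this]
        · rw [ev_apply_notMem hy]
    | one => rw [map_one, Perm.one_apply]
    | mul a b _ _ ha hb => rw [map_mul, Perm.mul_apply, hb, ha]
    | inv a _ ha => rw [map_inv, Perm.inv_eq_iff_eq]; exact ha.symm

@[simp] theorem rep_toHom (hC : 30 ≤ Fintype.card C) (hφ : Conc m letter φ) :
    (hφ.rep hC).toHom = φ := rfl

theorem set_letterEv (hC : 30 ≤ Fintype.card C) (hφ : Conc m letter φ) (x : A) :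
    (hφ.rep hC).set (m.letterEv hC x) = {y | letter y = x} :=
  (hφ.rep hC).set_eq_of_sem fun s => hφ.e x s

theorem setHom_eq (hφ : Conc m letter φ) (E : Finset A) (s : alternatingGroup C) :
    φ (m.setHom E s) = ev {y | letter y ∈ E} (s : Perm C) := by
  show φ (lprod E (fun x => m.e x s)) = _
  rw [map_lprod]
  simp only [hφ.e]
  unfold lprod
  rw [ev_list_prod letter _ _ E.nodup_toList]
  simp

theorem set_setEv (hC : 30 ≤ Fintype.card C) (hφ : Conc m letter φ) (E : Finset A) :
    (hφ.rep hC).set (m.setEv hC E) = {y | letter y ∈ E} :=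
  (hφ.rep hC).set_eq_of_sem fun s => hφ.setHom_eq E s





/-- transport along a surjection -/
theorem map {G' : Type} [Group G'] {ψ : G →* G'} (hψ : Function.Surjective ψ)
    {φ' : G' →* Perm (X × C)} (hφ : Conc m letter (φ'.comp ψ)) : Conc (m.map ψ hψ) letter φ' where
  one := hφ.one
  h := hφ.h
  e := hφ.e

end Conc

/-! ### the group `T` and `T / Z(T)` -/

section T

variable [Nonempty C] (letter : X → A) (M : MatchData A)
  (hM : ∀ (k : M.ι) (x : X), letter (-(M.vec k) +ᵥ x) ∈ M.src k ↔ letter x ∈ M.dst k)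

/-- `T → Perm (X × C)` -/
noncomputable def qT : TGrp M C →* Perm (X × C) :=
  (Gp (ℤ × ℤ) letter C).subtype.comp (gpModel letter M hM).lift

theorem qT_apply (t : TGrp M C) :
    qT (C := C) letter M hM t = ((gpModel letter M hM).lift t : Perm (X × C)) := rfl


theorem ker_qT : (qT (C := C) letter M hM).ker = (gpModel (C := C) letter M hM).lift.ker := by
  ext t
  rw [MonoidHom.mem_ker, MonoidHom.mem_ker, qT_apply]
  exact ⟨fun h => Subtype.ext h, fun h => by rw [h]; rfl⟩

theorem conc_qT : Conc (tModel M C) letter (qT (C := C) letter M hM) where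
  one s := by rw [qT_apply, TModel.lift_one]; rfl
  h i a b := by rw [qT_apply, TModel.lift_h]; rfl
  e x s := by rw [qT_apply, TModel.lift_e]; rfl

variable (hZ : Subgroup.center (Gp (ℤ × ℤ) letter C) = ⊥)
include hZ

theorem center_le_ker_qT :
    Subgroup.center (TGrp M C) ≤ (qT (C := C) letter M hM).ker := by
  rw [ker_qT]
  exact center_le_ker _ (gpModel letter M hM).lift_surjective hZ

/-- `T / Z(T) → Perm (X × C)` -/
noncomputable def qTbar : TGrp M C ⧸ Subgroup.center (TGrp M C) →* Perm (X × C) :=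
  QuotientGroup.lift _ (qT (C := C) letter M hM) (center_le_ker_qT letter M hM hZ)

theorem qTbar_mk (t : TGrp M C) :
    qTbar letter M hM hZ (QuotientGroup.mk' _ t) = qT (C := C) letter M hM t := rfl


theorem conc_qTbar :
    Conc (tModel M C).modCenter letter (qTbar (C := C) letter M hM hZ) :=
  Conc.map (QuotientGroup.mk'_surjective _) (conc_qT letter M hM)

/-- if `T / Z(T)` acts faithfully then `ker (T → Gp) = Z(T)` -/
theorem ker_qT_eq_center (h : Function.Injective (qTbar (C := C) letter M hM hZ)) :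
    (qT (C := C) letter M hM).ker = Subgroup.center (TGrp M C) := by
  apply le_antisymm _ (center_le_ker_qT letter M hM hZ)
  intro t ht
  rw [MonoidHom.mem_ker, ← qTbar_mk letter M hM hZ] at ht
  have h1 : QuotientGroup.mk' (Subgroup.center (TGrp M C)) t = 1 :=
    h (ht.trans (map_one _).symm)
  exact (QuotientGroup.eq_one_iff t).1 h1


end T

end

end Crest.Agent.R189
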