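import Crest.Agent.R189.Star

/-!
Row 189, E2 steps 1-5: the finite star facts used there (helper535).
Everything is read off `coreList` by `decide`.
-/

set_option autoImplicit false

namespace Crest.Agent.R189

namespace Star

theorem rule_of_not_domP' {s : Star} (h : s.domP = false) : Rule s.Qb s.Qf s.Pb s.Pf := by
  have hs := s.2
  unfold RStar.OK at hs
  rw [if_neg (by rw [show s.1.domP = false from h]; simp)] at hs
  exact hs

/-- rule for a star with `P` dominating -/
theorem rule_of_domP' {s : Star} (h : s.domP = true) : Rule s.Pb s.Pf s.Qb s.Qf := by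
  have hs := s.2
  unfold RStar.OK at hs
  rw [if_pos (show s.1.domP = true from h)] at hs
  exact hs

theorem Pf_tau' (s : Star) : s.Pf.tau = s.Pb.tau := by
  rcases Bool.eq_false_or_eq_true s.domP with h | h
  · exact (rule_of_domP' h).1.symm
  · exact (rule_of_not_domP' h).2.2.2.1.symm


theorem core_of_domP' {s : Star} (h : s.domP = true) :
    (⟨s.Pb.tau, s.Pb.u, s.Pf.u, s.Qb.tau, s.Qb.st, s.Qf.st⟩ : Core) ∈ coreList := by
  obtain ⟨-, -, -, -, -, -, h7⟩ := rule_of_domP' h
  first | exact h7 | exact h7.1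


/-- every fact about cores that holds on `coreList` -/
theorem of_core {P : Core → Prop} (hP : ∀ x ∈ coreList, P x) {s : Star} (h : s.domP = true) :
    P ⟨s.Pb.tau, s.Pb.u, s.Pf.u, s.Qb.tau, s.Qb.st, s.Qf.st⟩ := hP _ (core_of_domP' h)

set_option maxRecDepth 20000 in
theorem core_blank : ∀ x ∈ coreList, x.ts.active = false → x.u' = x.u := by decide +kernel

theorem Pf_eq_Pb_of_blank' {s : Star} (h : s.domP = true) (hb : s.Qb.tau.active = false) :
    s.Pf = s.Pb := by
  have h1 := rule_of_domP' h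
  have h2 := of_core core_blank h hb
  have e1 : s.Pf.tau = s.Pb.tau := h1.1.symm
  have e2 : s.Pf.st = s.Pb.st := h1.2.1.symm
  have e3 : s.Pf.u = s.Pb.u := h2
  cases hx : s.Pf; cases hy : s.Pb
  simp_all

/-- facts on crossings with an active dominated line -/
def CoreFact (x : Core) : Prop :=
  x.ts.active = true →
    ((x.b.map Prod.fst = some .l ↔ x.b'.map Prod.fst = some .f) ∧
    (x.b'.map Prod.fst = some .l → x.t = .t2l) ∧
    (x.b.map Prod.fst = some .f → x.t = .f0) ∧
    (x.t = .t2l → x.b'.map Prod.fst ≠ some .l → x.b'.map Prod.fst = some .f) ∧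
    (x.b.map Prod.fst = some .f → x.b'.map Prod.fst = some .s0) ∧
    (x.b.map Prod.fst = some .s0 → x.t ≠ .f0) ∧
    (x.b.map Prod.fst ≠ some .l → x.b.map Prod.fst = some x.t.fst ∧
      x.b'.map Prod.fst = some x.t.snd))

instance : DecidablePred CoreFact := fun x => by unfold CoreFact; infer_instance

theorem coreFact : ∀ x ∈ coreList, CoreFact x := by decide +kernel

/-- all facts needed on a star with `P` dominating and `Q` active -/
structure ActFacts (s : Star) : Prop where
  r_iff : s.Qb.s = some .l ↔ s.Qf.s = some .f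
  f3 : s.Qf.s = some .l → s.Pb.tau = .t2l
  f4 : s.Qb.s = some .f → s.Pb.tau = .f0
  f5 : s.Pb.tau = .t2l → s.Qf.s ≠ some .l → s.Qf.s = some .f
  f6 : s.Qb.s = some .f → s.Qf.s = some .s0
  f7 : s.Qb.s = some .s0 → s.Pb.tau ≠ .f0
  f8 : s.Qb.s ≠ some .l → s.Qb.s = some s.Pb.tau.fst ∧ s.Qf.s = some s.Pb.tau.snd

theorem actFacts {s : Star} (h : s.domP = true) (hb : s.Qb.tau.active = true) : ActFacts s := by
  have := of_core coreFact h hb
  obtain ⟨h1, h2, h3, h4, h5, h6, h7⟩ := this
  exact ⟨h1, h2, h3, h4, h5, h6, h7⟩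

end Star

/-- `tauOf a i` is active iff `a ≤ i ≤ 2a` -/
theorem tauOf_active' {a i : ℕ} (ha : 3 ≤ a) (h1 : a ≤ i) (h2 : i ≤ 2 * a) :
    (tauOf a i).active = true := by
  unfold tauOf
  split_ifs <;> first | omega | rfl

theorem tauOf_blank' {a i : ℕ} (ha : 3 ≤ a) (hi : ¬ (a ≤ i ∧ i ≤ 2 * a)) :
    (tauOf a i).active = false := by
  unfold tauOf
  split_ifs <;> first | omega | rfl

end Crest.Agent.R189
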