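import Crest.Agent.R189.StarCore

/-!
Row 189, module M1 (task 1383), part 3: finite facts about `Star` used in the renormalisation
theorem (note 7931, E2 steps 1-9).
-/

set_option autoImplicit false

namespace Crest.Agent.R189

namespace Star

theorem rule_P (σ : Star) (h : σ.domP = true) : Rule σ.Pb σ.Pf σ.Qb σ.Qf := by
  have h' : σ.1.domP = true := h
  have := σ.2
  simp only [RStar.OK, h', if_true] at this
  exact this

theorem rule_Q (σ : Star) (h : σ.domP = false) : Rule σ.Qb σ.Qf σ.Pb σ.Pf := by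
  have h' : σ.1.domP = false := h
  have := σ.2
  simp only [RStar.OK, h', Bool.false_eq_true, if_false] at this
  exact this

/-! ### step 1: types are preserved -/

theorem tau_P (σ : Star) : σ.Pb.tau = σ.Pf.tau := by
  cases h : σ.domP
  · exact (σ.rule_Q h).2.2.2.1
  · exact (σ.rule_P h).1

theorem tau_Q (σ : Star) : σ.Qb.tau = σ.Qf.tau := by
  simpa using σ.flip.tau_P

/-! ### step 5: the state of the dominating line is preserved -/

theorem st_P (σ : Star) (h : σ.domP = true) : σ.Pb.st = σ.Pf.st := (σ.rule_P h).2.1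
theorem st_Q (σ : Star) (h : σ.domP = false) : σ.Qb.st = σ.Qf.st := (σ.rule_Q h).2.1

/-- memory of the dominated line: `B` before, `A` after -/
theorem Qb_u (σ : Star) (h : σ.domP = true) : σ.Qb.u = .B := (σ.rule_P h).2.2.2.2.1
theorem Qf_u (σ : Star) (h : σ.domP = true) : σ.Qf.u = .A := (σ.rule_P h).2.2.2.2.2.1

theorem core_mem (σ : Star) (h : σ.domP = true) :
    (⟨σ.Pb.tau, σ.Pb.u, σ.Pf.u, σ.Qb.tau, σ.Qb.st, σ.Qf.st⟩ : Core) ∈ coreList :=
  (σ.rule_P h).2.2.2.2.2.2


/-! ### validity -/

theorem valid_dom {D D' L L' : Label} (h : Rule D D' L L') :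
    D.Valid = true ∧ D'.Valid = true ∧ L.Valid = true ∧ L'.Valid = true := by
  obtain ⟨h1, h2, ⟨h3, -⟩, h4, h5, h6, h7⟩ := h
  have h8 := Core.valid _ h7
  simp only at h8
  obtain ⟨h8, h9, h10, h11⟩ := h8
  refine ⟨?_, ?_, ?_, ?_⟩
  · simp [Label.Valid, h3, h10]
  · simp [Label.Valid, ← h1, ← h2, h3, h11]
  · simp [Label.Valid, h8, h5, validU]
  · simp [Label.Valid, ← h4, h9, h6, validU]

theorem Pb_valid (σ : Star) : σ.Pb.Valid = true := by
  cases h : σ.domP
  · exact (valid_dom (σ.rule_Q h)).2.2.1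
  · exact (valid_dom (σ.rule_P h)).1
theorem Pf_valid (σ : Star) : σ.Pf.Valid = true := by
  cases h : σ.domP
  · exact (valid_dom (σ.rule_Q h)).2.2.2
  · exact (valid_dom (σ.rule_P h)).2.1
theorem Qb_valid (σ : Star) : σ.Qb.Valid = true := σ.flip.Pb_valid
theorem Qf_valid (σ : Star) : σ.Qf.Valid = true := σ.flip.Pf_valid

/-! ### blank dominated line -/

theorem st_none {L : Label} (h : L.Valid = true) (ha : L.tau.active = false) : L.st = none := by
  obtain ⟨t, st, u⟩ := L
  simp only at ha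
  rcases st with _ | ⟨s, r⟩
  · rfl
  · cases t <;> simp [Tau.active, Tau.cls] at ha <;>
      simp [Label.Valid, validSt, Tau.cls] at h





/-! ### active dominated line -/



/-! ### steps 2-4: the stage component -/

section act
variable (σ : Star) (h : σ.domP = true) (ha : σ.Qb.tau.active = true)
include h ha











/-! ### step 6, 7 -/






















end act



/-! ### step 9: a star is determined by `domP, Pb, Pf, Qb` -/

theorem eq_of_Qb (σ τ : Star) (h0 : σ.domP = τ.domP) (h1 : σ.Pb = τ.Pb) (h2 : σ.Pf = τ.Pf)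
    (h3 : σ.Qb = τ.Qb) : σ = τ := by
  have htau : σ.Qf.tau = τ.Qf.tau := by rw [← σ.tau_Q, ← τ.tau_Q, h3]
  cases h : σ.domP
  · have h' : τ.domP = false := by rw [← h0]; exact h
    have hst : σ.Qf.st = τ.Qf.st := by rw [← σ.st_Q h, ← τ.st_Q h', h3]
    have m1 := σ.flip.core_mem (by simp [h])
    have m2 := τ.flip.core_mem (by simp [h'])
    simp only [flip_Pb, flip_Pf, flip_Qb, flip_Qf] at m1 m2
    have hu := Core.det_u' _ m1 _ m2
    simp only [Core.DetU] at hu
    have hu' := hu ⟨by rw [h3], by rw [h3], by rw [h1], by rw [h1], by rw [h2]⟩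
    refine Star.ext h0 h1 h2 h3 ?_
    cases hb : σ.Qf
    cases hf : τ.Qf
    simp [hb, hf] at htau hst hu'
    simp [htau, hst, hu']
  · have h' : τ.domP = true := by rw [← h0]; exact h
    have hu' : σ.Qf.u = τ.Qf.u := by rw [σ.Qf_u h, τ.Qf_u h']
    have m1 := σ.core_mem h
    have m2 := τ.core_mem h'
    have hst : σ.Qf.st = τ.Qf.st :=
      Core.det_b' _ m1 _ m2 (by simp [h1]) (by simp [h1]) (by simp [h2]) (by simp [h3]) (by simp [h3])
    refine Star.ext h0 h1 h2 h3 ?_
    cases hb : σ.Qf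
    cases hf : τ.Qf
    simp [hb, hf] at htau hst hu'
    simp [htau, hst, hu']

end Star

end Crest.Agent.R189
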