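import Crest.Agent.R189.RN5
import Crest.Agent.R189.RN1Star
import Crest.Agent.R189.RNDefs
import Crest.Agent.R189.RN2
import Crest.Agent.R189.StarFacts
import Crest.Agent.R189.RNX

-- ▼ part R189/RN1
section

/-!
Row 189, THEOREM RN, steps 1-5 (helper535).

For `h : LS D p q a c St` and an active row `i` (`a ≤ i ≤ 2a`):
* `h.m = modeEv q (c 0) St`, `h.iota = c 0 - m`, `h.T Θ = c 0 ∧ [P.tau ∈ Θ]`
* `h.sp σ`, `h.sm σ` : the events `s⁺(σ)`, `s⁻(σ)` (independent of `i`)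
* `h.m_eq_row_f : m = Row i {Qf.s = f}`, `h.m_eq_row_l : m = Row i {Qb.s = l}`
* `h.row_Qf_s : Row i {Qf.s = σ} = sp σ`, `h.row_Qb_s : Row i {Qb.s = σ} = sm σ`, `h.q_sp : q • sp σ = sm σ`
* `h.comm_m_row`, `h.comm_m_Lab`, `h.comm_m_Pb`, `h.pow_m`
* `h.Lab_blank`, `h.Lab_low`, `h.Lab_high`, `h.Lab_st`
-/

set_option autoImplicit false

namespace Crest.Agent.R189

open Romp

variable {G E : Type*} [CommGroup G] [ROMP E] [OMPAct G E]
variable {D : E} {p q : G} {a : ℕ} {c : ℕ → E} {St : Star → E}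

namespace LS

/-! ### definitions -/

/-- `T Θ = c 0 ∧ [P.tau ∈ Θ]` -/
noncomputable def T (_h : LS D p q a c St) (Θ : Set Tau) : E := Row p c St 0 {s | s.Pf.tau ∈ Θ}

/-- the mode event -/
noncomputable def m (_h : LS D p q a c St) : E := modeEv q (c 0) St

/-- `iota = c 0 - m` -/
noncomputable def iota (_h : LS D p q a c St) : E := c 0 -ₒ modeEv q (c 0) St

open Classical in
/-- `s⁺(σ)` -/
noncomputable def sp (h : LS D p q a c St) (σ : S) : E :=
  if σ = .f then h.m else h.iota ⊓ₒ h.T {t | t.snd = σ}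

open Classical in
/-- `s⁻(σ)` -/
noncomputable def sm (h : LS D p q a c St) (σ : S) : E :=
  if σ = .l then h.m else h.iota ⊓ₒ h.T {t | t.fst = σ}

/-! ### active rows -/

theorem act_lt (h : LS D p q a c St) {i : ℕ} (h1 : a ≤ i) (h2 : i ≤ 2 * a) :
    0 < i ∧ i < 3 * a := by
  have := h.three_le
  omega

theorem row_le_act (h : LS D p q a c St) {i : ℕ} (h1 : a ≤ i) (h2 : i ≤ 2 * a) {A B : Set Star}
    (hAB : ∀ s ∈ A, s.domP = true → s.Qb.tau = tauOf a i → s.ActFacts → s ∈ B) :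
    Row p c St i A ≤ Row p c St i B := by
  obtain ⟨h0, hj⟩ := h.act_lt h1 h2
  refine h.Row_le_Row h0 hj fun s hs hd ht => hAB s hs hd ht ?_
  exact Star.actFacts hd (by rw [ht]; exact tauOf_active' h.three_le h1 h2)

theorem row_eq_act (h : LS D p q a c St) {i : ℕ} (h1 : a ≤ i) (h2 : i ≤ 2 * a) {A B : Set Star}
    (hAB : ∀ s : Star, s.domP = true → s.Qb.tau = tauOf a i → s.ActFacts → (s ∈ A ↔ s ∈ B)) :
    Row p c St i A = Row p c St i B := by
  obtain ⟨h0, hj⟩ := h.act_lt h1 h2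
  refine h.Row_eq_Row h0 hj fun s hd ht => hAB s hd ht ?_
  exact Star.actFacts hd (by rw [ht]; exact tauOf_active' h.three_le h1 h2)

/-- (L8) for sets of `s`-values -/
theorem q_row_Qf_s (h : LS D p q a c St) {i : ℕ} (h0 : 0 < i) (h2 : i < 3 * a)
    (Θ : Set (Option S)) :
    q • Row p c St i {s | s.Qf.s ∈ Θ} = Row p c St i {s | s.Qb.s ∈ Θ} :=
  h.q_Row h0 h2 {st | st.map Prod.fst ∈ Θ}


theorem T_eq_row (h : LS D p q a c St) (i : ℕ) (Θ : Set Tau) :
    h.T Θ = Row p c St i {s | s.Pf.tau ∈ Θ} := (h.Row_tau i Θ).symm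


theorem m_def (h : LS D p q a c St) : h.m = (q • h.T {.t2l}) ⊓ₒ (q⁻¹ • h.T {.f0}) := by
  simp [m, T, modeEv, Row]

/-- the decomposition of `A_0` (step 3) -/
theorem step3 (h : LS D p q a c St) {i : ℕ} (h1 : a ≤ i) (h2 : i ≤ 2 * a) :
    ∃ X : E, Orth (Row p c St i {s | s.Qf.s = some .f}) X ∧
      q • h.T {.t2l} = Row p c St i {s | s.Qf.s = some .f} +ₒ X ∧
      Row p c St i {s | s.Qf.s = some .f} ≤ q⁻¹ • h.T {.f0} ∧ Orth X (q⁻¹ • h.T {.f0}) ∧
      X ≤ q • Row p c St i {s | s.Qf.s = some .f} := by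
  obtain ⟨h0, hj⟩ := h.act_lt h1 h2
  have hM : Row p c St i {s | s.Qb.s = some .l} = Row p c St i {s | s.Qf.s = some .f} :=
    h.row_eq_act h1 h2 fun s _ _ hs => hs.r_iff
  have hqf : ∀ σ : S, q • Row p c St i {s | s.Qf.s = some σ} = Row p c St i {s | s.Qb.s = some σ} :=
    fun σ => h.q_row_Qf_s h0 hj {some σ}
  have hdis : Disjoint {s : Star | s.Qf.s = some .l} {s : Star | s.Pf.tau = .t2l ∧ s.Qf.s ≠ some .l} := by
    rw [Set.disjoint_left]
    intro s hs hs'
    exact hs'.2 hs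
  refine ⟨q • Row p c St i {s | s.Pf.tau = .t2l ∧ s.Qf.s ≠ some .l}, ?_, ?_, ?_, ?_, ?_⟩
  · rw [← hM, ← hqf, smul_orth_iff]
    exact h.Row_orth i hdis
  · rw [← hM, ← hqf, ← Romp.smul_add, h.Row_add i hdis, h.T_eq_row i]
    congr 1
    refine h.row_eq_act h1 h2 fun s _ _ hs => ?_
    simp only [Set.mem_ofPred_eq, Set.mem_singleton_iff, Set.mem_union]
    constructor
    · intro ht
      by_cases hl : s.Qf.s = some .l
      · exact Or.inl hl
      · exact Or.inr ⟨ht, hl⟩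
    · rintro (hl | ⟨ht, -⟩)
      · rw [Star.Pf_tau']; exact hs.f3 hl
      · exact ht
  · rw [← smul_le_smul_iff q, smul_inv_smul, hqf, h.T_eq_row i]
    refine h.row_le_act h1 h2 fun s hs _ _ hf => ?_
    simp only [Set.mem_ofPred_eq, Set.mem_singleton_iff] at hs ⊢
    rw [Star.Pf_tau']; exact hf.f4 hs
  · have e1 : q • Row p c St i {s | s.Pf.tau = .t2l ∧ s.Qf.s ≠ some .l} ≤
        q • Row p c St i {s | s.Qf.s = some .f} := by
      rw [smul_le_smul_iff]
      refine h.row_le_act h1 h2 fun s hs _ _ hf => ?_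
      exact hf.f5 (by rw [← Star.Pf_tau']; exact hs.1) hs.2
    have e2 : q • Row p c St i {s | s.Qf.s = some .f} ≤ Row p c St i {s | s.Qf.s = some .s0} := by
      rw [hqf]
      exact h.row_le_act h1 h2 fun s hs _ _ hf => hf.f6 hs
    have e3 : Orth (Row p c St i {s | s.Qf.s = some .s0}) (q⁻¹ • h.T {.f0}) := by
      rw [← smul_orth_iff q, smul_inv_smul, hqf, h.T_eq_row i]
      have e4 : Row p c St i {s | s.Qb.s = some .s0} ≤ Row p c St i {s | s.Pf.tau ∈ ({.f0} : Set Tau)}ᶜ := by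
        refine h.row_le_act h1 h2 fun s hs _ _ hf => ?_
        simp only [Set.mem_compl_iff, Set.mem_ofPred_eq, Set.mem_singleton_iff] at hs ⊢
        rw [Star.Pf_tau']; exact hf.f7 hs
      exact (h.Row_orth i disjoint_compl_left).mono_left e4
    exact e3.mono_left (e1.trans e2)
  · rw [smul_le_smul_iff]
    refine h.row_le_act h1 h2 fun s hs _ _ hf => ?_
    exact hf.f5 (by rw [← Star.Pf_tau']; exact hs.1) hs.2

theorem m_eq_row_f (h : LS D p q a c St) {i : ℕ} (h1 : a ≤ i) (h2 : i ≤ 2 * a) :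
    h.m = Row p c St i {s | s.Qf.s = some .f} := by
  obtain ⟨X, hX, hA, hB, hXB, -⟩ := h.step3 h1 h2
  rw [h.m_def, hA]
  exact meet_eq_of_decomp hX hB hXB

theorem m_eq_row_l (h : LS D p q a c St) {i : ℕ} (h1 : a ≤ i) (h2 : i ≤ 2 * a) :
    h.m = Row p c St i {s | s.Qb.s = some .l} := by
  rw [h.m_eq_row_f h1 h2]
  exact h.row_eq_act h1 h2 fun s _ _ hs => hs.r_iff.symm

/-- `A_0 ~ B_0` -/
theorem comm_A_B (h : LS D p q a c St) : Comm (q • h.T {.t2l}) (q⁻¹ • h.T {.f0}) := by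
  obtain ⟨X, hX, hA, hB, hXB, -⟩ := h.step3 (i := a) le_rfl (by omega)
  exact ⟨_, X, hX, hA, hB, hXB⟩



/-- `A_0 = m + X` with `X ≤ q • m` -/
theorem A_eq (h : LS D p q a c St) :
    ∃ X : E, Orth h.m X ∧ q • h.T {.t2l} = h.m +ₒ X ∧ X ≤ q • h.m := by
  obtain ⟨X, hX, hA, hB, hXB, hX2⟩ := h.step3 (i := a) le_rfl (by omega)
  rw [← h.m_eq_row_f le_rfl (by omega)] at hX hA hX2
  exact ⟨X, hX, hA, hX2⟩

theorem m_le (h : LS D p q a c St) : h.m ≤ c 0 := by
  rw [h.m_eq_row_f (i := a) le_rfl (by omega)]; exact h.Row_le _ _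


theorem iota_def (h : LS D p q a c St) : h.iota = c 0 -ₒ h.m := rfl



theorem iota_eq_row_f (h : LS D p q a c St) {i : ℕ} (h1 : a ≤ i) (h2 : i ≤ 2 * a) :
    h.iota = Row p c St i {s | s.Qf.s ≠ some .f} := by
  rw [h.iota_def, h.m_eq_row_f h1 h2, h.Row_compl]; rfl

theorem iota_eq_row_l (h : LS D p q a c St) {i : ℕ} (h1 : a ≤ i) (h2 : i ≤ 2 * a) :
    h.iota = Row p c St i {s | s.Qb.s ≠ some .l} := by
  rw [h.iota_def, h.m_eq_row_l h1 h2, h.Row_compl]; rfl

/-- `m` is `p^n`-invariant -/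
theorem pow_m (h : LS D p q a c St) : p ^ (3 * a) • h.m = h.m := by
  rw [h.m_def, smul_meet, smul_smul, smul_smul, mul_comm _ q, mul_comm _ q⁻¹, ← smul_smul,
    ← smul_smul]
  simp only [T]
  rw [h.pn_Row_tau, h.pn_Row_tau]


/-! ### step 4 -/

theorem row_Qf_s (h : LS D p q a c St) {i : ℕ} (h1 : a ≤ i) (h2 : i ≤ 2 * a) (σ : S) :
    Row p c St i {s | s.Qf.s = some σ} = h.sp σ := by
  unfold sp
  split_ifs with hσ
  · subst hσ; exact (h.m_eq_row_f h1 h2).symm
  · rw [h.iota_eq_row_f h1 h2, h.T_eq_row i, h.Row_meet]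
    refine h.row_eq_act h1 h2 fun s _ _ hs => ?_
    simp only [Set.mem_ofPred_eq, Set.mem_inter_iff]
    constructor
    · intro e
      have hf : s.Qf.s ≠ some .f := by rw [e]; simpa using hσ
      refine ⟨hf, ?_⟩
      have := (hs.f8 (fun hl => hf (hs.r_iff.1 hl))).2
      rw [Star.Pf_tau']
      rw [e] at this
      exact (Option.some.inj this).symm
    · rintro ⟨hf, ht⟩
      have := (hs.f8 (fun hl => hf (hs.r_iff.1 hl))).2
      rw [this, ← Star.Pf_tau', ht]

theorem row_Qb_s (h : LS D p q a c St) {i : ℕ} (h1 : a ≤ i) (h2 : i ≤ 2 * a) (σ : S) :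
    Row p c St i {s | s.Qb.s = some σ} = h.sm σ := by
  unfold sm
  split_ifs with hσ
  · subst hσ; exact (h.m_eq_row_l h1 h2).symm
  · rw [h.iota_eq_row_l h1 h2, h.T_eq_row i, h.Row_meet]
    refine h.row_eq_act h1 h2 fun s _ _ hs => ?_
    simp only [Set.mem_ofPred_eq, Set.mem_inter_iff]
    constructor
    · intro e
      have hl : s.Qb.s ≠ some .l := by rw [e]; simpa using hσ
      refine ⟨hl, ?_⟩
      have := (hs.f8 hl).1
      rw [Star.Pf_tau']
      rw [e] at this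
      exact (Option.some.inj this).symm
    · rintro ⟨hl, ht⟩
      have := (hs.f8 hl).1
      rw [this, ← Star.Pf_tau', ht]

theorem q_sp (h : LS D p q a c St) (σ : S) : q • h.sp σ = h.sm σ := by
  have h1 : a ≤ a := le_rfl
  have h2 : a ≤ 2 * a := by omega
  obtain ⟨h0, hj⟩ := h.act_lt h1 h2
  rw [← h.row_Qf_s h1 h2, ← h.row_Qb_s h1 h2]
  exact h.q_row_Qf_s h0 hj {some σ}


/-! ### step 5 -/

/-- `m` commutes with everything in the active rows -/
theorem comm_m_row (h : LS D p q a c St) {i : ℕ} (h1 : a ≤ i) (h2 : i ≤ 2 * a) (A : Set Star) :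
    Comm h.m (Row p c St i A) := by
  rw [h.m_eq_row_f h1 h2]; exact h.Row_comm _ _ _




theorem Lab_succ (h : LS D p q a c St) {j : ℕ} (hj : j + 1 < 3 * a)
    (hb : ¬ (a ≤ j + 1 ∧ j + 1 ≤ 2 * a)) (A : Set Label) :
    Lab p c St (j + 1) A = Lab p c St j A := by
  rw [h.Lab_eq_Row_succ j, Lab_eq_Row]
  refine h.Row_eq_Row (Nat.succ_pos j) hj fun s hd ht => ?_
  simp only [Set.mem_ofPred_eq]
  rw [Star.Pf_eq_Pb_of_blank' hd (by rw [ht]; exact tauOf_blank' h.three_le hb)]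

/-- labels below the active rows -/
theorem Lab_low (h : LS D p q a c St) {j : ℕ} (hj : j < a) (A : Set Label) :
    Lab p c St j A = Lab p c St 0 A := by
  have h3 := h.three_le
  induction j with
  | zero => rfl
  | succ j ih => rw [h.Lab_succ (by omega) (by omega), ih (by omega)]

/-- labels above the active rows -/
theorem Lab_high (h : LS D p q a c St) {j : ℕ} (h1 : 2 * a ≤ j) (h2 : j < 3 * a) (A : Set Label) :
    Lab p c St j A = Lab p c St (2 * a) A := by
  induction j, h1 using Nat.le_induction with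
  | base => rfl
  | succ j hj ih => rw [h.Lab_succ (by omega) (by omega), ih (by omega)]

theorem comm_m_Lab (h : LS D p q a c St) {j : ℕ} (hj : j < 3 * a) (A : Set Label) :
    Comm h.m (Lab p c St j A) := by
  have h3 := h.three_le
  rcases lt_or_ge j a with hja | hja
  · rw [h.Lab_low hja, ← h.Lab_low (j := a - 1) (by omega), h.Lab_eq_Row_succ,
      show a - 1 + 1 = a by omega]
    exact h.comm_m_row le_rfl (by omega) _
  · rcases le_or_gt j (2 * a) with hj2 | hj2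
    · rw [Lab_eq_Row]; exact h.comm_m_row hja hj2 _
    · rw [h.Lab_high hj2.le hj, Lab_eq_Row]
      exact h.comm_m_row (by omega) le_rfl _




/-- the facts used in `RN5` -/
theorem modeFacts (h : LS D p q a c St) : ModeFacts p q a c St where
  le := h.m_le
  inv := h.pow_m
  row _ h1 h2 := h.m_eq_row_f h1 h2
  comm_Lab _ hj A := h.comm_m_Lab hj A

end LS
end Crest.Agent.R189
end

-- ▼ part R189/RN3
section

/-!
# Row 189, part E2, step 8: the digits of the next level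

`MarkerData q a c0 m iota IT X` collects the outputs of steps 1-7. Results (namespace `MarkerData`):
`part`, `per`, `cn_eq`, `le_sp`, `le_Zp`, `le_sm`, `le_Zm`, `le_iota`, `le_IT`.
-/

set_option autoImplicit false

namespace Crest.Agent.R189

open Romp

theorem sv_pos_cases {a j : ℕ} (ha : 2 ≤ a) (hj : j < 3 * (a + 1)) :
    (j = 0 ∧ sv (a + 1) j = .f ∧ pos a j = a) ∨
    (0 < j ∧ j < a + 1 ∧ sv (a + 1) j = .s0 ∧ pos a j = a + j) ∨
    (a + 1 ≤ j ∧ j < 2 * a + 2 ∧ sv (a + 1) j = .s1 ∧ pos a j = j - 1) ∨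
    (2 * a + 2 ≤ j ∧ j < 3 * a + 2 ∧ sv (a + 1) j = .s2 ∧ pos a j = j - (a + 2)) ∨
    (j = 3 * a + 2 ∧ sv (a + 1) j = .l ∧ pos a j = 2 * a) := by
  rcases Nat.lt_or_ge j (a + 1) with h1 | h1
  · have hm : j % (a + 1) = j := Nat.mod_eq_of_lt h1
    rcases Nat.eq_zero_or_pos j with h0 | h0
    · left
      subst h0
      simp [sv, pos]
    · right; left
      refine ⟨h0, h1, ?_, ?_⟩
      · rw [sv, if_neg (by omega), if_neg (by omega), if_pos h1]
      · rw [pos, hm]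
  · rcases Nat.lt_or_ge j (2 * a + 2) with h2 | h2
    · have hm : j % (a + 1) = j - (a + 1) := by
        rw [Nat.mod_eq_sub_mod h1]
        exact Nat.mod_eq_of_lt (by omega)
      right; right; left
      refine ⟨h1, h2, ?_, ?_⟩
      · rw [sv, if_neg (by omega), if_neg (by omega), if_neg (by omega), if_pos (by omega)]
      · rw [pos, hm]; omega
    · have hm : j % (a + 1) = j - 2 * (a + 1) := by
        rw [Nat.mod_eq_sub_mod (by omega), Nat.mod_eq_sub_mod (by omega)]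
        rw [Nat.mod_eq_of_lt (by omega)]
        omega
      rcases Nat.lt_or_ge j (3 * a + 2) with h3 | h3
      · right; right; right; left
        refine ⟨h2, h3, ?_, ?_⟩
        · rw [sv, if_neg (by omega), if_neg (by omega), if_neg (by omega), if_neg (by omega)]
        · rw [pos, hm]; omega
      · right; right; right; right
        refine ⟨by omega, ?_, ?_⟩
        · rw [sv, if_neg (by omega), if_pos (by omega)]
        · rw [pos, hm]; omega

/-! ### Boolean computations -/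

section Bool

variable {Ω : Type}

def spB (M : Set Ω) (T : Tau → Set Ω) (s : S) : Set Ω :=
  if s = .f then M else {w | ∃ th : Tau, th.snd = s ∧ w ∈ T th}
def smB (M : Set Ω) (T : Tau → Set Ω) (s : S) : Set Ω :=
  if s = .l then M else {w | ∃ th : Tau, th.fst = s ∧ w ∈ T th}
def ZpB (a : ℕ) (M : Set Ω) (T : Tau → Set Ω) (X : ℕ → Set Ω) (i : ℕ) : Set Ω :=
  if i = a then M ∪ {w | ∃ th : Tau, th.reset = true ∧ w ∈ T th} else X (i - 1)
def ZmB (a : ℕ) (M : Set Ω) (T : Tau → Set Ω) (X : ℕ → Set Ω) (i : ℕ) : Set Ω :=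
  if i = 2 * a then M ∪ {w | ∃ th : Tau, th.reset = true ∧ w ∈ T th} else X i

def cB (a : ℕ) (M : Set Ω) (T : Tau → Set Ω) (X : ℕ → Set Ω) (j : ℕ) : Set Ω :=
  spB M T (sv (a + 1) j) ∩ ZpB a M T X (pos a j)

def cmB (a : ℕ) (M : Set Ω) (T : Tau → Set Ω) (X : ℕ → Set Ω) (j : ℕ) : Set Ω :=
  smB M T (sv (a + 1) j) ∩ ZmB a M T X (pos a j)

structure BoolData (a : ℕ) (M : Set Ω) (T : Tau → Set Ω) (X : ℕ → Set Ω) : Prop where
  two_le : 2 ≤ a
  MT : ∀ {w th}, w ∈ M → w ∈ T th → False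
  TT : ∀ {w th th'}, w ∈ T th → w ∈ T th' → th = th'
  XX : ∀ {w i j}, a ≤ i → i < 2 * a → a ≤ j → j < 2 * a → w ∈ X i → w ∈ X j → i = j
  X_mv : ∀ {w i}, a ≤ i → i < 2 * a → w ∈ X i → ∃ th, th.reset = false ∧ w ∈ T th
  mv_X : ∀ {w th}, th.reset = false → w ∈ T th → ∃ i, a ≤ i ∧ i < 2 * a ∧ w ∈ X i
  X_00 : ∀ {w}, w ∈ X a → w ∈ T .t00 → False
  X_f0 : ∀ {w i}, a < i → i < 2 * a → w ∈ X i → w ∈ T .f0 → False
  X_2l : ∀ {w i}, a ≤ i → i + 1 < 2 * a → w ∈ X i → w ∈ T .t2l → False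
  X_22 : ∀ {w}, w ∈ X (2 * a - 1) → w ∈ T .t22 → False

namespace BoolData

variable {a : ℕ} {M : Set Ω} {T : Tau → Set Ω} {X : ℕ → Set Ω}

/-- `w` is in the next level row `j` -/
theorem cases (h : BoolData a M T X) {w : Ω} (hw : w ∈ M ∨ ∃ th, w ∈ T th) :
    (w ∈ M) ∨ (∃ th, th.reset = true ∧ w ∈ T th) ∨
    (∃ th i, th.reset = false ∧ w ∈ T th ∧ a ≤ i ∧ i < 2 * a ∧ w ∈ X i) := by
  rcases hw with hw | ⟨th, hw⟩
  · exact Or.inl hw
  · rcases hb : th.reset with _ | _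
    · right; right
      obtain ⟨i, h1, h2, h3⟩ := h.mv_X hb hw
      exact ⟨th, i, hb, hw, h1, h2, h3⟩
    · right; left; exact ⟨th, hb, hw⟩

variable (h : BoolData a M T X)
include h

theorem spB_M {w : Ω} (hw : w ∈ M) (s : S) : w ∈ spB M T s ↔ s = .f := by
  unfold spB
  split_ifs with hs
  · simp [hw, hs]
  · simp only [hs, iff_false]
    rintro ⟨th, -, hT⟩
    exact h.MT hw hT

theorem smB_M {w : Ω} (hw : w ∈ M) (s : S) : w ∈ smB M T s ↔ s = .l := by
  unfold smB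
  split_ifs with hs
  · simp [hw, hs]
  · simp only [hs, iff_false]
    rintro ⟨th, -, hT⟩
    exact h.MT hw hT

theorem spB_T {w : Ω} {th : Tau} (hw : w ∈ T th) (s : S) : w ∈ spB M T s ↔ s = th.snd := by
  unfold spB
  split_ifs with hs
  · subst hs
    have : ¬ (S.f = th.snd) := by cases th <;> decide
    simp only [this, iff_false]
    exact fun hM => h.MT hM hw
  · constructor
    · rintro ⟨th', h1, h2⟩
      rw [h.TT hw h2, h1]
    · rintro rfl
      exact ⟨th, rfl, hw⟩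

theorem smB_T {w : Ω} {th : Tau} (hw : w ∈ T th) (s : S) : w ∈ smB M T s ↔ s = th.fst := by
  unfold smB
  split_ifs with hs
  · subst hs
    have : ¬ (S.l = th.fst) := by cases th <;> decide
    simp only [this, iff_false]
    exact fun hM => h.MT hM hw
  · constructor
    · rintro ⟨th', h1, h2⟩
      rw [h.TT hw h2, h1]
    · rintro rfl
      exact ⟨th, rfl, hw⟩

/-- no marker -/
theorem ZpB_n {w : Ω} (hw : w ∈ M ∨ ∃ th, th.reset = true ∧ w ∈ T th) {i : ℕ} (h1 : a ≤ i)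
    (h2 : i ≤ 2 * a) : w ∈ ZpB a M T X i ↔ i = a := by
  unfold ZpB
  split_ifs with hs
  · simp only [hs, iff_true]
    exact hw
  · simp only [hs, iff_false]
    intro hX
    obtain ⟨th, hb, hT⟩ := h.X_mv (by omega) (by omega) hX
    rcases hw with hw | ⟨th', hb', hT'⟩
    · exact h.MT hw hT
    · have := h.TT hT hT'
      subst this
      rw [hb] at hb'
      cases hb'

theorem ZmB_n {w : Ω} (hw : w ∈ M ∨ ∃ th, th.reset = true ∧ w ∈ T th) {i : ℕ} (h1 : a ≤ i)
    (h2 : i ≤ 2 * a) : w ∈ ZmB a M T X i ↔ i = 2 * a := by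
  unfold ZmB
  split_ifs with hs
  · simp only [hs, iff_true]
    exact hw
  · simp only [hs, iff_false]
    intro hX
    obtain ⟨th, hb, hT⟩ := h.X_mv (by omega) (by omega) hX
    rcases hw with hw | ⟨th', hb', hT'⟩
    · exact h.MT hw hT
    · have := h.TT hT hT'
      subst this
      rw [hb] at hb'
      cases hb'

theorem ZpB_X {w : Ω} {th : Tau} {k : ℕ} (hb : th.reset = false) (hT : w ∈ T th) (k1 : a ≤ k)
    (k2 : k < 2 * a) (hX : w ∈ X k) {i : ℕ} (h1 : a ≤ i) (h2 : i ≤ 2 * a) :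
    w ∈ ZpB a M T X i ↔ i = k + 1 := by
  unfold ZpB
  split_ifs with hs
  · have : ¬ (i = k + 1) := by omega
    simp only [this, iff_false]
    rintro (hM | ⟨th', hb', hT'⟩)
    · exact h.MT hM hT
    · have := h.TT hT hT'
      subst this
      rw [hb] at hb'
      cases hb'
  · constructor
    · intro hX'
      have := h.XX k1 k2 (by omega) (by omega) hX hX'
      omega
    · rintro rfl
      simpa using hX

theorem ZmB_X {w : Ω} {th : Tau} {k : ℕ} (hb : th.reset = false) (hT : w ∈ T th) (k1 : a ≤ k)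
    (k2 : k < 2 * a) (hX : w ∈ X k) {i : ℕ} (h1 : a ≤ i) (h2 : i ≤ 2 * a) :
    w ∈ ZmB a M T X i ↔ i = k := by
  unfold ZmB
  split_ifs with hs
  · have : ¬ (i = k) := by omega
    simp only [this, iff_false]
    rintro (hM | ⟨th', hb', hT'⟩)
    · exact h.MT hM hT
    · have := h.TT hT hT'
      subst this
      rw [hb] at hb'
      cases hb'
  · constructor
    · intro hX'
      exact (h.XX k1 k2 (by omega) (by omega) hX hX').symm
    · rintro rfl
      exact hX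

/-- location of a point -/
theorem exists_loc {w : Ω} (hw : w ∈ M ∨ ∃ th, w ∈ T th) :
    ∃ l, l < 3 * (a + 1) ∧ (∀ j, j < 3 * (a + 1) → (w ∈ cB a M T X j ↔ j = l)) ∧
      (∀ j, j < 3 * (a + 1) → (w ∈ cmB a M T X j ↔ (j + 1) % (3 * (a + 1)) = l)) := by
  have ha := h.two_le
  have hmod : ∀ j, j < 3 * (a + 1) → (j + 1 < 3 * (a + 1) ∧ (j + 1) % (3 * (a + 1)) = j + 1) ∨
      (j + 1 = 3 * (a + 1) ∧ (j + 1) % (3 * (a + 1)) = 0) := by
    intro j hj
    rcases Nat.lt_or_ge (j + 1) (3 * (a + 1)) with h1 | h1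
    · exact Or.inl ⟨h1, Nat.mod_eq_of_lt h1⟩
    · right
      have : j + 1 = 3 * (a + 1) := by omega
      exact ⟨this, by rw [this, Nat.mod_self]⟩
  have hpos : ∀ j, j < 3 * (a + 1) → a ≤ pos a j ∧ pos a j ≤ 2 * a := by
    intro j hj
    rcases sv_pos_cases ha hj with ⟨h0, h1, h2⟩ | ⟨h0, h0', h1, h2⟩ | ⟨h0, h0', h1, h2⟩ |
      ⟨h0, h0', h1, h2⟩ | ⟨h0, h1, h2⟩ <;> omega
  rcases h.cases hw with hM | ⟨th, hb, hT⟩ | ⟨th, k, hb, hT, k1, k2, hX⟩
  · refine ⟨0, by omega, fun j hj => ?_, fun j hj => ?_⟩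
    · rw [cB, Set.mem_inter_iff, h.spB_M hM,
        h.ZpB_n (Or.inl hM) (hpos j hj).1 (hpos j hj).2]
      rcases sv_pos_cases ha hj with ⟨h0, h1, h2⟩ | ⟨h0, h0', h1, h2⟩ | ⟨h0, h0', h1, h2⟩ |
        ⟨h0, h0', h1, h2⟩ | ⟨h0, h1, h2⟩ <;> rw [h1, h2] <;> simp <;> omega
    · rw [cmB, Set.mem_inter_iff, h.smB_M hM,
        h.ZmB_n (Or.inl hM) (hpos j hj).1 (hpos j hj).2]
      rcases hmod j hj with ⟨g1, g2⟩ | ⟨g1, g2⟩ <;> rw [g2] <;>
      rcases sv_pos_cases ha hj with ⟨h0, h1, h2⟩ | ⟨h0, h0', h1, h2⟩ | ⟨h0, h0', h1, h2⟩ |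
        ⟨h0, h0', h1, h2⟩ | ⟨h0, h1, h2⟩ <;> rw [h1, h2] <;> simp <;> omega
  · have hth : th = .t01 ∨ th = .t12 := by
      revert hb; cases th <;> decide
    rcases hth with rfl | rfl
    · refine ⟨a + 1, by omega, fun j hj => ?_, fun j hj => ?_⟩
      · rw [cB, Set.mem_inter_iff, h.spB_T hT,
          h.ZpB_n (Or.inr ⟨_, hb, hT⟩) (hpos j hj).1 (hpos j hj).2]
        rcases sv_pos_cases ha hj with ⟨h0, h1, h2⟩ | ⟨h0, h0', h1, h2⟩ | ⟨h0, h0', h1, h2⟩ |
          ⟨h0, h0', h1, h2⟩ | ⟨h0, h1, h2⟩ <;> rw [h1, h2] <;> simp [Tau.snd] <;> omega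
      · rw [cmB, Set.mem_inter_iff, h.smB_T hT,
          h.ZmB_n (Or.inr ⟨_, hb, hT⟩) (hpos j hj).1 (hpos j hj).2]
        rcases hmod j hj with ⟨g1, g2⟩ | ⟨g1, g2⟩ <;> rw [g2] <;>
        rcases sv_pos_cases ha hj with ⟨h0, h1, h2⟩ | ⟨h0, h0', h1, h2⟩ | ⟨h0, h0', h1, h2⟩ |
          ⟨h0, h0', h1, h2⟩ | ⟨h0, h1, h2⟩ <;> rw [h1, h2] <;> simp [Tau.fst] <;> omega
    · refine ⟨2 * a + 2, by omega, fun j hj => ?_, fun j hj => ?_⟩
      · rw [cB, Set.mem_inter_iff, h.spB_T hT,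
          h.ZpB_n (Or.inr ⟨_, hb, hT⟩) (hpos j hj).1 (hpos j hj).2]
        rcases sv_pos_cases ha hj with ⟨h0, h1, h2⟩ | ⟨h0, h0', h1, h2⟩ | ⟨h0, h0', h1, h2⟩ |
          ⟨h0, h0', h1, h2⟩ | ⟨h0, h1, h2⟩ <;> rw [h1, h2] <;> simp [Tau.snd] <;> omega
      · rw [cmB, Set.mem_inter_iff, h.smB_T hT,
          h.ZmB_n (Or.inr ⟨_, hb, hT⟩) (hpos j hj).1 (hpos j hj).2]
        rcases hmod j hj with ⟨g1, g2⟩ | ⟨g1, g2⟩ <;> rw [g2] <;>
        rcases sv_pos_cases ha hj with ⟨h0, h1, h2⟩ | ⟨h0, h0', h1, h2⟩ | ⟨h0, h0', h1, h2⟩ |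
          ⟨h0, h0', h1, h2⟩ | ⟨h0, h1, h2⟩ <;> rw [h1, h2] <;> simp [Tau.fst] <;> omega
  · have key : ∀ l, l < 3 * (a + 1) →
        (∀ j, j < 3 * (a + 1) → ((sv (a + 1) j = th.snd ∧ pos a j = k + 1) ↔ j = l)) →
        (∀ j, j < 3 * (a + 1) → ((sv (a + 1) j = th.fst ∧ pos a j = k) ↔
          (j + 1) % (3 * (a + 1)) = l)) → 
        ∃ l, l < 3 * (a + 1) ∧ (∀ j, j < 3 * (a + 1) → (w ∈ cB a M T X j ↔ j = l)) ∧
          (∀ j, j < 3 * (a + 1) → (w ∈ cmB a M T X j ↔ (j + 1) % (3 * (a + 1)) = l)) := by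
      intro l hl H1 H2
      refine ⟨l, hl, fun j hj => ?_, fun j hj => ?_⟩
      · rw [← H1 j hj, cB, Set.mem_inter_iff, h.spB_T hT,
          h.ZpB_X hb hT k1 k2 hX (hpos j hj).1 (hpos j hj).2]
      · rw [← H2 j hj, cmB, Set.mem_inter_iff, h.smB_T hT,
          h.ZmB_X hb hT k1 k2 hX (hpos j hj).1 (hpos j hj).2]
    cases th
    · -- f0
      have hk : k = a := by
        by_contra hne
        exact h.X_f0 (by omega) k2 hX hT
      refine key 1 (by omega) (fun j hj => ?_) (fun j hj => ?_)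
      · rcases sv_pos_cases ha hj with ⟨h0, h1, h2⟩ | ⟨h0, h0', h1, h2⟩ | ⟨h0, h0', h1, h2⟩ |
          ⟨h0, h0', h1, h2⟩ | ⟨h0, h1, h2⟩ <;> rw [h1, h2] <;> simp [Tau.snd] <;> omega
      · rcases hmod j hj with ⟨g1, g2⟩ | ⟨g1, g2⟩ <;> rw [g2] <;>
        rcases sv_pos_cases ha hj with ⟨h0, h1, h2⟩ | ⟨h0, h0', h1, h2⟩ | ⟨h0, h0', h1, h2⟩ |
          ⟨h0, h0', h1, h2⟩ | ⟨h0, h1, h2⟩ <;> rw [h1, h2] <;> simp [Tau.fst] <;> omega
    · -- t00
      have hk : a < k := by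
        by_contra hne
        have : k = a := by omega
        subst this
        exact h.X_00 hX hT
      refine key (k + 1 - a) (by omega) (fun j hj => ?_) (fun j hj => ?_)
      · rcases sv_pos_cases ha hj with ⟨h0, h1, h2⟩ | ⟨h0, h0', h1, h2⟩ | ⟨h0, h0', h1, h2⟩ |
          ⟨h0, h0', h1, h2⟩ | ⟨h0, h1, h2⟩ <;> rw [h1, h2] <;> simp [Tau.snd] <;> omega
      · rcases hmod j hj with ⟨g1, g2⟩ | ⟨g1, g2⟩ <;> rw [g2] <;>
        rcases sv_pos_cases ha hj with ⟨h0, h1, h2⟩ | ⟨h0, h0', h1, h2⟩ | ⟨h0, h0', h1, h2⟩ |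
          ⟨h0, h0', h1, h2⟩ | ⟨h0, h1, h2⟩ <;> rw [h1, h2] <;> simp [Tau.fst] <;> omega
    · cases hb
    · -- t11
      refine key (k + 2) (by omega) (fun j hj => ?_) (fun j hj => ?_)
      · rcases sv_pos_cases ha hj with ⟨h0, h1, h2⟩ | ⟨h0, h0', h1, h2⟩ | ⟨h0, h0', h1, h2⟩ |
          ⟨h0, h0', h1, h2⟩ | ⟨h0, h1, h2⟩ <;> rw [h1, h2] <;> simp [Tau.snd] <;> omega
      · rcases hmod j hj with ⟨g1, g2⟩ | ⟨g1, g2⟩ <;> rw [g2] <;>
        rcases sv_pos_cases ha hj with ⟨h0, h1, h2⟩ | ⟨h0, h0', h1, h2⟩ | ⟨h0, h0', h1, h2⟩ |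
          ⟨h0, h0', h1, h2⟩ | ⟨h0, h1, h2⟩ <;> rw [h1, h2] <;> simp [Tau.fst] <;> omega
    · cases hb
    · -- t22
      have hk : k + 1 < 2 * a := by
        by_contra hne
        have : k = 2 * a - 1 := by omega
        subst this
        exact h.X_22 hX hT
      refine key (a + k + 3) (by omega) (fun j hj => ?_) (fun j hj => ?_)
      · rcases sv_pos_cases ha hj with ⟨h0, h1, h2⟩ | ⟨h0, h0', h1, h2⟩ | ⟨h0, h0', h1, h2⟩ |
          ⟨h0, h0', h1, h2⟩ | ⟨h0, h1, h2⟩ <;> rw [h1, h2] <;> simp [Tau.snd] <;> omega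
      · rcases hmod j hj with ⟨g1, g2⟩ | ⟨g1, g2⟩ <;> rw [g2] <;>
        rcases sv_pos_cases ha hj with ⟨h0, h1, h2⟩ | ⟨h0, h0', h1, h2⟩ | ⟨h0, h0', h1, h2⟩ |
          ⟨h0, h0', h1, h2⟩ | ⟨h0, h1, h2⟩ <;> rw [h1, h2] <;> simp [Tau.fst] <;> omega
    · -- t2l
      have hk : k + 1 = 2 * a := by
        by_contra hne
        exact h.X_2l k1 (by omega) hX hT
      refine key (3 * a + 2) (by omega) (fun j hj => ?_) (fun j hj => ?_)
      · rcases sv_pos_cases ha hj with ⟨h0, h1, h2⟩ | ⟨h0, h0', h1, h2⟩ | ⟨h0, h0', h1, h2⟩ |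
          ⟨h0, h0', h1, h2⟩ | ⟨h0, h1, h2⟩ <;> rw [h1, h2] <;> simp [Tau.snd] <;> omega
      · rcases hmod j hj with ⟨g1, g2⟩ | ⟨g1, g2⟩ <;> rw [g2] <;>
        rcases sv_pos_cases ha hj with ⟨h0, h1, h2⟩ | ⟨h0, h0', h1, h2⟩ | ⟨h0, h0', h1, h2⟩ |
          ⟨h0, h0', h1, h2⟩ | ⟨h0, h1, h2⟩ <;> rw [h1, h2] <;> simp [Tau.fst] <;> omega


omit h in
/-- `w` is in the total -/
theorem total_of_mem_cB {w : Ω} {j : ℕ} (hw : w ∈ cB a M T X j) : w ∈ M ∨ ∃ th, w ∈ T th := by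
  have h1 := hw.1
  unfold spB at h1
  split_ifs at h1
  · exact Or.inl h1
  · obtain ⟨th, -, h2⟩ := h1
    exact Or.inr ⟨th, h2⟩

omit h in
theorem total_of_mem_cmB {w : Ω} {j : ℕ} (hw : w ∈ cmB a M T X j) : w ∈ M ∨ ∃ th, w ∈ T th := by
  have h1 := hw.1
  unfold smB at h1
  split_ifs at h1
  · exact Or.inl h1
  · obtain ⟨th, -, h2⟩ := h1
    exact Or.inr ⟨th, h2⟩

omit h in
theorem cB_zero : cB a M T X 0 = M := by
  unfold cB spB ZpB
  have h1 : sv (a + 1) 0 = .f := by simp [sv]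
  have h2 : pos a 0 = a := by simp [pos]
  rw [h1, h2, if_pos rfl, if_pos rfl]
  exact Set.inter_eq_left.2 Set.subset_union_left

theorem disj_cB {i j : ℕ} (hi : i < 3 * (a + 1)) (hj : j < 3 * (a + 1)) (hij : i ≠ j) :
    Disjoint (cB a M T X i) (cB a M T X j) := by
  rw [Set.disjoint_left]
  intro w h1 h2
  obtain ⟨l, -, hl, -⟩ := h.exists_loc (total_of_mem_cB h1)
  exact hij (((hl i hi).1 h1).trans ((hl j hj).1 h2).symm)

theorem union_cB : (⋃ j : Fin (3 * (a + 1)), cB a M T X j) = M ∪ ⋃ th, T th := by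
  ext w
  simp only [Set.mem_iUnion, Set.mem_union]
  constructor
  · rintro ⟨j, hj⟩
    exact total_of_mem_cB hj
  · intro hw
    obtain ⟨l, hl0, hl, -⟩ := h.exists_loc hw
    exact ⟨⟨l, hl0⟩, (hl l hl0).2 rfl⟩

theorem cmB_eq {j : ℕ} (hj : j < 3 * (a + 1)) :
    cmB a M T X j = cB a M T X ((j + 1) % (3 * (a + 1))) := by
  have hlt : (j + 1) % (3 * (a + 1)) < 3 * (a + 1) := Nat.mod_lt _ (by omega)
  ext w
  constructor
  · intro hw
    obtain ⟨l, hl0, hl, hl'⟩ := h.exists_loc (total_of_mem_cmB hw)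
    exact (hl _ hlt).2 ((hl' j hj).1 hw)
  · intro hw
    obtain ⟨l, hl0, hl, hl'⟩ := h.exists_loc (total_of_mem_cB hw)
    exact (hl' j hj).2 ((hl _ hlt).1 hw)

end BoolData

end Bool

/-! ### the ROMP version -/

variable {G E : Type*} [CommGroup G] [ROMP E] [OMPAct G E]

/-- `s^+(s)`: `m` if `s = f`, `iota ∧ [second component of P.tau = s]` otherwise
(`IT th = iota ∧ [P.tau = th]`). -/
noncomputable def spE (m : E) (IT : Tau → E) (s : S) : E :=
  if s = .f then m else ev IT {th | th.snd = s}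

/-- `s^-(s)`: `m` if `s = l`, `iota ∧ [first component of P.tau = s]` otherwise. -/
noncomputable def smE (m : E) (IT : Tau → E) (s : S) : E :=
  if s = .l then m else ev IT {th | th.fst = s}

/-- `Z^+_i`: `m + iota^rs` if `i = a`, `X_{i-1}` if `a < i`. -/
noncomputable def ZpE (a : ℕ) (m : E) (IT : Tau → E) (X : ℕ → E) (i : ℕ) : E :=
  if i = a then m +ₒ ev IT {th | th.reset = true} else X (i - 1)

/-- `Z^-_i`: `m + iota^rs` if `i = 2a`, `X_i` if `i < 2a`. -/
noncomputable def ZmE (a : ℕ) (m : E) (IT : Tau → E) (X : ℕ → E) (i : ℕ) : E :=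
  if i = 2 * a then m +ₒ ev IT {th | th.reset = true} else X i

/-- outputs of steps 1-7 used in step 8 -/
structure MarkerData (q : G) (a : ℕ) (c0 m iota : E) (IT : Tau → E) (X : ℕ → E) : Prop where
  two_le : 2 ≤ a
  orth : Orth m iota
  add : m +ₒ iota = c0
  part_IT : IsPart IT iota
  comm_X : ∀ i, a ≤ i → i < 2 * a → ∀ th, Comm (X i) (IT th)
  part_X : IsPart (fun i : Fin a => X (a + i)) (ev IT {th | th.reset = false})
  X_00 : X a ⊓ₒ IT .t00 = ⊥
  X_f0 : ∀ i, a < i → i < 2 * a → X i ⊓ₒ IT .f0 = ⊥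
  X_2l : ∀ i, a ≤ i → i + 1 < 2 * a → X i ⊓ₒ IT .t2l = ⊥
  X_22 : X (2 * a - 1) ⊓ₒ IT .t22 = ⊥
  q_sp : ∀ s, q • spE m IT s = smE m IT s
  q_Z : ∀ i, a ≤ i → i ≤ 2 * a → q • ZpE a m IT X i = ZmE a m IT X i

theorem rn3_tauOf_fst {a i : ℕ} (ha : 3 ≤ a) (h0 : 0 < i) (hi : i < 3 * a) :
    (tauOf a i).fst = sv a (i - 1) := by
  unfold tauOf sv
  split_ifs <;> first | rfl | (exfalso; omega)

theorem rn3_tauOf_snd {a i : ℕ} (ha : 3 ≤ a) (h0 : 0 < i) (hi : i < 3 * a) :
    (tauOf a i).snd = sv a i := by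
  unfold tauOf sv
  split_ifs <;> first | rfl | (exfalso; omega)

theorem rn3_eq_tauOf {a i : ℕ} (ha : 3 ≤ a) (h0 : 0 < i) (hi : i < 3 * a) {th : Tau}
    (h1 : th.fst = sv a (i - 1)) (h2 : th.snd = sv a i) : th = tauOf a i :=
  Tau.ext_pair _ _ (h1.trans (rn3_tauOf_fst ha h0 hi).symm) (h2.trans (rn3_tauOf_snd ha h0 hi).symm)

namespace MarkerData

variable {q : G} {a : ℕ} {c0 m iota : E} {IT : Tau → E} {X : ℕ → E}

theorem orth_m_IT (h : MarkerData q a c0 m iota IT X) (th : Tau) : Orth m (IT th) :=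
  h.orth.mono_right (h.part_IT.le_total th)

theorem X_le (h : MarkerData q a c0 m iota IT X) {i : ℕ} (h1 : a ≤ i) (h2 : i < 2 * a) :
    X i ≤ ev IT {th | th.reset = false} := by
  have := h.part_X.le_total ⟨i - a, by omega⟩
  simpa [show a + (i - a) = i by omega] using this

theorem X_le_iota (h : MarkerData q a c0 m iota IT X) {i : ℕ} (h1 : a ≤ i) (h2 : i < 2 * a) :
    X i ≤ iota := (h.X_le h1 h2).trans (h.part_IT.ev_le_total _)


theorem exists_bool (h : MarkerData q a c0 m iota IT X) :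
    ∃ (Ω : Type) (R : BoolRep E Ω) (M : Set Ω) (T : Tau → Set Ω) (Y : ℕ → Set Ω),
      m = R.φ M ∧ (∀ th, IT th = R.φ (T th)) ∧ (∀ i, a ≤ i → i < 2 * a → X i = R.φ (Y i)) ∧
      BoolData a M T Y ∧
      (∀ y, Comm y m → (∀ th, Comm y (IT th)) → (∀ i, a ≤ i → i < 2 * a → Comm y (X i)) →
        ∀ A, Comm y (R.φ A)) := by
  let x : Option (Tau ⊕ Fin a) → E := fun o => match o with
    | none => m
    | some (.inl th) => IT th
    | some (.inr i) => X (a + i)
  have hx0 : ∀ i : Fin a, a ≤ a + (i : ℕ) ∧ a + (i : ℕ) < 2 * a := fun i => ⟨by omega, by omega⟩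
  have hmX : ∀ i : Fin a, Orth m (X (a + i)) := fun i =>
    h.orth.mono_right (h.X_le_iota (hx0 i).1 (hx0 i).2)
  have hx : ∀ i j, Comm (x i) (x j) := by
    rintro (_ | th | i) (_ | th' | j)
    · exact comm_self _
    · exact comm_of_orth (h.orth_m_IT th')
    · exact comm_of_orth (hmX j)
    · exact (comm_of_orth (h.orth_m_IT th)).symm
    · by_cases hth : th = th'
      · subst hth; exact comm_self _
      · exact comm_of_orth (h.part_IT.orth hth)
    · exact (h.comm_X _ (hx0 j).1 (hx0 j).2 th).symm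
    · exact (comm_of_orth (hmX i)).symm
    · exact h.comm_X _ (hx0 i).1 (hx0 i).2 th'
    · by_cases hij : i = j
      · subst hij; exact comm_self _
      · exact comm_of_orth (h.part_X.orth hij)
  obtain ⟨Ω, R, XX, hXX, hcomm⟩ := exists_boolRep x hx
  have hT : ∀ th, IT th = R.φ (XX (some (.inl th))) := fun th => hXX (some (.inl th))
  have hM : m = R.φ (XX none) := hXX none
  let Y : ℕ → Set Ω := fun i => if hi : a ≤ i ∧ i < 2 * a then
    XX (some (.inr ⟨i - a, by omega⟩)) else ∅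
  have hY : ∀ i, a ≤ i → i < 2 * a → X i = R.φ (Y i) := by
    intro i h1 h2
    have e : Y i = XX (some (.inr ⟨i - a, by omega⟩)) := dif_pos ⟨h1, h2⟩
    rw [e, ← hXX]
    show X i = X (a + (i - a))
    rw [show a + (i - a) = i by omega]
  have hYf : ∀ i : Fin a, Y (a + i) = XX (some (.inr i)) := by
    intro i
    have e : Y (a + i) = XX (some (.inr ⟨a + i - a, by omega⟩)) :=
      dif_pos ⟨(hx0 i).1, (hx0 i).2⟩
    rw [e]
    congr 3
    exact Fin.ext (by simp)
  have hTT : ∀ th th', th ≠ th' → Disjoint (XX (some (.inl th))) (XX (some (.inl th'))) := by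
    intro th th' hne
    rw [← R.orth_iff, ← hT, ← hT]
    exact h.part_IT.orth hne
  have hYY : ∀ i j : Fin a, i ≠ j → Disjoint (Y (a + i)) (Y (a + j)) := by
    intro i j hne
    rw [← R.orth_iff, ← hY _ (hx0 i).1 (hx0 i).2, ← hY _ (hx0 j).1 (hx0 j).2]
    exact h.part_X.orth hne
  have hU : (⋃ i : Fin a, Y (a + i)) = ⋃ th ∈ {th : Tau | th.reset = false},
      XX (some (.inl th)) := by
    apply R.inj
    rw [← R.ev (fun th : Tau => XX (some (.inl th)))]
    have e1 : (fun th => R.φ (XX (some (.inl th)))) = IT := funext fun th => (hT th).symm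
    rw [e1, ← h.part_X.ev_univ]
    have e2 : (fun i : Fin a => X (a + i)) = fun i : Fin a => R.φ (Y (a + i)) :=
      funext fun i => hY _ (hx0 i).1 (hx0 i).2
    rw [e2, R.ev (fun i : Fin a => Y (a + i))]
    simp
  have hmeet : ∀ {i th}, a ≤ i → i < 2 * a → X i ⊓ₒ IT th = ⊥ → ∀ {w}, w ∈ Y i →
      w ∈ XX (some (.inl th)) → False := by
    intro i th h1 h2 h3 w w1 w2
    rw [hY i h1 h2, hT, R.meet, ← R.empty] at h3
    have := R.inj h3
    have hw : w ∈ Y i ∩ XX (some (.inl th)) := ⟨w1, w2⟩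
    rw [this] at hw
    exact hw
  refine ⟨Ω, R, XX none, fun th => XX (some (.inl th)), Y, hM, hT, hY, ?_, ?_⟩
  · refine ⟨h.two_le, ?_, ?_, ?_, ?_, ?_, ?_, ?_, ?_, ?_⟩
    · intro w th w1 w2
      have : Disjoint (XX none) (XX (some (.inl th))) := by
        rw [← R.orth_iff, ← hM, ← hT]
        exact h.orth_m_IT th
      exact Set.disjoint_left.1 this w1 w2
    · intro w th th' w1 w2
      by_contra hne
      exact Set.disjoint_left.1 (hTT th th' hne) w1 w2
    · intro w i j h1 h2 h3 h4 w1 w2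
      by_contra hne
      have := hYY ⟨i - a, by omega⟩ ⟨j - a, by omega⟩
        (by intro hh; apply hne; have := congrArg Fin.val hh; simp only at this; omega)
      simp only [show a + (i - a) = i by omega, show a + (j - a) = j by omega] at this
      exact Set.disjoint_left.1 this w1 w2
    · intro w i h1 h2 w1
      have hw : w ∈ ⋃ i : Fin a, Y (a + i) := by
        refine Set.mem_iUnion.2 ⟨⟨i - a, by omega⟩, ?_⟩
        simpa only [show a + (i - a) = i by omega] using w1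
      rw [hU] at hw
      simpa using hw
    · intro w th hb w1
      have hw : w ∈ ⋃ th ∈ {th : Tau | th.reset = false}, XX (some (.inl th)) := by
        simp only [Set.mem_iUnion]
        exact ⟨th, hb, w1⟩
      rw [← hU] at hw
      obtain ⟨i, hi⟩ := Set.mem_iUnion.1 hw
      exact ⟨a + i, (hx0 i).1, (hx0 i).2, hi⟩
    · intro w w1 w2
      exact hmeet le_rfl (by have := h.two_le; omega) h.X_00 w1 w2
    · intro w i h1 h2 w1 w2
      exact hmeet h1.le h2 (h.X_f0 i h1 h2) w1 w2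
    · intro w i h1 h2 w1 w2
      exact hmeet h1 (by omega) (h.X_2l i h1 h2) w1 w2
    · intro w w1 w2
      have := h.two_le
      exact hmeet (by omega) (by omega) h.X_22 w1 w2
  · intro y y1 y2 y3
    apply hcomm
    rintro (_ | th | i)
    · exact y1
    · exact y2 th
    · exact y3 _ (hx0 i).1 (hx0 i).2

theorem exists_bool' (h : MarkerData q a c0 m iota IT X) :
    ∃ (Ω : Type) (R : BoolRep E Ω) (M : Set Ω) (T : Tau → Set Ω) (Y : ℕ → Set Ω),
      m = R.φ M ∧ (∀ th, IT th = R.φ (T th)) ∧ BoolData a M T Y ∧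
      (∀ s, spE m IT s = R.φ (spB M T s)) ∧ (∀ s, smE m IT s = R.φ (smB M T s)) ∧
      (∀ i, a ≤ i → i ≤ 2 * a → ZpE a m IT X i = R.φ (ZpB a M T Y i)) ∧
      (∀ i, a ≤ i → i ≤ 2 * a → ZmE a m IT X i = R.φ (ZmB a M T Y i)) ∧
      iota = R.φ (⋃ th, T th) ∧ c0 = R.φ (M ∪ ⋃ th, T th) ∧
      (∀ y, Comm y m → (∀ th, Comm y (IT th)) → (∀ i, a ≤ i → i < 2 * a → Comm y (X i)) →
        ∀ A, Comm y (R.φ A)) := by
  obtain ⟨Ω, R, M, T, Y, hM, hT, hY, hB, hc⟩ := h.exists_bool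
  have hTT : ∀ th th', th ≠ th' → Disjoint (T th) (T th') := by
    intro th th' hne
    rw [Set.disjoint_left]
    intro w w1 w2
    exact hne (hB.TT w1 w2)
  have hev : ∀ A : Set Tau, ev IT A = R.φ (⋃ th ∈ A, T th) := by
    intro A
    rw [← R.ev, ← funext hT]
  have hres : m +ₒ ev IT {th | th.reset = true} =
      R.φ (M ∪ {w | ∃ th : Tau, th.reset = true ∧ w ∈ T th}) := by
    rw [hM, hev, R.add]
    · congr 2
      ext w; simp
    · rw [Set.disjoint_left]
      intro w w1 w2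
      simp only [Set.mem_iUnion] at w2
      obtain ⟨th, -, w3⟩ := w2
      exact hB.MT w1 w3
  have hiota : iota = R.φ (⋃ th, T th) := by
    rw [← h.part_IT.ev_univ, hev]
    congr 1
    simp
  refine ⟨Ω, R, M, T, Y, hM, hT, hB, ?_, ?_, ?_, ?_, hiota, ?_, hc⟩
  · intro s
    unfold spE spB
    split_ifs with hs
    · exact hM
    · rw [hev]
      congr 1
      ext w; simp
  · intro s
    unfold smE smB
    split_ifs with hs
    · exact hM
    · rw [hev]
      congr 1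
      ext w; simp
  · intro i h1 h2
    unfold ZpE ZpB
    split_ifs with hs
    · exact hres
    · exact hY _ (by omega) (by omega)
  · intro i h1 h2
    unfold ZmE ZmB
    split_ifs with hs
    · exact hres
    · exact hY _ (by omega) (by omega)
  · rw [← h.add]
    nth_rewrite 1 [hM]
    rw [hiota, R.add]
    rw [Set.disjoint_left]
    intro w w1 w2
    obtain ⟨th, w3⟩ := Set.mem_iUnion.1 w2
    exact hB.MT w1 w3

theorem pos_bounds (h : MarkerData q a c0 m iota IT X) {j : ℕ} (hj : j < 3 * (a + 1)) :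
    a ≤ pos a j ∧ pos a j ≤ 2 * a := by
  have := sv_pos_cases h.two_le hj
  omega

/-- all consequences in Boolean form -/
theorem main (h : MarkerData q a c0 m iota IT X) :
    ∃ (Ω : Type) (R : BoolRep E Ω) (M : Set Ω) (T : Tau → Set Ω) (Y : ℕ → Set Ω),
      m = R.φ M ∧ (∀ th, IT th = R.φ (T th)) ∧ BoolData a M T Y ∧
      (∀ s, spE m IT s = R.φ (spB M T s)) ∧ (∀ s, smE m IT s = R.φ (smB M T s)) ∧
      (∀ i, a ≤ i → i ≤ 2 * a → ZpE a m IT X i = R.φ (ZpB a M T Y i)) ∧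
      (∀ i, a ≤ i → i ≤ 2 * a → ZmE a m IT X i = R.φ (ZmB a M T Y i)) ∧
      iota = R.φ (⋃ th, T th) ∧ c0 = R.φ (M ∪ ⋃ th, T th) ∧
      (∀ y, Comm y m → (∀ th, Comm y (IT th)) → (∀ i, a ≤ i → i < 2 * a → Comm y (X i)) →
        ∀ A, Comm y (R.φ A)) ∧
      (∀ j, j < 3 * (a + 1) → q ^ j • m = R.φ (cB a M T Y j)) ∧
      q ^ (3 * (a + 1)) • m = m := by
  obtain ⟨Ω, R, M, T, Y, hM, hT, hB, hsp, hsm, hZp, hZm, hi, hc0, hc⟩ := h.exists_bool'
  have hstep : ∀ j, j < 3 * (a + 1) →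
      q • R.φ (cB a M T Y j) = R.φ (cB a M T Y ((j + 1) % (3 * (a + 1)))) := by
    intro j hj
    obtain ⟨p1, p2⟩ := h.pos_bounds hj
    rw [← hB.cmB_eq hj, cB, cmB, ← R.meet, ← R.meet, ← hsp, ← hsm, ← hZp _ p1 p2, ← hZm _ p1 p2,
      smul_meet, h.q_sp, h.q_Z _ p1 p2]
  have hpow : ∀ j, j < 3 * (a + 1) → q ^ j • m = R.φ (cB a M T Y j) := by
    intro j
    induction j with
    | zero =>
      intro _
      rw [pow_zero, one_smul, BoolData.cB_zero]
      exact hM
    | succ j ih =>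
      intro hj
      rw [pow_succ', mul_smul, ih (by omega), hstep j (by omega), Nat.mod_eq_of_lt hj]
  refine ⟨Ω, R, M, T, Y, hM, hT, hB, hsp, hsm, hZp, hZm, hi, hc0, hc, hpow, ?_⟩
  have e : 3 * (a + 1) = (3 * (a + 1) - 1) + 1 := by omega
  rw [e, pow_succ', mul_smul, hpow _ (by omega), hstep _ (by omega), ← e, Nat.mod_self, BoolData.cB_zero]
  exact hM.symm

/-- `q^{n'} m = m`, `n' = 3 (a + 1)` -/
theorem per (h : MarkerData q a c0 m iota IT X) : q ^ (3 * (a + 1)) • m = m := by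
  obtain ⟨Ω, R, M, T, Y, hM, hT, hB, hsp, hsm, hZp, hZm, hi, hc0, hc, hpow, hper⟩ := h.main
  exact hper

/-- the next level digits form a partition of `c_0` -/
theorem part (h : MarkerData q a c0 m iota IT X) :
    IsPart (fun j : Fin (3 * (a + 1)) => q ^ (j : ℕ) • m) c0 := by
  obtain ⟨Ω, R, M, T, Y, hM, hT, hB, hsp, hsm, hZp, hZm, hi, hc0, hc, hpow, hper⟩ := h.main
  have e : (fun j : Fin (3 * (a + 1)) => q ^ (j : ℕ) • m) =
      fun j : Fin (3 * (a + 1)) => R.φ (cB a M T Y j) := funext fun j => hpow j j.2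
  have hd : ∀ i j : Fin (3 * (a + 1)), i ≠ j → Disjoint (cB a M T Y i) (cB a M T Y j) :=
    fun i j hij => hB.disj_cB i.2 j.2 (fun hh => hij (Fin.ext hh))
  rw [e]
  constructor
  · intro i j hij
    rw [R.orth_iff]
    exact hd i j hij
  · rw [R.ev (fun j : Fin (3 * (a + 1)) => cB a M T Y j), hc0, ← hB.union_cB]
    simp

/-- formula for the digits -/
theorem cn_eq (h : MarkerData q a c0 m iota IT X) {j : ℕ} (hj : j < 3 * (a + 1)) :
    q ^ j • m = spE m IT (sv (a + 1) j) ⊓ₒ ZpE a m IT X (pos a j) := by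
  obtain ⟨Ω, R, M, T, Y, hM, hT, hB, hsp, hsm, hZp, hZm, hi, hc0, hc, hpow, hper⟩ := h.main
  obtain ⟨p1, p2⟩ := h.pos_bounds hj
  rw [hsp, hZp _ p1 p2, R.meet, hpow j hj]
  rfl

theorem le_sp (h : MarkerData q a c0 m iota IT X) {j : ℕ} (hj : j < 3 * (a + 1)) :
    q ^ j • m ≤ spE m IT (sv (a + 1) j) := by
  obtain ⟨Ω, R, M, T, Y, hM, hT, hB, hsp, hsm, hZp, hZm, hi, hc0, hc, hpow, hper⟩ := h.main
  rw [hpow j hj, hsp, R.le_iff]
  exact Set.inter_subset_left

theorem le_Zp (h : MarkerData q a c0 m iota IT X) {j : ℕ} (hj : j < 3 * (a + 1)) :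
    q ^ j • m ≤ ZpE a m IT X (pos a j) := by
  obtain ⟨Ω, R, M, T, Y, hM, hT, hB, hsp, hsm, hZp, hZm, hi, hc0, hc, hpow, hper⟩ := h.main
  obtain ⟨p1, p2⟩ := h.pos_bounds hj
  rw [hpow j hj, hZp _ p1 p2, R.le_iff]
  exact Set.inter_subset_right

theorem prev_lt {a j : ℕ} (hj : j < 3 * (a + 1)) : prev a j < 3 * (a + 1) := by
  unfold prev; split_ifs <;> omega

theorem smul_prev (h : MarkerData q a c0 m iota IT X) {j : ℕ} (hj : j < 3 * (a + 1)) :
    q • q ^ prev a j • m = q ^ j • m := by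
  unfold prev
  split_ifs with h0
  · subst h0
    rw [← mul_smul, ← pow_succ', Nat.sub_add_cancel (by omega), h.per, pow_zero, one_smul]
  · rw [← mul_smul, ← pow_succ', Nat.sub_add_cancel (by omega)]

theorem le_sm (h : MarkerData q a c0 m iota IT X) {j : ℕ} (hj : j < 3 * (a + 1)) :
    q ^ j • m ≤ smE m IT (sv (a + 1) (prev a j)) := by
  rw [← h.smul_prev hj, ← h.q_sp, smul_le_smul_iff]
  exact h.le_sp (prev_lt hj)

theorem le_Zm (h : MarkerData q a c0 m iota IT X) {j : ℕ} (hj : j < 3 * (a + 1)) :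
    q ^ j • m ≤ ZmE a m IT X (pos a (prev a j)) := by
  obtain ⟨p1, p2⟩ := h.pos_bounds (prev_lt hj)
  rw [← h.smul_prev hj, ← h.q_Z _ p1 p2, smul_le_smul_iff]
  exact h.le_Zp (prev_lt hj)


theorem le_IT (h : MarkerData q a c0 m iota IT X) {j : ℕ} (h0 : 0 < j) (hj : j < 3 * (a + 1)) :
    q ^ j • m ≤ IT (tauOf (a + 1) j) := by
  obtain ⟨Ω, R, M, T, Y, hM, hT, hB, hsp, hsm, hZp, hZm, hi, hc0, hc, hpow, hper⟩ := h.main
  have h2 := h.two_le
  have e1 : cB a M T Y j ⊆ spB M T (sv (a + 1) j) := Set.inter_subset_left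
  have e2 : cB a M T Y j ⊆ smB M T (sv (a + 1) (j - 1)) := by
    have := hB.cmB_eq (j := j - 1) (by omega)
    rw [Nat.sub_add_cancel (by omega), Nat.mod_eq_of_lt hj] at this
    rw [← this]
    exact Set.inter_subset_left
  have n1 : sv (a + 1) j ≠ .f := by
    have := sv_pos_cases h2 hj
    rcases this with ⟨h0, h1, h2⟩ | ⟨h0, h0', h1, h2⟩ | ⟨h0, h0', h1, h2⟩ |
        ⟨h0, h0', h1, h2⟩ | ⟨h0, h1, h2⟩ <;> rw [h1] <;> first | decide | omega
  have n2 : sv (a + 1) (j - 1) ≠ .l := by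
    have := sv_pos_cases (j := j - 1) h2 (by omega)
    rcases this with ⟨h0, h1, h2⟩ | ⟨h0, h0', h1, h2⟩ | ⟨h0, h0', h1, h2⟩ |
        ⟨h0, h0', h1, h2⟩ | ⟨h0, h1, h2⟩ <;> rw [h1] <;> first | decide | omega
  rw [hpow j hj, hT, R.le_iff]
  intro w hw
  have w1 := e1 hw
  have w2 := e2 hw
  rw [spB, if_neg n1] at w1
  rw [smB, if_neg n2] at w2
  obtain ⟨th, t1, t2⟩ := w1
  obtain ⟨th', t3, t4⟩ := w2
  have := hB.TT t2 t4
  subst this
  rw [← rn3_eq_tauOf (by omega) h0 hj t3 t1]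
  exact t2

theorem le_iota (h : MarkerData q a c0 m iota IT X) {j : ℕ} (h0 : 0 < j)
    (hj : j < 3 * (a + 1)) : q ^ j • m ≤ iota :=
  (h.le_IT h0 hj).trans (h.part_IT.le_total _)


end MarkerData

end Crest.Agent.R189
end

-- ▼ part R189/RN2b
section

/-!
Row 189, E2 steps 6-7 for a level structure `LS` (interface of 738's `RNDefs`, `RNBasic`, `RN5`).

* `LS.rowSys : RowSys a (c 0) m (Row · {·})`
-/

set_option autoImplicit false

namespace Crest.Agent.R189
open Romp RN2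

variable {G E : Type*} [CommGroup G] [ROMP E] [OMPAct G E]
variable {D : E} {p q : G} {a : ℕ} {c : ℕ → E} {St : Star → E}

namespace LS

/-- the row atoms -/
noncomputable def rowAt (p : G) (c : ℕ → E) (St : Star → E) (i : ℕ) (s : Star) : E :=
  Row p c St i {s}

theorem ev_rowAt (h : LS D p q a c St) (i : ℕ) (A : Set Star) :
    ev (rowAt p c St i) A = Row p c St i A := (h.Row_eq_ev i A).symm

theorem rowSys_of (h : LS D p q a c St) (hm : ModeFacts p q a c St) :
    RowSys a (c 0) (modeEv q (c 0) St) (rowAt p c St) where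
  ha := h.three_le
  part i _ := h.rowPart i
  null i h1 h2 s hs := h.Row_atom_bot h1 h2 hs
  link i hi lam := by
    rw [h.ev_rowAt, h.ev_rowAt]
    exact h.Lab_eq_Row_succ i {lam}
  hm i h1 h2 := by
    have h3 := h.three_le
    rw [h.ev_rowAt, hm.row i h1 h2]
    refine h.Row_eq_Row (by omega) (by omega) fun s h4 h5 => ?_
    show Rt s ↔ s.Qf.s = some .f
    refine (fact_Rf _ (RN2.core_mem h4) ?_).symm
    show s.Qb.tau.active = true
    rw [h5]
    unfold tauOf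
    split_ifs <;> first | rfl | omega

theorem rowSys (h : LS D p q a c St) : RowSys a (c 0) (modeEv q (c 0) St) (rowAt p c St) :=
  h.rowSys_of h.modeFacts

/-- L8 on the row atoms -/
theorem shift_row (h : LS D p q a c St) {i : ℕ} (h0 : 0 < i) (h1 : i < 3 * a)
    (st : Option (S × Rel)) :
    q • ev (rowAt p c St i) {s | s.Qf.st = st} = ev (rowAt p c St i) {s | s.Qb.st = st} := by
  rw [h.ev_rowAt, h.ev_rowAt]
  exact h.q_Row h0 h1 {st}






/-- 578's `MarkerData` -/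
theorem markerData (h : LS D p q a c St) :
    MarkerData q a (c 0) (modeEv q (c 0) St) (c 0 -ₒ modeEv q (c 0) St)
      h.rowSys.IT h.rowSys.X where
  two_le := by have := h.three_le; omega
  orth := orth_sub h.rowSys.m_le
  add := add_sub h.rowSys.m_le
  part_IT := h.rowSys.IT_part
  comm_X i h1 h2 th := h.rowSys.X_comm_IT h1 h2 th
  part_X := by rw [← h.rowSys.J_eq_IT]; exact h.rowSys.X_part
  X_00 := h.rowSys.X_00
  X_f0 i h1 h2 := h.rowSys.X_f0 h1 h2
  X_2l i h1 h2 := h.rowSys.X_2l h1 h2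
  X_22 := h.rowSys.X_22
  q_sp s := by
    have h3 := h.three_le
    exact h.rowSys.q_sp q (h.shift_row (i := a) (by omega) (by omega)) s
  q_Z i h1 h2 := by
    have h3 := h.three_le
    have hs := h.rowSys.shift_Z q (i := i) (by omega) (h.shift_row (i := i) (by omega) (by omega))
    have hK : h.rowSys.K = modeEv q (c 0) St +ₒ ev h.rowSys.IT {th | th.reset = true} := by
      rw [h.rowSys.K_eq, h.rowSys.Jr_eq_IT]
    have e1 : ZpE a (modeEv q (c 0) St) h.rowSys.IT h.rowSys.X i = h.rowSys.Zp i := by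
      unfold ZpE
      split_ifs with hi
      · rw [hi, h.rowSys.Zp_first, hK]
      · have h4 := h.rowSys.Zp_succ (i := i - 1) (by omega) (by omega)
        rw [show i - 1 + 1 = i by omega] at h4
        exact h4.symm
    have e2 : ZmE a (modeEv q (c 0) St) h.rowSys.IT h.rowSys.X i = h.rowSys.Zm i := by
      unfold ZmE
      split_ifs with hi
      · rw [hi, h.rowSys.Zm_last, hK]
      · exact (h.rowSys.Zm_eq h1 (by omega)).symm
    rw [e1, e2, hs]

end LS
end Crest.Agent.R189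
end

-- ▼ part R189/RN4
section

/-!
# Row 189, part E2, step 9: centrality of the next level digits (L4')

`comm_next_core` : the digits `C j` (partition of `c 0` cyclically shifted by `q`, `C 0 = A₀ ⊓ B₀`)
commute with every star event `c 0 ⊓ St s`.
The facts of the earlier steps are hypotheses.
-/

set_option autoImplicit false

namespace Crest.Agent.R189

open Romp

section

variable {G E : Type*} [CommGroup G] [ROMP E] [OMPAct G E]

/-- an event commuting with the label events of three half edges and the `domP` bit commutes with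
every star -/
theorem comm_star_of_labels {T : Star → E} {D x : E} (hT : IsPart T D)
    (h0 : Comm x (ev T {s | s.domP = true}))
    (hQ : ∀ L : Label, Comm x (ev T {s | s.Qb = L}))
    (hf : ∀ L : Label, Comm x (ev T {s | s.Pf = L}))
    (hb : ∀ L : Label, Comm x (ev T {s | s.Pb = L}))
    (hD : Comm x D) (s : Star) : Comm x (T s) := by
  have h0' : Comm x (ev T {t | t.domP = s.domP}) := by
    cases hs : s.domP with
    | true => exact h0
    | false =>
      have h1 : ev T {t : Star | t.domP = false} = D -ₒ ev T {t : Star | t.domP = true} := by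
        rw [hT.sub_ev]
        congr 1
        ext t
        simp
      rw [h1]
      exact hD.sub_right h0 (hT.ev_le_total _)
  have key : T s = ((ev T {t | t.domP = s.domP} ⊓ₒ ev T {t | t.Qb = s.Qb}) ⊓ₒ
      ev T {t | t.Pf = s.Pf}) ⊓ₒ ev T {t | t.Pb = s.Pb} := by
    rw [hT.ev_meet, hT.ev_meet, hT.ev_meet, ← ev_singleton (P := T) s]
    congr 1
    ext t
    constructor
    · intro ht
      rw [Set.mem_singleton_iff] at ht
      subst ht
      exact ⟨⟨⟨rfl, rfl⟩, rfl⟩, rfl⟩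
    · rintro ⟨⟨⟨h1, h2⟩, h3⟩, h4⟩
      exact Star.eq_of_Qb _ _ h1 h4 h3 h2
  rw [key]
  refine Comm.meet_right (Comm.meet_right (Comm.meet_right h0' (hQ _) (hT.comm_ev _ _))
    (hf _) ?_) (hb _) ?_
  · rw [hT.ev_meet]; exact hT.comm_ev _ _
  · rw [hT.ev_meet, hT.ev_meet]; exact hT.comm_ev _ _

/-- **Step 9 (centrality), core.** `T s = c 0 ∧ St s`, `C j` the next level digits. -/
theorem comm_next_core {T : Star → E} {c0 : E} (hT : IsPart T c0) {q : G} {N : ℕ} (hN : 1 < N)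
    {C : ℕ → E} (hC : ∀ j, q • C j = C (j + 1)) (hper : C N = C 0)
    (horth : ∀ j, 0 < j → j < N → Orth (C j) (C 0))
    (hle : ∀ j, j < N → C j ≤ c0)
    -- (L7)
    (hQ : ∀ L : Label, q • ev T {s | s.Qf = L} = ev T {s | s.Qb = L})
    -- step 3
    {A0 B0 : E} (hA0 : A0 = q • ev T {s | s.Pf.tau = .t2l})
    (hB0 : B0 = q⁻¹ • ev T {s | s.Pf.tau = .f0})
    (hAB : Comm A0 B0) (hm : C 0 = A0 ⊓ₒ B0) (hA1 : A0 -ₒ C 0 ≤ C 1)
    -- (a)
    (hPf : ∀ j, j < N → ∀ L : Label, Comm (C j) (ev T {s | s.Pf = L}))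
    (hPb : ∀ j, j < N → ∀ L : Label, Comm (C j) (ev T {s | s.Pb = L}))
    -- (b)
    (hV : ev T {s | s.domP = true} ≤ C 0)
    (h1f : ∃ L : Label, C 1 ≤ ev T {s | s.Pf = L})
    (h1b : ∃ L : Label, C 1 ≤ ev T {s | s.Pb = L}) :
    ∀ j s, Comm (C j) (T s) := by
  have hm_le : C 0 ≤ A0 := by rw [hm]; exact meet_le_left hAB
  -- periodicity
  have hperj : ∀ j, C (j + N) = C j := by
    intro j
    induction j with
    | zero => simpa using hper
    | succ j ih => rw [show j + 1 + N = (j + N) + 1 by ring, ← hC, ih, hC]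
  have hmod : ∀ j, C j = C (j % N) := by
    intro j
    induction j using Nat.strong_induction_on with
    | _ j ih =>
      by_cases hj : j < N
      · rw [Nat.mod_eq_of_lt hj]
      · have h1 : j = (j - N) + N := by omega
        rw [h1, hperj, Nat.add_mod_right]
        exact ih _ (by omega)
  have hNpos : 0 < N := by omega
  have hle' : ∀ j, C j ≤ c0 := fun j => by rw [hmod j]; exact hle _ (Nat.mod_lt _ hNpos)
  have hPf' : ∀ j, ∀ L : Label, Comm (C j) (ev T {s | s.Pf = L}) := fun j => by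
    rw [hmod j]; exact hPf _ (Nat.mod_lt _ hNpos)
  have hPb' : ∀ j, ∀ L : Label, Comm (C j) (ev T {s | s.Pb = L}) := fun j => by
    rw [hmod j]; exact hPb _ (Nat.mod_lt _ hNpos)
  have hV' : ∀ j, Comm (C j) (ev T {s | s.domP = true}) := by
    intro j
    rw [hmod j]
    rcases Nat.eq_zero_or_pos (j % N) with h0 | h0
    · rw [h0]; exact comm_of_ge hV
    · exact comm_of_orth ((horth _ h0 (Nat.mod_lt _ hNpos)).mono_right hV)
  -- `R_μ ~ B₀`
  have hRB : ∀ L : Label, Comm B0 (ev T {s | s.Qf = L}) := by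
    intro L
    rw [hB0, comm_inv_smul_iff, hQ]
    exact hT.comm_ev _ _
  -- labels commute with `A₀`
  have hA0add : C 0 +ₒ (A0 -ₒ C 0) = A0 := add_sub hm_le
  have hAo : Orth (C 0) (A0 -ₒ C 0) := orth_sub hm_le
  have hAf : ∀ L : Label, Comm A0 (ev T {s | s.Pf = L}) := by
    intro L
    obtain ⟨L1, hL1⟩ := h1f
    rw [← hA0add]
    refine Comm.add_left (hPf 0 hNpos L) ?_ hAo
    by_cases hL : L = L1
    · subst hL; exact comm_of_le (hA1.trans hL1)
    · refine comm_of_orth (Orth.mono_left ?_ (hA1.trans hL1))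
      refine hT.ev_orth ?_
      rw [Set.disjoint_left]
      intro s hs hs'
      exact hL (hs'.symm.trans hs)
  have hAb : ∀ L : Label, Comm A0 (ev T {s | s.Pb = L}) := by
    intro L
    obtain ⟨L1, hL1⟩ := h1b
    rw [← hA0add]
    refine Comm.add_left (hPb 0 hNpos L) ?_ hAo
    by_cases hL : L = L1
    · subst hL; exact comm_of_le (hA1.trans hL1)
    · refine comm_of_orth (Orth.mono_left ?_ (hA1.trans hL1))
      refine hT.ev_orth ?_
      rw [Set.disjoint_left]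
      intro s hs hs'
      exact hL (hs'.symm.trans hs)
  have hAQ : ∀ L : Label, Comm A0 (ev T {s | s.Qb = L}) := by
    intro L
    rw [hA0, ← hQ, smul_comm_iff]
    exact hT.comm_ev _ _
  have hA0c : Comm A0 c0 := by
    rw [← hA0add]
    exact Comm.add_left (comm_of_le (hle 0 hNpos)) (comm_of_le (hA1.trans (hle 1 hN))) hAo
  have hAT : ∀ s, Comm A0 (T s) :=
    comm_star_of_labels hT (comm_of_ge (hV.trans hm_le)) hAQ hAf hAb hA0c
  -- `R_μ ~ A₀ ∧ B₀ = C 0`
  have hR0 : ∀ L : Label, Comm (C 0) (ev T {s | s.Qf = L}) := by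
    intro L
    rw [hm]
    exact Comm.meet_left (hT.comm_right hAT _) (hRB L) hAB
  -- induction
  have hstep : ∀ j, (∀ L : Label, Comm (C j) (ev T {s | s.Qf = L})) → ∀ s, Comm (C (j + 1)) (T s) := by
    intro j hj
    refine comm_star_of_labels hT (hV' _) ?_ (hPf' _) (hPb' _) (comm_of_le (hle' _))
    intro L
    rw [← hC, ← hQ, smul_comm_iff]
    exact hj L
  have hR : ∀ j, ∀ L : Label, Comm (C j) (ev T {s | s.Qf = L}) := by
    intro j
    induction j with
    | zero => exact hR0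
    | succ j ih => exact fun L => hT.comm_right (hstep j ih) _
  intro j
  have h1 : C j = C ((j + (N - 1)) + 1) := by
    rw [show j + (N - 1) + 1 = j + N by omega, hperj]
  rw [h1]
  exact hstep _ (hR _)

end

/-! ### the statement for a level structure -/

section

variable {G E : Type*} [CommGroup G] [ROMP E] [OMPAct G E]
variable {D : E} {p q : G} {a : ℕ} {c : ℕ → E} {St : Star → E}

namespace LS

variable (h : LS D p q a c St)
include h

/-- Step 9 (a), forward: an event of some row algebra, which is below `[Pf.u = A]` or commutes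
with all labels, commutes with `[Pf = L]`. -/
theorem comm_Pf_of {x : E} {i : ℕ} (hi : i < 3 * a) {A : Set Star} (hx : x = Row p c St i A)
    {j : ℕ} (hj : j < 3 * a) {v : Mem} (hv : x ≤ Lab p c St j {L | L.u = v}) (L : Label) :
    Comm x (Lab p c St j {L}) := by
  have hts : Comm x (Lab p c St j {L' | (L'.tau, L'.st) ∈ ({(L.tau, L.st)} : Set _)}) := by
    rw [h.Lab_tau_st hj, ← h.Lab_tau_st hi, hx, Lab_eq_Row]
    exact h.Row_comm _ _ _
  by_cases hL : L.u = v
  · have e : Lab p c St j {L} = Lab p c St j {L' | (L'.tau, L'.st) ∈ ({(L.tau, L.st)} : Set _)} ⊓ₒ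
        Lab p c St j {L | L.u = v} := by
      rw [Lab_eq_Row, Lab_eq_Row, Lab_eq_Row, h.Row_meet]
      congr 1
      ext s
      simp only [Set.mem_ofPred_eq, Set.mem_singleton_iff, Set.mem_inter_iff, Prod.mk.injEq]
      constructor
      · rintro rfl; exact ⟨⟨rfl, rfl⟩, hL⟩
      · rintro ⟨⟨h1, h2⟩, h3⟩
        rw [← hL] at h3
        revert h1 h2 h3
        cases s.Pf; cases L
        rintro h1 h2 h3
        simp only at h1 h2 h3
        subst h1 h2 h3
        rfl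
    rw [e]
    refine Comm.meet_right hts (comm_of_le hv) ?_
    rw [Lab_eq_Row, Lab_eq_Row]
    exact h.Row_comm _ _ _
  · refine comm_of_orth (Orth.mono_left ?_ hv)
    rw [Lab_eq_Row, Lab_eq_Row]
    refine h.Row_orth _ ?_
    rw [Set.disjoint_left]
    rintro s hs hs'
    simp only [Set.mem_ofPred_eq, Set.mem_singleton_iff] at hs hs'
    rw [hs'] at hs
    exact hL hs

/-- **Step 9 (L4')** : the next level digits commute with the next level stars. -/
theorem comm_next_of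
    (hpart : IsPart (fun j : Fin (3 * (a + 1)) => nextC q c St j) (c 0))
    (hper : nextC q c St (3 * (a + 1)) = nextC q c St 0)
    (hpn : p ^ (3 * a) • modeEv q (c 0) St = modeEv q (c 0) St)
    (hAB : Comm (q • (c 0 ⊓ₒ ev St {s | s.Pf.tau = .t2l}))
      (q⁻¹ • (c 0 ⊓ₒ ev St {s | s.Pf.tau = .f0})))
    (hA1 : (q • (c 0 ⊓ₒ ev St {s | s.Pf.tau = .t2l})) -ₒ modeEv q (c 0) St ≤
      q • modeEv q (c 0) St)
    (hmL : ∀ j, j < 3 * a → ∀ L : Label, Comm (modeEv q (c 0) St) (Lab p c St j {L}))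
    (hrow : ∀ j', 0 < j' → j' < 3 * (a + 1) → ∃ i, i < 3 * a ∧ ∃ A : Set Star,
      nextC q c St j' = Row p c St i A)
    (hiA : c 0 -ₒ modeEv q (c 0) St ≤ Lab p c St 0 {L | L.u = .A})
    (hiB : c 0 -ₒ modeEv q (c 0) St ≤ Lab p c St (3 * a - 1) {L | L.u = .B})
    (hdom : c 0 -ₒ modeEv q (c 0) St ≤ Row p c St 0 {s | s.domP = false}) :
    ∀ j', ∀ s, Comm (nextC q c St j') (nextSt c St s) := by
  have ha := h.three_le
  have hT : IsPart (fun s => c 0 ⊓ₒ St s) (c 0) := h.capPart 0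
  have hev : ∀ A : Set Star, ev (fun s => c 0 ⊓ₒ St s) A = c 0 ⊓ₒ ev St A :=
    fun A => (h.cap_eq_ev 0 A).symm
  have hevR : ∀ A : Set Star, ev (fun s => c 0 ⊓ₒ St s) A = Row p c St 0 A :=
    fun A => by rw [hev, Row_zero']
  have hC : ∀ j, q • nextC q c St j = nextC q c St (j + 1) := by
    intro j; rw [nextC, nextC, pow_succ', mul_smul]
  have h0 : nextC q c St 0 = modeEv q (c 0) St := by rw [nextC, pow_zero, one_smul]
  have h1 : nextC q c St 1 = q • modeEv q (c 0) St := by rw [nextC, pow_one]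
  have hmle : modeEv q (c 0) St ≤ c 0 := by
    have := hpart.le_total ⟨0, by omega⟩
    simpa [h0] using this
  have horth : ∀ j, 0 < j → j < 3 * (a + 1) → Orth (nextC q c St j) (nextC q c St 0) := by
    intro j hj0 hj
    exact hpart.orth (i := ⟨j, hj⟩) (j := ⟨0, by omega⟩) (by
      intro hh; rw [Fin.mk.injEq] at hh; omega)
  have hle : ∀ j, j < 3 * (a + 1) → nextC q c St j ≤ c 0 := fun j hj => hpart.le_total ⟨j, hj⟩
  -- `C j ≤ iota`
  have hio : ∀ j, 0 < j → j < 3 * (a + 1) → nextC q c St j ≤ c 0 -ₒ modeEv q (c 0) St := by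
    intro j hj0 hj
    rw [le_sub_iff hmle]
    refine ⟨hle j hj, ?_⟩
    rw [← h0]
    exact horth j hj0 hj
  -- `p^n` invariance
  have hpnC : ∀ j, p ^ (3 * a) • nextC q c St j = nextC q c St j := by
    intro j
    rw [nextC, smul_swap, hpn]
  -- (a) forward
  have hPf : ∀ j, j < 3 * (a + 1) → ∀ L : Label,
      Comm (nextC q c St j) (ev (fun s => c 0 ⊓ₒ St s) {s | s.Pf = L}) := by
    intro j hj L
    have e : ev (fun s => c 0 ⊓ₒ St s) {s | s.Pf = L} = Lab p c St 0 {L} := by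
      rw [hevR, Lab_eq_Row]; rfl
    rw [e]
    rcases Nat.eq_zero_or_pos j with hj0 | hj0
    · subst hj0; rw [h0]; exact hmL 0 (by omega) L
    · obtain ⟨i, hi, A, hA⟩ := hrow j hj0 hj
      exact h.comm_Pf_of hi hA (by omega) ((hio j hj0 hj).trans hiA) L
  have hPbL : ∀ j, j < 3 * (a + 1) → ∀ L : Label,
      Comm (nextC q c St j) (Lab p c St (3 * a - 1) {L}) := by
    intro j hj L
    rcases Nat.eq_zero_or_pos j with hj0 | hj0
    · subst hj0; rw [h0]; exact hmL _ (by omega) L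
    · obtain ⟨i, hi, A, hA⟩ := hrow j hj0 hj
      exact h.comm_Pf_of hi hA (by omega) ((hio j hj0 hj).trans hiB) L
  have hPb : ∀ j, j < 3 * (a + 1) → ∀ L : Label,
      Comm (nextC q c St j) (ev (fun s => c 0 ⊓ₒ St s) {s | s.Pb = L}) := by
    intro j hj L
    have e : ev (fun s => c 0 ⊓ₒ St s) {s | s.Pb = L} = p ^ (3 * a) • Lab p c St (3 * a - 1) {L} := by
      rw [hevR, h.pn_Lab]; rfl
    rw [e, ← hpnC j, smul_comm_iff]
    exact hPbL j hj L
  -- (b)
  have hV : ev (fun s => c 0 ⊓ₒ St s) {s | s.domP = true} ≤ nextC q c St 0 := by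
    rw [h0, hevR]
    have h2 : Orth (Row p c St 0 {s | s.domP = true}) (c 0 -ₒ modeEv q (c 0) St) := by
      refine Orth.mono_right (h.Row_orth 0 ?_) hdom
      rw [Set.disjoint_left]
      intro s hs hs'
      simp only [Set.mem_ofPred_eq] at hs hs'
      rw [hs] at hs'
      exact absurd hs' (by decide)
    have h3 : Row p c St 0 {s | s.domP = true} ≤
        modeEv q (c 0) St +ₒ (c 0 -ₒ modeEv q (c 0) St) := by
      rw [add_sub hmle]; exact h.Row_le _ _
    exact le_of_le_add (orth_sub hmle) h3 h2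
  -- `C 1` has a known label
  have hC1io := hio 1 (by omega) (by omega)
  have hm_le_B : modeEv q (c 0) St ≤ q⁻¹ • (c 0 ⊓ₒ ev St {s | s.Pf.tau = .f0}) :=
    meet_le_right hAB
  have hC1t : nextC q c St 1 ≤ Row p c St 0 {s | s.Pf.tau = .f0} := by
    have := smul_le_smul q hm_le_B
    rw [smul_inv_smul] at this
    rw [h1, Row_zero']
    exact this
  have hstP : ∀ s : Star, s.Pf.tau = .f0 → s.Pf.st = none := fun s hs =>
    Star.st_none s.Pf_valid (by rw [hs]; rfl)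
  have hstP' : ∀ s : Star, s.Pb.tau = .f0 → s.Pb.st = none := fun s hs =>
    Star.st_none s.Pb_valid (by rw [hs]; rfl)
  have h1f : ∃ L : Label, nextC q c St 1 ≤ ev (fun s => c 0 ⊓ₒ St s) {s | s.Pf = L} := by
    refine ⟨⟨.f0, none, .A⟩, ?_⟩
    rw [hevR]
    refine (h.le_Row_inter hC1t (hC1io.trans hiA)).trans (h.Row_mono 0 ?_)
    rintro s ⟨hs1, hs2⟩
    simp only [Set.mem_ofPred_eq] at hs1 hs2 ⊢
    have hs3 := hstP s hs1
    revert hs1 hs2 hs3
    cases s.Pf
    rintro h1 h2 h3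
    simp only at h1 h2 h3
    subst h1 h2 h3
    rfl
  have h1b : ∃ L : Label, nextC q c St 1 ≤ ev (fun s => c 0 ⊓ₒ St s) {s | s.Pb = L} := by
    refine ⟨⟨.f0, none, .B⟩, ?_⟩
    rw [hevR]
    have hB : nextC q c St 1 ≤ Row p c St 0 {s | s.Pb ∈ ({L | L.u = .B} : Set Label)} := by
      rw [← h.pn_Lab, ← hpnC 1]
      exact smul_le_smul _ (hC1io.trans hiB)
    refine (h.le_Row_inter hC1t hB).trans (h.Row_mono 0 ?_)
    rintro s ⟨hs1, hs2⟩
    simp only [Set.mem_ofPred_eq] at hs1 hs2 ⊢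
    rw [← s.P_tau] at hs1
    have hs3 := hstP' s hs1
    revert hs1 hs2 hs3
    cases s.Pb
    rintro h1 h2 h3
    simp only at h1 h2 h3
    subst h1 h2 h3
    rfl
  intro j' s
  refine comm_next_core hT (q := q) (N := 3 * (a + 1)) (by omega) hC hper horth hle ?_ rfl rfl
    ?_ ?_ ?_ hPf hPb hV h1f h1b j' s.flip
  · intro L
    rw [hevR, hevR]
    exact h.q_Row0 {L}
  · rw [hev, hev]; exact hAB
  · rw [hev, hev, h0]; rfl
  · rw [hev, h0, h1]; exact hA1

/-- Step 9 with the facts of `RN1.lean` filled in. Left: steps 6-8. -/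
theorem comm_next_of_steps
    (hpart : IsPart (fun j : Fin (3 * (a + 1)) => nextC q c St j) (c 0))
    (hper : nextC q c St (3 * (a + 1)) = nextC q c St 0)
    (hrow : ∀ j', 0 < j' → j' < 3 * (a + 1) → ∃ i, i < 3 * a ∧ ∃ A : Set Star,
      nextC q c St j' = Row p c St i A)
    (hiA : c 0 -ₒ modeEv q (c 0) St ≤ Lab p c St 0 {L | L.u = .A})
    (hiB : c 0 -ₒ modeEv q (c 0) St ≤ Lab p c St (3 * a - 1) {L | L.u = .B})
    (hdom : c 0 -ₒ modeEv q (c 0) St ≤ Row p c St 0 {s | s.domP = false}) :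
    ∀ j', ∀ s, Comm (nextC q c St j') (nextSt c St s) := by
  have e1 : h.T {.t2l} = c 0 ⊓ₒ ev St {s | s.Pf.tau = .t2l} := Row_zero' _
  have e2 : h.T {.f0} = c 0 ⊓ₒ ev St {s | s.Pf.tau = .f0} := Row_zero' _
  refine h.comm_next_of hpart hper h.pow_m ?_ ?_ (fun j hj L => h.comm_m_Lab hj {L}) hrow hiA hiB hdom
  · rw [← e1, ← e2]; exact h.comm_A_B
  · rw [← e1]
    obtain ⟨X, hX, hA, hX2⟩ := h.A_eq
    rw [hA]
    have : h.m +ₒ X -ₒ modeEv q (c 0) St = X := add_sub_cancel hX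
    rw [this]
    exact hX2

end LS

end

end Crest.Agent.R189
end

-- ▼ part R189/RN6
section

/-!
# Row 189, THEOREM RN: `iota` facts for level structures, centrality, assembly
-/

set_option autoImplicit false

namespace Crest.Agent.R189

open Romp RN2

variable {G E : Type*} [CommGroup G] [ROMP E] [OMPAct G E]
variable {D : E} {p q : G} {a : ℕ} {c : ℕ → E} {St : Star → E}

namespace LS

theorem iota_le_Lab_A (h : LS D p q a c St) {j : ℕ} (hj : j < a) :
    c 0 -ₒ modeEv q (c 0) St ≤ Lab p c St j {L | L.u = .A} := by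
  have h1 := h.rowSys.iota_le_A hj
  rwa [h.ev_rowAt] at h1

theorem iota_le_Lab_B (h : LS D p q a c St) {j : ℕ} (hj : 2 * a ≤ j) (hj' : j < 3 * a) :
    c 0 -ₒ modeEv q (c 0) St ≤ Lab p c St j {L | L.u = .B} := by
  have h1 := h.rowSys.iota_le_B hj hj'
  rwa [h.ev_rowAt] at h1

theorem iota_le_Row0 (h : LS D p q a c St) :
    c 0 -ₒ modeEv q (c 0) St ≤ Row p c St 0 {s | s.Pf.u = .A ∧ s.Pb.u = .B ∧ s.domP = false} := by
  have h1 := h.rowSys.iota_le_domQ (p ^ (3 * a)) h.pow_m (h.pn_c 0) (by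
    intro lam
    rw [h.ev_rowAt, h.ev_rowAt]
    exact (h.pn_Lab {lam}).symm)
  rwa [h.ev_rowAt] at h1

theorem iota_le_dom (h : LS D p q a c St) :
    c 0 -ₒ modeEv q (c 0) St ≤ Row p c St 0 {s | s.domP = false} :=
  h.iota_le_Row0.trans (h.Row_mono 0 fun _ hs => hs.2.2)

/-- assembly of `LS.next` from the outputs of step 8 -/
theorem next_of' (h : LS D p q a c St)
    (hpart : IsPart (fun j : Fin (3 * (a + 1)) => nextC q c St j) (c 0))
    (hper : q ^ (3 * (a + 1)) • modeEv q (c 0) St = modeEv q (c 0) St)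
    (hrow : ∀ j', 0 < j' → j' < 3 * (a + 1) → ∃ i, i < 3 * a ∧ ∃ A : Set Star,
      nextC q c St j' = Row p c St i A)
    (hdom : ∀ j, 0 < j → j < 3 * (a + 1) → ∀ s : Star,
      ¬ (s.domP = true ∧ s.Qb.tau = tauOf (a + 1) j) → nextC q c St j ⊓ₒ nextSt c St s = ⊥) :
    LS (c 0) q (p ^ (3 * a)) (a + 1) (nextC q c St) (nextSt c St) :=
  h.next_of h.modeFacts hpart hper
    (fun j _ s => h.comm_next_of_steps hpart
      (by simp only [nextC]; rw [hper]; simp) hrow
      (h.iota_le_Lab_A (by have := h.three_le; omega))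
      (h.iota_le_Lab_B (by have := h.three_le; omega) (by have := h.three_le; omega))
      h.iota_le_dom j s) hdom

end LS

end Crest.Agent.R189
end

-- ▼ part R189/RN3b
section

/-!
# Row 189, step 8 in `LS` form

Given `H : MarkerData q a (c 0) (modeEv q (c 0) St) iota IT X` and the inequalities
`IT th ≤ Row 0 {Pf.tau = th}`, `iota ≤ Row 0 {domP = false}`:
`LS.next_part`, `LS.next_per`, `LS.next_dom`.
-/

set_option autoImplicit false

namespace Crest.Agent.R189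

open Romp

variable {G E : Type*} [CommGroup G] [ROMP E] [OMPAct G E]
variable {D : E} {p q : G} {a : ℕ} {c : ℕ → E} {St : Star → E}
variable {iota : E} {IT : Tau → E} {X : ℕ → E}

namespace LS



theorem next_le_tau_of (_h : LS D p q a c St)
    (H : MarkerData q a (c 0) (modeEv q (c 0) St) iota IT X)
    (hIT : ∀ th, IT th ≤ Row p c St 0 {s | s.Pf.tau = th}) {j : ℕ} (h0 : 0 < j)
    (hj : j < 3 * (a + 1)) :
    nextC q c St j ≤ Row p c St 0 {s | s.Pf.tau = tauOf (a + 1) j} :=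
  (H.le_IT h0 hj).trans (hIT _)

/-- (L5') -/
theorem next_dom_of (h : LS D p q a c St)
    (H : MarkerData q a (c 0) (modeEv q (c 0) St) iota IT X)
    (hIT : ∀ th, IT th ≤ Row p c St 0 {s | s.Pf.tau = th})
    (hdom : iota ≤ Row p c St 0 {s | s.domP = false}) :
    ∀ j, 0 < j → j < 3 * (a + 1) → ∀ s : Star,
      ¬ (s.domP = true ∧ s.Qb.tau = tauOf (a + 1) j) → nextC q c St j ⊓ₒ nextSt c St s = ⊥ := by
  intro j h0 hj s hs
  apply meet_eq_bot_of_orth
  have e1 : nextC q c St j ≤ Row p c St 0 ({s | s.domP = false} ∩ {s | s.Pf.tau = tauOf (a + 1) j}) :=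
    h.le_Row_inter ((H.le_iota h0 hj).trans hdom) (h.next_le_tau_of H hIT h0 hj)
  have e2 : nextSt c St s = Row p c St 0 {s.flip} := by
    rw [h.Row_zero, ev_singleton]; rfl
  rw [e2]
  refine (h.Row_orth 0 ?_).mono_left e1
  rw [Set.disjoint_singleton_right]
  rintro ⟨h1, h2⟩
  apply hs
  simp only [Set.mem_ofPred_eq, Star.flip_domP] at h1
  simp only [Set.mem_ofPred_eq, Star.flip_Pf] at h2
  refine ⟨by simpa using h1, ?_⟩
  rw [Star.Q_tau]
  exact h2

end LS

end Crest.Agent.R189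
end

-- ▼ part R189/RN3c
section

/-!
# Row 189, step 8 for a level structure

`LS.next_part`, `LS.next_per`, `LS.next_row`, `LS.next_dom`, `LS.xHyp`.
-/

set_option autoImplicit false

namespace Crest.Agent.R189

open Romp RN2

variable {G E : Type*} [CommGroup G] [ROMP E] [OMPAct G E]
variable {D : E} {p q : G} {a : ℕ} {c : ℕ → E} {St : Star → E}

namespace LS

theorem next_part (h : LS D p q a c St) :
    IsPart (fun j : Fin (3 * (a + 1)) => nextC q c St j) (c 0) := h.markerData.part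

theorem next_per (h : LS D p q a c St) :
    q ^ (3 * (a + 1)) • modeEv q (c 0) St = modeEv q (c 0) St := h.markerData.per

theorem IT_le (h : LS D p q a c St) (th : Tau) :
    h.rowSys.IT th ≤ Row p c St 0 {s | s.Pf.tau = th} := by
  have h3 := h.three_le
  have e : Row p c St 0 {s | s.Pf.tau = th} = ev (rowAt p c St a) {s | s.Pf.tau = th} := by
    rw [h.ev_rowAt]
    exact (h.Row_tau a {th}).symm
  rw [e]
  refine (h.rowSys.part a (by omega)).ev_mono ?_
  rintro s ⟨-, h2⟩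
  show s.Pf.tau = th
  rw [← s.P_tau]
  exact h2

/-- (L5') -/
theorem next_dom (h : LS D p q a c St) : ∀ j, 0 < j → j < 3 * (a + 1) → ∀ s : Star,
    ¬ (s.domP = true ∧ s.Qb.tau = tauOf (a + 1) j) → nextC q c St j ⊓ₒ nextSt c St s = ⊥ :=
  h.next_dom_of h.markerData h.IT_le h.iota_le_dom

theorem sp_eq (h : LS D p q a c St) {i : ℕ} (h1 : a ≤ i) (h2 : i ≤ 2 * a) (σ : S) :
    spE (modeEv q (c 0) St) h.rowSys.IT σ = Row p c St i {s | s.Qf.s = some σ} := by
  rw [← h.ev_rowAt, h.rowSys.sp_row h1 h2]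
  rfl

theorem sm_eq (h : LS D p q a c St) {i : ℕ} (h1 : a ≤ i) (h2 : i ≤ 2 * a) (σ : S) :
    smE (modeEv q (c 0) St) h.rowSys.IT σ = Row p c St i {s | s.Qb.s = some σ} := by
  rw [← h.ev_rowAt, h.rowSys.sm_row h1 h2]
  rfl

theorem K_eq' (h : LS D p q a c St) :
    modeEv q (c 0) St +ₒ ev h.rowSys.IT {th | th.reset = true} = h.rowSys.K := by
  rw [h.rowSys.K_eq, h.rowSys.Jr_eq_IT]

theorem Zm_eq' (h : LS D p q a c St) {i : ℕ} (h1 : a ≤ i) (h2 : i ≤ 2 * a) :
    ZmE a (modeEv q (c 0) St) h.rowSys.IT h.rowSys.X i = Row p c St i {s | s.Qb.r = some .z} := by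
  rw [← h.ev_rowAt]
  unfold ZmE
  split_ifs with hi
  · rw [h.K_eq', hi]
    exact h.rowSys.Zm_last.symm
  · exact (h.rowSys.Zm_eq h1 (by omega)).symm

theorem Zp_eq' (h : LS D p q a c St) {i : ℕ} (h1 : a ≤ i) (h2 : i ≤ 2 * a) :
    ZpE a (modeEv q (c 0) St) h.rowSys.IT h.rowSys.X i = Row p c St i {s | s.Qf.r = some .z} := by
  rw [← h.ev_rowAt]
  unfold ZpE
  split_ifs with hi
  · rw [h.K_eq', hi]
    exact h.rowSys.Zp_first.symm
  · have := (h.rowSys.Zp_succ (i := i - 1) (by omega) (by omega)).symm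
    rw [Nat.sub_add_cancel (by omega)] at this
    exact this

/-- each next level digit is a row event -/
theorem next_eq_row (h : LS D p q a c St) {j : ℕ} (hj : j < 3 * (a + 1)) :
    nextC q c St j = Row p c St (pos a j)
      ({s | s.Qf.s = some (sv (a + 1) j)} ∩ {s | s.Qf.r = some .z}) := by
  obtain ⟨p1, p2⟩ := h.markerData.pos_bounds hj
  have := h.markerData.cn_eq hj
  rw [h.sp_eq p1 p2, h.Zp_eq' p1 p2, h.Row_meet] at this
  exact this


theorem next_row (h : LS D p q a c St) : ∀ j', 0 < j' → j' < 3 * (a + 1) →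
    ∃ i, i < 3 * a ∧ ∃ A : Set Star, nextC q c St j' = Row p c St i A := by
  intro j _ hj
  have h3 := h.three_le
  obtain ⟨p1, p2⟩ := h.markerData.pos_bounds hj
  exact ⟨pos a j, by omega, _, h.next_eq_row hj⟩

theorem xHyp (h : LS D p q a c St) {j' : ℕ} (hj' : j' < 3 * (a + 1)) :
    RNX.XHyp p a c St j' (nextC q c St j') where
  f i h1 h2 := by
    rw [← h.sp_eq h1 h2]
    exact h.markerData.le_sp hj'
  b i h1 h2 := by
    rw [← h.sm_eq h1 h2]
    exact h.markerData.le_sm hj'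
  z := by
    obtain ⟨p1, p2⟩ := h.markerData.pos_bounds (MarkerData.prev_lt hj')
    rw [← h.Zm_eq' p1 p2]
    exact h.markerData.le_Zm hj'

theorem next_le (h : LS D p q a c St) {j' : ℕ} (hj' : j' < 3 * (a + 1)) :
    nextC q c St j' ≤ c 0 := h.next_part.le_total ⟨j', hj'⟩

end LS

end Crest.Agent.R189
end

-- ▼ part R189/RN

/-!
# Row 189, THEOREM RN (renormalisation) with (X1), (X2)

RN1 (helper535): steps 1-5; RN2, RN2b (helper829): steps 6-7; RN3, RN3b, RN3c (helper578): step 8;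
RN4 (helper310): step 9; RNBasic, RN5, RN6 (helper738): step 10; RNX (helper281): (X1), (X2).
-/

set_option autoImplicit false

namespace Crest.Agent.R189

open Romp

variable {G E : Type*} [CommGroup G] [ROMP E] [OMPAct G E]
variable {D : E} {p q : G} {a : ℕ} {c : ℕ → E} {St : Star → E}

/-- **Theorem RN** -/
theorem LS.next (h : LS D p q a c St) :
    LS (c 0) q (p ^ (3 * a)) (a + 1) (nextC q c St) (nextSt c St) :=
  h.next_of' h.next_part h.next_per h.next_row h.next_dom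

/-- (X1), `j' = 0` -/
theorem LS.X1_zero (h : LS D p q a c St) {j : ℕ} (hj : j < 3 * a) (L : Label) :
    nextC q c St 0 ⊓ₒ Lab p c St 0 {L} ≤ Lab p c St j {L} :=
  RNX.X1_zero h (h.xHyp (by omega : 0 < 3 * (a + 1))) (h.next_le (by omega)) hj L

/-- (X1), `j' ≠ 0` -/
theorem LS.X1 (h : LS D p q a c St) {j j' : ℕ} (hj : j < 3 * a) (h0 : 0 < j')
    (hj' : j' < 3 * (a + 1)) (st : Option (S × Rel)) :
    nextC q c St j' ⊓ₒ Lab p c St 0 {(⟨tauOf (a + 1) j', st, .A⟩ : Label)} ≤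
      Lab p c St j {(⟨tauOf (a + 1) j', st, umem a j j'⟩ : Label)} :=
  RNX.X1 h (h.xHyp hj') hj h0 hj' st

/-- (X1), `j' ≠ 0`, other labels -/
theorem LS.X1_bot (h : LS D p q a c St) {j' : ℕ} (h0 : 0 < j') (hj' : j' < 3 * (a + 1))
    (L : Label) (hL : ¬ (L.tau = tauOf (a + 1) j' ∧ L.u = .A)) :
    nextC q c St j' ⊓ₒ Lab p c St 0 {L} = ⊥ :=
  RNX.X1_bot h (h.xHyp hj') h0 hj' L hL

/-- (X2), forward label of the row `j` -/
theorem LS.X2f (h : LS D p q a c St) {j j' : ℕ} (hj0 : 0 < j) (hj : j < 3 * a)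
    (hj' : j' < 3 * (a + 1)) :
    nextC q c St j' ≤
      (p ^ j)⁻¹ • (c j ⊓ₒ ev St {s | s.Qf = (⟨tauOf a j, state a j j', .A⟩ : Label)}) :=
  RNX.X2f h hj' (h.xHyp hj') (h.next_le (by omega)) hj0 hj

/-- (X2), backward label of the row `j` -/
theorem LS.X2b (h : LS D p q a c St) {j j' : ℕ} (hj0 : 0 < j) (hj : j < 3 * a)
    (hj' : j' < 3 * (a + 1)) :
    nextC q c St j' ≤
      (p ^ j)⁻¹ • (c j ⊓ₒ ev St {s | s.Qb = (⟨tauOf a j, state a j (prev a j'), .B⟩ : Label)}) :=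
  RNX.X2b h hj' (h.xHyp hj') (h.next_le (by omega)) hj0 hj

end Crest.Agent.R189
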