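import Crest.Agent.R189.RompHom
import Crest.Agent.R189.HierDefs
import Crest.Agent.R189.RN

/-!
# Row 189: functoriality of the hierarchy under morphisms of orthomodular posets
-/

set_option autoImplicit false

namespace Crest.Agent.R189

open Romp

variable {G E F : Type*} [CommGroup G] [ROMP E] [OMPAct G E] [ROMP F] [OMPAct G F]
variable {D : E} {p q : G} {a : ℕ} {c : ℕ → E} {St : Star → E}

theorem LS.comm_mode (h : LS D p q a c St) :
    Comm (q • (c 0 ⊓ₒ ev St {s | s.Pf.tau = .t2l}))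
      (q⁻¹ • (c 0 ⊓ₒ ev St {s | s.Pf.tau = .f0})) := by
  have := h.comm_A_B
  simpa [LS.T, Row] using this

theorem LS.map_nextC' (h : LS D p q a c St) (φ : OMPHom E F) (hφ : φ.Equiv G) (j : ℕ) :
    φ (nextC q c St j) = nextC q (fun j => φ (c j)) (fun s => φ (St s)) j :=
  h.map_nextC φ hφ h.comm_mode j

theorem LS.map_level (h : LS D p q a c St) (φ : OMPHom E F) (hφ : φ.Equiv G) (k : ℕ) :
    (∀ j, φ (hc p q a c St k j) =
      hc p q a (fun j => φ (c j)) (fun s => φ (St s)) k j) ∧
    (∀ s, φ (hSt p q a c St k s) =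
      hSt p q a (fun j => φ (c j)) (fun s => φ (St s)) k s) := by
  induction k with
  | zero => exact ⟨fun _ => rfl, fun _ => rfl⟩
  | succ k ih =>
    obtain ⟨ih1, ih2⟩ := ih
    have e1 : (fun j => φ (hc p q a c St k j)) =
        hc p q a (fun j => φ (c j)) (fun s => φ (St s)) k := funext ih1
    have e2 : (fun s => φ (hSt p q a c St k s)) =
        hSt p q a (fun j => φ (c j)) (fun s => φ (St s)) k := funext ih2
    constructor
    · intro j
      rw [hc_succ, hc_succ, (h.lvl k).map_nextC' φ hφ j, e1, e2]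
    · intro s
      rw [hSt_succ, hSt_succ, (h.lvl k).map_nextSt φ s, e1, e2]

/-- `φ (c^(k)_j)` is the level `k` digit of the image -/
theorem LS.map_hc (h : LS D p q a c St) (φ : OMPHom E F) (hφ : φ.Equiv G) (k j : ℕ) :
    φ (hc p q a c St k j) = hc p q a (fun j => φ (c j)) (fun s => φ (St s)) k j :=
  (h.map_level φ hφ k).1 j

theorem LS.map_hSt (h : LS D p q a c St) (φ : OMPHom E F) (hφ : φ.Equiv G) (k : ℕ) (s : Star) :
    φ (hSt p q a c St k s) = hSt p q a (fun j => φ (c j)) (fun s => φ (St s)) k s :=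
  (h.map_level φ hφ k).2 s


/-- atoms of level `k` -/
theorem LS.map_atom (h : LS D p q a c St) (φ : OMPHom E F) (hφ : φ.Equiv G) (k : ℕ) {j : ℕ}
    (hj : j < 3 * (a + k)) (A : Set Star) :
    φ (hc p q a c St k j ⊓ₒ ev (hSt p q a c St k) A) =
      hc p q a (fun j => φ (c j)) (fun s => φ (St s)) k j ⊓ₒ
        ev (hSt p q a (fun j => φ (c j)) (fun s => φ (St s)) k) A := by
  have hk := h.lvl k
  rw [φ.map_meet (hk.comm_ev' hj A), φ.map_ev hk.part_St, h.map_hc φ hφ]
  have e2 : (fun s => φ (hSt p q a c St k s)) =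
      hSt p q a (fun j => φ (c j)) (fun s => φ (St s)) k := funext fun s => h.map_hSt φ hφ k s
  rw [e2]


end Crest.Agent.R189
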