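import Crest.Agent.R189.Tcol
import Crest.Agent.R189.GlueT

/-!
# Row 189, kernel part: `T` is generated by small generators   (helper223)

`m.sgen hC E lam : alternatingGroup C →* T`, `z ↦ H(lam) * e_E(z) * H(lam)⁻¹`.
* `exists_list_sgen`: every element of `T` is a product of `sgen hC E lam z` with `E = univ` or a
  single letter, `∑ lam = 0` and `|lam c|_∞ ≤ 1` for all `c`.
* `map_sgen`: its image in `Perm (X × C)` is `H lam * ev {x | letter x ∈ E} z * (H lam)⁻¹`.
-/

set_option autoImplicit false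
set_option linter.unusedSectionVars false

namespace Crest.Agent.R189

open Equiv Equiv.Perm Multiplicative
open scoped IsMulCommutative

namespace TModel

variable {A : Type} [Fintype A] {C : Type} [Fintype C] [DecidableEq C] {M : MatchData A}
  {G : Type} [Group G] (m : TModel M C G)

/-- the conjugate of the event `∑_{x ∈ E} e_x` by `H(lam)` -/
noncomputable def sgen (hC : 30 ≤ Fintype.card C) (E : Finset A) (lam : C → ℤ × ℤ) :
    alternatingGroup C →* G :=
  (MulAut.conj ((m.colGrp hC).H lam)).toMonoidHom.comp (m.setHom E)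

theorem sgen_apply (hC : 30 ≤ Fintype.card C) (E : Finset A) (lam : C → ℤ × ℤ)
    (z : alternatingGroup C) :
    m.sgen hC E lam z = (m.colGrp hC).H lam * lprod E (fun x => m.e x z) *
      ((m.colGrp hC).H lam)⁻¹ := rfl

/-- small generators: `E` is one letter or everything, `lam` is small of sum zero -/
structure SmallGen (E : Finset A) (lam : C → ℤ × ℤ) : Prop where
  set : E = Finset.univ ∨ ∃ x, E = {x}
  sum : ∑ c, lam c = 0
  small : ∀ c, |(lam c).1| ≤ 1 ∧ |(lam c).2| ≤ 1

theorem colGrp_H_zero (hC : 30 ≤ Fintype.card C) : (m.colGrp hC).H 0 = 1 := by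
  have h := (m.colGrp hC).H_add 0 0 (by simp) (by simp)
  rw [add_zero] at h
  exact (mul_eq_left.1 h.symm)

theorem pK_one (a b : C) : m.pK a b (ofAdd 0) = 1 := by
  rw [ofAdd_zero, map_one]

theorem colGrp_H_dl (hC : 30 ≤ Fintype.card C) (v : ℤ × ℤ) (a b : C) :
    (m.colGrp hC).H (dl v a b) = hpow m.h v a b := by
  rw [m.colGrp_H hC b (dl v a b) (dl_sum v a b), HK, Finset.prod_eq_single a]
  · by_cases h : a = b
    · subst h
      rw [pK_self, ← pK_coe, pK_self]
    · rw [← pK_coe]
      simp [dl, h]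
  · intro c _ hc
    by_cases h : c = b
    · subst h
      rw [pK_self]
    · have : dl v a b c = 0 := by simp [dl, hc, h]
      rw [this, pK_one]
  · intro h
    exact absurd (Finset.mem_univ a) h

theorem h_self (i : Bool) (a : C) : m.h i a a = 1 := by
  have := m.h_mul i a a a
  rwa [mul_eq_left] at this

theorem h_inv (i : Bool) (a b : C) : (m.h i a b)⁻¹ = m.h i b a := by
  rw [inv_eq_iff_mul_eq_one, m.h_mul, h_self]

theorem hpow_uv (i : Bool) (a b : C) : hpow m.h (uv i) a b = m.h i a b := by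
  cases i <;> simp [hpow, uv]



/-- the set of values of the small generators -/
def smallSet (hC : 30 ≤ Fintype.card C) : Set G :=
  {g | ∃ (E : Finset A) (lam : C → ℤ × ℤ) (z : alternatingGroup C),
    SmallGen E lam ∧ g = m.sgen hC E lam z}

theorem one_mem_small (hC : 30 ≤ Fintype.card C) (z : alternatingGroup C) :
    m.one z ∈ m.smallSet hC := by
  refine ⟨Finset.univ, 0, z, ⟨Or.inl rfl, by simp, by simp⟩, ?_⟩
  rw [sgen_apply, colGrp_H_zero]
  simpa using (m.e_prod z).symm

theorem e_mem_small (hC : 30 ≤ Fintype.card C) (x : A) (z : alternatingGroup C) :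
    m.e x z ∈ m.smallSet hC := by
  refine ⟨{x}, 0, z, ⟨Or.inr ⟨x, rfl⟩, by simp, by simp⟩, ?_⟩
  rw [sgen_apply, colGrp_H_zero]
  simp [lprod]

theorem dl_small (i : Bool) {a b : C} (h : a ≠ b) (c : C) :
    |(dl (uv i) a b c).1| ≤ 1 ∧ |(dl (uv i) a b c).2| ≤ 1 := by
  by_cases h1 : c = a
  · subst h1
    cases i <;> simp [dl, uv, h]
  · by_cases h2 : c = b
    · subst h2
      cases i <;> simp [dl, uv, h1]
    · simp [dl, h1, h2]

theorem h_mem_small (hC : 30 ≤ Fintype.card C) (i : Bool) (a b : C) :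
    m.h i a b ∈ Subgroup.closure (m.smallSet hC) := by
  by_cases hab : a = b
  · subst hab
    rw [h_self]
    exact Subgroup.one_mem _
  -- two more colours
  obtain ⟨c, hc⟩ : ∃ c, c ∉ ({a, b} : Finset C) := by
    by_contra hcon
    push Not at hcon
    have h1 : (Finset.univ : Finset C) ⊆ {a, b} := fun x _ => hcon x
    have h2 := Finset.card_le_card h1
    have h3 : ({a, b} : Finset C).card ≤ 2 := Finset.card_le_two
    rw [Finset.card_univ] at h2
    omega
  obtain ⟨d, hd⟩ : ∃ d, d ∉ ({a, b, c} : Finset C) := by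
    by_contra hcon
    push Not at hcon
    have h1 : (Finset.univ : Finset C) ⊆ {a, b, c} := fun x _ => hcon x
    have h2 := Finset.card_le_card h1
    have h3 : ({a, b, c} : Finset C).card ≤ 3 := Finset.card_le_three
    rw [Finset.card_univ] at h2
    omega
  simp only [Finset.mem_insert, Finset.mem_singleton, not_or] at hc hd
  obtain ⟨hca, hcb⟩ := hc
  obtain ⟨hda, hdb, hdc⟩ := hd
  -- the 3-cycle b → a → c → b
  have hs3 : (swap b a * swap a c : Perm C).IsThreeCycle := by
    have := Perm.isThreeCycle_swap_mul_swap_same (a := a) (b := b) (c := c) hab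
      (Ne.symm hca) (Ne.symm hcb)
    rwa [swap_comm a b] at this
  set s : alternatingGroup C := ⟨swap b a * swap a c, hs3.mem_alternatingGroup⟩ with hs
  have hsb : (s : Perm C) b = a := by
    show (swap b a * swap a c) b = a
    rw [Perm.mul_apply, swap_apply_of_ne_of_ne (Ne.symm hab) (Ne.symm hcb), swap_apply_left]
  have hsd : (s : Perm C) d = d := by
    show (swap b a * swap a c) d = d
    rw [Perm.mul_apply, swap_apply_of_ne_of_ne hda hdc, swap_apply_of_ne_of_ne hdb hda]
  have key : m.h i a b = m.one s * m.sgen hC Finset.univ (dl (uv i) b d) s⁻¹ := by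
    have h1 := m.one_h s i b d
    rw [hsb, hsd] at h1
    have h2 : m.sgen hC Finset.univ (dl (uv i) b d) s⁻¹ =
        m.h i b d * (m.one s)⁻¹ * (m.h i b d)⁻¹ := by
      rw [sgen_apply, colGrp_H_dl, hpow_uv]
      have := m.e_prod s⁻¹
      rw [this, map_inv]
    rw [h2, ← mul_assoc, ← mul_assoc, h1, h_inv, m.h_mul]
  rw [key]
  refine Subgroup.mul_mem _ (Subgroup.subset_closure (m.one_mem_small hC s)) ?_
  apply Subgroup.subset_closure
  exact ⟨Finset.univ, dl (uv i) b d, s⁻¹,
    ⟨Or.inl rfl, dl_sum _ _ _, dl_small i (Ne.symm hdb)⟩, rfl⟩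

theorem closure_small (hC : 30 ≤ Fintype.card C) : Subgroup.closure (m.smallSet hC) = ⊤ := by
  rw [← top_le_iff, ← m.gen, Subgroup.closure_le]
  rintro _ ((⟨s, rfl⟩ | ⟨i, a, b, rfl⟩) | ⟨x, s, rfl⟩)
  · exact Subgroup.subset_closure (m.one_mem_small hC s)
  · exact m.h_mem_small hC i a b
  · exact Subgroup.subset_closure (m.e_mem_small hC x s)

/-- every element of `T` is a product of small generators -/
theorem exists_list_sgen (hC : 30 ≤ Fintype.card C) (w : G) :
    ∃ L : List (Finset A × (C → ℤ × ℤ) × alternatingGroup C),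
      (∀ g ∈ L, SmallGen g.1 g.2.1) ∧ (L.map fun g => m.sgen hC g.1 g.2.1 g.2.2).prod = w := by
  have hw : w ∈ Subgroup.closure (m.smallSet hC) := by
    rw [closure_small]; exact Subgroup.mem_top w
  rw [← Subgroup.mem_toSubmonoid, Subgroup.closure_toSubmonoid] at hw
  obtain ⟨l, hl, hprod⟩ := Submonoid.exists_list_of_mem_closure hw
  have h1 : ∀ l : List G, (∀ y ∈ l, y ∈ m.smallSet hC ∨ y⁻¹ ∈ m.smallSet hC) →
      ∃ L : List (Finset A × (C → ℤ × ℤ) × alternatingGroup C),
      (∀ g ∈ L, SmallGen g.1 g.2.1) ∧ (L.map fun g => m.sgen hC g.1 g.2.1 g.2.2) = l := by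
    intro l
    induction l with
    | nil => intro _; exact ⟨[], by simp, rfl⟩
    | cons y l ih =>
      intro hy
      obtain ⟨L, hL, hL'⟩ := ih (fun z hz => hy z (List.mem_cons_of_mem _ hz))
      obtain ⟨E, lam, z, hE, hz⟩ : ∃ (E : Finset A) (lam : C → ℤ × ℤ) (z : alternatingGroup C),
          SmallGen E lam ∧ y = m.sgen hC E lam z := by
        rcases hy y (List.mem_cons_self) with h | ⟨E, lam, z, hE, hz⟩
        · exact h
        · exact ⟨E, lam, z⁻¹, hE, by rw [map_inv, ← hz, inv_inv]⟩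
      refine ⟨(E, lam, z) :: L, ?_, ?_⟩
      · intro g hg
        rcases List.mem_cons.1 hg with rfl | hg
        · exact hE
        · exact hL g hg
      · rw [List.map_cons, hL', ← hz]
  obtain ⟨L, hL, hL'⟩ := h1 l hl
  exact ⟨L, hL, by rw [hL', hprod]⟩

/-! ### the image in the permutation group -/

section image

variable {X : Type} [AddAction (ℤ × ℤ) X] (letter : X → A) (q : G →* Perm (X × C))

theorem map_pK (hqh : ∀ i a b, q (m.h i a b) = H (dl (uv i) a b)) (a b : C) (v : ℤ × ℤ) :
    q (m.pK a b (ofAdd v) : G) = H (dl v a b) := by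
  rw [pK_coe, hpow, map_mul, map_zpow, map_zpow, hqh, hqh, ← H_zsmul, ← H_zsmul, ← H_add,
    ← dl_zsmul, ← dl_zsmul, ← dl_add, uv_decomp]

theorem sum_dl_eq (c0 : C) (l : C → ℤ × ℤ) (hl : ∑ c, l c = 0) : ∑ c, dl (l c) c c0 = l := by
  unfold dl
  rw [Finset.sum_sub_distrib, Finset.univ_sum_single]
  have : ∑ c, (Pi.single c0 (l c) : C → ℤ × ℤ) = Pi.single c0 (∑ c, l c) := by
    funext a
    rw [Finset.sum_apply]
    by_cases ha : a = c0
    · subst ha; simp
    · simp [ha]
  rw [this, hl, Pi.single_zero, sub_zero]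

theorem map_colGrp_H (hC : 30 ≤ Fintype.card C)
    (hqh : ∀ i a b, q (m.h i a b) = H (dl (uv i) a b)) (l : C → ℤ × ℤ) (hl : ∑ c, l c = 0) :
    q ((m.colGrp hC).H l) = H l := by
  obtain ⟨c0⟩ := nonempty_of_card hC
  rw [m.colGrp_H hC c0 l hl]
  have key : ∀ S : Finset C, q ((∏ c ∈ S, m.pK c c0 (ofAdd (l c)) : m.K) : G) =
      H (∑ c ∈ S, dl (l c) c c0) := by
    intro S
    induction S using Finset.induction_on with
    | empty => simp
    | insert a S ha ih =>
      rw [Finset.prod_insert ha, Finset.sum_insert ha, Subgroup.coe_mul, map_mul, ih, map_pK m q hqh,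
        H_add]
  rw [HK, key, sum_dl_eq c0 l hl]

theorem map_lprod_e (hqe : ∀ a s, q (m.e a s) = ev {x | letter x = a} (s : Perm C))
    (E : Finset A) (z : alternatingGroup C) :
    q (lprod E (fun x => m.e x z)) = ev {x | letter x ∈ E} (z : Perm C) := by
  rw [map_lprod]
  simp only [hqe]
  unfold lprod
  rw [ev_list_prod letter _ _ E.nodup_toList]
  simp

/-- the image of a small generator -/
theorem map_sgen (hC : 30 ≤ Fintype.card C)
    (hqh : ∀ i a b, q (m.h i a b) = H (dl (uv i) a b))
    (hqe : ∀ a s, q (m.e a s) = ev {x | letter x = a} (s : Perm C))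
    (E : Finset A) (lam : C → ℤ × ℤ) (hl : ∑ c, lam c = 0) (z : alternatingGroup C) :
    q (m.sgen hC E lam z) = H lam * ev {x | letter x ∈ E} (z : Perm C) * (H lam)⁻¹ := by
  rw [sgen_apply, map_mul, map_mul, map_inv, map_colGrp_H m q hC hqh lam hl,
    map_lprod_e m letter q hqe]

end image

end TModel

end Crest.Agent.R189
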