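import Crest.Agent.R189.KDefs

/-!
# Row 189, part F (K1): rules for `realFam` / `realAlt` over a level (helper461)

* `realFun_change` : general change of data (window, index function, base point shifted by `u`).
* `realFam_change`, `realAlt_change` : typed versions; `realFam_window`, `realAlt_window`.
* `realFam_commute_of`, `realAlt_commute_of` : disjoint supports commute.
* `realFam_inj`, `realAlt_inj` : injectivity over the occurring indices.
* `Lev.kP`, `Lev.kQ`, `Lev.kV` : the kinds; refinements `F → P, Q, V` (with shifts `0,q,p,p+q`),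
  `P → V` (`0`, `p`), `Q → V` (`0`, `q`), `F → F` (`q`, `p`), `P → P` (`q`) ...
-/

set_option autoImplicit false
set_option linter.unusedSectionVars false

namespace Crest.Agent.R189.K

open Equiv Equiv.Perm

section gen

variable {X C ι ι' : Type*} [AddAction (ℤ × ℤ) X] [Fintype C] [DecidableEq C]
variable {D D' : Set X} {W W' : Finset (ℤ × ℤ)}


lemma permOn_win_fix {π : Equiv.Perm (Om C)} (h : π ∈ PermOn (win C W)) {v : ℤ × ℤ} (hv : v ∉ W)
    (c : C) : π (v, c) = (v, c) := h _ (by simpa using hv)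

















end gen

/-! ### shifted windows -/

section shift

variable {C : Type*} [Fintype C] [DecidableEq C]

lemma sh_mem_permOn {u : ℤ × ℤ} {W W' : Finset (ℤ × ℤ)} {z : Equiv.Perm (Om C)}
    (hz : z ∈ PermOn (win C W)) (h : ∀ v ∈ W, v + u ∈ W') : sh u z ∈ PermOn (win C W') := by
  rintro ⟨v, c⟩ hv
  have hv' : v ∉ W' := by simpa using hv
  have h1 : v - u ∉ W := fun h' => hv' (by simpa using h _ h')
  rw [sh_apply, permOn_win_fix hz h1]
  simp

lemma sgn_sh (u : ℤ × ℤ) {S : Finset (Om C)} {z : Equiv.Perm (Om C)} (hz : z ∈ PermOn S) :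
    sgn (sh u z) = sgn z := sgn_conj hz _

lemma sh_mem_altOn {u : ℤ × ℤ} {W W' : Finset (ℤ × ℤ)} {z : Equiv.Perm (Om C)}
    (hz : z ∈ AltOn (win C W)) (h : ∀ v ∈ W, v + u ∈ W') : sh u z ∈ AltOn (win C W') :=
  ⟨sh_mem_permOn hz.1 h, by rw [sgn_sh u hz.1]; exact hz.2⟩

end shift

/-! ### the four kinds over a level -/

namespace Lev

variable {X Lab Sta C : Type*} [AddAction (ℤ × ℤ) X] [Fintype C] [DecidableEq C]

section kinds
variable (L : Lev X Lab Sta)

/-- kind `P` -/
def kP (x : X) : ZMod L.n × Lab := (L.dig x, L.Pf x)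
/-- kind `Q` -/
def kQ (x : X) : ZMod L.n × Lab := (L.dig x, L.Qf x)
/-- kind `V` -/
def kV (x : X) : ZMod L.n × Sta := (L.dig x, L.st x)

/-- the horizontal period -/
abbrev q : ℤ × ℤ := (L.w, 0)
/-- the vertical period -/
abbrev p : ℤ × ℤ := (0, L.h)

end kinds

variable {L : Lev X Lab Sta} {W W' : Finset (ℤ × ℤ)}









variable (hc : Cell L.D W) (hc' : Cell L.D W')

/-! #### refinements of `F` -/











/-! #### refinements of `P` -/



/-! #### refinements of `Q` -/




/-! #### the same rules for even permutations -/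















/-! #### commutation over a level -/

lemma dvd_of_vadd_eq {v v' : ℤ × ℤ} {y y' : X} (hy : y ∈ L.D) (hy' : y' ∈ L.D)
    (e : v +ᵥ y = v' +ᵥ y') : L.w ∣ v.1 - v'.1 ∧ L.h ∣ v.2 - v'.2 := by
  have e1 : (v - v') +ᵥ y ∈ L.D := by
    have : (v - v') +ᵥ y = y' := by
      rw [sub_eq_neg_add, ← vadd_vadd, e, neg_vadd_vadd]
    rw [this]; exact hy'
  exact (L.D_iff y hy _).1 e1





/-! #### injectivity over a level -/



end Lev

end Crest.Agent.R189.K
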