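import Crest.Agent.R189.AltPres

/-!
# Row 189 (S0289): principle UP (uniqueness over perfect groups in a central extension)

`q : T →* G` with `q.ker ≤ center T` (a central extension).  For a perfect group `P` two
homomorphisms `P →* T` with the same composite with `q` are equal.  Hence every relation between
"sections over perfect groups" holds in `T` as soon as it holds in `G`:

* `hom_unique`, `commute_of`, `conj_of`, `intertwine`, `restrict_of`, `noncommProd_of`;
* `exists_alt_lift` : a homomorphism `φ : Alt(Ω) →* G` lifts to `T` as soon as its restriction to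
  `altOn A₀`, `|A₀| ≥ 10`, lifts (tower lemma in `T` for free).
-/

set_option autoImplicit false

open Equiv Equiv.Perm Finset
open scoped commutatorElement

namespace Crest.Agent.R189.UP

open Crest.Agent.R189.AltPres

variable {T G : Type*} [Group T] [Group G] {q : T →* G}

section basic

variable {P : Type*} [Group P]

/-- Two homomorphisms of a perfect group into a central extension which agree in the quotient are
equal. -/
theorem hom_unique (hK : q.ker ≤ Subgroup.center T) (hP : commutator P = ⊤)
    {f g : P →* T} (h : ∀ x, q (f x) = q (g x)) : f = g := by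
  have hc : ∀ x y : P, f x * (g x)⁻¹ ∈ Subgroup.center T := by
    intro x _
    apply hK
    rw [MonoidHom.mem_ker, map_mul, map_inv, h x, mul_inv_cancel]
  have key : ∀ a b : P, f ⁅a, b⁆ = g ⁅a, b⁆ := by
    intro a b
    have ha := Subgroup.mem_center_iff.1 (hc a a)
    have hb := Subgroup.mem_center_iff.1 (hc b b)
    set u := f a * (g a)⁻¹ with hu
    set v := f b * (g b)⁻¹ with hv
    have ea : f a = u * g a := by rw [hu]; group
    have eb : f b = v * g b := by rw [hv]; group
    rw [map_commutatorElement, map_commutatorElement, commutatorElement_def, commutatorElement_def,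
      ea, eb]
    have e1 : u * g a * (v * g b) * (u * g a)⁻¹ * (v * g b)⁻¹ =
        (u * (g a * v) * g b * ((g a)⁻¹ * u⁻¹) * ((g b)⁻¹ * v⁻¹)) := by group
    rw [e1, hb (g a)]
    have e2 : u * (v * g a) * g b * ((g a)⁻¹ * u⁻¹) * ((g b)⁻¹ * v⁻¹) =
        u * v * (g a * g b * (g a)⁻¹) * u⁻¹ * ((g b)⁻¹ * v⁻¹) := by group
    have e3 : u * v * (g a * g b * (g a)⁻¹) = (g a * g b * (g a)⁻¹) * (u * v) := by
      rw [mul_assoc u v, ← hb (g a * g b * (g a)⁻¹), ← mul_assoc u, ← ha (g a * g b * (g a)⁻¹)]
      group
    rw [e2, e3]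
    have e4 : g a * g b * (g a)⁻¹ * (u * v) * u⁻¹ * ((g b)⁻¹ * v⁻¹) =
        g a * g b * (g a)⁻¹ * (u * v * (u⁻¹ * (g b)⁻¹)) * v⁻¹ := by group
    have e5 : u * v = v * u := ha v ▸ rfl
    rw [e4, e5]
    have e6 : v * u * (u⁻¹ * (g b)⁻¹) = (g b)⁻¹ * v := by
      rw [hb ((g b)⁻¹)]; group
    rw [e6]
    group
  ext x
  have hx : x ∈ commutator P := by rw [hP]; trivial
  rw [commutator_eq_closure] at hx
  induction hx using Subgroup.closure_induction with
  | mem y hy =>
    obtain ⟨a, b, rfl⟩ := hy
    exact key a b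
  | one => rw [map_one, map_one]
  | mul a b _ _ ha hb => rw [map_mul, map_mul, ha, hb]
  | inv a _ ha => rw [map_inv, map_inv, ha]

/-- conjugate of a homomorphism by an element. -/
def conjHom (x : T) (f : P →* T) : P →* T := (MulAut.conj x).toMonoidHom.comp f

@[simp] theorem conjHom_apply (x : T) (f : P →* T) (p : P) :
    conjHom x f p = x * f p * x⁻¹ := rfl

/-- Intertwining relations lift: if `q x` conjugates `q f` into `q g ∘ α` then `x` conjugates
`f` into `g ∘ α`. -/
theorem intertwine {P' : Type*} [Group P'] (hK : q.ker ≤ Subgroup.center T)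
    (hP : commutator P = ⊤) (x : T) (f : P →* T) (g : P' →* T) (α : P →* P')
    (h : ∀ p, q x * q (f p) * (q x)⁻¹ = q (g (α p))) (p : P) :
    x * f p * x⁻¹ = g (α p) := by
  have : conjHom x f = g.comp α := hom_unique hK hP (by
    intro y
    rw [conjHom_apply, map_mul, map_mul, map_inv, MonoidHom.comp_apply, h])
  exact DFunLike.congr_fun this p

/-- Restriction. -/
theorem restrict_of {P' : Type*} [Group P'] (hK : q.ker ≤ Subgroup.center T)
    (hP : commutator P = ⊤) (f : P →* T) (g : P' →* T) (α : P →* P')
    (h : ∀ p, q (f p) = q (g (α p))) (p : P) : f p = g (α p) := by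
  have : f = g.comp α := hom_unique hK hP (fun y => h y)
  exact DFunLike.congr_fun this p

/-- If an element of `G` commutes with the image of a perfect group, then every preimage in `T`
commutes with the lift. -/
theorem commute_elt (hK : q.ker ≤ Subgroup.center T) (hP : commutator P = ⊤)
    (x : T) (f : P →* T) (h : ∀ p, q x * q (f p) = q (f p) * q x) (p : P) :
    x * f p = f p * x := by
  have := intertwine hK hP x f f (MonoidHom.id P) (by
    intro y
    rw [h y, MonoidHom.id_apply]; group) p
  rw [MonoidHom.id_apply] at this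
  calc x * f p = (x * f p * x⁻¹) * x := by group
    _ = f p * x := by rw [this]

/-- Commutation of lifts (only one of the groups has to be perfect). -/
theorem commute_of {P' : Type*} [Group P'] (hK : q.ker ≤ Subgroup.center T)
    (hP : commutator P = ⊤) (f : P →* T) (g : P' →* T)
    (h : ∀ p p', Commute (q (f p)) (q (g p'))) (p : P) (p' : P') : Commute (f p) (g p') :=
  (commute_elt hK hP (g p') f (fun y => (h y p').symm) p).symm



end basic

/-! ### Perfectness of `altOn B` -/

section alt

variable {Ω : Type*} [DecidableEq Ω] [Fintype Ω]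

/-- The even permutations supported in a set with at least `5` elements form a perfect group. -/
theorem commutator_altOn {B : Finset Ω} (hB : 5 ≤ B.card) : commutator (altOn B) = ⊤ := by
  classical
  have hBc : 5 ≤ Nat.card {x // x ∈ B} := by
    rw [Nat.card_eq_fintype_card, Fintype.card_coe]; exact hB
  let j : alternatingGroup {x // x ∈ B} →* altOn B :=
    { toFun := fun g => ⟨ofSubtype (g : Perm {x // x ∈ B}), by
        refine ⟨?_, ?_⟩
        · rw [mem_alternatingGroup, sign_ofSubtype]
          exact g.2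
        · intro x hx
          by_contra hxB
          rw [mem_support] at hx
          exact hx (ofSubtype_apply_of_not_mem _ hxB)⟩
      map_one' := by
        ext x
        simp
      map_mul' := by
        intro a b
        ext x
        simp }
  have hj : Function.Surjective j := by
    rintro ⟨g, hg⟩
    have h2 : ∀ x, g x ≠ x → x ∈ B := fun x hx => hg.2 (mem_support.2 hx)
    have h1 : ∀ x, g x ∈ B ↔ x ∈ B := by
      intro x
      by_cases hx : g x = x
      · rw [hx]
      · refine ⟨fun _ => h2 _ hx, fun _ => h2 _ fun h => hx (g.injective h)⟩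
    have e1 : ofSubtype (g.subtypePerm h1) = g := ofSubtype_subtypePerm h1 h2
    refine ⟨⟨g.subtypePerm h1, ?_⟩, ?_⟩
    · rw [mem_alternatingGroup, ← sign_ofSubtype, e1]
      exact hg.1
    · apply Subtype.ext
      exact e1
  have hperf := commutator_alternatingGroup_eq_top hBc
  rw [eq_top_iff]
  intro y _
  obtain ⟨x, rfl⟩ := hj y
  have hx : x ∈ commutator (alternatingGroup {x // x ∈ B}) := by rw [hperf]; trivial
  have : j x ∈ (commutator (alternatingGroup {x // x ∈ B})).map j := ⟨x, hx, rfl⟩
  rw [map_commutator_eq] at this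
  exact Subgroup.commutator_mono le_top le_top this

/-- An even permutation moving a set of cardinality `≤ |A|` (and at least `2`) into `A`. -/
theorem exists_even_map {A B : Finset Ω} (h2 : 2 ≤ B.card) (hBA : B.card ≤ A.card) :
    ∃ γ : Perm Ω, γ ∈ alternatingGroup Ω ∧ ∀ x ∈ B, γ x ∈ A := by
  classical
  obtain ⟨A', hA', hcard⟩ := exists_subset_card_eq hBA
  have e : {x // x ∈ B} ≃ {x // x ∈ A'} := Finset.equivOfCardEq hcard.symm
  let γ : Perm Ω := e.extendSubtype
  have hγ : ∀ x ∈ B, γ x ∈ A := fun x hx => hA' (e.extendSubtype_mem x hx)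
  by_cases hs : γ ∈ alternatingGroup Ω
  · exact ⟨γ, hs, hγ⟩
  · obtain ⟨x, hx, y, hy, hxy⟩ := one_lt_card.1 (show 1 < B.card by omega)
    refine ⟨γ * swap x y, ?_, ?_⟩
    · rw [mem_alternatingGroup] at hs ⊢
      rw [Perm.sign_mul, sign_swap hxy]
      rcases Int.units_eq_one_or (sign γ) with h | h
      · exact absurd h hs
      · rw [h]; norm_num
    · intro z hz
      rw [Perm.mul_apply]
      apply hγ
      by_cases hzx : z = x
      · rw [hzx, swap_apply_left]; exact hy
      · by_cases hzy : z = y
        · rw [hzy, swap_apply_right]; exact hx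
        · rw [swap_apply_of_ne_of_ne hzx hzy]; exact hz

/-- conjugation `altOn B →* altOn A` by an even permutation mapping `B` into `A`. -/
def conjAlt {A B : Finset Ω} (γ : Perm Ω) (hγ : ∀ x ∈ B, γ x ∈ A) : altOn B →* altOn A where
  toFun x := ⟨γ * x * γ⁻¹, by
    refine ⟨(inferInstance : (alternatingGroup Ω).Normal).conj_mem _ x.2.1 γ, ?_⟩
    intro y hy
    rw [mem_support, Perm.mul_apply, Perm.mul_apply] at hy
    have h1 : γ⁻¹ y ∈ (x : Perm Ω).support := by
      rw [mem_support]
      intro h
      rw [h] at hy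
      exact hy (by simp)
    have := hγ _ (x.2.2 h1)
    simpa using this⟩
  map_one' := by ext; simp
  map_mul' := by
    intro a b
    apply Subtype.ext
    simp only [Subgroup.coe_mul]
    group

theorem conjAlt_coe {A B : Finset Ω} (γ : Perm Ω) (hγ : ∀ x ∈ B, γ x ∈ A) (x : altOn B) :
    ((conjAlt γ hγ x : altOn A) : Perm Ω) = γ * x * γ⁻¹ := rfl

/-- the inclusion of `altOn A` in the alternating group. -/
def inc (A : Finset Ω) : altOn A →* alternatingGroup Ω :=
  Subgroup.inclusion (fun _ h => h.1)

@[simp] theorem inc_coe (A : Finset Ω) (x : altOn A) : ((inc A x : alternatingGroup Ω) : Perm Ω) = x :=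
  rfl

/-- **Tower lemma in a central extension.**  A homomorphism `φ : Alt(Ω) →* G` whose restriction to
`altOn A₀` lifts to `T`, `|A₀| ≥ 7`, lifts to `T`. -/
theorem exists_alt_lift (hq : Function.Surjective q) (hK : q.ker ≤ Subgroup.center T)
    (φ : alternatingGroup Ω →* G) (A₀ : Finset Ω) (hA₀ : 7 ≤ A₀.card)
    (ψ : altOn A₀ →* T) (hψ : ∀ x, q (ψ x) = φ (inc A₀ x)) :
    ∃ Φ : alternatingGroup Ω →* T, ∀ x, q (Φ x) = φ x := by
  classical
  -- lifts over small sets
  have lift : ∀ B : Finset Ω, 5 ≤ B.card → B.card ≤ 7 → ∃ θ : altOn B →* T,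
      ∀ x, q (θ x) = φ (inc B x) := by
    intro B h5 h7
    obtain ⟨γ, hγs, hγ⟩ := exists_even_map (A := A₀) (B := B) (by omega) (by omega)
    obtain ⟨g, hg⟩ := hq (φ ⟨γ, hγs⟩)
    refine ⟨conjHom g⁻¹ (ψ.comp (conjAlt γ hγ)), ?_⟩
    intro x
    rw [conjHom_apply, map_mul, map_mul, inv_inv, map_inv, hg, MonoidHom.comp_apply, hψ,
      ← map_inv, ← map_mul, ← map_mul]
    congr 1
    apply Subtype.ext
    simp only [Subgroup.coe_mul, Subgroup.coe_inv, inc_coe, conjAlt_coe]
    group
  choose θ hθ using lift
  -- the value on three-cycles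
  let φ' : Perm Ω → T := fun z =>
    if h : ∃ B : Finset Ω, B.card = 5 ∧ z ∈ altOn B then
      θ h.choose (by rw [h.choose_spec.1]) (by rw [h.choose_spec.1]; norm_num)
        ⟨z, h.choose_spec.2⟩ else 1
  have hres : ∀ (B B' : Finset Ω) (h5 : 5 ≤ B.card) (h7 : B.card ≤ 7) (h5' : 5 ≤ B'.card)
      (h7' : B'.card ≤ 7) (h : B ⊆ B') (x : altOn B),
      θ B h5 h7 x = θ B' h5' h7' (Subgroup.inclusion (altOn_mono h) x) := by
    intro B B' h5 h7 h5' h7' h x
    exact restrict_of hK (commutator_altOn h5) (θ B h5 h7) (θ B' h5' h7')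
      (Subgroup.inclusion (altOn_mono h)) (by
        intro p
        rw [hθ, hθ]
        rfl) x
  have hag : ∀ (B : Finset Ω) (h5 : 5 ≤ B.card) (h7 : B.card ≤ 7), B.card = 5 →
      Agrees φ' (θ B h5 h7) := by
    intro B h5 h7 hB z hz hA
    have hex : ∃ B : Finset Ω, B.card = 5 ∧ z ∈ altOn B := ⟨B, hB, threeCycle_mem hz hA⟩
    have e : φ' z = θ hex.choose (by rw [hex.choose_spec.1])
        (by rw [hex.choose_spec.1]; norm_num) ⟨z, hex.choose_spec.2⟩ := dif_pos hex
    rw [e]
    set B' := hex.choose with hB'
    have hB'5 : B'.card = 5 := hex.choose_spec.1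
    have hzB' : z ∈ altOn B' := hex.choose_spec.2
    have hzs : z.support.card = 3 := hz.card_support
    have hsub : z.support ⊆ B ∩ B' := subset_inter hA hzB'.2
    have hu : (B ∪ B').card ≤ 7 := by
      have h1 := card_union_add_card_inter B B'
      have h2 := card_le_card hsub
      omega
    have hu5 : 5 ≤ (B ∪ B').card := by
      have := card_le_card (subset_union_left (s₁ := B) (s₂ := B'))
      omega
    have e1 := hres B (B ∪ B') h5 h7 hu5 hu subset_union_left ⟨z, threeCycle_mem hz hA⟩
    have e2 := hres B' (B ∪ B') (by omega) (by omega) hu5 hu subset_union_right ⟨z, hzB'⟩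
    exact e1.trans e2.symm
  have h5Ω : 5 ≤ Fintype.card Ω := by
    have := card_le_univ A₀
    omega
  obtain ⟨Φ, hΦ⟩ := exists_alt_hom' h5Ω (φ := φ') (fun B hB => ⟨θ B hB.ge (by omega),
    hag B hB.ge (by omega) hB⟩)
  refine ⟨Φ, ?_⟩
  have heq : q.comp Φ = φ := by
    apply alt_hom_ext
    intro z hz
    have hzs : z.support.card = 3 := hz.card_support
    obtain ⟨B, hBs, hB⟩ := exists_superset_card_eq (s := z.support) (n := 5) (by omega)
      (by rwa [← card_univ] at h5Ω)
    have e1 := hag B hB.ge (by omega) hB z hz hBs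
    rw [MonoidHom.comp_apply, hΦ z hz, ← e1, hθ]
    rfl
  intro x
  exact DFunLike.congr_fun heq x


end alt

end Crest.Agent.R189.UP
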