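import Crest.Agent.R189.Tper
import Crest.Agent.R189.EvTrans
import Crest.Agent.R189.RNDefs

/-!
# Row 189 (S0289): the base level of the hierarchy in a model of `T`   (helper926)

Letters `Fin 9 × Star` (digit, star), base level `a = 3`.
* `MD : MatchData (Fin 9 × Star)` : the matching relations (T4).
* `TBase.evP` : `⟨letterEv x⟩` is a partition of `⊤`, `ev letterEv E = setEv E`.
* `cEv m hC j`, `StEv m hC s`: digit and star events, `TBase.base : LS ⊤ (0,1) (1,0) 3 cEv StEv`.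
* `TBase.atom` : `c j ⊓ₒ St s = letterEv (j, s)`, `= ⊥` if the letter is not allowed.
-/

set_option autoImplicit false

namespace Crest.Agent.R189

open Equiv Equiv.Perm Multiplicative

/-- the letters: digit and star -/
abbrev Lett : Type := Fin 9 × Star

/-- the letters allowed by (L5) -/
def LettOK (x : Lett) : Prop :=
  (x.1 : ℕ) = 0 ∨ (x.2.domP = true ∧ x.2.Qb.tau = tauOf 3 (x.1 : ℕ))

open Classical in
/-- the finset of letters with a property -/
noncomputable def lset (φ : Lett → Prop) : Finset Lett := Finset.univ.filter φ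

@[simp] theorem mem_lset {φ : Lett → Prop} {x : Lett} : x ∈ lset φ ↔ φ x := by
  simp [lset]

/-- index set of the matching relations -/
inductive MIx
  | cP (j : Fin 9)
  | cQ (j : Fin 9)
  | lP (L : Label)
  | lQ (L : Label)
  | st (j : Fin 9) (th : Option (S × Rel))
  | bad

instance : Finite MIx := by
  let f : Fin 9 ⊕ Fin 9 ⊕ Label ⊕ Label ⊕ (Fin 9 × Option (S × Rel)) ⊕ Unit → MIx := fun
    | Sum.inl j => .cP j
    | Sum.inr (Sum.inl j) => .cQ j
    | Sum.inr (Sum.inr (Sum.inl L)) => .lP L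
    | Sum.inr (Sum.inr (Sum.inr (Sum.inl L))) => .lQ L
    | Sum.inr (Sum.inr (Sum.inr (Sum.inr (Sum.inl p)))) => .st p.1 p.2
    | Sum.inr (Sum.inr (Sum.inr (Sum.inr (Sum.inr _)))) => .bad
  apply Finite.of_surjective f
  rintro (j | j | L | L | ⟨j, th⟩ | _)
  · exact ⟨Sum.inl j, rfl⟩
  · exact ⟨Sum.inr (Sum.inl j), rfl⟩
  · exact ⟨Sum.inr (Sum.inr (Sum.inl L)), rfl⟩
  · exact ⟨Sum.inr (Sum.inr (Sum.inr (Sum.inl L))), rfl⟩
  · exact ⟨Sum.inr (Sum.inr (Sum.inr (Sum.inr (Sum.inl (j, th))))), rfl⟩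
  · exact ⟨Sum.inr (Sum.inr (Sum.inr (Sum.inr (Sum.inr ())))), rfl⟩

/-- condition of the source letters -/
def MIx.S : MIx → Lett → Prop
  | .cP j, x => x.1 = j
  | .cQ j, x => x.1 = j
  | .lP L, x => x.2.Pf = L
  | .lQ L, x => (x.1 : ℕ) = 0 ∧ x.2.Qf = L
  | .st j th, x => x.1 = j ∧ (j : ℕ) ≠ 0 ∧ x.2.Qf.st = th
  | .bad, x => ¬ LettOK x

/-- condition of the target letters -/
def MIx.D : MIx → Lett → Prop
  | .cP j, x => x.1 = j + 1
  | .cQ j, x => x.1 = j
  | .lP L, x => x.2.Pb = L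
  | .lQ L, x => (x.1 : ℕ) = 0 ∧ x.2.Qb = L
  | .st j th, x => x.1 = j ∧ (j : ℕ) ≠ 0 ∧ x.2.Qb.st = th
  | .bad, _ => False

/-- translation vector -/
def MIx.v : MIx → ℤ × ℤ
  | .cP _ => (0, 1)
  | .cQ _ => (1, 0)
  | .lP _ => (0, 1)
  | .lQ _ => (1, 0)
  | .st _ _ => (1, 0)
  | .bad => 0

/-- **the matching relations (T4)** -/
noncomputable def MD : MatchData Lett where
  ι := MIx
  fin := inferInstance
  src k := lset k.S
  vec k := k.v
  dst k := lset k.D

theorem MD_src (k : MIx) : MD.src k = lset k.S := rfl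
theorem MD_dst (k : MIx) : MD.dst k = lset k.D := rfl

namespace TBase

variable {C : Type} [Fintype C] [DecidableEq C] {M : MatchData Lett}
  {G : Type} [Group G]

section gen

variable (m : TModel M C G) (hC : 30 ≤ Fintype.card C)

theorem orth_letter {x y : Lett} (h : x ≠ y) :
    Romp.Orth (m.letterEv hC x) (m.letterEv hC y) :=
  Ev.romp_orth.2 (m.letterEv_orth hC h)

theorem isPart0 : Romp.IsPart (fun x => m.letterEv hC x)
    (Romp.ev (fun x => m.letterEv hC x) Set.univ) :=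
  ⟨fun h => orth_letter m hC h, rfl⟩

/-- sums of letters -/
theorem ev_coe (E : Finset Lett) :
    Romp.ev (fun x => m.letterEv hC x) (E : Set Lett) = m.setEv hC E := by
  classical
  induction E using Finset.induction_on with
  | empty =>
    rw [Finset.coe_empty, Romp.ev_empty, Ev.romp_bot]
    ext s
    simp [Ev.zero, TModel.setEv, TModel.setHom, lprod]
  | insert a E ha ih =>
    have h1 : Disjoint ({a} : Set Lett) (E : Set Lett) := by simpa using ha
    have h2 := (isPart0 m hC).ev_add h1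
    have h3 := (isPart0 m hC).ev_orth h1
    rw [Finset.coe_insert, Set.insert_eq, ← h2]
    ext s
    rw [Ev.romp_add_hom h3, ih, Romp.ev_singleton]
    show m.e a s * lprod E (fun x => m.e x s) = lprod (insert a E) (fun x => m.e x s)
    have hc : ∀ E' : Finset Lett, (E' : Set Lett).Pairwise
        (Function.onFun Commute (fun x => m.e x s)) :=
      fun E' a _ b _ hab => m.e_comm a b hab s s
    rw [lprod_eq_noncommProd E _ (hc E), lprod_eq_noncommProd (insert a E) _ (hc _),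
      Finset.noncommProd_insert_of_notMem _ _ _ _ ha]

theorem ev_lset (φ : Lett → Prop) :
    Romp.ev (fun x => m.letterEv hC x) {x | φ x} = m.setEv hC (lset φ) := by
  rw [← ev_coe]
  congr 1
  ext x
  simp

/-- the letter events are a partition of `⊤` -/
theorem isPart : Romp.IsPart (fun x => m.letterEv hC x) (⊤ : Ev (m.colGrp hC)) := by
  have h1 := isPart0 m hC
  have h2 : Romp.ev (fun x => m.letterEv hC x) Set.univ = (⊤ : Ev (m.colGrp hC)) := by
    rw [← Finset.coe_univ, ev_coe, m.setEv_univ]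
    rfl
  rwa [h2] at h1

end gen

end TBase

/-- digit events (`j mod 9`) -/
noncomputable def cEv {C : Type} [Fintype C] [DecidableEq C] {M : MatchData Lett} {G : Type}
    [Group G] (m : TModel M C G) (hC : 30 ≤ Fintype.card C) (j : ℕ) : Ev (m.colGrp hC) :=
  m.setEv hC (lset fun x => (x.1 : ℕ) = j % 9)

/-- star events -/
noncomputable def StEv {C : Type} [Fintype C] [DecidableEq C] {M : MatchData Lett} {G : Type}
    [Group G] (m : TModel M C G) (hC : 30 ≤ Fintype.card C) (s : Star) : Ev (m.colGrp hC) :=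
  m.setEv hC (lset fun x => x.2 = s)

namespace TBase

variable {C : Type} [Fintype C] [DecidableEq C] {G : Type} [Group G]

section gen
variable {M : MatchData Lett} (m : TModel M C G) (hC : 30 ≤ Fintype.card C)

theorem cEv_eq (j : ℕ) : cEv m hC j =
    Romp.ev (fun x => m.letterEv hC x) {x | (x.1 : ℕ) = j % 9} := (ev_lset m hC _).symm

theorem StEv_eq (s : Star) : StEv m hC s =
    Romp.ev (fun x => m.letterEv hC x) {x | x.2 = s} := (ev_lset m hC _).symm

theorem ev_StEv (A : Set Star) : Romp.ev (StEv m hC) A =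
    Romp.ev (fun x => m.letterEv hC x) {x | x.2 ∈ A} := by
  have h := (isPart m hC).ev_map Prod.snd A
  have h2 : StEv m hC = fun k => Romp.ev (fun x => m.letterEv hC x) (Prod.snd ⁻¹' {k}) := by
    funext s
    rw [StEv_eq]; rfl
  rw [h2, h]; rfl

theorem cEv_meet (j : ℕ) (A : Set Star) :
    Romp.meet (cEv m hC j) (Romp.ev (StEv m hC) A) =
      Romp.ev (fun x => m.letterEv hC x) {x | (x.1 : ℕ) = j % 9 ∧ x.2 ∈ A} := by
  rw [cEv_eq, ev_StEv, (isPart m hC).ev_meet]; rfl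

theorem cEv_meet_St (j : ℕ) (s : Star) :
    Romp.meet (cEv m hC j) (StEv m hC s) =
      Romp.ev (fun x => m.letterEv hC x) {x | (x.1 : ℕ) = j % 9 ∧ x.2 = s} := by
  rw [cEv_eq, StEv_eq, (isPart m hC).ev_meet]; rfl

theorem part_c : Romp.IsPart (fun j : Fin (3 * 3) => cEv m hC j) ⊤ := by
  have h := (isPart m hC).map (fun x => (x.1 : Fin 9))
  have h2 : (fun j : Fin (3 * 3) => cEv m hC j) =
      fun k : Fin 9 => Romp.ev (fun x => m.letterEv hC x) ((fun x => (x.1 : Fin 9)) ⁻¹' {k}) := by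
    funext j
    rw [cEv_eq]
    congr 1
    ext x
    have hj : (j : ℕ) % 9 = j := Nat.mod_eq_of_lt j.2
    simp only [Set.mem_ofPred_eq, Set.mem_preimage, Set.mem_singleton_iff, hj]
    exact (Fin.ext_iff (a := x.1) (b := j)).symm
  rw [h2]
  exact h

theorem part_St : Romp.IsPart (StEv m hC) ⊤ := by
  have h := (isPart m hC).map (Prod.snd : Lett → Star)
  have h2 : StEv m hC = fun k => Romp.ev (fun x => m.letterEv hC x) (Prod.snd ⁻¹' {k}) := by
    funext s
    rw [StEv_eq]; rfl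
  rw [h2]
  exact h

theorem comm (j : ℕ) (s : Star) : Romp.Comm (cEv m hC j) (StEv m hC s) := by
  rw [cEv_eq, StEv_eq]
  exact (isPart m hC).comm_ev _ _

/-- the atoms are the letters -/
theorem meet_eq_letter (j : ℕ) (s : Star) :
    Romp.meet (cEv m hC j) (StEv m hC s) =
      m.letterEv hC (⟨j % 9, Nat.mod_lt _ (by norm_num)⟩, s) := by
  rw [cEv_meet_St, ← Romp.ev_singleton (P := fun x => m.letterEv hC x)
    (⟨j % 9, Nat.mod_lt _ (by norm_num)⟩, s)]
  congr 1
  ext x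
  simp only [Set.mem_ofPred_eq, Set.mem_singleton_iff]
  rw [Prod.ext_iff, Fin.ext_iff]

/-- the matching relations, as translations of sums of letters -/
theorem smul_ev (k : M.ι) {φ ψ : Lett → Prop} (h1 : M.src k = lset φ) (h2 : M.dst k = lset ψ) :
    ofAdd (M.vec k) • Romp.ev (fun x => m.letterEv hC x) {x | φ x} =
      Romp.ev (fun x => m.letterEv hC x) {x | ψ x} := by
  rw [ev_lset, ev_lset, ← h1, ← h2, Ev.ofAdd_smul]
  exact ((m.isTrans_matching hC k).eq).symm

end gen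

variable (m : TModel MD C G) (hC : 30 ≤ Fintype.card C)

/-- forbidden letters vanish -/
theorem letter_bad {x : Lett} (hx : ¬ LettOK x) : m.letterEv hC x = ⊥ := by
  have h := smul_ev m hC (M := MD) MIx.bad (MD_src _) (MD_dst _)
  have h0 : ofAdd (MD.vec MIx.bad) = (1 : Multiplicative (ℤ × ℤ)) := rfl
  rw [h0, one_smul] at h
  have h2 : {x : Lett | MIx.D .bad x} = ∅ := by
    ext x; simp [MIx.D]
  rw [h2, Romp.ev_empty] at h
  exact (isPart m hC).ev_eq_bot_iff.1 h x hx

/-- atoms, allowed letters -/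
theorem atom {j : ℕ} (hj : j < 9) (s : Star) :
    Romp.meet (cEv m hC j) (StEv m hC s) = m.letterEv hC (⟨j, hj⟩, s) := by
  rw [meet_eq_letter]
  congr 3
  exact Nat.mod_eq_of_lt hj

theorem atom_bad {j : ℕ} (hj : j < 9) (s : Star)
    (h : ¬ LettOK (⟨j, hj⟩, s)) : Romp.meet (cEv m hC j) (StEv m hC s) = ⊥ := by
  rw [atom m hC hj, letter_bad m hC h]

theorem p_c (j : ℕ) : ofAdd ((0, 1) : ℤ × ℤ) • cEv m hC j = cEv m hC (j + 1) := by
  have h := smul_ev m hC (M := MD) (MIx.cP ⟨j % 9, Nat.mod_lt _ (by norm_num)⟩)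
    (MD_src _) (MD_dst _)
  rw [cEv_eq, cEv_eq]
  have h1 : {x : Lett | (x.1 : ℕ) = j % 9} =
      {x | MIx.S (.cP ⟨j % 9, Nat.mod_lt _ (by norm_num)⟩) x} := by
    ext x
    simp only [Set.mem_ofPred_eq, MIx.S]
    rw [Fin.ext_iff]
  have h2 : {x : Lett | (x.1 : ℕ) = (j + 1) % 9} =
      {x | MIx.D (.cP ⟨j % 9, Nat.mod_lt _ (by norm_num)⟩) x} := by
    ext x
    simp only [Set.mem_ofPred_eq, MIx.D]
    rw [Fin.ext_iff, Fin.val_add]
    have : (j + 1) % 9 = (j % 9 + ((1 : Fin 9) : ℕ)) % 9 := by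
      show (j + 1) % 9 = (j % 9 + 1) % 9
      omega
    rw [this]
  rw [h1, h2]
  exact h

theorem q_c (j : ℕ) : ofAdd ((1, 0) : ℤ × ℤ) • cEv m hC j = cEv m hC j := by
  have h := smul_ev m hC (M := MD) (MIx.cQ ⟨j % 9, Nat.mod_lt _ (by norm_num)⟩)
    (MD_src _) (MD_dst _)
  rw [cEv_eq]
  have h1 : {x : Lett | (x.1 : ℕ) = j % 9} =
      {x | MIx.S (.cQ ⟨j % 9, Nat.mod_lt _ (by norm_num)⟩) x} := by
    ext x
    simp only [Set.mem_ofPred_eq, MIx.S]
    rw [Fin.ext_iff]
  rw [h1]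
  exact h

theorem P_shift (L : Label) : ofAdd ((0, 1) : ℤ × ℤ) • Romp.ev (StEv m hC) {s | s.Pf = L} =
    Romp.ev (StEv m hC) {s | s.Pb = L} := by
  rw [ev_StEv, ev_StEv]
  exact smul_ev m hC (M := MD) (MIx.lP L) (MD_src _) (MD_dst _)

theorem Q_shift0 (L : Label) : ofAdd ((1, 0) : ℤ × ℤ) •
      Romp.meet (cEv m hC 0) (Romp.ev (StEv m hC) {s | s.Qf = L}) =
    Romp.meet (cEv m hC 0) (Romp.ev (StEv m hC) {s | s.Qb = L}) := by
  rw [cEv_meet, cEv_meet]
  exact smul_ev m hC (M := MD) (MIx.lQ L) (MD_src _) (MD_dst _)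

theorem Q_shift {j : ℕ} (h0 : 0 < j) (hj : j < 9) (th : Option (S × Rel)) :
    ofAdd ((1, 0) : ℤ × ℤ) •
      Romp.meet (cEv m hC j) (Romp.ev (StEv m hC) {s | s.Qf.st = th}) =
    Romp.meet (cEv m hC j) (Romp.ev (StEv m hC) {s | s.Qb.st = th}) := by
  have h := smul_ev m hC (M := MD) (MIx.st ⟨j, hj⟩ th) (MD_src _) (MD_dst _)
  rw [cEv_meet, cEv_meet]
  have hj' : j % 9 = j := Nat.mod_eq_of_lt hj
  have h1 : {x : Lett | (x.1 : ℕ) = j % 9 ∧ x.2 ∈ {s : Star | s.Qf.st = th}} =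
      {x | MIx.S (.st ⟨j, hj⟩ th) x} := by
    ext x
    simp only [Set.mem_ofPred_eq, MIx.S, hj']
    rw [Fin.ext_iff]
    simp [h0.ne']
  have h2 : {x : Lett | (x.1 : ℕ) = j % 9 ∧ x.2 ∈ {s : Star | s.Qb.st = th}} =
      {x | MIx.D (.st ⟨j, hj⟩ th) x} := by
    ext x
    simp only [Set.mem_ofPred_eq, MIx.D, hj']
    rw [Fin.ext_iff]
    simp [h0.ne']
  rw [h1, h2]
  exact h

theorem per : cEv m hC (3 * 3) = cEv m hC 0 := rfl

/-- **the base level structure** -/
theorem base [Centreless G] : LS (⊤ : Ev (m.colGrp hC)) (ofAdd ((0, 1) : ℤ × ℤ))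
    (ofAdd ((1, 0) : ℤ × ℤ)) 3 (cEv m hC) (StEv m hC) where
  three_le := le_rfl
  part_c := part_c m hC
  p_c := p_c m hC
  per := per m hC
  q_c := q_c m hC
  part_St := part_St m hC
  comm := fun j _ s => comm m hC j s
  dom := fun j h0 hj s hs => by
    refine atom_bad m hC hj s ?_
    rintro (h | h)
    · exact h0.ne' h
    · exact hs h
  P_shift := P_shift m hC
  Q_shift0 := Q_shift0 m hC
  Q_shift := fun j h0 hj th => Q_shift m hC h0 hj th

end TBase

end Crest.Agent.R189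
private theorem rz_7c843a4aca : type_of% @_root_.Crest.Agent.R189.MIx.D.eq_1 := @_root_.Crest.Agent.R189.MIx.D.eq_1 -- L72
private theorem rz_e8c59a76a7 : type_of% @_root_.Crest.Agent.R189.MIx.S.eq_1 := @_root_.Crest.Agent.R189.MIx.S.eq_1 -- L63
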