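import Crest.Agent.R189.RNDefs

/-!
# Row 189, part E2: basic lemmas about level structures

`Row p c St j : Set Star → E` is a Boolean homomorphism onto its image in `[⊥, c 0]`;
`Lab p c St j A = Row j {Pf ∈ A} = Row (j+1) {Pb ∈ A}`.
-/

set_option autoImplicit false

namespace Crest.Agent.R189

open Romp

/-! ### the two trivial finite facts -/

theorem Star.P_tau (s : Star) : s.Pb.tau = s.Pf.tau := by
  obtain ⟨⟨d, b, f, b', f'⟩, h⟩ := s
  cases d
  · simp only [RStar.OK, Rule] at h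
    exact h.2.2.2.1
  · simp only [RStar.OK, Rule] at h
    exact h.1

theorem Star.Q_tau (s : Star) : s.Qb.tau = s.Qf.tau := s.flip.P_tau

theorem Star.P_st (s : Star) (h : s.domP = true) : s.Pb.st = s.Pf.st := by
  obtain ⟨⟨d, b, f, b', f'⟩, hs⟩ := s
  cases d
  · simp [Star.domP] at h
  · simp only [RStar.OK, Rule] at hs
    exact hs.2.1

variable {G E : Type*} [CommGroup G] [ROMP E] [OMPAct G E]
variable {D : E} {p q : G} {a : ℕ} {c : ℕ → E} {St : Star → E}

namespace LS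

variable (h : LS D p q a c St)
include h

theorem n_pos : 0 < 3 * a := by have := h.three_le; omega

/-! ### digits -/

theorem c_eq (j : ℕ) : c j = p ^ j • c 0 := by
  induction j with
  | zero => simp
  | succ j ih => rw [← h.p_c j, ih, pow_succ', mul_smul]

theorem inv_c (j : ℕ) : (p ^ j)⁻¹ • c j = c 0 := by
  rw [h.c_eq j, inv_smul_smul]

theorem p_pow_c (i j : ℕ) : p ^ i • c j = c (i + j) := by
  rw [h.c_eq j, h.c_eq (i + j), pow_add, mul_smul]

theorem c_add_n (j : ℕ) : c (j + 3 * a) = c j := by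
  rw [← h.p_pow_c j, h.per, h.p_pow_c]; rfl

theorem pn_c (j : ℕ) : p ^ (3 * a) • c j = c j := by
  rw [h.p_pow_c, add_comm, h.c_add_n]

theorem c_mod (j : ℕ) : c (j % (3 * a)) = c j := by
  conv_rhs => rw [← Nat.mod_add_div j (3 * a)]
  generalize j % (3 * a) = r
  generalize j / (3 * a) = k
  induction k with
  | zero => simp
  | succ k ih => rw [Nat.mul_succ, ← add_assoc, h.c_add_n, ← ih]


theorem q_inv_c (j : ℕ) : q⁻¹ • c j = c j := by
  rw [inv_smul_eq_iff, h.q_c]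

theorem c_le (j : ℕ) : c j ≤ D := by
  have := h.part_c.le_total ⟨j % (3 * a), Nat.mod_lt _ h.n_pos⟩
  simpa [h.c_mod] using this

theorem c_orth {i j : ℕ} (hij : i % (3 * a) ≠ j % (3 * a)) : Orth (c i) (c j) := by
  have := h.part_c.orth (i := ⟨i % (3 * a), Nat.mod_lt _ h.n_pos⟩)
    (j := ⟨j % (3 * a), Nat.mod_lt _ h.n_pos⟩) (by simpa using hij)
  simpa [h.c_mod] using this

/-! ### commutation of digits and stars -/

theorem comm_all (j : ℕ) (s : Star) : Comm (c j) (St s) := by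
  have := h.comm (j % (3 * a)) (Nat.mod_lt _ h.n_pos) s
  rwa [h.c_mod] at this

theorem comm_ev (j : ℕ) (A : Set Star) : Comm (c j) (ev St A) :=
  h.part_St.comm_right (h.comm_all j) A

theorem meet_D (j : ℕ) : c j ⊓ₒ D = c j := meet_eq_left (h.c_le j)

theorem cap_eq_ev (j : ℕ) (A : Set Star) : c j ⊓ₒ ev St A = ev (fun s => c j ⊓ₒ St s) A :=
  h.part_St.meet_ev (h.comm_all j) A

theorem capPart (j : ℕ) : IsPart (fun s => c j ⊓ₒ St s) (c j) := by
  have := h.part_St.restrict (h.comm_all j)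
  rwa [h.meet_D] at this

theorem cap_le_c (j : ℕ) (A : Set Star) : c j ⊓ₒ ev St A ≤ c j := meet_le_left (h.comm_ev j A)

/-! ### the row algebra -/

omit h in
theorem Row_singleton (j : ℕ) (s : Star) : Row p c St j {s} = (p ^ j)⁻¹ • (c j ⊓ₒ St s) := by
  rw [Row, ev_singleton]

theorem rowPart (j : ℕ) : IsPart (fun s => Row p c St j {s}) (c 0) := by
  have := (h.capPart j).smul (p ^ j)⁻¹
  rw [h.inv_c] at this
  simpa only [Row_singleton] using this

theorem Row_eq_ev (j : ℕ) (A : Set Star) :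
    Row p c St j A = ev (fun s => Row p c St j {s}) A := by
  simp only [Row_singleton]
  rw [Row, h.cap_eq_ev, smul_ev]

omit h in
theorem Row_zero' (A : Set Star) : Row p c St 0 A = c 0 ⊓ₒ ev St A := by
  simp [Row]

theorem Row_zero (A : Set Star) : Row p c St 0 A = c 0 ⊓ₒ ev St A := Row_zero' A

@[simp] theorem Row_univ (j : ℕ) : Row p c St j Set.univ = c 0 := by
  rw [h.Row_eq_ev]; exact (h.rowPart j).ev_univ

@[simp] theorem Row_empty (j : ℕ) : Row p c St j ∅ = ⊥ := by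
  rw [h.Row_eq_ev]; simp

theorem Row_le (j : ℕ) (A : Set Star) : Row p c St j A ≤ c 0 := by
  rw [h.Row_eq_ev]; exact (h.rowPart j).ev_le_total A

theorem Row_mono (j : ℕ) {A B : Set Star} (hAB : A ⊆ B) : Row p c St j A ≤ Row p c St j B := by
  rw [h.Row_eq_ev, h.Row_eq_ev]; exact (h.rowPart j).ev_mono hAB

theorem Row_orth (j : ℕ) {A B : Set Star} (hAB : Disjoint A B) :
    Orth (Row p c St j A) (Row p c St j B) := by
  rw [h.Row_eq_ev, h.Row_eq_ev]; exact (h.rowPart j).ev_orth hAB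

theorem Row_add (j : ℕ) {A B : Set Star} (hAB : Disjoint A B) :
    Row p c St j A +ₒ Row p c St j B = Row p c St j (A ∪ B) := by
  rw [h.Row_eq_ev, h.Row_eq_ev, h.Row_eq_ev j (A ∪ B)]; exact (h.rowPart j).ev_add hAB

theorem Row_comm (j : ℕ) (A B : Set Star) : Comm (Row p c St j A) (Row p c St j B) := by
  rw [h.Row_eq_ev, h.Row_eq_ev]; exact (h.rowPart j).comm_ev A B

theorem Row_meet (j : ℕ) (A B : Set Star) :
    Row p c St j A ⊓ₒ Row p c St j B = Row p c St j (A ∩ B) := by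
  rw [h.Row_eq_ev, h.Row_eq_ev, h.Row_eq_ev j (A ∩ B)]; exact (h.rowPart j).ev_meet A B

theorem Row_compl (j : ℕ) (A : Set Star) : c 0 -ₒ Row p c St j A = Row p c St j Aᶜ := by
  rw [h.Row_eq_ev, h.Row_eq_ev]; exact (h.rowPart j).sub_ev A





/-! ### (L5): only the stars with `domP`, `Q.tau = tauOf a j` matter on row `j` -/

theorem Row_atom_bot {j : ℕ} (h0 : 0 < j) (hj : j < 3 * a) {s : Star}
    (hs : ¬ (s.domP = true ∧ s.Qb.tau = tauOf a j)) : Row p c St j {s} = ⊥ := by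
  rw [Row_singleton, h.dom j h0 hj s hs, smul_bot]


theorem Row_le_Row {j : ℕ} (h0 : 0 < j) (hj : j < 3 * a) {A B : Set Star}
    (hAB : ∀ s ∈ A, s.domP = true → s.Qb.tau = tauOf a j → s ∈ B) :
    Row p c St j A ≤ Row p c St j B := by
  rw [h.Row_eq_ev, h.Row_eq_ev j B, (h.rowPart j).ev_le_ev_iff]
  intro s hs hsB
  exact h.Row_atom_bot h0 hj (fun hc => hsB (hAB s hs hc.1 hc.2))

theorem Row_eq_Row {j : ℕ} (h0 : 0 < j) (hj : j < 3 * a) {A B : Set Star}
    (hAB : ∀ s : Star, s.domP = true → s.Qb.tau = tauOf a j → (s ∈ A ↔ s ∈ B)) :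
    Row p c St j A = Row p c St j B :=
  le_antisymm (h.Row_le_Row h0 hj fun s hs h1 h2 => (hAB s h1 h2).1 hs)
    (h.Row_le_Row h0 hj fun s hs h1 h2 => (hAB s h1 h2).2 hs)



theorem le_Row_inter {j : ℕ} {x : E} {A B : Set Star} (hA : x ≤ Row p c St j A)
    (hB : x ≤ Row p c St j B) : x ≤ Row p c St j (A ∩ B) := by
  rw [← h.Row_meet]; exact le_meet (h.Row_comm j A B) hA hB

/-! ### shifts -/

/-- (L6) for sets of labels -/
theorem P_shift_set (A : Set Label) :
    p • ev St {s | s.Pf ∈ A} = ev St {s | s.Pb ∈ A} := by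
  have e1 := h.part_St.ev_map (κ := Label) (fun s : Star => s.Pf) A
  have e2 := h.part_St.ev_map (κ := Label) (fun s : Star => s.Pb) A
  have e3 : (fun k : Label => p • ev St ((fun s : Star => s.Pf) ⁻¹' {k})) =
      fun k : Label => ev St ((fun s : Star => s.Pb) ⁻¹' {k}) := by
    funext k; exact h.P_shift k
  calc p • ev St {s | s.Pf ∈ A} = p • ev St ((fun s : Star => s.Pf) ⁻¹' A) := rfl
    _ = ev St ((fun s : Star => s.Pb) ⁻¹' A) := by rw [← e1, smul_ev, e3, e2]
    _ = _ := rfl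

theorem p_cap (j : ℕ) (A : Set Label) :
    p • (c j ⊓ₒ ev St {s | s.Pf ∈ A}) = c (j + 1) ⊓ₒ ev St {s | s.Pb ∈ A} := by
  rw [smul_meet, h.P_shift_set, h.p_c]

/-- `Lab j` is read off at the bottom of row `j + 1` -/
theorem Lab_eq_Row_succ (j : ℕ) (A : Set Label) :
    Lab p c St j A = Row p c St (j + 1) {s | s.Pb ∈ A} := by
  rw [Lab, Row, ← h.p_cap, pow_succ, mul_inv_rev, ← mul_smul, mul_assoc, mul_comm (p ^ j)⁻¹ p,
    inv_mul_cancel_left]

theorem Lab_eq_Row_pred {j : ℕ} (hj : 0 < j) (A : Set Label) :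
    Lab p c St (j - 1) A = Row p c St j {s | s.Pb ∈ A} := by
  rw [h.Lab_eq_Row_succ, Nat.sub_add_cancel hj]



theorem Row_add_n (j : ℕ) (A : Set Star) :
    p ^ (3 * a) • Row p c St (j + 3 * a) A = Row p c St j A := by
  rw [Row, Row, h.c_add_n, pow_add, mul_inv_rev, mul_smul, smul_inv_smul]

/-- the label below the row `n`, i.e. the backward label at `c 0` -/
theorem pn_Lab (A : Set Label) :
    p ^ (3 * a) • Lab p c St (3 * a - 1) A = Row p c St 0 {s | s.Pb ∈ A} := by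
  have := h.Row_add_n 0 {s | s.Pb ∈ A}
  rw [zero_add, ← h.Lab_eq_Row_pred h.n_pos] at this
  exact this

/-- (L8) for sets of states -/
theorem q_cap {j : ℕ} (h0 : 0 < j) (hj : j < 3 * a) (T : Set (Option (S × Rel))) :
    q • (c j ⊓ₒ ev St {s | s.Qf.st ∈ T}) = c j ⊓ₒ ev St {s | s.Qb.st ∈ T} := by
  have e1 := (h.capPart j).ev_map (κ := Option (S × Rel)) (fun s : Star => s.Qf.st) T
  have e2 := (h.capPart j).ev_map (κ := Option (S × Rel)) (fun s : Star => s.Qb.st) T
  have e3 : (fun k => q • ev (fun s => c j ⊓ₒ St s) ((fun s : Star => s.Qf.st) ⁻¹' {k})) =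
      fun k => ev (fun s => c j ⊓ₒ St s) ((fun s : Star => s.Qb.st) ⁻¹' {k}) := by
    funext k
    rw [← h.cap_eq_ev, ← h.cap_eq_ev]
    exact h.Q_shift j h0 hj k
  rw [h.cap_eq_ev, h.cap_eq_ev]
  calc q • ev (fun s => c j ⊓ₒ St s) ((fun s : Star => s.Qf.st) ⁻¹' T)
      = ev (fun s => c j ⊓ₒ St s) ((fun s : Star => s.Qb.st) ⁻¹' T) := by
        rw [← e1, smul_ev, e3, e2]
    _ = _ := rfl

/-- (L8) in the row algebra -/
theorem q_Row {j : ℕ} (h0 : 0 < j) (hj : j < 3 * a) (T : Set (Option (S × Rel))) :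
    q • Row p c St j {s | s.Qf.st ∈ T} = Row p c St j {s | s.Qb.st ∈ T} := by
  rw [Row, Row, ← h.q_cap h0 hj, ← mul_smul, ← mul_smul, mul_comm]

/-- (L7) for sets of labels -/
theorem q_Row0 (A : Set Label) :
    q • Row p c St 0 {s | s.Qf ∈ A} = Row p c St 0 {s | s.Qb ∈ A} := by
  have e1 := (h.capPart 0).ev_map (κ := Label) (fun s : Star => s.Qf) A
  have e2 := (h.capPart 0).ev_map (κ := Label) (fun s : Star => s.Qb) A
  have e3 : (fun k => q • ev (fun s => c 0 ⊓ₒ St s) ((fun s : Star => s.Qf) ⁻¹' {k})) =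
      fun k => ev (fun s => c 0 ⊓ₒ St s) ((fun s : Star => s.Qb) ⁻¹' {k}) := by
    funext k
    rw [← h.cap_eq_ev, ← h.cap_eq_ev]
    exact h.Q_shift0 k
  rw [Row_zero', Row_zero', h.cap_eq_ev, h.cap_eq_ev]
  calc q • ev (fun s => c 0 ⊓ₒ St s) ((fun s : Star => s.Qf) ⁻¹' A)
      = ev (fun s => c 0 ⊓ₒ St s) ((fun s : Star => s.Qb) ⁻¹' A) := by
        rw [← e1, smul_ev, e3, e2]
    _ = _ := rfl

/-! ### invariance of `tau`, `st` along the `P` line -/

omit h in
theorem Row_Pb_tau (j : ℕ) (T : Set Tau) :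
    Row p c St j {s | s.Pb.tau ∈ T} = Row p c St j {s | s.Pf.tau ∈ T} := by
  congr 1; ext s; simp [s.P_tau]

/-- the type of the `P` line does not depend on the row -/
theorem Row_tau (j : ℕ) (T : Set Tau) :
    Row p c St j {s | s.Pf.tau ∈ T} = Row p c St 0 {s | s.Pf.tau ∈ T} := by
  induction j with
  | zero => rfl
  | succ j ih =>
    rw [← ih, ← Row_Pb_tau (j + 1)]
    exact (h.Lab_eq_Row_succ j {L | L.tau ∈ T}).symm

/-- the type of the `P` line is invariant under `p` -/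
theorem pow_Row_tau (i : ℕ) (T : Set Tau) :
    p ^ i • Row p c St 0 {s | s.Pf.tau ∈ T} = c i ⊓ₒ ev St {s | s.Pf.tau ∈ T} := by
  rw [← h.Row_tau i T, Row, smul_inv_smul]

theorem pn_Row_tau (T : Set Tau) :
    p ^ (3 * a) • Row p c St 0 {s | s.Pf.tau ∈ T} = Row p c St 0 {s | s.Pf.tau ∈ T} := by
  rw [h.pow_Row_tau, h.per, Row_zero']


/-- the state of the `P` line does not depend on the row `j < n` -/
theorem Lab_st {j : ℕ} (hj : j < 3 * a) (T : Set (Option (S × Rel))) :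
    Lab p c St j {L | L.st ∈ T} = Lab p c St 0 {L | L.st ∈ T} := by
  induction j with
  | zero => rfl
  | succ j ih =>
    rw [← ih (by omega), h.Lab_eq_Row_succ j, Lab_eq_Row]
    refine h.Row_eq_Row (Nat.succ_pos j) hj fun s h1 _ => ?_
    simp [s.P_st h1]

/-- both together -/
theorem Lab_tau_st {j : ℕ} (hj : j < 3 * a) (T : Set (Tau × Option (S × Rel))) :
    Lab p c St j {L | (L.tau, L.st) ∈ T} = Lab p c St 0 {L | (L.tau, L.st) ∈ T} := by
  induction j with
  | zero => rfl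
  | succ j ih =>
    rw [← ih (by omega), h.Lab_eq_Row_succ j, Lab_eq_Row]
    refine h.Row_eq_Row (Nat.succ_pos j) hj fun s h1 _ => ?_
    simp [s.P_st h1, s.P_tau]

/-! ### commuting with shifts -/

omit h [ROMP E] [OMPAct G E] in
theorem _root_.Crest.Agent.R189.smul_swap {E : Type*} [MulAction G E] (x y : G) (e : E) :
    x • y • e = y • x • e := by
  rw [← mul_smul, ← mul_smul, mul_comm]

end LS

end Crest.Agent.R189
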