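import Crest.Agent.R189.XDef
import Crest.Agent.R189.StarOf
import Crest.Agent.R189.Let
import Crest.Agent.R189.SetAct
import Crest.Agent.R189.XOK

-- ▼ part R189/XOcc
section

/-!
Row 189 (S0289), helper787.  OCCURRENCE in the explicit configurations, level free:
every star allowed by (X1), (X2) occurs, and only those.
-/

set_option autoImplicit false

namespace Crest.Agent.R189

namespace XOccAux

theorem dg_zero' (n : ℕ) : dg n 0 = 0 := by simp [dg]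


/-- digit of the predecessor -/
theorem dg_sub_one {a : ℕ} (x : ℤ) : dg (3 * (a + 1)) (x - 1) = prev a (dg (3 * (a + 1)) x) := by
  have hn : 0 < 3 * (a + 1) := by omega
  have h1 := dg_cast hn x
  have h2 := dg_cast hn (x - 1)
  have h3 := dg_lt hn x
  have h4 := dg_lt hn (x - 1)
  unfold prev
  split_ifs with h
  · obtain ⟨y, rfl⟩ := (dg_eq_zero hn).1 h
    exact dg_mul_sub_one hn y
  · have h5 : (x - 1) % ((3 * (a + 1) : ℕ) : ℤ) = x % ((3 * (a + 1) : ℕ) : ℤ) - 1 := by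
      have h6 := Int.emod_emod_of_dvd x (dvd_refl ((3 * (a + 1) : ℕ) : ℤ))
      have h7 : x - 1 = (x % ((3 * (a + 1) : ℕ) : ℤ) - 1) + ((3 * (a + 1) : ℕ) : ℤ) * (x / ((3 * (a + 1) : ℕ) : ℤ)) := by
        have := Int.mul_ediv_add_emod x ((3 * (a + 1) : ℕ) : ℤ)
        linarith
      rw [h7, Int.add_mul_emod_self_left]
      apply Int.emod_eq_of_lt <;> omega
    omega

/-- `Hf` at a row with digit `≠ 0` -/
theorem Hf_of_ne {a : ℕ} (s : Star) (x : ℤ) {y : ℤ} (h : dg (3 * a) y ≠ 0) :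
    Hf a s x y = ⟨tauOf a (dg (3 * a) y), state a (dg (3 * a) y) (dg (3 * (a + 1)) x), .A⟩ := by
  rw [Hf, if_neg h]

theorem Hb_of_ne {a : ℕ} (s : Star) (x : ℤ) {y : ℤ} (h : dg (3 * a) y ≠ 0) :
    Hb a s x y = ⟨tauOf a (dg (3 * a) y),
      state a (dg (3 * a) y) (prev a (dg (3 * (a + 1)) x)), .B⟩ := by
  rw [Hb, if_neg h, dg_sub_one]

theorem mul_add_div {n j : ℕ} (hj : j < n) (k : ℤ) : ((n : ℤ) * k + j) / (n : ℤ) = k := by
  have hn : (0 : ℤ) < n := by omega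
  rw [Int.mul_add_ediv_left _ _ hn.ne', Int.ediv_eq_zero_of_lt (by positivity) (by exact_mod_cast hj)]
  ring

theorem dg_mul_add {n j : ℕ} (hj : j < n) (k : ℤ) : dg n ((n : ℤ) * k + j) = j := by
  rw [dg_add_mul', dg_natCast hj]

end XOccAux

open XOccAux

/-- the label of the `P` line between the rows `j` and `j+1` of the cell `k` -/
theorem V_lamAt {a : ℕ} (ha : 1 ≤ a) (s : Star) (x k : ℤ) {j : ℕ} (hj : j < 3 * a) :
    V a s x (((3 * a : ℕ) : ℤ) * k + j) =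
      lamAt a j (dg (3 * (a + 1)) x) (V a s x (((3 * a : ℕ) : ℤ) * k)) := by
  have hp : ((3 * a : ℕ) : ℤ) ≠ 0 := by
    have : 0 < 3 * a := by omega
    exact_mod_cast this.ne'
  by_cases hx : dg (3 * (a + 1)) x = 0
  · rw [hx, lamAt_zero]
    obtain ⟨x, rfl⟩ := (dg_eq_zero (by omega)).1 hx
    rw [V_mul ha, V_mul ha, mul_add_div hj, Int.mul_ediv_cancel_left _ hp]
  · rw [lamAt_of_ne hx, V_of_ne _ _ hx, V_of_ne _ _ hx, dg_mul_add hj, mul_add_div hj,
      Int.mul_ediv_cancel_left _ hp]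

/-- the star at row `j ≠ 0` is the allowed one -/
theorem rstar_eq_rstarOf {a : ℕ} (ha : 1 ≤ a) (s : Star) (x k : ℤ) {j : ℕ} (hj0 : 0 < j)
    (hj : j < 3 * a) :
    rstar a s x (((3 * a : ℕ) : ℤ) * k + j) =
      rstarOf a j (dg (3 * (a + 1)) x) (V a s x (((3 * a : ℕ) : ℤ) * k)) := by
  have hd : dg (3 * a) (((3 * a : ℕ) : ℤ) * k + j) ≠ 0 := by
    rw [dg_mul_add hj]; omega
  unfold rstar rstarOf
  rw [dom_of_ne _ _ hd, V_lamAt ha s x k hj, Hf_of_ne _ _ hd, Hb_of_ne _ _ hd, dg_mul_add hj]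
  have h1 : (((3 * a : ℕ) : ℤ) * k + j) - 1 = ((3 * a : ℕ) : ℤ) * k + ((j - 1 : ℕ) : ℤ) := by
    omega
  rw [h1, V_lamAt ha s x k (by omega)]

/-- occurrence of the admissible labels above row `0` -/
theorem exists_V_eq {a : ℕ} (ha : 1 ≤ a) {j' : ℕ} (hj' : j' < 3 * (a + 1)) {L0 : Label}
    (h : AdmL a j' L0) : ∃ (s : Star) (x k : ℤ), dg (3 * (a + 1)) x = j' ∧
      V a s x (((3 * a : ℕ) : ℤ) * k) = L0 := by
  have hp : ((3 * a : ℕ) : ℤ) ≠ 0 := by
    have : 0 < 3 * a := by omega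
    exact_mod_cast this.ne'
  by_cases h0 : j' = 0
  · subst h0
    rw [AdmL_zero] at h
    refine ⟨quietStar L0 h, 0, 0, dg_zero' _, ?_⟩
    rw [mul_zero, V_zero, if_pos le_rfl, quietStar_Pf]
  · rw [AdmL_of_ne h0] at h
    obtain ⟨j'', hj'', rfl⟩ := h
    have hx : dg (3 * (a + 1)) (j' : ℤ) = j' := dg_natCast hj'
    refine ⟨quietStar ⟨.f0, none, .A⟩ (by decide), (j' : ℤ), (j'' : ℤ), hx, ?_⟩
    rw [V_of_ne _ _ (by rw [hx]; exact h0), hx, dg_mul (by omega), Int.mul_ediv_cancel_left _ hp,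
      dg_natCast hj'', umem_zero ha]

/-- OCCURRENCE: every allowed star occurs -/
theorem exists_rstar_eq {a : ℕ} (ha : 1 ≤ a) {j j' : ℕ} (hj0 : 0 < j) (hj : j < 3 * a)
    (hj' : j' < 3 * (a + 1)) {L0 : Label} (h : AdmL a j' L0) :
    ∃ (s : Star) (x y : ℤ), dg (3 * a) y = j ∧ dg (3 * (a + 1)) x = j' ∧
      rstar a s x y = rstarOf a j j' L0 := by
  obtain ⟨s, x, k, h1, h2⟩ := exists_V_eq ha hj' h
  refine ⟨s, x, ((3 * a : ℕ) : ℤ) * k + j, dg_mul_add hj k, h1, ?_⟩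
  rw [rstar_eq_rstarOf ha s x k hj0 hj, h1, h2]


end Crest.Agent.R189
end

-- ▼ part R189/XHier
section

/-!
Row 189 (S0289), helper787.  The hierarchy (namespace `XH`) of the explicit system `X` in the Boolean algebra
`Set X` with the action of `Multiplicative (ℤ × ℤ)` by translation.

`xD a k` the points on the lattice of level `k`, `xP a k x`, `xQ a k x` the indices of the `P` and
`Q` line of level `k`, `xc a k j`, `xSt a k s` the digit and star events of level `k`.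
-/

set_option autoImplicit false

namespace Crest.Agent.R189.XH

open Romp

/-! ### action on subsets (instance of `SetAct.lean`) -/

theorem mem_ofAdd_smul {V Y : Type*} [AddCommGroup V] [AddAction V Y] {v : V} {A : Set Y} {x : Y} :
    x ∈ Multiplicative.ofAdd v • A ↔ -v +ᵥ x ∈ A := Iff.rfl

theorem mem_ofAdd_inv_smul {V Y : Type*} [AddCommGroup V] [AddAction V Y] {v : V} {A : Set Y}
    {x : Y} : x ∈ (Multiplicative.ofAdd v)⁻¹ • A ↔ v +ᵥ x ∈ A := by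
  rw [← ofAdd_neg, mem_ofAdd_smul, neg_neg]

theorem mem_ofAdd_pow_smul {V Y : Type*} [AddCommGroup V] [AddAction V Y] {v : V} {n : ℕ}
    {A : Set Y} {x : Y} : x ∈ Multiplicative.ofAdd v ^ n • A ↔ -(n • v) +ᵥ x ∈ A := by
  rw [← ofAdd_nsmul, mem_ofAdd_smul]

/-! ### coordinates of level `k` -/

/-- points on the lattice of level `k` -/
def xD (a k : ℕ) : Set X := {x | (ww a k : ℤ) ∣ x.p.1 ∧ (hh a k : ℤ) ∣ x.p.2}

/-- index of the `P` line of level `k` -/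
def xP (a k : ℕ) (x : X) : ℤ := if Even k then x.p.1 / (ww a k : ℤ) else x.p.2 / (hh a k : ℤ)

/-- index of the `Q` line of level `k` -/
def xQ (a k : ℕ) (x : X) : ℤ := if Even k then x.p.2 / (hh a k : ℤ) else x.p.1 / (ww a k : ℤ)

/-- corner star in the coordinates of level `k` -/
def xs (k : ℕ) (x : X) : Star := if Even k then x.s else x.s.flip

/-- the raw star of level `k` -/
def xr (a k : ℕ) (x : X) : RStar := rstar (a + k) (xs k x) (xP a k x) (xQ a k x)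

/-- digit events of level `k` -/
def xc (a k : ℕ) (j : ℕ) : Set X :=
  {x | x ∈ xD a k ∧ dg (3 * (a + k)) (xQ a k x) = j % (3 * (a + k))}

/-- star events of level `k` -/
def xSt (a k : ℕ) (s : Star) : Set X := {x | x ∈ xD a k ∧ xr a k x = s.1}

theorem mem_xc {a k j : ℕ} {x : X} :
    x ∈ xc a k j ↔ x ∈ xD a k ∧ dg (3 * (a + k)) (xQ a k x) = j % (3 * (a + k)) := Iff.rfl

theorem mem_xSt {a k : ℕ} {s : Star} {x : X} :
    x ∈ xSt a k s ↔ x ∈ xD a k ∧ xr a k x = s.1 := Iff.rfl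

@[simp] theorem xD_zero (a : ℕ) : xD a 0 = Set.univ := by
  ext x; simp [xD]

@[simp] theorem xP_zero (a : ℕ) (x : X) : xP a 0 x = x.p.1 := by simp [xP]
@[simp] theorem xQ_zero (a : ℕ) (x : X) : xQ a 0 x = x.p.2 := by simp [xQ]
@[simp] theorem xs_zero (x : X) : xs 0 x = x.s := by simp [xs]
theorem xr_zero (a : ℕ) (x : X) : xr a 0 x = rstar a x.s x.p.1 x.p.2 := by simp [xr]

theorem xs_succ (k : ℕ) (x : X) : xs (k + 1) x = (xs k x).flip := by
  unfold xs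
  by_cases hk : Even k
  · rw [if_neg (by rw [Nat.even_add_one]; exact not_not.2 hk), if_pos hk]
  · rw [if_pos (Nat.even_add_one.2 hk), if_neg hk, Star.flip_flip]

theorem xQ_succ (a k : ℕ) (x : X) : xQ a (k + 1) x = xP a k x := by
  unfold xQ xP
  by_cases hk : Even k
  · rw [if_neg (by rw [Nat.even_add_one]; exact not_not.2 hk), if_pos hk, ww_succ_even hk]
  · rw [if_pos (Nat.even_add_one.2 hk), if_neg hk, hh_succ_odd hk]

theorem xP_succ {a : ℕ} (k : ℕ) (x : X) :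
    xP a (k + 1) x = xQ a k x / ((3 * (a + k) : ℕ) : ℤ) := by
  unfold xQ xP
  by_cases hk : Even k
  · rw [if_neg (by rw [Nat.even_add_one]; exact not_not.2 hk), if_pos hk, hh_succ_even hk,
      Int.ediv_ediv_of_nonneg (by positivity)]
    push_cast [nn]; rw [mul_comm]
  · rw [if_pos (Nat.even_add_one.2 hk), if_neg hk, ww_succ_odd hk,
      Int.ediv_ediv_of_nonneg (by positivity)]
    push_cast [nn]; rw [mul_comm]

theorem dvd_mul_iff_div {n w x : ℤ} (hw : w ≠ 0) (h : w ∣ x) : n * w ∣ x ↔ n ∣ x / w := by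
  obtain ⟨y, rfl⟩ := h
  rw [Int.mul_ediv_cancel_left _ hw, mul_comm n w, mul_dvd_mul_iff_left hw]

theorem mem_xD_succ {a : ℕ} (ha : 1 ≤ a) (k : ℕ) (x : X) :
    x ∈ xD a (k + 1) ↔ x ∈ xD a k ∧ dg (3 * (a + k)) (xQ a k x) = 0 := by
  have hw : (ww a k : ℤ) ≠ 0 := by exact_mod_cast (ww_pos ha k).ne'
  have hh' : (hh a k : ℤ) ≠ 0 := by exact_mod_cast (hh_pos ha k).ne'
  rw [dg_eq_zero (by omega)]
  unfold xD xQ
  simp only [Set.mem_ofPred_eq]
  by_cases hk : Even k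
  · rw [if_pos hk, ww_succ_even hk, hh_succ_even hk]
    push_cast [nn]
    constructor
    · rintro ⟨h1, h2⟩
      have h3 : (hh a k : ℤ) ∣ x.p.2 := (Dvd.intro_left _ rfl).trans h2
      exact ⟨⟨h1, h3⟩, (dvd_mul_iff_div hh' h3).1 h2⟩
    · rintro ⟨⟨h1, h3⟩, h2⟩
      exact ⟨h1, (dvd_mul_iff_div hh' h3).2 h2⟩
  · rw [if_neg hk, ww_succ_odd hk, hh_succ_odd hk]
    push_cast [nn]
    constructor
    · rintro ⟨h2, h1⟩
      have h3 : (ww a k : ℤ) ∣ x.p.1 := (Dvd.intro_left _ rfl).trans h2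
      exact ⟨⟨h3, h1⟩, (dvd_mul_iff_div hw h3).1 h2⟩
    · rintro ⟨⟨h3, h1⟩, h2⟩
      exact ⟨(dvd_mul_iff_div hw h3).2 h2, h1⟩

theorem xD_succ {a : ℕ} (ha : 1 ≤ a) (k : ℕ) : xD a (k + 1) = xc a k 0 := by
  ext x
  rw [mem_xD_succ ha, mem_xc, Nat.zero_mod]

/-- self-similarity of the star events -/
theorem xr_succ {a : ℕ} (ha : 2 ≤ a) {k : ℕ} {x : X} (hx : x ∈ xD a (k + 1)) :
    xr a k x = (xr a (k + 1) x).flip := by
  have h1 := ((mem_xD_succ (by omega) k x).1 hx).2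
  rw [dg_eq_zero (by omega)] at h1
  have h2 : xQ a k x = ((3 * (a + k) : ℕ) : ℤ) * xP a (k + 1) x := by
    rw [xP_succ, Int.mul_ediv_cancel' h1]
  rw [xr, xr, h2, rstar_flip (by omega), xs_succ, xQ_succ]
  rfl

/-! ### translations -/

theorem vadd_q_mem_xD {a k : ℕ} {x : X} (n : ℤ) :
    (n • qq a k) +ᵥ x ∈ xD a k ↔ x ∈ xD a k := by
  unfold xD
  simp only [Set.mem_ofPred_eq, X.vadd_p, Prod.fst_add, Prod.snd_add, Prod.smul_fst, Prod.smul_snd,
    smul_eq_mul]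
  by_cases hk : Even k
  · rw [qq_even hk]
    simp only [mul_zero, zero_add]
    rw [(Int.dvd_add_right (Dvd.intro_left n rfl) : (ww a k : ℤ) ∣ n * ww a k + x.p.1 ↔ _)]
  · rw [qq_odd hk]
    simp only [mul_zero, zero_add]
    rw [(Int.dvd_add_right (Dvd.intro_left n rfl) : (hh a k : ℤ) ∣ n * hh a k + x.p.2 ↔ _)]


theorem mul_add_div' {w : ℤ} (hw : w ≠ 0) (n x : ℤ) : (n * w + x) / w = n + x / w := by
  rw [mul_comm, Int.mul_add_ediv_left _ _ hw]

theorem xP_vadd_q {a : ℕ} (ha : 1 ≤ a) (k : ℕ) (n : ℤ) (x : X) :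
    xP a k ((n • qq a k) +ᵥ x) = n + xP a k x := by
  have hw : (ww a k : ℤ) ≠ 0 := by exact_mod_cast (ww_pos ha k).ne'
  have hh' : (hh a k : ℤ) ≠ 0 := by exact_mod_cast (hh_pos ha k).ne'
  unfold xP
  by_cases hk : Even k
  · rw [if_pos hk, if_pos hk, qq_even hk]
    simp only [X.vadd_p, Prod.fst_add, Prod.smul_fst, smul_eq_mul]
    rw [mul_add_div' hw]
  · rw [if_neg hk, if_neg hk, qq_odd hk]
    simp only [X.vadd_p, Prod.snd_add, Prod.smul_snd, smul_eq_mul]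
    rw [mul_add_div' hh']

theorem xQ_vadd_q {a : ℕ} (k : ℕ) (n : ℤ) (x : X) :
    xQ a k ((n • qq a k) +ᵥ x) = xQ a k x := by
  unfold xQ
  by_cases hk : Even k
  · rw [if_pos hk, if_pos hk, qq_even hk]
    simp only [X.vadd_p, Prod.snd_add, Prod.smul_snd, smul_eq_mul, mul_zero, zero_add]
  · rw [if_neg hk, if_neg hk, qq_odd hk]
    simp only [X.vadd_p, Prod.fst_add, Prod.smul_fst, smul_eq_mul, mul_zero, zero_add]



@[simp] theorem xs_vadd (k : ℕ) (v : ℤ × ℤ) (x : X) : xs k (v +ᵥ x) = xs k x := rfl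

theorem xr_vadd_q {a : ℕ} (ha : 1 ≤ a) (k : ℕ) (n : ℤ) (x : X) :
    xr a k ((n • qq a k) +ᵥ x) = rstar (a + k) (xs k x) (n + xP a k x) (xQ a k x) := by
  rw [xr, xP_vadd_q ha, xQ_vadd_q, xs_vadd]


end Crest.Agent.R189.XH
end

-- ▼ part R189/XHierLS

/-!
Row 189 (S0289), helper787.  The explicit system satisfies the level structure axioms
(`LS_X`), and the iterates `hc`, `hSt`, `hD` are the explicit sets `xc`, `xSt`, `xD`
(`hc_xc`, `hSt_xSt`, `hD_xD`, hence `LS_level`).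
-/

set_option autoImplicit false

namespace Crest.Agent.R189.XH

open Romp

theorem dg_add_one {n : ℕ} (hn : 2 ≤ n) (x : ℤ) (h : dg n x + 1 < n) : dg n (x + 1) = dg n x + 1 := by
  have h1 := div_mul_add_dg (show 0 < n by omega) x
  have h2 : x + 1 = (n : ℤ) * (x / n) + ((dg n x + 1 : ℕ) : ℤ) := by push_cast; linarith
  rw [h2, dg_add_mul', dg_natCast h]

theorem mod_sub_iff {n j : ℕ} (hn : 0 < n) (x : ℤ) : dg n (x - j) = 0 ↔ dg n x = j % n := by
  rw [dg_eq_zero hn]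
  have h1 := dg_cast hn x
  constructor
  · intro h
    have h2 : (j : ℤ) % (n : ℤ) = x % (n : ℤ) := Int.modEq_iff_dvd.2 h
    have h3 : ((dg n x : ℕ) : ℤ) = ((j % n : ℕ) : ℤ) := by rw [h1, ← h2]; push_cast; rfl
    exact_mod_cast h3
  · intro h
    have h3 : (j : ℤ) % (n : ℤ) = x % (n : ℤ) := by rw [← h1, h]; push_cast; rfl
    exact Int.modEq_iff_dvd.1 h3

theorem neg_one_zsmul_vadd (v : ℤ × ℤ) (x : X) : -v +ᵥ x = ((-1 : ℤ) • v) +ᵥ x := by
  rw [neg_one_zsmul]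

theorem mem_q_smul {a k : ℕ} {A : Set X} {x : X} :
    x ∈ Multiplicative.ofAdd (qq a k) • A ↔ ((-1 : ℤ) • qq a k) +ᵥ x ∈ A := by
  rw [mem_ofAdd_smul, neg_one_zsmul_vadd]

theorem mem_q_inv_smul {a k : ℕ} {A : Set X} {x : X} :
    x ∈ (Multiplicative.ofAdd (qq a k))⁻¹ • A ↔ ((1 : ℤ) • qq a k) +ᵥ x ∈ A := by
  rw [mem_ofAdd_inv_smul, one_zsmul]


open XOccAux


/-- the star of level `k` at `x` -/
def xst (a k : ℕ) (x : X) : Star := star (a + k) (xs k x) (xP a k x) (xQ a k x)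

theorem xst_val {a : ℕ} (ha : 3 ≤ a) (k : ℕ) (x : X) : (xst a k x).1 = xr a k x :=
  star_val (by omega) _ _ _

theorem mem_xSt_iff {a k : ℕ} (ha : 3 ≤ a) {s : Star} {x : X} :
    x ∈ xSt a k s ↔ x ∈ xD a k ∧ xst a k x = s := by
  rw [mem_xSt, ← xst_val ha]
  exact ⟨fun h => ⟨h.1, Subtype.ext h.2⟩, fun h => ⟨h.1, by rw [h.2]⟩⟩

/-- events `ev (xSt a k) A` -/
theorem mem_ev_xSt {a k : ℕ} (ha : 3 ≤ a) {A : Set Star} {x : X} :
    x ∈ ev (xSt a k) A ↔ x ∈ xD a k ∧ xst a k x ∈ A := by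
  rw [set_ev]
  simp only [Set.mem_iUnion, mem_xSt_iff ha, exists_prop]
  constructor
  · rintro ⟨s, hs, h1, rfl⟩; exact ⟨h1, hs⟩
  · rintro ⟨h1, h2⟩; exact ⟨_, h2, h1, rfl⟩

/-- events given by a predicate on raw stars -/
theorem mem_ev_xSt' {a k : ℕ} (ha : 3 ≤ a) {P : RStar → Prop} {x : X} :
    x ∈ ev (xSt a k) {s | P s.1} ↔ x ∈ xD a k ∧ P (xr a k x) := by
  rw [mem_ev_xSt ha, ← xst_val ha]
  rfl





theorem mem_Pftau {a k : ℕ} (ha : 3 ≤ a) {t : Tau} {x : X} :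
    x ∈ ev (xSt a k) {s : Star | s.Pf.tau = t} ↔ x ∈ xD a k ∧ (xr a k x).Pf.tau = t :=
  mem_ev_xSt' ha (P := fun r => r.Pf.tau = t)



/-- the mode is readable from the types of the two neighbours -/
theorem mode_iff {a : ℕ} (ha : 2 ≤ a) (s : Star) (x y : ℤ) :
    ((V a s (x - 1) y).tau = .t2l ∧ (V a s (x + 1) y).tau = .f0) ↔ dg (3 * (a + 1)) x = 0 := by
  have hn : 0 < 3 * (a + 1) := by omega
  have hd := dg_lt hn x
  constructor
  · rintro ⟨h1, h2⟩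
    by_contra h0
    have hpred : dg (3 * (a + 1)) (x - 1) = dg (3 * (a + 1)) x - 1 := by
      rw [XOccAux.dg_sub_one]; simp [prev, h0]
    by_cases h3 : dg (3 * (a + 1)) x = 1
    · have h4 : dg (3 * (a + 1)) (x + 1) = 2 := by
        rw [dg_add_one (by omega) _ (by omega), h3]
      rw [V_of_ne _ _ (by omega), h4] at h2
      have := (tauOf_eq_f0 (a := a + 1) (i := 2) (by omega)).1 h2
      omega
    · rw [V_of_ne _ _ (by omega), hpred] at h1
      have := (tauOf_eq_t2l (a := a + 1) (by omega)).1 h1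
      omega
  · intro h0
    have h1 : dg (3 * (a + 1)) (x - 1) = 3 * (a + 1) - 1 := by
      rw [XOccAux.dg_sub_one]; simp [prev, h0]
    have h2 : dg (3 * (a + 1)) (x + 1) = 1 := by
      rw [dg_add_one (by omega) _ (by omega), h0]
    rw [V_of_ne _ _ (by omega), V_of_ne _ _ (by omega), h1, h2]
    exact ⟨(tauOf_eq_t2l (a := a + 1) (by omega)).2 le_rfl, (tauOf_eq_f0 (a := a + 1) (by omega)).2 rfl⟩

/-! ### the iterates -/

/-- the mode event of level `k` is the next lattice -/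
theorem mem_modeEv {a k : ℕ} (ha : 3 ≤ a) {x : X} :
    x ∈ modeEv (Multiplicative.ofAdd (qq a k)) (xc a k 0) (xSt a k) ↔
      x ∈ xc a k 0 ∧ dg (3 * (a + k + 1)) (xP a k x) = 0 := by
  have h1 : (1 : ℤ) • qq a k +ᵥ x ∈ xD a k ↔ x ∈ xD a k := vadd_q_mem_xD 1
  have h2 : (-1 : ℤ) • qq a k +ᵥ x ∈ xD a k ↔ x ∈ xD a k := vadd_q_mem_xD (-1)
  have e1 : ((rstar (a + k) (xs k x) (-1 + xP a k x) (xQ a k x)).Pf) =
      V (a + k) (xs k x) (xP a k x - 1) (xQ a k x) := by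
    rw [rstar, neg_add_eq_sub]
  have e2 : ((rstar (a + k) (xs k x) (1 + xP a k x) (xQ a k x)).Pf) =
      V (a + k) (xs k x) (xP a k x + 1) (xQ a k x) := by
    rw [rstar, add_comm 1 (xP a k x)]
  rw [modeEv, set_meet, set_meet, set_meet, Set.mem_inter_iff, mem_q_smul, mem_q_inv_smul,
    Set.mem_inter_iff, Set.mem_inter_iff, mem_Pftau ha, mem_Pftau ha, mem_xc, mem_xc, mem_xc,
    h1, h2, xQ_vadd_q, xQ_vadd_q, xr_vadd_q (by omega), xr_vadd_q (by omega), e1, e2,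
    ← mode_iff (by omega : 2 ≤ a + k) (xs k x) (xP a k x) (xQ a k x)]
  tauto

/-- `c^(k+1)` -/
theorem nextC_xc {a k : ℕ} (ha : 3 ≤ a) :
    nextC (Multiplicative.ofAdd (qq a k)) (xc a k) (xSt a k) = xc a (k + 1) := by
  funext j'
  ext x
  have e0 : -(j' • qq a k) +ᵥ x = ((-(j' : ℤ)) • qq a k) +ᵥ x := by
    rw [neg_zsmul, natCast_zsmul]
  rw [nextC, mem_ofAdd_pow_smul, mem_modeEv ha, e0, mem_xc, vadd_q_mem_xD, xQ_vadd_q,
    xP_vadd_q (by omega), mem_xc, mem_xD_succ (by omega), xQ_succ, Nat.zero_mod,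
    neg_add_eq_sub, mod_sub_iff (by omega)]
  rfl

/-- `St^(k+1)` -/
theorem nextSt_xSt {a k : ℕ} (ha : 3 ≤ a) :
    nextSt (xc a k) (xSt a k) = xSt a (k + 1) := by
  funext s
  ext x
  rw [nextSt, set_meet, Set.mem_inter_iff, ← xD_succ (by omega), mem_xSt, mem_xSt]
  constructor
  · rintro ⟨h1, h2, h3⟩
    refine ⟨h1, ?_⟩
    rw [xr_succ (by omega) h1] at h3
    have := congrArg RStar.flip h3
    rw [RStar.flip_flip] at this
    rw [this]
    exact RStar.flip_flip s.1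
  · rintro ⟨h1, h2⟩
    refine ⟨h1, ((mem_xD_succ (by omega) k x).1 h1).1, ?_⟩
    rw [xr_succ (by omega) h1, h2]
    rfl

/-- all levels are explicit -/
theorem hlvl_xc {a : ℕ} (ha : 3 ≤ a) (k : ℕ) :
    hlvl pZ qZ a (xc a 0) (xSt a 0) k = (xc a k, xSt a k) := by
  induction k with
  | zero => rfl
  | succ k ih =>
    rw [hlvl, ih]
    show (nextC (hQ pZ qZ a k) (xc a k) (xSt a k), nextSt (xc a k) (xSt a k)) = _
    rw [hQ_eq, nextC_xc ha, nextSt_xSt ha]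

theorem hc_xc {a : ℕ} (ha : 3 ≤ a) (k : ℕ) :
    hc pZ qZ a (xc a 0) (xSt a 0) k = xc a k := by
  rw [hc, hlvl_xc ha]

theorem hSt_xSt {a : ℕ} (ha : 3 ≤ a) (k : ℕ) :
    hSt pZ qZ a (xc a 0) (xSt a 0) k = xSt a k := by
  rw [hSt, hlvl_xc ha]


/-! ### the level structure -/





end Crest.Agent.R189.XH
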