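import Mathlib
import Crest.Agent.R189.TowerHom
import Crest.Agent.R189.EvOrder
import Crest.Agent.R189.RNBasic
import Crest.Agent.R189.StarFacts
import Crest.Agent.R189.Let
import Crest.Agent.R189.StarOf
import Crest.Agent.R189.XHierLS

-- ▼ part R189/CentCore
section

/-!
# Row 189 (S0289): C1 (core): elements acting trivially are central

`T` is a group generated by `gn : I → T`, `q : T →* Perm (X × C)`.
An *atlas of depth `M`*: a family (`ι`) of

* `t i a b c : T` (`a b c : V × C`), the 3-cycle `(a b c)` of the tower over the atom `i`,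
* `π i g : V × C → V × C` the partial action of the generator `g : I` over the atom `i`,
* `dep i : V → ℕ` the depth of a position in the window of the atom `i`,

such that a generator conjugates `t i a b c` into `t i (π a) (π b) (π c)` at positive depth, lowers
the depth by at most `1`, the `t i a b c` at depth `≥ M` generate `T`, and every atom with nontrivial
`t` occurs at a point `y` of `X`, around which the generators act by `π i`.

`cent_core`: if there is an atlas for every `M` then `q w = 1` implies `w ∈ center T`.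
-/

set_option autoImplicit false

namespace Crest.Agent.R189.Cent

variable {T X C V I : Type*} [Group T] [AddCommGroup V] [AddAction V X]

/-- an atlas of depth `M` -/
structure Atlas (q : T →* Equiv.Perm (X × C)) (gn : I → T) (M : ℕ) where
  ι : Type
  t : ι → V × C → V × C → V × C → T
  π : ι → I → V × C → V × C
  dep : ι → V → ℕ
  π_inj : ∀ i, ∀ g, ∀ a b, π i g a = π i g b → a = b
  dep_π : ∀ i, ∀ g, ∀ a : V × C, dep i a.1 ≤ dep i (π i g a).1 + 1
  conj : ∀ i, ∀ g, ∀ a b c : V × C, a ≠ b → a ≠ c → b ≠ c →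
    1 ≤ dep i a.1 → 1 ≤ dep i b.1 → 1 ≤ dep i c.1 →
      gn g * t i a b c * (gn g)⁻¹ = t i (π i g a) (π i g b) (π i g c)
  occ : ∀ i, (∀ a b c, a ≠ b → a ≠ c → b ≠ c → 1 ≤ dep i a.1 → 1 ≤ dep i b.1 → 1 ≤ dep i c.1 →
      t i a b c = 1) ∨
    ∃ y : X, (∀ v v' : V, 1 ≤ dep i v → 1 ≤ dep i v' → v +ᵥ y = v' +ᵥ y → v = v') ∧
      ∀ g, ∀ a : V × C, 1 ≤ dep i a.1 →
        q (gn g) (a.1 +ᵥ y, a.2) = ((π i g a).1 +ᵥ y, (π i g a).2)
  gen : ∀ K : Subgroup T, (∀ i, ∀ a b c : V × C, a ≠ b → a ≠ c → b ≠ c →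
      M ≤ dep i a.1 → M ≤ dep i b.1 → M ≤ dep i c.1 → t i a b c ∈ K) → K = ⊤

namespace Atlas

variable {q : T →* Equiv.Perm (X × C)} {gn : I → T} {M : ℕ} (A : Atlas (V := V) q gn M)

/-- action of a word over the atom `i` -/
def word (i : A.ι) (l : List I) (a : V × C) : V × C := l.foldr (fun g b => A.π i g b) a

@[simp] theorem word_nil (i : A.ι) (a : V × C) : A.word i [] a = a := rfl

@[simp] theorem word_cons (i : A.ι) (g : I) (l : List I) (a : V × C) :
    A.word i (g :: l) a = A.π i g (A.word i l a) := rfl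

theorem dep_word (i : A.ι) (l : List I) (a : V × C) :
    A.dep i a.1 ≤ A.dep i (A.word i l a).1 + l.length := by
  induction l with
  | nil => simp
  | cons g l ih =>
    have h2 := A.dep_π i g (A.word i l a)
    rw [word_cons, List.length_cons]
    omega

theorem word_inj (i : A.ι) (l : List I) (a b : V × C)
    (h : A.word i l a = A.word i l b) : a = b := by
  induction l with
  | nil => exact h
  | cons g l ih => exact ih (A.π_inj i g _ _ h)

theorem conj_word (i : A.ι) (l : List I) (a b c : V × C)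
    (hab : a ≠ b) (hac : a ≠ c) (hbc : b ≠ c) (ha : l.length ≤ A.dep i a.1)
    (hb : l.length ≤ A.dep i b.1) (hc : l.length ≤ A.dep i c.1) :
    (l.map gn).prod * A.t i a b c * (l.map gn).prod⁻¹ =
      A.t i (A.word i l a) (A.word i l b) (A.word i l c) := by
  induction l with
  | nil => simp
  | cons g l ih =>
    rw [List.length_cons] at ha hb hc
    have h1 := ih (by omega) (by omega) (by omega)
    have h2 := A.conj i g (A.word i l a) (A.word i l b) (A.word i l c)
      (fun h => hab (A.word_inj i l _ _ h)) (fun h => hac (A.word_inj i l _ _ h))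
      (fun h => hbc (A.word_inj i l _ _ h))
      (by have := A.dep_word i l a; omega) (by have := A.dep_word i l b; omega)
      (by have := A.dep_word i l c; omega)
    rw [word_cons, word_cons, word_cons, ← h2, ← h1, List.map_cons, List.prod_cons]
    group

theorem q_word (i : A.ι) (l : List I) (y : X)
    (hy : ∀ g, ∀ a : V × C, 1 ≤ A.dep i a.1 →
        q (gn g) (a.1 +ᵥ y, a.2) = ((A.π i g a).1 +ᵥ y, (A.π i g a).2))
    (a : V × C) (ha : l.length ≤ A.dep i a.1) :
    q (l.map gn).prod (a.1 +ᵥ y, a.2) = ((A.word i l a).1 +ᵥ y, (A.word i l a).2) := by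
  induction l with
  | nil => simp
  | cons g l ih =>
    rw [List.length_cons] at ha
    rw [List.map_cons, List.prod_cons, map_mul, Equiv.Perm.mul_apply, ih (by omega),
      hy g _ (by have := A.dep_word i l a; omega), word_cons]

end Atlas

/-- **C1, core.** -/
theorem cent_core (q : T →* Equiv.Perm (X × C)) (gn : I → T)
    (hGen : ∀ w : T, ∃ l : List I, (l.map gn).prod = w)
    (hA : ∀ M : ℕ, ∃ M', M ≤ M' ∧ Nonempty (Atlas (V := V) q gn M')) (w : T) (hw : q w = 1) :
    w ∈ Subgroup.center T := by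
  obtain ⟨l, rfl⟩ := hGen w
  obtain ⟨M', hM', ⟨A⟩⟩ := hA (l.length + 1)
  have h1 : Subgroup.centralizer {(l.map gn).prod} = ⊤ := by
    apply A.gen
    intro i a b c hab hac hbc ha hb hc
    rw [Subgroup.mem_centralizer_singleton_iff]
    rcases A.occ i with h | ⟨y, hfree, hy⟩
    · rw [h a b c hab hac hbc (by omega) (by omega) (by omega)]; simp
    · have hfix : ∀ d : V × C, M' ≤ A.dep i d.1 → A.word i l d = d := by
        intro d hd
        have e1 := A.q_word i l y hy d (by omega)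
        rw [hw, Equiv.Perm.one_apply] at e1
        have e2 := Prod.ext_iff.1 e1
        refine Prod.ext ?_ ?_
        · refine (hfree _ _ (by omega) ?_ e2.1).symm
          have := A.dep_word i l d
          omega
        · exact e2.2.symm
      have e := A.conj_word i l a b c hab hac hbc (by omega) (by omega) (by omega)
      rw [hfix a ha, hfix b hb, hfix c hc] at e
      rw [mul_inv_eq_iff_eq_mul] at e
      exact e.symm
  rw [Subgroup.mem_center_iff]
  intro g
  have hg : g ∈ Subgroup.centralizer {(l.map gn).prod} := by rw [h1]; trivial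
  rw [Subgroup.mem_centralizer_singleton_iff] at hg
  exact hg

end Crest.Agent.R189.Cent
end

-- ▼ part R189/TowerProp
section

/-!
Row 189, tower lemma (helper840), part 3: properties of the tower homomorphism.
-/

set_option autoImplicit false
set_option linter.unusedSectionVars false

open Equiv Equiv.Perm Finset
open scoped Function

namespace Crest.Agent.R189.Tower

variable {C : Type} [Fintype C] [DecidableEq C] {V : Type} [AddCommGroup V] {T : Type} [Group T]
variable {S : ColGrp C V T}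
variable {ι : Type} [Fintype ι] [DecidableEq ι]

/-! ### generation by sectional 3-cycles -/

/-- `Alt(ι × C)` is generated by the 3-cycles with three different colours. -/
theorem sec_induction (S : ColGrp C V T) {P : alternatingGroup (ι × C) → Prop} (one : P 1)
    (mul : ∀ x y, P x → P y → P (x * y)) (inv : ∀ x, P x → P x⁻¹)
    (sec : ∀ p q r : ι × C, p.2 ≠ q.2 → p.2 ≠ r.2 → q.2 ≠ r.2 → P (acyc p q r)) :
    ∀ z, P z := by
  have h3 : ∀ p q r : ι × C, p ≠ q → p ≠ r → q ≠ r → P (acyc p q r) := by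
    intro p q r hpq hpr hqr
    obtain ⟨d, d', fd⟩ := fresh3 S p q r
    have hp : p ∈ ({p, q, r} : Finset (ι × C)) := by simp
    have hq : q ∈ ({p, q, r} : Finset (ι × C)) := by simp
    have hr : r ∈ ({p, q, r} : Finset (ι × C)) := by simp
    -- movers
    have hm : ∀ x ∈ ({p, q, r} : Finset (ι × C)),
        x.2 ≠ d x ∧ x.2 ≠ d' x ∧ d x ≠ d' x := fun x hx =>
      ⟨(fd.ned x hx x hx).symm, (fd.ned' x hx x hx).symm, fd.ne x hx x hx⟩
    set g : ι × C → alternatingGroup (ι × C) := fun x => acyc x (x.1, d x) (x.1, d' x) with hg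
    have hne : ∀ x ∈ ({p, q, r} : Finset (ι × C)),
        x ≠ (x.1, d x) ∧ x ≠ (x.1, d' x) ∧ (x.1, d x) ≠ (x.1, d' x) := by
      intro x hx
      obtain ⟨a, b, c⟩ := hm x hx
      exact ⟨fun h => a (congrArg Prod.snd h), fun h => b (congrArg Prod.snd h),
        fun h => c (congrArg Prod.snd h)⟩
    have hPg : ∀ x ∈ ({p, q, r} : Finset (ι × C)), P (g x) := fun x hx =>
      sec _ _ _ (hm x hx).1 (hm x hx).2.1 (hm x hx).2.2
    have hg1 : ∀ x ∈ ({p, q, r} : Finset (ι × C)), (g x : Perm (ι × C)) x = (x.1, d x) := by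
      intro x hx
      obtain ⟨a, b, c⟩ := hne x hx
      rw [hg]; simp only
      rw [coe_acyc a b c, cyc_apply_fst a c]
    have hg2 : ∀ x ∈ ({p, q, r} : Finset (ι × C)), ∀ y ∈ ({p, q, r} : Finset (ι × C)), x ≠ y →
        (g x : Perm (ι × C)) y = y ∧ (g x : Perm (ι × C)) (y.1, d y) = (y.1, d y) := by
      intro x hx y hy hxy
      obtain ⟨a, b, c⟩ := hne x hx
      rw [hg]; simp only
      rw [coe_acyc a b c]
      constructor
      · refine cyc_apply_of_ne hxy.symm (fun h => ?_) (fun h => ?_)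
        · exact fd.ned x hx y hy (congrArg Prod.snd h).symm
        · exact fd.ned' x hx y hy (congrArg Prod.snd h).symm
      · refine cyc_apply_of_ne (fun h => ?_) (fun h => ?_) (fun h => ?_)
        · exact fd.ned y hy x hx (congrArg Prod.snd h)
        · exact hxy (fd.injd x hx y hy (congrArg Prod.snd h).symm)
        · exact fd.ne y hy x hx (congrArg Prod.snd h)
    set G := g p * g q * g r with hG
    have e1 : G * acyc p q r * G⁻¹ = acyc (p.1, d p) (q.1, d q) (r.1, d r) := by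
      rw [conj_acyc G hpq hpr hqr]
      have a1 : (G : Perm (ι × C)) p = (p.1, d p) := by
        rw [hG]
        simp only [Subgroup.coe_mul, Perm.mul_apply]
        rw [(hg2 r hr p hp hpr.symm).1, (hg2 q hq p hp hpq.symm).1, hg1 p hp]
      have a2 : (G : Perm (ι × C)) q = (q.1, d q) := by
        rw [hG]
        simp only [Subgroup.coe_mul, Perm.mul_apply]
        rw [(hg2 r hr q hq hqr.symm).1, hg1 q hq, (hg2 p hp q hq hpq).2]
      have a3 : (G : Perm (ι × C)) r = (r.1, d r) := by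
        rw [hG]
        simp only [Subgroup.coe_mul, Perm.mul_apply]
        rw [hg1 r hr, (hg2 q hq r hr hqr).2, (hg2 p hp r hr hpr).2]
      rw [a1, a2, a3]
    have e2 : acyc p q r = G⁻¹ * acyc (p.1, d p) (q.1, d q) (r.1, d r) * G := by
      rw [← e1]; group
    have hPG : P G := mul _ _ (mul _ _ (hPg p hp) (hPg q hq)) (hPg r hr)
    rw [e2]
    refine mul _ _ (mul _ _ (inv _ hPG) (sec _ _ _ ?_ ?_ ?_)) hPG
    · exact fun h => hpq (fd.injd p hp q hq h)
    · exact fun h => hpr (fd.injd p hp r hr h)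
    · exact fun h => hqr (fd.injd q hq r hr h)
  rintro ⟨z, hz⟩
  have hz' := hz
  rw [← closure_three_cycles_eq_alternating] at hz'
  induction hz' using Subgroup.closure_induction with
  | mem x hx =>
    obtain ⟨a, b, c, hab, hac, hbc, hxc, _⟩ := eq_acyc hx
    have : (⟨x, hz⟩ : alternatingGroup (ι × C)) = acyc a b c :=
      Subtype.ext (hxc.trans (coe_acyc hab hac hbc).symm)
    rw [this]
    exact h3 a b c hab hac hbc
  | one => exact one
  | mul a b ha hb iha ihb =>
    rw [closure_three_cycles_eq_alternating] at ha hb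
    exact mul ⟨a, ha⟩ ⟨b, hb⟩ (iha ha) (ihb hb)
  | inv a ha iha =>
    rw [closure_three_cycles_eq_alternating] at ha
    exact inv ⟨a, ha⟩ (iha ha)

/-- homomorphisms out of `Alt(ι × C)` are determined by the sectional 3-cycles -/
theorem hom_ext_sec (S : ColGrp C V T) {G : Type*} [Group G] {Φ Ψ : alternatingGroup (ι × C) →* G}
    (h : ∀ p q r : ι × C, p.2 ≠ q.2 → p.2 ≠ r.2 → q.2 ≠ r.2 → Φ (acyc p q r) = Ψ (acyc p q r)) :
    Φ = Ψ := by
  ext z
  refine sec_induction S (P := fun z => Φ z = Ψ z) ?_ ?_ ?_ h z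
  · rw [map_one, map_one]
  · intro x y hx hy; rw [map_mul, map_mul, hx, hy]
  · intro x hx; rw [map_inv, map_inv, hx]

/-- **uniqueness of the tower homomorphism** -/
theorem eq_eps {e : Ev S} {pos : ι → V} (hO : OrthFam e pos) {Φ : alternatingGroup (ι × C) →* T}
    (h : ∀ p q r : ι × C, p.2 ≠ q.2 → p.2 ≠ r.2 → q.2 ≠ r.2 →
      Φ (acyc p q r) = M3 e (pos p.1) (pos q.1) (pos r.1) p.2 q.2 r.2) : Φ = eps e pos hO :=
  hom_ext_sec S fun p q r h1 h2 h3 => by rw [h p q r h1 h2 h3, eps_M3 hO h1 h2 h3]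

/-! ### translates -/

theorem M3_const {e e' : Ev S} {v : V} (h : Ev.IsTrans v e e') {a b c : C} (hab : a ≠ b)
    (hac : a ≠ c) (hbc : b ≠ c) : M3 e v v v a b c = e'.hom (acyc a b c) := by
  obtain ⟨l, hl, hlf⟩ := exists_lam' S ({a, b, c} : Finset C)
    (card_le_three.trans_lt (by norm_num)) (fun _ => v)
  have ha := hlf a (by simp)
  have hb := hlf b (by simp)
  have hc := hlf c (by simp)
  rw [M3_eq e hab hac hbc hl ha hb hc]
  refine (h _ l hl fun x hx => ?_).symm
  rw [support_acyc hab hac hbc] at hx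
  exact hlf x hx

theorem isTrans_zero (e : Ev S) : Ev.IsTrans (0 : V) e e := by
  intro σ l hl h
  have h1 := conj_H_congr e hl (m := 0) (by simp) σ (fun c hc => by rw [h c hc]; rfl)
  rw [h1, H_zero]; simp

theorem TOrth_of_orth {e f e' f' : Ev S} {v w : V} (he : Ev.IsTrans v e e')
    (hf : Ev.IsTrans w f f') (h : Ev.Orth e' f') : TOrth e f v w := by
  intro a b c a' b' c' h1 h2 h3 h4 h5 h6
  rw [M3_const he h1 h2 h3, M3_const hf h4 h5 h6]
  exact h _ _

theorem orth_of_TOrth {e f e' f' : Ev S} {v w : V} (he : Ev.IsTrans v e e')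
    (hf : Ev.IsTrans w f f') (h : TOrth e f v w) : Ev.Orth e' f' := by
  refine Ev.orth_of_threeCycle ?_
  intro s t hs ht
  obtain ⟨a, b, c, hab, hac, hbc, hx, _⟩ := eq_acyc hs
  obtain ⟨a', b', c', hab', hac', hbc', hx', _⟩ := eq_acyc ht
  have e1 : s = acyc a b c := Subtype.ext (hx.trans (coe_acyc hab hac hbc).symm)
  have e2 : t = acyc a' b' c' := Subtype.ext (hx'.trans (coe_acyc hab' hac' hbc').symm)
  rw [e1, e2, ← M3_const he hab hac hbc, ← M3_const hf hab' hac' hbc']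
  exact h a b c a' b' c' hab hac hbc hab' hac' hbc'

theorem orthFam_of {e : Ev S} {pos : ι → V} {te : ι → Ev S} (ht : ∀ i, Ev.IsTrans (pos i) e (te i))
    (h : ∀ i j, i ≠ j → Ev.Orth (te i) (te j)) : OrthFam e pos :=
  fun i j hij => TOrth_of_orth (ht i) (ht j) (h i j hij)

/-! ### levels and sections -/

/-- the level `{i} × C` -/
def lvlEmb (i : ι) : C ↪ ι × C := ⟨fun c => (i, c), fun _ _ h => congrArg Prod.snd h⟩


/-- level-wise permutations -/
def lv (r : ι → alternatingGroup C) : alternatingGroup (ι × C) :=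
  ⟨Equiv.prodCongrRight fun i => (r i : Perm C), by
    rw [mem_alternatingGroup, sign_prodCongrRight]
    exact Finset.prod_eq_one fun i _ => mem_alternatingGroup.1 (r i).2⟩

theorem lv_apply (r : ι → alternatingGroup C) (p : ι × C) :
    (lv r : Perm (ι × C)) p = (p.1, (r p.1 : Perm C) p.2) := rfl

/-- level-wise permutations, as a homomorphism -/
def lvHom : (ι → alternatingGroup C) →* alternatingGroup (ι × C) where
  toFun := lv
  map_one' := by apply Subtype.ext; ext p <;> rfl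
  map_mul' r s := by apply Subtype.ext; ext p <;> rfl

theorem lv_mul (r s : ι → alternatingGroup C) : lv (r * s) = lv r * lv s := lvHom.map_mul r s

theorem lv_one : lv (1 : ι → alternatingGroup C) = 1 := lvHom.map_one

theorem altMap_lvlEmb (i : ι) (σ : alternatingGroup C) :
    altMap (lvlEmb i) σ = lv (Pi.mulSingle i σ) := by
  symm
  refine eq_altMap _ _ (fun c => ?_) fun p hp => ?_
  · change ((i, ((Pi.mulSingle i σ : ι → alternatingGroup C) i : Perm C) c) : ι × C) = (i, (σ : Perm C) c)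
    rw [Pi.mulSingle_eq_same]
  · rw [lv_apply]
    have : p.1 ≠ i := fun h => hp ⟨p.2, by rw [← h]; rfl⟩
    rw [Pi.mulSingle_eq_of_ne this]
    rfl

/-- **(A2)** on the level `i` the tower homomorphism is the translate `(pos i).e` -/
theorem eps_lvl {e : Ev S} {pos : ι → V} (hO : OrthFam e pos) {i : ι} {e' : Ev S}
    (h : Ev.IsTrans (pos i) e e') (σ : alternatingGroup C) :
    eps e pos hO (altMap (lvlEmb i) σ) = e'.hom σ := by
  have : (eps e pos hO).comp (altMap (lvlEmb i)) = e'.hom := by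
    refine AltPres.alt_hom_ext fun z hz => ?_
    obtain ⟨a, b, c, hab, hac, hbc, _, hx⟩ := eq_acyc hz
    rw [hx, MonoidHom.comp_apply, altMap_acyc _ hab hac hbc, ← M3_const h hab hac hbc,
      eps_M3 hO]
    · rfl
    · exact hab
    · exact hac
    · exact hbc
  exact DFunLike.congr_fun this σ

theorem eps_lv_single {e : Ev S} {pos : ι → V} (hO : OrthFam e pos) {i : ι} {e' : Ev S}
    (h : Ev.IsTrans (pos i) e e') (σ : alternatingGroup C) :
    eps e pos hO (lv (Pi.mulSingle i σ)) = e'.hom σ := by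
  rw [← altMap_lvlEmb, eps_lvl hO h]

/-- induction over the even permutations with support in a given set -/
theorem altOn_induction {Ω : Type*} [Fintype Ω] [DecidableEq Ω] (A : Finset Ω)
    {P : alternatingGroup Ω → Prop} (one : P 1) (mul : ∀ x y, P x → P y → P (x * y))
    (inv : ∀ x, P x → P x⁻¹)
    (cyc : ∀ a ∈ A, ∀ b ∈ A, ∀ c ∈ A, a ≠ b → a ≠ c → b ≠ c → P (acyc a b c)) :
    ∀ z : alternatingGroup Ω, (z : Perm Ω).support ⊆ A → P z := by
  rintro ⟨z, hz⟩ hzA
  have hz' : z ∈ AltPres.altOn A := ⟨hz, hzA⟩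
  have hz'' := hz'
  rw [← AltPres.closure_threeCycles_altOn] at hz''
  have key : ∀ (y : Perm Ω) (_ : y ∈ Subgroup.closure {z : Perm Ω | z.IsThreeCycle ∧ z.support ⊆ A})
      (hy : y ∈ alternatingGroup Ω), P ⟨y, hy⟩ := by
    intro y hy
    induction hy using Subgroup.closure_induction with
    | mem x hx =>
      intro hxa
      obtain ⟨a, b, c, hab, hac, hbc, hxc, _⟩ := eq_acyc hx.1
      have : (⟨x, hxa⟩ : alternatingGroup Ω) = acyc a b c :=
        Subtype.ext (hxc.trans (coe_acyc hab hac hbc).symm)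
      rw [this]
      have hsup : x.support = {a, b, c} := by rw [hxc, support_cyc_eq hab hac hbc]
      exact cyc a (hx.2 (by rw [hsup]; simp)) b (hx.2 (by rw [hsup]; simp)) c
        (hx.2 (by rw [hsup]; simp)) hab hac hbc
    | one => intro _; exact one
    | mul a b ha hb iha ihb =>
      intro _
      rw [AltPres.closure_threeCycles_altOn] at ha hb
      exact mul ⟨a, ha.1⟩ ⟨b, hb.1⟩ (iha ha.1) (ihb hb.1)
    | inv a ha iha =>
      intro _
      rw [AltPres.closure_threeCycles_altOn] at ha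
      exact inv ⟨a, ha.1⟩ (iha ha.1)
  exact key z hz'' hz


/-! ### commutation -/

/-- **(A4)** for 3-cycles -/
theorem eps_comm3 {κ : Type} [Fintype κ] [DecidableEq κ] {e f : Ev S} {pos : ι → V} {pos' : κ → V}
    (hO : OrthFam e pos) (hO' : OrthFam f pos') {p q r : ι × C} (hpq : p ≠ q) (hpr : p ≠ r)
    (hqr : q ≠ r) {p' q' r' : κ × C} (hpq' : p' ≠ q') (hpr' : p' ≠ r') (hqr' : q' ≠ r')
    (h : ∀ x ∈ ({p, q, r} : Finset (ι × C)), ∀ y ∈ ({p', q', r'} : Finset (κ × C)), x.2 = y.2 →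
      TOrth e f (pos x.1) (pos' y.1)) :
    Commute (eps e pos hO (acyc p q r)) (eps f pos' hO' (acyc p' q' r')) := by
  classical
  set P : Finset (ι × C) := {p, q, r} with hP
  set P' : Finset (κ × C) := {p', q', r'} with hP'
  have hc : P.card ≤ 3 := card_le_three
  have hc' : P'.card ≤ 3 := card_le_three
  have hi2 : (P'.image Prod.snd).card ≤ P'.card := card_image_le
  obtain ⟨d, d', fd, hd, hd'⟩ := exists_fresh S P (P'.image Prod.snd) (by omega)
  obtain ⟨x, x', fx, hx, hx'⟩ := exists_fresh S P' (P.image Prod.snd ∪ (P.image d ∪ P.image d'))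
    (by
      have b1 := card_union_le (P.image Prod.snd) (P.image d ∪ P.image d')
      have b2 := card_union_le (P.image d) (P.image d')
      have b3 : (P.image Prod.snd).card ≤ P.card := card_image_le
      have b4 : (P.image d).card ≤ P.card := card_image_le
      have b5 : (P.image d').card ≤ P.card := card_image_le
      omega)
  have hp : p ∈ P := by simp [hP]
  have hq : q ∈ P := by simp [hP]
  have hr : r ∈ P := by simp [hP]
  have hp' : p' ∈ P' := by simp [hP']
  have hq' : q' ∈ P' := by simp [hP']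
  have hr' : r' ∈ P' := by simp [hP']
  -- all the inequalities
  have n1 : ∀ s ∈ P, ∀ t ∈ P', d s ≠ t.2 := fun s hs t ht h' =>
    hd s hs (mem_image.2 ⟨t, ht, h'.symm⟩)
  have n2 : ∀ s ∈ P, ∀ t ∈ P', d' s ≠ t.2 := fun s hs t ht h' =>
    hd' s hs (mem_image.2 ⟨t, ht, h'.symm⟩)
  have n3 : ∀ s ∈ P, ∀ t ∈ P', s.2 ≠ x t := fun s hs t ht h' =>
    hx t ht (mem_union_left _ (mem_image.2 ⟨s, hs, h'⟩))
  have n4 : ∀ s ∈ P, ∀ t ∈ P', s.2 ≠ x' t := fun s hs t ht h' =>
    hx' t ht (mem_union_left _ (mem_image.2 ⟨s, hs, h'⟩))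
  have n5 : ∀ s ∈ P, ∀ t ∈ P', d s ≠ x t := fun s hs t ht h' =>
    hx t ht (mem_union_right _ (mem_union_left _ (mem_image.2 ⟨s, hs, h'⟩)))
  have n6 : ∀ s ∈ P, ∀ t ∈ P', d s ≠ x' t := fun s hs t ht h' =>
    hx' t ht (mem_union_right _ (mem_union_left _ (mem_image.2 ⟨s, hs, h'⟩)))
  have n7 : ∀ s ∈ P, ∀ t ∈ P', d' s ≠ x t := fun s hs t ht h' =>
    hx t ht (mem_union_right _ (mem_union_right _ (mem_image.2 ⟨s, hs, h'⟩)))
  have n8 : ∀ s ∈ P, ∀ t ∈ P', d' s ≠ x' t := fun s hs t ht h' =>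
    hx' t ht (mem_union_right _ (mem_union_right _ (mem_image.2 ⟨s, hs, h'⟩)))
  have dist : ∀ s ∈ P, s.2 ≠ d s ∧ s.2 ≠ d' s ∧ d s ≠ d' s := fun s hs =>
    ⟨(fd.ned s hs s hs).symm, (fd.ned' s hs s hs).symm, fd.ne s hs s hs⟩
  have dist' : ∀ s ∈ P', s.2 ≠ x s ∧ s.2 ≠ x' s ∧ x s ≠ x' s := fun s hs =>
    ⟨(fx.ned s hs s hs).symm, (fx.ned' s hs s hs).symm, fx.ne s hs s hs⟩
  have dpq : d p ≠ d q := fun h' => hpq (fd.injd p hp q hq h')
  have dpr : d p ≠ d r := fun h' => hpr (fd.injd p hp r hr h')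
  have dqr : d q ≠ d r := fun h' => hqr (fd.injd q hq r hr h')
  have xpq : x p' ≠ x q' := fun h' => hpq' (fx.injd p' hp' q' hq' h')
  have xpr : x p' ≠ x r' := fun h' => hpr' (fx.injd p' hp' r' hr' h')
  have xqr : x q' ≠ x r' := fun h' => hqr' (fx.injd q' hq' r' hr' h')
  -- commutations of the factors
  have c1 : ∀ s ∈ P, ∀ t ∈ P', Commute (mv e (pos s.1) s.2 (d s) (d' s))
      (mv f (pos' t.1) t.2 (x t) (x' t)) := by
    intro s hs t ht
    obtain ⟨a1, a2, a3⟩ := dist s hs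
    obtain ⟨b1, b2, b3⟩ := dist' t ht
    refine mv_comm ?_ a1 a2 a3 b1 b2 b3
    by_cases hst : s.2 = t.2
    · exact Or.inl (h s hs t ht hst)
    · exact Or.inr ⟨hst, n5 s hs t ht, n6 s hs t ht, n7 s hs t ht, n8 s hs t ht, n3 s hs t ht,
        n4 s hs t ht, (n1 s hs t ht).symm, (n2 s hs t ht).symm⟩
  have c2 : ∀ s ∈ P, Commute (mv e (pos s.1) s.2 (d s) (d' s))
      (M3 f (pos' p'.1) (pos' q'.1) (pos' r'.1) (x p') (x q') (x r')) := by
    intro s hs
    obtain ⟨a1, a2, a3⟩ := dist s hs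
    refine M3_comm_of_disj e f _ _ _ _ _ _ a1 a2 a3 xpq xpr xqr ?_
    rw [Finset.disjoint_left]
    intro y hy hy'
    simp only [mem_insert, mem_singleton] at hy hy'
    rcases hy with rfl | rfl | rfl <;> rcases hy' with h' | h' | h'
    · exact n3 s hs p' hp' h'
    · exact n3 s hs q' hq' h'
    · exact n3 s hs r' hr' h'
    · exact n5 s hs p' hp' h'
    · exact n5 s hs q' hq' h'
    · exact n5 s hs r' hr' h'
    · exact n7 s hs p' hp' h'
    · exact n7 s hs q' hq' h'
    · exact n7 s hs r' hr' h'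
  have c3 : ∀ t ∈ P', Commute (M3 e (pos p.1) (pos q.1) (pos r.1) (d p) (d q) (d r))
      (mv f (pos' t.1) t.2 (x t) (x' t)) := by
    intro t ht
    obtain ⟨b1, b2, b3⟩ := dist' t ht
    refine M3_comm_of_disj e f _ _ _ _ _ _ dpq dpr dqr b1 b2 b3 ?_
    rw [Finset.disjoint_left]
    intro y hy hy'
    simp only [mem_insert, mem_singleton] at hy hy'
    rcases hy with rfl | rfl | rfl <;> rcases hy' with h' | h' | h'
    · exact n1 p hp t ht h'
    · exact n5 p hp t ht h'
    · exact n6 p hp t ht h'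
    · exact n1 q hq t ht h'
    · exact n5 q hq t ht h'
    · exact n6 q hq t ht h'
    · exact n1 r hr t ht h'
    · exact n5 r hr t ht h'
    · exact n6 r hr t ht h'
  have c4 : Commute (M3 e (pos p.1) (pos q.1) (pos r.1) (d p) (d q) (d r))
      (M3 f (pos' p'.1) (pos' q'.1) (pos' r'.1) (x p') (x q') (x r')) := by
    refine M3_comm_of_disj e f _ _ _ _ _ _ dpq dpr dqr xpq xpr xqr ?_
    rw [Finset.disjoint_left]
    intro y hy hy'
    simp only [mem_insert, mem_singleton] at hy hy'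
    rcases hy with rfl | rfl | rfl <;> rcases hy' with h' | h' | h'
    · exact n5 p hp p' hp' h'
    · exact n5 p hp q' hq' h'
    · exact n5 p hp r' hr' h'
    · exact n5 q hq p' hp' h'
    · exact n5 q hq q' hq' h'
    · exact n5 q hq r' hr' h'
    · exact n5 r hr p' hp' h'
    · exact n5 r hr q' hq' h'
    · exact n5 r hr r' hr' h'
  rw [eps_val hO hpq hpr hqr fd, eps_val hO' hpq' hpr' hqr' fx]
  have k1 : ∀ t ∈ P', Commute (mv3 e pos d d' p q r) (mv f (pos' t.1) t.2 (x t) (x' t)) :=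
    fun t ht => ((c1 p hp t ht).mul_left (c1 q hq t ht)).mul_left (c1 r hr t ht)
  have k2 : Commute (mv3 e pos d d' p q r) (mv3 f pos' x x' p' q' r') :=
    ((k1 p' hp').mul_right (k1 q' hq')).mul_right (k1 r' hr')
  have k3 : Commute (mv3 e pos d d' p q r)
      (M3 f (pos' p'.1) (pos' q'.1) (pos' r'.1) (x p') (x q') (x r')) :=
    ((c2 p hp).mul_left (c2 q hq)).mul_left (c2 r hr)
  have k4 : Commute (M3 e (pos p.1) (pos q.1) (pos r.1) (d p) (d q) (d r))
      (mv3 f pos' x x' p' q' r') :=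
    ((c3 p' hp').mul_right (c3 q' hq')).mul_right (c3 r' hr')
  have k5 : Commute (mv3 e pos d d' p q r) (val f pos' x x' p' q' r') :=
    ((k2.inv_right).mul_right k3).mul_right k2
  have k6 : Commute (M3 e (pos p.1) (pos q.1) (pos r.1) (d p) (d q) (d r))
      (val f pos' x x' p' q' r') :=
    ((k4.inv_right).mul_right c4).mul_right k4
  exact ((k5.inv_left).mul_left k6).mul_left k5

/-- **(A4)** tower elements commute if the translates are orthogonal at equal colours. -/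
theorem eps_comm {κ : Type} [Fintype κ] [DecidableEq κ] {e f : Ev S} {pos : ι → V} {pos' : κ → V}
    (hO : OrthFam e pos) (hO' : OrthFam f pos') (z : alternatingGroup (ι × C))
    (z' : alternatingGroup (κ × C))
    (h : ∀ x ∈ (z : Perm (ι × C)).support, ∀ y ∈ (z' : Perm (κ × C)).support, x.2 = y.2 →
      TOrth e f (pos x.1) (pos' y.1)) :
    Commute (eps e pos hO z) (eps f pos' hO' z') := by
  refine altOn_induction (z : Perm (ι × C)).support
    (P := fun z => Commute (eps e pos hO z) (eps f pos' hO' z')) ?_ ?_ ?_ ?_ z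
    (Finset.Subset.refl _)
  · rw [map_one]; exact Commute.one_left _
  · intro x y hx hy; rw [map_mul]; exact hx.mul_left hy
  · intro x hx; rw [map_inv]; exact hx.inv_left
  intro a ha b hb c hc hab hac hbc
  refine altOn_induction (z' : Perm (κ × C)).support
    (P := fun z' => Commute (eps e pos hO (acyc a b c)) (eps f pos' hO' z')) ?_ ?_ ?_ ?_ z'
    (Finset.Subset.refl _)
  · rw [map_one]; exact Commute.one_right _
  · intro x y hx hy; rw [map_mul]; exact hx.mul_right hy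
  · intro x hx; rw [map_inv]; exact hx.inv_right
  intro a' ha' b' hb' c' hc' hab' hac' hbc'
  refine eps_comm3 hO hO' hab hac hbc hab' hac' hbc' fun x hx y hy hxy => h x ?_ y ?_ hxy
  · simp only [mem_insert, mem_singleton] at hx
    rcases hx with rfl | rfl | rfl <;> assumption
  · simp only [mem_insert, mem_singleton] at hy
    rcases hy with rfl | rfl | rfl <;> assumption

/-- the one-point family is orthogonal -/
theorem orthFam_unit (e : Ev S) (v : V) : OrthFam e (fun _ : Unit => v) :=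
  fun i j hij => absurd (Subsingleton.elim i j) hij

/-- a single event as a tower -/
theorem hom_eq_eps {f f' : Ev S} {w : V} (hf : Ev.IsTrans w f f') (τ : alternatingGroup C) :
    f'.hom τ = eps f (fun _ : Unit => w) (orthFam_unit f w) (altMap (lvlEmb ()) τ) :=
  (eps_lvl (orthFam_unit f w) (i := ()) hf τ).symm

/-- **(A4')** an event orthogonal to all the translates commutes with the tower -/
theorem eps_comm_hom {e f : Ev S} {pos : ι → V} (hO : OrthFam e pos) {te : ι → Ev S}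
    (ht : ∀ i, Ev.IsTrans (pos i) e (te i)) (h : ∀ i, Ev.Orth (te i) f)
    (z : alternatingGroup (ι × C)) (τ : alternatingGroup C) :
    Commute (eps e pos hO z) (f.hom τ) := by
  rw [hom_eq_eps (isTrans_zero f) τ]
  exact eps_comm hO _ z _ fun x _ y _ _ => TOrth_of_orth (ht x.1) (isTrans_zero f) (h x.1)

/-! ### sums -/


/-! ### functoriality -/

/-- **(A6),(A7)** conjugation by `H(m)` = shift of the positions by `m`; with `m = 0` this is
functoriality in the family of positions. -/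
theorem eps_H {κ : Type} [Fintype κ] [DecidableEq κ] {e : Ev S} {pos : ι → V} {pos' : κ → V}
    (hO : OrthFam e pos) (hO' : OrthFam e pos') {m : C → V} (hm : ∑ c, m c = 0)
    (θ : ι × C ↪ κ × C) (h2 : ∀ p, (θ p).2 = p.2) (h1 : ∀ p, pos' (θ p).1 = m p.2 + pos p.1)
    (z : alternatingGroup (ι × C)) :
    S.H m * eps e pos hO z * (S.H m)⁻¹ = eps e pos' hO' (altMap θ z) := by
  have : (MulAut.conj (S.H m)).toMonoidHom.comp (eps e pos hO) =
      (eps e pos' hO').comp (altMap θ) := by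
    refine hom_ext_sec S fun p q r e1 e2 e3 => ?_
    change S.H m * eps e pos hO (acyc p q r) * (S.H m)⁻¹ = eps e pos' hO' (altMap θ (acyc p q r))
    have hpq : p ≠ q := fun h => e1 (congrArg Prod.snd h)
    have hpr : p ≠ r := fun h => e2 (congrArg Prod.snd h)
    have hqr : q ≠ r := fun h => e3 (congrArg Prod.snd h)
    rw [eps_M3 hO e1 e2 e3, altMap_acyc θ hpq hpr hqr,
      eps_M3 hO' (by rw [h2, h2]; exact e1) (by rw [h2, h2]; exact e2) (by rw [h2, h2]; exact e3),
      h1, h1, h1, h2, h2, h2]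
    obtain ⟨l, hl, hlf⟩ := exists_lam' S ({p.2, q.2, r.2} : Finset C)
      (card_le_three.trans_lt (by norm_num)) (pos3 (pos p.1) (pos q.1) (pos r.1) p.2 q.2)
    have ha : l p.2 = pos p.1 := by rw [hlf _ (by simp)]; simp [pos3]
    have hb : l q.2 = pos q.1 := by rw [hlf _ (by simp)]; simp [pos3, e1.symm]
    have hc : l r.2 = pos r.1 := by rw [hlf _ (by simp)]; simp [pos3, e2.symm, e3.symm]
    have hml : ∑ c, (m + l) c = 0 := by
      simp only [Pi.add_apply, Finset.sum_add_distrib, hm, hl, add_zero]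
    rw [M3_eq e e1 e2 e3 hl ha hb hc, M3_eq e (l := m + l) e1 e2 e3 hml (by rw [Pi.add_apply, ha])
      (by rw [Pi.add_apply, hb]) (by rw [Pi.add_apply, hc]), S.H_add m l hm hl]
    group
  exact DFunLike.congr_fun this z

/-- **(A6)** functoriality -/
theorem eps_map {κ : Type} [Fintype κ] [DecidableEq κ] {e : Ev S} {pos : ι → V} {pos' : κ → V}
    (hO : OrthFam e pos) (hO' : OrthFam e pos') (θ : ι × C ↪ κ × C) (h2 : ∀ p, (θ p).2 = p.2)
    (h1 : ∀ p, pos' (θ p).1 = pos p.1) (z : alternatingGroup (ι × C)) :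
    eps e pos hO z = eps e pos' hO' (altMap θ z) := by
  have := eps_H hO hO' (m := 0) (by simp) θ h2 (fun p => by rw [h1]; simp) z
  rw [← this, H_zero]; simp


/-! ### letter events -/

theorem le_diff_of_orth {p e f : Ev S} (h : e ≤ f) (hp : p ≤ f) (ho : Ev.Orth p e) :
    p ≤ Ev.diff f e h := by
  intro σ τ
  rw [Ev.diff_hom]
  have h1 := hp σ τ
  have h2 : (e.hom τ)⁻¹ * p.hom σ * e.hom τ = p.hom σ := by
    rw [mul_assoc, ho σ τ, inv_mul_cancel_left]
  calc f.hom τ * (e.hom τ)⁻¹ * p.hom σ * (f.hom τ * (e.hom τ)⁻¹)⁻¹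
      = f.hom τ * ((e.hom τ)⁻¹ * p.hom σ * e.hom τ) * (f.hom τ)⁻¹ := by group
    _ = p.hom (τ * σ * τ⁻¹) := by rw [h2, h1]

/-- **(A8)** conjugation by an event `f` such that every translate `(pos i).e` is `≤ f` (for
`i ∈ A`) or orthogonal to `f` (for `i ∉ A`). -/
theorem eps_conj_event {e : Ev S} {pos : ι → V} (hO : OrthFam e pos) {te : ι → Ev S}
    (ht : ∀ i, Ev.IsTrans (pos i) e (te i)) (A : Finset ι) (f : Ev S)
    (h1 : ∀ i ∈ A, te i ≤ f) (h2 : ∀ i, i ∉ A → Ev.Orth (te i) f) (τ : alternatingGroup C)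
    (z : alternatingGroup (ι × C)) :
    f.hom τ * eps e pos hO z * (f.hom τ)⁻¹ =
      eps e pos hO (lv (fun i => if i ∈ A then τ else 1) * z *
        (lv (fun i => if i ∈ A then τ else 1))⁻¹) := by
  have ho : ∀ i j, i ≠ j → Ev.Orth (te i) (te j) := fun i j hij =>
    orth_of_TOrth (ht i) (ht j) (hO i j hij)
  induction A using Finset.induction_on generalizing f z with
  | empty =>
    have h0 : lv (fun i : ι => if i ∈ (∅ : Finset ι) then τ else 1) = 1 := by
      rw [← lv_one]; congr 1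
    rw [h0]
    have := eps_comm_hom hO ht (fun i => h2 i (Finset.notMem_empty i)) z τ
    rw [← this.eq]
    simp
  | insert a A ha ih =>
    have hle : te a ≤ f := h1 a (mem_insert_self a A)
    have key := ih (Ev.diff f (te a) hle)
      (fun i hi => le_diff_of_orth hle (h1 i (mem_insert_of_mem hi))
        (ho i a (fun h => ha (h ▸ hi))))
      (fun i hi => by
        by_cases hia : i = a
        · subst hia; exact Ev.orth_diff hle
        · exact (h2 i (by simp [hia, hi])).mono le_rfl (Ev.diff_le hle))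
      z
    have e1 : lv (fun i : ι => if i ∈ insert a A then τ else 1) =
        lv (Pi.mulSingle a τ) * lv (fun i => if i ∈ A then τ else 1) := by
      rw [← lv_mul]
      congr 1
      funext i
      by_cases hia : i = a
      · subst hia; simp [ha]
      · simp [hia]
    have e2 := eps_lv_single hO (ht a) τ
    rw [Ev.hom_eq_of_le hle τ, e1]
    calc (te a).hom τ * (Ev.diff f (te a) hle).hom τ * eps e pos hO z *
          ((te a).hom τ * (Ev.diff f (te a) hle).hom τ)⁻¹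
        = (te a).hom τ * ((Ev.diff f (te a) hle).hom τ * eps e pos hO z *
          ((Ev.diff f (te a) hle).hom τ)⁻¹) * ((te a).hom τ)⁻¹ := by group
      _ = _ := by
        rw [key, ← e2, ← map_inv, ← map_mul, ← map_mul]
        congr 1

end Crest.Agent.R189.Tower
end

-- ▼ part R189/LETW0
section

/-!
# Row 189, M7/D (LETW, part 0): windows around the atoms of a level, abstract form

`Lt : E → Prop` is a down-closed predicate ("contained in a letter"), `g x y : G` the translation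
by `x` in the direction of `q` and `y` in the direction of `p` (`g lq 0 = q`, `g 0 lp = p`).
`LetCell`: the atoms of the level are contained in letters in the positions of the base cell
`[0, lq) × [0, lp)`. `LetCell.window`: the same in the window around the atom (all four quadrants).
-/

set_option autoImplicit false

namespace Crest.Agent.R189

open Romp

/-- index of an atom of a level with `n` digits: face, `P` edge, `Q` edge, vertex -/
inductive Atom (n : ℕ)
  | F (j : Fin n)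
  | P (j : Fin n) (L : Label)
  | Q (j : Fin n) (L : Label)
  | V (j : Fin n) (s : Star)

namespace Atom

variable {n : ℕ}

/-- `Atom n` as a sum type -/
def toSum : Atom n → (Fin n ⊕ Fin n × Label) ⊕ (Fin n × Label ⊕ Fin n × Star)
  | F j => .inl (.inl j)
  | P j L => .inl (.inr (j, L))
  | Q j L => .inr (.inl (j, L))
  | V j s => .inr (.inr (j, s))

theorem toSum_injective : Function.Injective (toSum (n := n)) := by
  intro x y h
  cases x <;> cases y <;> simp [toSum] at h <;> simp [h]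

instance : Finite (Atom n) := Finite.of_injective _ toSum_injective

/-- digit of an atom -/
def dig : Atom n → Fin n
  | F j => j
  | P j _ => j
  | Q j _ => j
  | V j _ => j

/-- the event of an atom -/
noncomputable def event {E : Type*} [OMP E] (c : ℕ → E) (St : Star → E) : Atom n → E
  | F j => c j
  | P j L => c j ⊓ₒ ev St {s | s.Pf = L}
  | Q j L => c j ⊓ₒ ev St {s | s.Qf = L}
  | V j s => c j ⊓ₒ St s

/-- window of an atom in the coordinates (along `q`, along `p`) -/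
def InWin (lq lp : ℤ) : Atom n → ℤ → ℤ → Prop
  | F _, x, y => 0 < x ∧ x < lq ∧ 0 < y ∧ y < lp
  | P _ _, x, y => -lq < x ∧ x < lq ∧ 0 < y ∧ y < lp
  | Q _ _, x, y => 0 < x ∧ x < lq ∧ -lp < y ∧ y < lp
  | V _ _, x, y => -lq < x ∧ x < lq ∧ -lp < y ∧ y < lp



end Atom

variable {G E : Type*} [CommGroup G] [ROMP E] [OMPAct G E]
variable {D : E} {p q : G} {a : ℕ} {c : ℕ → E} {St : Star → E}

/-- the atoms are contained in letters in the positions of the base cell -/
structure LetCell (Lt : E → Prop) (g : ℤ → ℤ → G) (lq lp : ℤ) (a : ℕ) (c : ℕ → E)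
    (St : Star → E) : Prop where
  F : ∀ x y, 0 < x → x < lq → 0 < y → y < lp → ∀ j, j < 3 * a → Lt (g x y • c j)
  P : ∀ y, 0 < y → y < lp → ∀ j, j < 3 * a → ∀ L : Label,
    Lt (g 0 y • (c j ⊓ₒ ev St {s | s.Pf = L}))
  Q : ∀ x, 0 < x → x < lq → ∀ j, j < 3 * a → ∀ L : Label,
    Lt (g x 0 • (c j ⊓ₒ ev St {s | s.Qf = L}))
  V : ∀ j, j < 3 * a → ∀ s, Lt (c j ⊓ₒ St s)

namespace LS

variable (h : LS D p q a c St)
include h

theorem event_le_c (κ : Atom (3 * a)) : κ.event c St ≤ c κ.dig := by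
  cases κ with
  | F j => exact le_rfl
  | P j L => exact h.cap_le_c j _
  | Q j L => exact h.cap_le_c j _
  | V j s => exact meet_le_left (h.comm_all j s)

theorem star_le_Pf (j : ℕ) (s : Star) : c j ⊓ₒ St s ≤ c j ⊓ₒ ev St {t | t.Pf = s.Pf} :=
  meet_mono (h.comm_all j s) (h.comm_ev j _) le_rfl (h.part_St.le_ev rfl)

theorem star_le_Qf (j : ℕ) (s : Star) : c j ⊓ₒ St s ≤ c j ⊓ₒ ev St {t | t.Qf = s.Qf} :=
  meet_mono (h.comm_all j s) (h.comm_ev j _) le_rfl (h.part_St.le_ev rfl)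

/-- index of the digit before `j` -/
theorem p_inv_c (j : ℕ) : p⁻¹ • c j = c ((j + (3 * a - 1)) % (3 * a)) := by
  have hn := h.n_pos
  rw [h.c_mod, inv_smul_eq_iff, h.p_c, show j + (3 * a - 1) + 1 = j + 3 * a by omega, h.c_add_n]

/-- below a vertex: the `P` edge before it -/
theorem p_inv_star_le (j : ℕ) (s : Star) :
    p⁻¹ • (c j ⊓ₒ St s) ≤ c ((j + (3 * a - 1)) % (3 * a)) ⊓ₒ ev St {t | t.Pf = s.Pb} := by
  have e1 : p • ev St {t | t.Pf = s.Pb} = ev St {t | t.Pb = s.Pb} := h.P_shift s.Pb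
  rw [← h.p_inv_c, ← inv_smul_smul p (ev St {t | t.Pf = s.Pb}), e1, ← smul_meet, smul_le_smul_iff]
  exact meet_mono (h.comm_all j s) (h.comm_ev j _) le_rfl (h.part_St.le_ev rfl)

/-- left of a vertex: the `Q` edge before it -/
theorem q_inv_star_le {j : ℕ} (hj : j < 3 * a) (s : Star) :
    ∃ L : Label, q⁻¹ • (c j ⊓ₒ St s) ≤ c j ⊓ₒ ev St {t | t.Qf = L} := by
  rcases Nat.eq_zero_or_pos j with rfl | h0
  · refine ⟨s.Qb, ?_⟩
    rw [← smul_le_smul_iff q, smul_inv_smul, h.Q_shift0]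
    exact meet_mono (h.comm_all 0 s) (h.comm_ev 0 _) le_rfl (h.part_St.le_ev rfl)
  · refine ⟨⟨tauOf a j, s.Qb.st, .A⟩, ?_⟩
    have e1 : q⁻¹ • (c j ⊓ₒ St s) ≤ c j ⊓ₒ ev St {t | t.Qf.st = s.Qb.st} := by
      rw [← smul_le_smul_iff q, smul_inv_smul, h.Q_shift j h0 hj]
      exact meet_mono (h.comm_all j s) (h.comm_ev j _) le_rfl (h.part_St.le_ev rfl)
    refine e1.trans ?_
    have e2 := h.Row_le_Row h0 hj (A := {t | t.Qf.st = s.Qb.st})
      (B := {t | t.Qf = ⟨tauOf a j, s.Qb.st, .A⟩}) (by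
        intro t ht h1 h2
        show t.Qf = _
        have h3 := t.Qf_u h1
        rw [t.tau_Q] at h2
        rw [← h2, ← show t.Qf.st = s.Qb.st from ht, ← h3])
    rwa [Row, Row, smul_le_smul_iff] at e2

end LS

/-- **windows**: the translate of an atom by a vector of its window is contained in a letter -/
theorem LetCell.window {Lt : E → Prop} {g : ℤ → ℤ → G} {lq lp : ℤ} (h : LS D p q a c St)
    (hm : ∀ x y : E, x ≤ y → Lt y → Lt x)
    (hg : ∀ x y x' y', g (x + x') (y + y') = g x y * g x' y')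
    (hq : g lq 0 = q) (hp : g 0 lp = p)
    (H : LetCell Lt g lq lp a c St) (κ : Atom (3 * a)) {x y : ℤ} (hw : κ.InWin lq lp x y) :
    Lt (g x y • κ.event c St) := by
  have hn := h.n_pos
  have hpm : ∀ j : ℕ, (j + (3 * a - 1)) % (3 * a) < 3 * a := fun j => Nat.mod_lt _ hn
  -- translations by `q⁻¹`, `p⁻¹`
  have gq : ∀ x y, g x y = g (x + lq) y * q⁻¹ := by
    intro x y
    rw [← hq, eq_mul_inv_iff_mul_eq, ← hg, add_zero]
  have gp : ∀ x y, g x y = g x (y + lp) * p⁻¹ := by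
    intro x y
    rw [← hp, eq_mul_inv_iff_mul_eq, ← hg, add_zero]
  have g00 : g 0 0 = 1 := by
    have := hg 0 0 0 0
    simpa using this
  -- faces: everything with `0 < y < lp`, `x ≠ 0`
  have F1 : ∀ x y, -lq < x → x < lq → x ≠ 0 → 0 < y → y < lp → ∀ j, j < 3 * a →
      Lt (g x y • c j) := by
    intro x y h1 h2 h0 h3 h4 j hj
    rcases lt_or_gt_of_ne h0 with hx | hx
    · rw [gq, mul_smul, h.q_inv_c]
      exact H.F _ _ (by omega) (by omega) h3 h4 j hj
    · exact H.F _ _ hx h2 h3 h4 j hj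
  have F2 : ∀ x y, -lq < x → x < lq → x ≠ 0 → -lp < y → y < lp → y ≠ 0 → ∀ j, j < 3 * a →
      Lt (g x y • c j) := by
    intro x y h1 h2 h0 h3 h4 hy0 j hj
    rcases lt_or_gt_of_ne hy0 with hy | hy
    · rw [gp, mul_smul, h.p_inv_c]
      exact F1 _ _ h1 h2 h0 (by omega) (by omega) _ (hpm j)
    · exact F1 _ _ h1 h2 h0 hy h4 j hj
  have hc : ∀ (κ : Atom (3 * a)) (x y : ℤ), g x y • κ.event c St ≤ g x y • c κ.dig :=
    fun κ x y => smul_le_smul _ (h.event_le_c κ)
  cases κ with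
  | F j =>
    obtain ⟨h1, h2, h3, h4⟩ := hw
    exact H.F _ _ h1 h2 h3 h4 j j.2
  | P j L =>
    obtain ⟨h1, h2, h3, h4⟩ := hw
    by_cases hx : x = 0
    · subst hx; exact H.P y h3 h4 j j.2 L
    · exact hm _ _ (hc _ x y) (F1 x y h1 h2 hx h3 h4 j j.2)
  | Q j L =>
    obtain ⟨h1, h2, h3, h4⟩ := hw
    by_cases hy : y = 0
    · subst hy; exact H.Q x h1 h2 j j.2 L
    · exact hm _ _ (hc _ x y) (F2 x y (by omega) h2 (by omega) h3 h4 hy j j.2)
  | V j s =>
    obtain ⟨h1, h2, h3, h4⟩ := hw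
    by_cases hx : x = 0
    · subst hx
      rcases lt_trichotomy y 0 with hy | hy | hy
      · rw [gp, mul_smul]
        exact hm _ _ (smul_le_smul _ (h.p_inv_star_le j s))
          (H.P _ (by omega) (by omega) _ (hpm j) s.Pb)
      · subst hy
        rw [g00, one_smul]
        exact H.V j j.2 s
      · exact hm _ _ (smul_le_smul _ (h.star_le_Pf j s)) (H.P y hy h4 j j.2 s.Pf)
    · by_cases hy : y = 0
      · subst hy
        rcases lt_or_gt_of_ne hx with hx' | hx'
        · rw [gq, mul_smul]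
          obtain ⟨L, hL⟩ := h.q_inv_star_le j.2 s
          exact hm _ _ (smul_le_smul _ hL) (H.Q _ (by omega) (by omega) j j.2 L)
        · exact hm _ _ (smul_le_smul _ (h.star_le_Qf j s)) (H.Q x hx' h2 j j.2 s.Qf)
      · exact hm _ _ (hc _ x y) (F2 x y h1 h2 hx h3 h4 hy j j.2)

end Crest.Agent.R189
private theorem rz_f127fe6e13 : type_of% @_root_.Crest.Agent.R189.Atom.InWin.eq_1 := @_root_.Crest.Agent.R189.Atom.InWin.eq_1 -- L59
private theorem rz_f6c8d06b9b : type_of% @_root_.Crest.Agent.R189.Atom.dig.eq_1 := @_root_.Crest.Agent.R189.Atom.dig.eq_1 -- L45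
private theorem rz_c4fc411606 : type_of% @_root_.Crest.Agent.R189.Atom.toSum.eq_1 := @_root_.Crest.Agent.R189.Atom.toSum.eq_1 -- L32
end

-- ▼ part R189/LETW1
section

/-!
# Row 189, M7/D (LETW, part 1): the tiling by the translates of `D_k`

`Lat a k v`: `v` is in the lattice `L_k = w_k ℤ × h_k ℤ`.
* `LS.hD_inv`: `D_k` is invariant under `L_k`;
* `LS.hD_orth`: `v.D_k` and `v'.D_k` are orthogonal if `v - v' ∉ L_k`;
* `LS.top_of_hD_le`: an upper bound of all `v.D_k` is `⊤` (if `D = ⊤`).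
-/

set_option autoImplicit false

namespace Crest.Agent.R189

open Romp

/-- the lattice `L_k` -/
def Lat (a k : ℕ) (v : ℤ × ℤ) : Prop := (ww a k : ℤ) ∣ v.1 ∧ (hh a k : ℤ) ∣ v.2

theorem Lat.zero (a k : ℕ) : Lat a k 0 := ⟨dvd_zero _, dvd_zero _⟩

theorem Lat.neg {a k : ℕ} {v : ℤ × ℤ} (h : Lat a k v) : Lat a k (-v) :=
  ⟨(dvd_neg).2 h.1, (dvd_neg).2 h.2⟩

theorem Lat.add {a k : ℕ} {v v' : ℤ × ℤ} (h : Lat a k v) (h' : Lat a k v') :
    Lat a k (v + v') := ⟨dvd_add h.1 h'.1, dvd_add h.2 h'.2⟩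

theorem Lat_iff (a k : ℕ) (v : ℤ × ℤ) :
    Lat a k v ↔ ∃ x y : ℤ, v = x • qq a k + y • pp a k := by
  constructor
  · rintro ⟨⟨x, hx⟩, ⟨y, hy⟩⟩
    have e := lattice_gen (a₀ := a) k x y
    have ev : v = (x * (ww a k : ℤ), y * (hh a k : ℤ)) :=
      Prod.ext (by rw [hx, mul_comm]) (by rw [hy, mul_comm])
    by_cases hk : Even k
    · rw [if_pos hk] at e; exact ⟨x, y, by rw [ev, e]⟩
    · rw [if_neg hk] at e; exact ⟨y, x, by rw [ev, e, add_comm]⟩
  · rintro ⟨x, y, rfl⟩
    by_cases hk : Even k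
    · rw [pp_even hk, qq_even hk]
      constructor <;> simp
    · rw [pp_odd hk, qq_odd hk]
      constructor <;> simp


/-- short vectors are not in the lattice -/
theorem not_Lat {a k : ℕ} {v : ℤ × ℤ} (h0 : v ≠ 0) (h1 : |v.1| < ww a k) (h2 : |v.2| < hh a k) :
    ¬ Lat a k v := by
  rintro ⟨h3, h4⟩
  exact h0 (Prod.ext (Int.eq_zero_of_abs_lt_dvd h3 h1) (Int.eq_zero_of_abs_lt_dvd h4 h2))

namespace LS

section any
variable {G E : Type*} [CommGroup G] [ROMP E] [OMPAct G E]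
variable {D : E} {p q : G} {a : ℕ} {c : ℕ → E} {St : Star → E}

theorem isLUB_c (h : LS D p q a c St) : IsLUB (Set.range c) D := by
  have h1 := h.part_c.isLUB_range
  have h2 : Set.range (fun j : Fin (3 * a) => c j) = Set.range c := by
    ext x
    constructor
    · rintro ⟨j, rfl⟩; exact ⟨j, rfl⟩
    · rintro ⟨j, rfl⟩
      exact ⟨⟨j % (3 * a), Nat.mod_lt _ h.n_pos⟩, h.c_mod j⟩
  rwa [h2] at h1

theorem q_D (h : LS D p q a c St) : q • D = D := by
  have h1 := smul_isLUB q h.isLUB_c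
  have h2 : (fun e => q • e) '' Set.range c = Set.range c := by
    rw [← Set.range_comp]
    congr 1
    funext j
    exact h.q_c j
  rw [h2] at h1
  exact h1.unique h.isLUB_c

theorem p_D (h : LS D p q a c St) : p • D = D := by
  have h1 := smul_isLUB p h.isLUB_c
  have h2 : (fun e => p • e) '' Set.range c = Set.range c := by
    ext x
    constructor
    · rintro ⟨_, ⟨j, rfl⟩, rfl⟩; exact ⟨j + 1, (h.p_c j).symm⟩
    · rintro ⟨j, rfl⟩
      refine ⟨_, ⟨j + (3 * a - 1), rfl⟩, ?_⟩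
      have := h.n_pos
      show p • c (j + (3 * a - 1)) = c j
      rw [h.p_c, show j + (3 * a - 1) + 1 = j + 3 * a by omega, h.c_add_n]
  rw [h2] at h1
  exact h1.unique h.isLUB_c

theorem zpow_smul_eq {M : Type*} [MulAction G M] {g : G} {x : M} (hg : g • x = x) (n : ℤ) :
    g ^ n • x = x := by
  have : g ∈ MulAction.stabilizer G x := hg
  exact Subgroup.zpow_mem _ this n

end any

section Z2
variable {E : Type*} [ROMP E] [OMPAct (Multiplicative (ℤ × ℤ)) E]
variable {D : E} {a : ℕ} {c : ℕ → E} {St : Star → E}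

theorem smul_qq_pp (a k : ℕ) (x y : ℤ) (e : E) :
    Multiplicative.ofAdd (x • qq a k + y • pp a k) • e =
      hQ pZ qZ a k ^ x • hP pZ qZ a k ^ y • e := by
  rw [hP_eq, hQ_eq, ofAdd_add, mul_smul, ofAdd_zsmul, ofAdd_zsmul]

/-- `D_k` is invariant under `L_k` -/
theorem hD_inv (h : LS D pZ qZ a c St) (k : ℕ) {v : ℤ × ℤ} (hv : Lat a k v) :
    Multiplicative.ofAdd v • hD D pZ qZ a c St k = hD D pZ qZ a c St k := by
  obtain ⟨x, y, rfl⟩ := (Lat_iff a k v).1 hv
  rw [smul_qq_pp, zpow_smul_eq (h.lvl k).p_D, zpow_smul_eq (h.lvl k).q_D]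

/-- translate of `D_k` by vectors equal mod `L_k` -/
theorem hD_congr (h : LS D pZ qZ a c St) (k : ℕ) {v v' : ℤ × ℤ} (hv : Lat a k (v - v')) :
    Multiplicative.ofAdd v • hD D pZ qZ a c St k =
      Multiplicative.ofAdd v' • hD D pZ qZ a c St k := by
  conv_rhs => rw [← h.hD_inv k hv]
  rw [← mul_smul, ← ofAdd_add, _root_.add_sub_cancel]

theorem hD_orth0 (h : LS D pZ qZ a c St) (k : ℕ) : ∀ {v : ℤ × ℤ}, ¬ Lat a k v →
    Orth (hD D pZ qZ a c St k) (Multiplicative.ofAdd v • hD D pZ qZ a c St k) := by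
  induction k with
  | zero =>
    intro v hv
    exact absurd ⟨by simp, by simp⟩ hv
  | succ k ih =>
    intro v hv
    have hl := h.lvl k
    have hle : hD D pZ qZ a c St (k + 1) ≤ hD D pZ qZ a c St k := hl.c_le 0
    by_cases hk : Lat a k v
    · obtain ⟨x, y, rfl⟩ := (Lat_iff a k v).1 hk
      rw [smul_qq_pp, hD_succ]
      -- the step `q`
      have hn := hl.n_pos
      have hn' : (0 : ℤ) < ((3 * (a + k) : ℕ) : ℤ) := by exact_mod_cast hn
      set n : ℤ := ((3 * (a + k) : ℕ) : ℤ) with hndef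
      obtain ⟨m, hm⟩ : ∃ m : ℕ, (m : ℤ) = y % n :=
        ⟨(y % n).toNat, Int.toNat_of_nonneg (Int.emod_nonneg _ (by omega))⟩
      have hmn : m < 3 * (a + k) := by
        have := Int.emod_lt_of_pos y hn'
        omega
      have e1 : hP pZ qZ a k ^ y • hc pZ qZ a c St k 0 = hc pZ qZ a c St k m := by
        have e2 : y = n * (y / n) + (m : ℤ) := by
          rw [hm]; exact (Int.mul_ediv_add_emod y n).symm
        rw [e2, zpow_add, mul_smul, zpow_natCast, ← hl.c_eq m, zpow_mul, hndef, zpow_natCast]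
        exact zpow_smul_eq (hl.pn_c m) _
      rw [e1, zpow_smul_eq (hl.q_c m)]
      refine hl.c_orth ?_
      rw [Nat.zero_mod, Nat.mod_eq_of_lt hmn]
      intro h0
      apply hv
      rw [← h0] at hm
      have hdvd : n ∣ y := Int.dvd_of_emod_eq_zero (by rw [← hm]; rfl)
      obtain ⟨z, rfl⟩ := hdvd
      rw [Lat_iff]
      refine ⟨z, x, ?_⟩
      rw [qq_succ, pp_succ, nn, ← hndef, smul_smul, mul_comm z n, add_comm]
    · exact (ih hk).mono hle (smul_le_smul _ hle)

/-- translates of `D_k` by vectors different mod `L_k` are orthogonal -/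
theorem hD_orth (h : LS D pZ qZ a c St) (k : ℕ) {v v' : ℤ × ℤ} (hv : ¬ Lat a k (v - v')) :
    Orth (Multiplicative.ofAdd v • hD D pZ qZ a c St k)
      (Multiplicative.ofAdd v' • hD D pZ qZ a c St k) := by
  have h1 : ¬ Lat a k (v' - v) := fun h2 => hv (by have := h2.neg; rwa [neg_sub] at this)
  have h2 := h.hD_orth0 k h1
  rw [← smul_orth_iff (Multiplicative.ofAdd v), ← mul_smul, ← ofAdd_add, _root_.add_sub_cancel] at h2
  exact h2

/-- the translates of `D_k` cover everything -/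
theorem top_of_hD_le (h : LS D pZ qZ a c St) (hD1 : D = ⊤) (k : ℕ) {y : E}
    (hy : ∀ v : ℤ × ℤ, Multiplicative.ofAdd v • hD D pZ qZ a c St k ≤ y) : y = ⊤ := by
  induction k with
  | zero =>
    have := hy 0
    rw [hD_zero, hD1, smul_top] at this
    exact top_le_iff.1 this
  | succ k ih =>
    apply ih
    intro v
    have hl := h.lvl k
    have h1 := smul_isLUB (Multiplicative.ofAdd v) hl.isLUB_c
    apply h1.2
    rintro x ⟨_, ⟨j, rfl⟩, rfl⟩
    have h2 := hy (v + (j : ℤ) • pp a k)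
    rw [smul_add_pp, hD_succ, ← hl.c_eq j] at h2
    exact h2

/-- `F` is a system of representatives mod `L_k` -/
def IsRep (a k : ℕ) (F : Set (ℤ × ℤ)) : Prop :=
  (∀ v ∈ F, ∀ v' ∈ F, Lat a k (v - v') → v = v') ∧ ∀ v, ∃ v' ∈ F, Lat a k (v - v')


end Z2

end LS

/-- the boxes `[x, x + w_k) × [y, y + h_k)` are systems of representatives -/
theorem LS.isRep_box {a : ℕ} (ha : 0 < a) (k : ℕ) (x y : ℤ) :
    LS.IsRep a k {v | (x ≤ v.1 ∧ v.1 < x + ww a k) ∧ (y ≤ v.2 ∧ v.2 < y + hh a k)} := by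
  have hw : (0 : ℤ) < ww a k := by exact_mod_cast ww_pos ha k
  have hh' : (0 : ℤ) < hh a k := by exact_mod_cast hh_pos ha k
  constructor
  · rintro v ⟨⟨h1, h2⟩, h3, h4⟩ v' ⟨⟨h1', h2'⟩, h3', h4'⟩ hl
    by_contra hne
    refine not_Lat (a := a) (k := k) (v := v - v') (sub_ne_zero.2 hne) ?_ ?_ hl
    · rw [Prod.fst_sub, abs_lt]; constructor <;> omega
    · rw [Prod.snd_sub, abs_lt]; constructor <;> omega
  · intro v
    refine ⟨(x + (v.1 - x) % (ww a k : ℤ), y + (v.2 - y) % (hh a k : ℤ)), ⟨⟨?_, ?_⟩, ?_, ?_⟩, ?_⟩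
    · have := Int.emod_nonneg (v.1 - x) hw.ne'
      show x ≤ x + (v.1 - x) % (ww a k : ℤ)
      omega
    · have := Int.emod_lt_of_pos (v.1 - x) hw
      show x + (v.1 - x) % (ww a k : ℤ) < x + ww a k
      omega
    · have := Int.emod_nonneg (v.2 - y) hh'.ne'
      show y ≤ y + (v.2 - y) % (hh a k : ℤ)
      omega
    · have := Int.emod_lt_of_pos (v.2 - y) hh'
      show y + (v.2 - y) % (hh a k : ℤ) < y + hh a k
      omega
    · constructor
      · show (ww a k : ℤ) ∣ v.1 - (x + (v.1 - x) % (ww a k : ℤ))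
        rw [← sub_sub]
        exact Int.dvd_self_sub_emod
      · show (hh a k : ℤ) ∣ v.2 - (y + (v.2 - y) % (hh a k : ℤ))
        rw [← sub_sub]
        exact Int.dvd_self_sub_emod

end Crest.Agent.R189
end

-- ▼ part R189/LETW
section

/-!
# Row 189, M7/D (LETW): windows around the level `k` atoms, tiling by atoms, letters as sums

`h : LS D pZ qZ a c St` (level `0`, any ROMP with an action of `ℤ²`).

* `Atom (3 * (a + k))`: indices of the atoms of level `k` (`F j`, `P j L`, `Q j L`, `V j s`);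
  `atomE a c St k κ : E` the event; `letterE c St x`, `x : Fin (3 * a) × Star`, the letters.
* `Atom.Win a k κ : Set (ℤ × ℤ)` the (open) window of the atom.
* (W1) `LS.ltr h k κ v : Fin (3 * a) × Star`, `LS.le_ltr`: for `v ∈ Win a k κ`,
  `ofAdd v • atomE a c St k κ ≤ letterE c St (h.ltr k κ v)`.
* (W2) `LS.atom_orth`, `LS.atom_orth_same`.
* (W3) `LS.piece_part`, (W4) `LS.letter_eq_pieces`.
-/

set_option autoImplicit false

namespace Crest.Agent.R189

open Romp

namespace Atom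

/-- length of `q_k` -/
def lq (a k : ℕ) : ℤ := if Even k then (ww a k : ℤ) else (hh a k : ℤ)
/-- length of `p_k` -/
def lp (a k : ℕ) : ℤ := if Even k then (hh a k : ℤ) else (ww a k : ℤ)
/-- coordinate along `q_k` -/
def cx (k : ℕ) (v : ℤ × ℤ) : ℤ := if Even k then v.1 else v.2
/-- coordinate along `p_k` -/
def cy (k : ℕ) (v : ℤ × ℤ) : ℤ := if Even k then v.2 else v.1
/-- the point with coordinates `x` along `q_k`, `y` along `p_k` -/
def pt (k : ℕ) (x y : ℤ) : ℤ × ℤ := if Even k then (x, y) else (y, x)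

theorem pt_cx_cy (k : ℕ) (v : ℤ × ℤ) : pt k (cx k v) (cy k v) = v := by
  unfold pt cx cy; split_ifs <;> rfl

@[simp] theorem cx_pt (k : ℕ) (x y : ℤ) : cx k (pt k x y) = x := by
  unfold pt cx; split_ifs <;> rfl

@[simp] theorem cy_pt (k : ℕ) (x y : ℤ) : cy k (pt k x y) = y := by
  unfold pt cy; split_ifs <;> rfl

theorem pt_add (k : ℕ) (x y x' y' : ℤ) : pt k (x + x') (y + y') = pt k x y + pt k x' y' := by
  unfold pt; split_ifs <;> rfl

theorem cx_sub (k : ℕ) (v v' : ℤ × ℤ) : cx k (v - v') = cx k v - cx k v' := by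
  unfold cx; split_ifs <;> rfl

theorem cy_sub (k : ℕ) (v v' : ℤ × ℤ) : cy k (v - v') = cy k v - cy k v' := by
  unfold cy; split_ifs <;> rfl

theorem cx_add (k : ℕ) (v v' : ℤ × ℤ) : cx k (v + v') = cx k v + cx k v' := by
  unfold cx; split_ifs <;> rfl

theorem cy_add (k : ℕ) (v v' : ℤ × ℤ) : cy k (v + v') = cy k v + cy k v' := by
  unfold cy; split_ifs <;> rfl

theorem ext_c {k : ℕ} {v v' : ℤ × ℤ} (h1 : cx k v = cx k v') (h2 : cy k v = cy k v') :
    v = v' := by
  rw [← pt_cx_cy k v, ← pt_cx_cy k v', h1, h2]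

theorem lq_pos {a : ℕ} (ha : 0 < a) (k : ℕ) : 0 < lq a k := by
  have h1 : (0 : ℤ) < ww a k := by exact_mod_cast ww_pos ha k
  have h2 : (0 : ℤ) < hh a k := by exact_mod_cast hh_pos ha k
  unfold lq; split_ifs <;> assumption

theorem lp_pos {a : ℕ} (ha : 0 < a) (k : ℕ) : 0 < lp a k := by
  have h1 : (0 : ℤ) < ww a k := by exact_mod_cast ww_pos ha k
  have h2 : (0 : ℤ) < hh a k := by exact_mod_cast hh_pos ha k
  unfold lp; split_ifs <;> assumption

theorem pt_q (a k : ℕ) : pt k (lq a k) 0 = qq a k := by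
  by_cases hk : Even k
  · rw [pt, if_pos hk, lq, if_pos hk, qq_even hk]
  · rw [pt, if_neg hk, lq, if_neg hk, qq_odd hk]

theorem pt_p (a k : ℕ) : pt k 0 (lp a k) = pp a k := by
  by_cases hk : Even k
  · rw [pt, if_pos hk, lp, if_pos hk, pp_even hk]
  · rw [pt, if_neg hk, lp, if_neg hk, pp_odd hk]

theorem pt_mem_Bx {a k : ℕ} {x y : ℤ} :
    pt k x y ∈ Bx a k ↔ (0 ≤ x ∧ x < lq a k) ∧ (0 ≤ y ∧ y < lp a k) := by
  rw [mem_Bx]
  unfold pt lq lp
  by_cases hk : Even k
  · simp only [if_pos hk]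
  · simp only [if_neg hk]; tauto

theorem onP_pt {k : ℕ} {x y : ℤ} : onP k (pt k x y) ↔ x = 0 := by
  unfold onP pt; split_ifs <;> rfl

theorem onQ_pt {k : ℕ} {x y : ℤ} : onQ k (pt k x y) ↔ y = 0 := by
  unfold onQ pt; split_ifs <;> rfl

theorem Lat_iff_c {a k : ℕ} {v : ℤ × ℤ} : Lat a k v ↔ lq a k ∣ cx k v ∧ lp a k ∣ cy k v := by
  unfold Lat lq lp cx cy
  by_cases hk : Even k
  · simp only [if_pos hk]
  · simp only [if_neg hk]; tauto

/-- the window of an atom of level `k` -/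
def Win (a k : ℕ) (κ : Atom (3 * (a + k))) : Set (ℤ × ℤ) :=
  {v | κ.InWin (lq a k) (lp a k) (cx k v) (cy k v)}

/-- the zone of an atom (coordinates) -/
def InZone {n : ℕ} (R lq lp : ℤ) : Atom n → ℤ → ℤ → Prop
  | F _, x, y => (R ≤ x ∧ x < lq - R) ∧ (R ≤ y ∧ y < lp - R)
  | P _ _, x, y => (-R ≤ x ∧ x < R) ∧ (R ≤ y ∧ y < lp - R)
  | Q _ _, x, y => (R ≤ x ∧ x < lq - R) ∧ (-R ≤ y ∧ y < R)
  | V _ _, x, y => (-R ≤ x ∧ x < R) ∧ (-R ≤ y ∧ y < R)

/-- the zone `T_κ` of an atom of level `k`: `T_V = [-R,R)²`, `T_P = [-R,R) × [R,lp-R)`,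
`T_Q = [R,lq-R) × [-R,R)`, `T_F = [R,lq-R) × [R,lp-R)` -/
def Zone (a k : ℕ) (R : ℤ) (κ : Atom (3 * (a + k))) : Set (ℤ × ℤ) :=
  {v | κ.InZone R (lq a k) (lp a k) (cx k v) (cy k v)}

end Atom

/-- the letters -/
noncomputable def letterE {E : Type*} [OMP E] {a : ℕ} (c : ℕ → E) (St : Star → E)
    (x : Fin (3 * a) × Star) : E := c x.1 ⊓ₒ St x.2

section levels
variable {E : Type*} [ROMP E] [OMPAct (Multiplicative (ℤ × ℤ)) E]
variable {D : E} {a : ℕ} {c : ℕ → E} {St : Star → E}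

/-- the event of an atom of level `k` -/
noncomputable def atomE (a : ℕ) (c : ℕ → E) (St : Star → E) (k : ℕ) (κ : Atom (3 * (a + k))) : E :=
  κ.event (hc pZ qZ a c St k) (hSt pZ qZ a c St k)

omit [OMPAct (Multiplicative (ℤ × ℤ)) E] in
theorem Below.iff_letterE {x : E} :
    Below a c St x ↔ ∃ l : Fin (3 * a) × Star, x ≤ letterE c St l := by
  constructor
  · rintro ⟨j, hj, s, hs⟩; exact ⟨(⟨j, hj⟩, s), hs⟩
  · rintro ⟨⟨j, s⟩, hs⟩; exact ⟨j, j.2, s, hs⟩

namespace LS

theorem letCell (h : LS D pZ qZ a c St) (k : ℕ) :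
    LetCell (Below a c St) (fun x y => Multiplicative.ofAdd (Atom.pt k x y)) (Atom.lq a k)
      (Atom.lp a k) (a + k) (hc pZ qZ a c St k) (hSt pZ qZ a c St k) := by
  have H := h.letK k
  have ha : 0 < a := by have := h.three_le; omega
  have h1q := Atom.lq_pos ha k
  have h1p := Atom.lp_pos ha k
  refine ⟨?_, ?_, ?_, ?_⟩
  · intro x y hx hx' hy hy' j hj
    refine H.face j hj _ (Atom.pt_mem_Bx.2 ⟨⟨hx.le, hx'⟩, hy.le, hy'⟩) ?_ ?_
    · rw [Atom.onP_pt]; omega
    · rw [Atom.onQ_pt]; omega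
  · intro y hy hy' j hj L
    refine H.lineP j hj _ (Atom.pt_mem_Bx.2 ⟨⟨le_rfl, by omega⟩, hy.le, hy'⟩) ?_ ?_ L
    · intro h0
      have := congrArg (Atom.cy k) h0
      rw [Atom.cy_pt] at this
      have h1 : Atom.cy k (0 : ℤ × ℤ) = 0 := by unfold Atom.cy; split_ifs <;> rfl
      omega
    · rw [Atom.onP_pt]
  · intro x hx hx' j hj L
    refine H.lineQ j hj _ (Atom.pt_mem_Bx.2 ⟨⟨hx.le, hx'⟩, le_rfl, by omega⟩) ?_ ?_ L
    · intro h0
      have := congrArg (Atom.cx k) h0
      rw [Atom.cx_pt] at this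
      have h1 : Atom.cx k (0 : ℤ × ℤ) = 0 := by unfold Atom.cx; split_ifs <;> rfl
      omega
    · rw [Atom.onQ_pt]
  · intro j hj s
    exact H.corner j hj s

theorem a_pos (h : LS D pZ qZ a c St) : 0 < a := by have := h.three_le; omega

/-- (W1), existence -/
theorem below_atom (h : LS D pZ qZ a c St) (k : ℕ) (κ : Atom (3 * (a + k))) {v : ℤ × ℤ}
    (hv : v ∈ κ.Win a k) : Below a c St (Multiplicative.ofAdd v • atomE a c St k κ) := by
  have h1 := LetCell.window (h.lvl k) (fun x y hxy hy => hy.mono hxy)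
    (fun x y x' y' => by rw [Atom.pt_add, ofAdd_add])
    (by rw [Atom.pt_q, hQ_eq]) (by rw [Atom.pt_p, hP_eq]) (h.letCell k) κ hv
  rwa [Atom.pt_cx_cy] at h1

theorem exists_letter (h : LS D pZ qZ a c St) (k : ℕ) (κ : Atom (3 * (a + k))) {v : ℤ × ℤ}
    (hv : v ∈ κ.Win a k) :
    ∃ l : Fin (3 * a) × Star, Multiplicative.ofAdd v • atomE a c St k κ ≤ letterE c St l :=
  Below.iff_letterE.1 (h.below_atom k κ hv)

open Classical in
/-- the letter of the atom `κ` of level `k` at the position `v` of its window -/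
noncomputable def ltr (h : LS D pZ qZ a c St) (k : ℕ) (κ : Atom (3 * (a + k))) (v : ℤ × ℤ) :
    Fin (3 * a) × Star :=
  if hv : v ∈ κ.Win a k then (h.exists_letter k κ hv).choose
  else (⟨0, by have := h.a_pos; omega⟩, blankStar)

/-- (W1) -/
theorem le_ltr (h : LS D pZ qZ a c St) (k : ℕ) (κ : Atom (3 * (a + k))) {v : ℤ × ℤ}
    (hv : v ∈ κ.Win a k) :
    Multiplicative.ofAdd v • atomE a c St k κ ≤ letterE c St (h.ltr k κ v) := by
  unfold ltr
  rw [dif_pos hv]
  exact (h.exists_letter k κ hv).choose_spec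

/-- atoms of level `k` are contained in `D_k` -/
theorem atomE_le (h : LS D pZ qZ a c St) (k : ℕ) (κ : Atom (3 * (a + k))) :
    atomE a c St k κ ≤ hD D pZ qZ a c St k :=
  ((h.lvl k).event_le_c κ).trans ((h.lvl k).c_le _)

/-- (W2): translates of atoms (the same or different) by vectors different mod `L_k` are
orthogonal -/
theorem atom_orth (h : LS D pZ qZ a c St) (k : ℕ) (κ κ' : Atom (3 * (a + k))) {v v' : ℤ × ℤ}
    (hv : ¬ Lat a k (v - v')) :
    Orth (Multiplicative.ofAdd v • atomE a c St k κ)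
      (Multiplicative.ofAdd v' • atomE a c St k κ') :=
  (h.hD_orth k hv).mono (smul_le_smul _ (h.atomE_le k κ)) (smul_le_smul _ (h.atomE_le k κ'))


end LS

end levels

namespace Atom

variable {n : ℕ}

/-- two atoms of the same kind -/
def SameKind : Atom n → Atom n → Prop
  | F _, F _ => True
  | P _ _, P _ _ => True
  | Q _ _, Q _ _ => True
  | V _ _, V _ _ => True
  | _, _ => False

theorem SameKind.of_zone {R lq lp : ℤ} {κ κ' : Atom n} {x y : ℤ} (h : κ.InZone R lq lp x y)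
    (h' : κ'.InZone R lq lp x y) : SameKind κ κ' := by
  cases κ <;> cases κ' <;> simp only [InZone, SameKind] at h h' ⊢ <;> omega

theorem InZone.inWin {R lq lp : ℤ} (hR : 0 < R) (h1 : 2 * R ≤ lq) (h2 : 2 * R ≤ lp)
    {κ : Atom n} {x y : ℤ} (h : κ.InZone R lq lp x y) : κ.InWin lq lp x y := by
  cases κ <;> simp only [InZone, InWin] at h ⊢ <;> omega

theorem InZone.inWin_ball {R lq lp : ℤ} (h1 : 4 * R ≤ lq) (h2 : 4 * R ≤ lp)
    {κ : Atom n} {x y : ℤ} (h : κ.InZone R lq lp x y) {u v : ℤ} (hu : |u| < R) (hv : |v| < R) :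
    κ.InWin lq lp (x + u) (y + v) := by
  rw [abs_lt] at hu hv
  cases κ <;> simp only [InZone, InWin] at h ⊢ <;> omega

theorem InZone.diff {R lq lp : ℤ} (h1 : 4 * R ≤ lq) (h2 : 4 * R ≤ lp)
    {κ : Atom n} {x y x' y' : ℤ} (h : κ.InZone R lq lp x y) (h' : κ.InZone R lq lp x' y')
    {u v u' v' : ℤ} (hu : |u| < R) (hv : |v| < R) (hu' : |u'| < R) (hv' : |v'| < R) :
    |(x + u) - (x' + u')| < lq ∧ |(y + v) - (y' + v')| < lp := by
  rw [abs_lt] at hu hv hu' hv'
  cases κ <;> simp only [InZone] at h h' <;> constructor <;> rw [abs_lt] <;> omega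

/-- atoms of the same kind form a partition of `D`: orthogonality -/
theorem event_orth {G E : Type*} [CommGroup G] [ROMP E] [OMPAct G E] {D : E} {p q : G} {a : ℕ}
    {c : ℕ → E} {St : Star → E} (h : LS D p q a c St) {κ κ' : Atom (3 * a)}
    (hk : SameKind κ κ') (hne : κ ≠ κ') : Orth (κ.event c St) (κ'.event c St) := by
  have hd : ∀ κ κ' : Atom (3 * a), κ.dig ≠ κ'.dig → Orth (κ.event c St) (κ'.event c St) := by
    intro κ κ' hd
    exact (h.part_c.orth hd).mono (h.event_le_c κ) (h.event_le_c κ')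
  by_cases hd' : κ.dig = κ'.dig
  · cases κ <;> cases κ' <;> simp only [SameKind, dig] at hk hd'
    · subst hd'; exact absurd rfl hne
    · rename_i j L j' L'
      subst hd'
      have hL : L ≠ L' := fun h0 => hne (by rw [h0])
      refine (h.part_St.ev_orth ?_).mono (meet_le_right (h.comm_ev j _))
        (meet_le_right (h.comm_ev j _))
      rw [Set.disjoint_left]
      intro s hs hs'
      exact hL (hs.symm.trans hs')
    · rename_i j L j' L'
      subst hd'
      have hL : L ≠ L' := fun h0 => hne (by rw [h0])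
      refine (h.part_St.ev_orth ?_).mono (meet_le_right (h.comm_ev j _))
        (meet_le_right (h.comm_ev j _))
      rw [Set.disjoint_left]
      intro s hs hs'
      exact hL (hs.symm.trans hs')
    · rename_i j s j' s'
      subst hd'
      have hs : s ≠ s' := fun h0 => hne (by rw [h0])
      exact (h.part_St.orth hs).mono (meet_le_right (h.comm_all j s))
        (meet_le_right (h.comm_all j s'))
  · exact hd _ _ hd'

/-- an upper bound of all vertex atoms, or all edge atoms etc. is an upper bound of `D` -/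
theorem le_of_event_le {G E : Type*} [CommGroup G] [ROMP E] [OMPAct G E] {D : E} {p q : G} {a : ℕ}
    {c : ℕ → E} {St : Star → E} (h : LS D p q a c St) (κ : Atom (3 * a)) (g : G) {y : E}
    (hy : ∀ κ', SameKind κ κ' → g • κ'.event c St ≤ y) : g • D ≤ y := by
  have hc : ∀ j : Fin (3 * a), g • c j ≤ y := by
    intro j
    cases κ with
    | F _ => exact hy (F j) trivial
    | V _ _ =>
      have h1 := smul_isLUB g (h.capPart j).isLUB_range
      apply h1.2
      rintro x ⟨_, ⟨s, rfl⟩, rfl⟩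
      exact hy (V j s) trivial
    | P _ _ =>
      have h1 := smul_isLUB g (h.capPart j).isLUB_range
      apply h1.2
      rintro x ⟨_, ⟨s, rfl⟩, rfl⟩
      exact (smul_le_smul g (h.star_le_Pf j s)).trans (hy (P j s.Pf) trivial)
    | Q _ _ =>
      have h1 := smul_isLUB g (h.capPart j).isLUB_range
      apply h1.2
      rintro x ⟨_, ⟨s, rfl⟩, rfl⟩
      exact (smul_le_smul g (h.star_le_Qf j s)).trans (hy (Q j s.Qf) trivial)
  have h1 := smul_isLUB g h.part_c.isLUB_range
  apply h1.2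
  rintro x ⟨_, ⟨j, rfl⟩, rfl⟩
  exact hc j

end Atom

/-- the pieces of the tiling of level `k`, radius `R`: pairs (atom, position in its zone) -/
def Piece (a k : ℕ) (R : ℤ) : Type :=
  {x : Atom (3 * (a + k)) × (ℤ × ℤ) // x.2 ∈ x.1.Zone a k R}

namespace Piece
variable {a k : ℕ} {R : ℤ}

/-- the atom of a piece -/
def atom (i : Piece a k R) : Atom (3 * (a + k)) := i.1.1
/-- the position of a piece -/
def vec (i : Piece a k R) : ℤ × ℤ := i.1.2
theorem mem (i : Piece a k R) : i.vec ∈ i.atom.Zone a k R := i.2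

theorem ext {i i' : Piece a k R} (h1 : i.atom = i'.atom) (h2 : i.vec = i'.vec) : i = i' :=
  Subtype.ext (Prod.ext h1 h2)

end Piece

namespace Atom

theorem InZone.box {n : ℕ} {R lq lp : ℤ} (h1 : 2 * R ≤ lq) (h2 : 2 * R ≤ lp) (hR : 0 ≤ R)
    {κ : Atom n} {x y : ℤ} (h : κ.InZone R lq lp x y) :
    (-R ≤ x ∧ x < lq - R) ∧ (-R ≤ y ∧ y < lp - R) := by
  cases κ <;> simp only [InZone] at h <;> omega

theorem InZone.bound {n : ℕ} {R lq lp : ℤ} {κ : Atom n} {x y : ℤ} (h : κ.InZone R lq lp x y) :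
    (-|R| ≤ x ∧ x ≤ |lq| + |R|) ∧ (-|R| ≤ y ∧ y ≤ |lp| + |R|) := by
  have e1 := neg_abs_le R
  have e2 := le_abs_self R
  have e3 := neg_abs_le lq
  have e4 := le_abs_self lq
  have e5 := neg_abs_le lp
  have e6 := le_abs_self lp
  have e7 := abs_nonneg R
  have e8 := abs_nonneg lq
  have e9 := abs_nonneg lp
  cases κ <;> simp only [InZone] at h <;> omega

theorem le_lq_lp {a k : ℕ} {R : ℤ} (h1 : R ≤ ww a k) (h2 : R ≤ hh a k) :
    R ≤ lq a k ∧ R ≤ lp a k := by
  unfold lq lp; split_ifs <;> exact ⟨by assumption, by assumption⟩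

/-- zone ⊆ window -/
theorem Zone_subset_Win {a k : ℕ} {R : ℤ} (hR : 0 < R) (h1 : 2 * R ≤ ww a k)
    (h2 : 2 * R ≤ hh a k) (κ : Atom (3 * (a + k))) : κ.Zone a k R ⊆ κ.Win a k := by
  intro v hv
  obtain ⟨h3, h4⟩ := le_lq_lp h1 h2
  exact InZone.inWin hR h3 h4 hv

theorem abs_cx_lt {k : ℕ} {u : ℤ × ℤ} {R : ℤ} (h1 : |u.1| < R) (h2 : |u.2| < R) :
    |cx k u| < R := by unfold cx; split_ifs <;> assumption

theorem abs_cy_lt {k : ℕ} {u : ℤ × ℤ} {R : ℤ} (h1 : |u.1| < R) (h2 : |u.2| < R) :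
    |cy k u| < R := by unfold cy; split_ifs <;> assumption

/-- zone + ball of radius `< R` ⊆ window -/
theorem add_mem_Win {a k : ℕ} {R : ℤ} (h1 : 4 * R ≤ ww a k) (h2 : 4 * R ≤ hh a k)
    {κ : Atom (3 * (a + k))} {v : ℤ × ℤ} (hv : v ∈ κ.Zone a k R) {u : ℤ × ℤ} (hu1 : |u.1| < R)
    (hu2 : |u.2| < R) : v + u ∈ κ.Win a k := by
  obtain ⟨h3, h4⟩ := le_lq_lp h1 h2
  show InWin _ _ κ _ _
  rw [cx_add, cy_add]
  exact InZone.inWin_ball h3 h4 hv (abs_cx_lt hu1 hu2) (abs_cy_lt hu1 hu2)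

/-- positions in zone + ball have short differences -/
theorem diff_lt {a k : ℕ} {R : ℤ} (h1 : 4 * R ≤ ww a k) (h2 : 4 * R ≤ hh a k)
    {κ : Atom (3 * (a + k))} {v v' : ℤ × ℤ} (hv : v ∈ κ.Zone a k R) (hv' : v' ∈ κ.Zone a k R)
    {u u' : ℤ × ℤ} (hu1 : |u.1| < R) (hu2 : |u.2| < R) (hu1' : |u'.1| < R) (hu2' : |u'.2| < R) :
    |(v + u).1 - (v' + u').1| < ww a k ∧ |(v + u).2 - (v' + u').2| < hh a k := by
  obtain ⟨h3, h4⟩ := le_lq_lp h1 h2
  have h5 := InZone.diff h3 h4 hv hv' (abs_cx_lt (k := k) hu1 hu2) (abs_cy_lt (k := k) hu1 hu2)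
    (abs_cx_lt (k := k) hu1' hu2') (abs_cy_lt (k := k) hu1' hu2')
  unfold lq lp cx cy at h5
  by_cases hk : Even k
  · simp only [if_pos hk] at h5; exact h5
  · simp only [if_neg hk] at h5; exact h5.symm

/-- positions in zone + ball which are equal mod `L_k` are equal -/
theorem eq_of_Lat {a k : ℕ} {R : ℤ} (h1 : 4 * R ≤ ww a k) (h2 : 4 * R ≤ hh a k)
    {κ : Atom (3 * (a + k))} {v v' : ℤ × ℤ} (hv : v ∈ κ.Zone a k R) (hv' : v' ∈ κ.Zone a k R)
    {u u' : ℤ × ℤ} (hu1 : |u.1| < R) (hu2 : |u.2| < R) (hu1' : |u'.1| < R) (hu2' : |u'.2| < R)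
    (hl : Lat a k ((v + u) - (v' + u'))) : v + u = v' + u' := by
  by_contra hne
  obtain ⟨h5, h6⟩ := diff_lt h1 h2 hv hv' hu1 hu2 hu1' hu2'
  exact not_Lat (sub_ne_zero.2 hne) h5 h6 hl

theorem exists_zone (a k : ℕ) (ha : 0 < a) (R : ℤ) {x y : ℤ}
    (hx : -R ≤ x ∧ x < lq a k - R) (hy : -R ≤ y ∧ y < lp a k - R) :
    ∃ κ : Atom (3 * (a + k)), κ.InZone R (lq a k) (lp a k) x y := by
  have h0 : 0 < 3 * (a + k) := by omega
  by_cases h1 : x < R
  · by_cases h2 : y < R
    · exact ⟨V ⟨0, h0⟩ blankStar, ⟨hx.1, h1⟩, hy.1, h2⟩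
    · exact ⟨P ⟨0, h0⟩ blankStar.Pf, ⟨hx.1, h1⟩, by omega, hy.2⟩
  · by_cases h2 : y < R
    · exact ⟨Q ⟨0, h0⟩ blankStar.Pf, ⟨by omega, hx.2⟩, hy.1, h2⟩
    · exact ⟨F ⟨0, h0⟩, ⟨by omega, hx.2⟩, by omega, hy.2⟩

/-- the zone only depends on the kind -/
theorem SameKind.zone {n : ℕ} {R lq lp : ℤ} {κ κ' : Atom n} (h : SameKind κ κ') {x y : ℤ}
    (hz : κ.InZone R lq lp x y) : κ'.InZone R lq lp x y := by
  cases κ <;> cases κ' <;> first | exact hz | exact h.elim

end Atom

instance (a k : ℕ) (R : ℤ) : Finite (Piece a k R) := by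
  have h1 : ((Set.univ : Set (Atom (3 * (a + k)))) ×ˢ
      {v : ℤ × ℤ | (-|R| ≤ Atom.cx k v ∧ Atom.cx k v ≤ |Atom.lq a k| + |R|) ∧
        (-|R| ≤ Atom.cy k v ∧ Atom.cy k v ≤ |Atom.lp a k| + |R|)}).Finite := by
    refine Set.Finite.prod Set.finite_univ ?_
    have h2 : (Set.Icc (-|R|) (|Atom.lq a k| + |R|) ×ˢ
        Set.Icc (-|R|) (|Atom.lp a k| + |R|)).Finite :=
      (Set.finite_Icc _ _).prod (Set.finite_Icc _ _)
    refine Set.Finite.subset (h2.image fun z => Atom.pt k z.1 z.2) ?_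
    rintro v hv
    exact ⟨(Atom.cx k v, Atom.cy k v), hv, Atom.pt_cx_cy k v⟩
  have h3 : {x : Atom (3 * (a + k)) × (ℤ × ℤ) | x.2 ∈ x.1.Zone a k R}.Finite := by
    refine h1.subset ?_
    rintro ⟨κ, v⟩ hv
    exact ⟨trivial, Atom.InZone.bound (κ := κ) hv⟩
  exact h3.to_subtype

section pieces
variable {E : Type*} [ROMP E] [OMPAct (Multiplicative (ℤ × ℤ)) E]
variable {D : E} {a : ℕ} {c : ℕ → E} {St : Star → E}

/-- the event of a piece -/
noncomputable def pieceE (a : ℕ) (c : ℕ → E) (St : Star → E) (k : ℕ) (R : ℤ) (i : Piece a k R) :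
    E := Multiplicative.ofAdd i.vec • atomE a c St k i.atom

namespace LS

theorem piece_orth (h : LS D pZ qZ a c St) (k : ℕ) {R : ℤ} (hR : 0 ≤ R) (h1 : 2 * R ≤ ww a k)
    (h2 : 2 * R ≤ hh a k) {i i' : Piece a k R} (hne : i ≠ i') :
    Orth (pieceE a c St k R i) (pieceE a c St k R i') := by
  obtain ⟨h3, h4⟩ := Atom.le_lq_lp h1 h2
  by_cases hv : i.vec = i'.vec
  · unfold pieceE
    rw [hv, smul_orth_iff]
    have hm := i.mem
    rw [hv] at hm
    exact Atom.event_orth (h.lvl k) (Atom.SameKind.of_zone hm i'.mem)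
      (fun h0 => hne (Piece.ext h0 hv))
  · refine h.atom_orth k _ _ ?_
    intro hl
    apply hv
    rw [Atom.Lat_iff_c, Atom.cx_sub, Atom.cy_sub] at hl
    obtain ⟨b1, b2⟩ := Atom.InZone.box h3 h4 hR i.mem
    obtain ⟨b3, b4⟩ := Atom.InZone.box h3 h4 hR i'.mem
    have e1 : Atom.cx k i.vec - Atom.cx k i'.vec = 0 :=
      Int.eq_zero_of_abs_lt_dvd hl.1 (by rw [abs_lt]; omega)
    have e2 : Atom.cy k i.vec - Atom.cy k i'.vec = 0 :=
      Int.eq_zero_of_abs_lt_dvd hl.2 (by rw [abs_lt]; omega)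
    exact Atom.ext_c (k := k) (by omega) (by omega)

/-- (W3): the pieces form a partition of `⊤` -/
theorem piece_part (h : LS D pZ qZ a c St) (hD1 : D = ⊤) (k : ℕ) {R : ℤ} (hR : 0 ≤ R)
    (h1 : 2 * R ≤ ww a k) (h2 : 2 * R ≤ hh a k) : IsPart (pieceE a c St k R) ⊤ := by
  refine IsPart.of_isLUB (fun hne => h.piece_orth k hR h1 h2 hne) ⟨fun _ _ => le_top, ?_⟩
  intro y hy
  refine top_le_iff.2 (h.top_of_hD_le hD1 k fun v => ?_)
  obtain ⟨v', hv', hl⟩ := (isRep_box (a := a) h.a_pos k (-R) (-R)).2 v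
  rw [h.hD_congr k hl]
  have hb : (-R ≤ Atom.cx k v' ∧ Atom.cx k v' < Atom.lq a k - R) ∧
      (-R ≤ Atom.cy k v' ∧ Atom.cy k v' < Atom.lp a k - R) := by
    obtain ⟨⟨b1, b2⟩, b3, b4⟩ := hv'
    unfold Atom.cx Atom.cy Atom.lq Atom.lp
    split_ifs <;> constructor <;> constructor <;> omega
  obtain ⟨κ, hκ⟩ := Atom.exists_zone a k h.a_pos R hb.1 hb.2
  refine Atom.le_of_event_le (h.lvl k) κ _ fun κ' hk => ?_
  exact hy ⟨⟨(κ', v'), hk.zone hκ⟩, rfl⟩

omit [OMPAct (Multiplicative (ℤ × ℤ)) E] in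
theorem letter_part {G : Type*} [CommGroup G] [OMPAct G E] {p q : G} (h : LS D p q a c St) :
    IsPart (fun x : Fin (3 * a) × Star => letterE c St x) D :=
  h.part_c.prod h.part_St (fun j s => h.comm_all j s)

/-- (W4): every letter is the sum of the pieces with this letter -/
theorem letter_eq_pieces (h : LS D pZ qZ a c St) (hD1 : D = ⊤) (k : ℕ) {R : ℤ} (hR : 0 < R)
    (h1 : 2 * R ≤ ww a k) (h2 : 2 * R ≤ hh a k) (x : Fin (3 * a) × Star) :
    letterE c St x = ev (pieceE a c St k R) {i | h.ltr k i.atom i.vec = x} := by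
  have hP := h.piece_part hD1 k hR.le h1 h2
  have hQ := h.letter_part
  rw [hD1] at hQ
  have hM := hP.map (κ := Fin (3 * a) × Star) (fun i : Piece a k R => h.ltr k i.atom i.vec)
  have e := hM.eq_of_le hQ (by
    intro x
    refine hP.ev_le ?_
    rintro i (rfl : h.ltr k i.atom i.vec = x)
    exact h.le_ltr k i.atom (Atom.Zone_subset_Win hR h1 h2 _ i.mem))
  exact (congrFun e x).symm

end LS

end pieces

end Crest.Agent.R189
private theorem rz_cad1618272 : type_of% @_root_.Crest.Agent.R189.Atom.InZone.eq_1 := @_root_.Crest.Agent.R189.Atom.InZone.eq_1 -- L109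
private theorem rz_62bed244b6 : type_of% @_root_.Crest.Agent.R189.Atom.SameKind.eq_1 := @_root_.Crest.Agent.R189.Atom.SameKind.eq_1 -- L233
end

-- ▼ part R189/LetOcc
section

/-!
# Row 189, M7: which stars can occur (algebraic side)

In any level structure a nonzero event `c j ⊓ₒ St s` with `0 < j < 3a` has
`s.1 = rstarOf a j j' L0` with `AdmL a j' L0`.
-/

set_option autoImplicit false

namespace Crest.Agent.R189

open Romp


theorem sigR_eq_rstarOf (a j j' : ℕ) (L : Label) : sigR a j j' L = rstarOf a j j' L := by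
  unfold sigR rstarOf lamAt
  split_ifs <;> rfl

namespace LS

variable {G E : Type*} [CommGroup G] [ROMP E] [OMPAct G E]
variable {D : E} {p q : G} {a : ℕ} {c : ℕ → E} {St : Star → E}

theorem exists_of_ev_ne_bot (h : LS D p q a c St) {j : ℕ} (hj : j < 3 * a) {A : Set Star}
    (hA : c j ⊓ₒ ev St A ≠ ⊥) : ∃ s ∈ A, c j ⊓ₒ St s ≠ ⊥ := by
  rw [h.meet_ev_St hj] at hA
  by_contra hn
  push Not at hn
  exact hA ((h.part_cell hj).ev_eq_bot_iff.2 hn)


/-- one step of the occurrence statement -/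
theorem cell_occ_aux (h : LS D p q a c St) {j : ℕ} (hj0 : 0 < j) (hj : j < 3 * a) {s : Star}
    (hne : c j ⊓ₒ St s ≠ ⊥) :
    ∃ j', j' < 3 * (a + 1) ∧ ∃ t : Star, s.1 = rstarOf a j j' t.Qf ∧
      nextC q c St j' ⊓ₒ nextSt c St t ≠ ⊥ := by
  have h1 := h.cell_eq hj0 hj s.1
  rw [rawSt_val] at h1
  rw [h1] at hne
  by_contra hn
  push Not at hn
  apply hne
  rw [(h.part_pieces j).ev_eq_bot_iff]
  rintro ⟨j', t⟩ ht
  have ht' : sigR a j j' t.Qf = s.1 := ht
  have h2 := hn j' j'.2 t (by rw [← ht', sigR_eq_rstarOf])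
  show p ^ j • (nextC q c St j' ⊓ₒ nextSt c St t) = ⊥
  rw [h2, smul_bot]

/-- **occurrence**: the nonzero star events of the row `0 < j < 3a` -/
theorem cell_occ (h : LS D p q a c St) {j : ℕ} (hj0 : 0 < j) (hj : j < 3 * a) {s : Star}
    (hne : c j ⊓ₒ St s ≠ ⊥) :
    ∃ j', j' < 3 * (a + 1) ∧ ∃ L0 : Label, AdmL a j' L0 ∧ s.1 = rstarOf a j j' L0 := by
  obtain ⟨j', hj', t, hs, ht⟩ := h.cell_occ_aux hj0 hj hne
  refine ⟨j', hj', t.Qf, ?_, hs⟩
  rcases Nat.eq_zero_or_pos j' with h0 | h0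
  · subst h0
    rw [AdmL_zero]
    exact t.Qf_valid
  · rw [AdmL_of_ne h0.ne']
    obtain ⟨j'', hj'', u, hu, -⟩ := h.next.cell_occ_aux h0 hj' ht
    exact ⟨j'', hj'', congrArg RStar.Qf hu⟩

end LS

/-! ### in the hierarchy -/

section hier
variable {G E : Type*} [CommGroup G] [ROMP E] [OMPAct G E]
variable {D : E} {p q : G} {a : ℕ} {c : ℕ → E} {St : Star → E}

theorem LS.hier_occ (h : LS D p q a c St) (k : ℕ) {j : ℕ} (hj0 : 0 < j) (hj : j < 3 * (a + k))
    {s : Star} (hne : hc p q a c St k j ⊓ₒ hSt p q a c St k s ≠ ⊥) :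
    ∃ j', j' < 3 * (a + k + 1) ∧ ∃ L0 : Label, AdmL (a + k) j' L0 ∧
      s.1 = rstarOf (a + k) j j' L0 :=
  (h.lvl k).cell_occ hj0 hj hne

theorem LS.hier_ev_occ (h : LS D p q a c St) (k : ℕ) {j : ℕ} (hj : j < 3 * (a + k))
    {A : Set Star} (hA : hc p q a c St k j ⊓ₒ ev (hSt p q a c St k) A ≠ ⊥) :
    ∃ s ∈ A, hc p q a c St k j ⊓ₒ hSt p q a c St k s ≠ ⊥ :=
  (h.lvl k).exists_of_ev_ne_bot hj hA

end hier

end Crest.Agent.R189
end

-- ▼ part R189/XHierOcc

/-!
Row 189 (S0289), helper787.  OCCURRENCE at every level of the explicit system: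
the atoms `xc a k j ∩ xSt a k s`, the line events and the digit events which are allowed by
(X1), (X2) are nonempty.  `occ_transfer`: if an atom of the hierarchy of ANY level structure is
`≠ ⊥`, the corresponding atom of the explicit system is nonempty.
-/

set_option autoImplicit false

namespace Crest.Agent.R189.XH

open Romp XOccAux

/-- the point of `X` with given coordinates of level `k` -/
def xpt (a k : ℕ) (s : Star) (m n : ℤ) : X :=
  if Even k then ⟨((ww a k : ℤ) * m, (hh a k : ℤ) * n), s⟩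
  else ⟨((ww a k : ℤ) * n, (hh a k : ℤ) * m), s.flip⟩

theorem xpt_mem_xD (a k : ℕ) (s : Star) (m n : ℤ) : xpt a k s m n ∈ xD a k := by
  unfold xpt xD
  split_ifs <;> exact ⟨Dvd.intro _ rfl, Dvd.intro _ rfl⟩

theorem xs_xpt (a k : ℕ) (s : Star) (m n : ℤ) : xs k (xpt a k s m n) = s := by
  unfold xpt xs
  by_cases hk : Even k
  · rw [if_pos hk, if_pos hk]
  · rw [if_neg hk, if_neg hk, Star.flip_flip]

theorem xP_xpt {a : ℕ} (ha : 1 ≤ a) (k : ℕ) (s : Star) (m n : ℤ) :
    xP a k (xpt a k s m n) = m := by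
  have hw : (ww a k : ℤ) ≠ 0 := by exact_mod_cast (ww_pos ha k).ne'
  have hh' : (hh a k : ℤ) ≠ 0 := by exact_mod_cast (hh_pos ha k).ne'
  unfold xpt xP
  by_cases hk : Even k
  · rw [if_pos hk, if_pos hk]; exact Int.mul_ediv_cancel_left _ hw
  · rw [if_neg hk, if_neg hk]; exact Int.mul_ediv_cancel_left _ hh'

theorem xQ_xpt {a : ℕ} (ha : 1 ≤ a) (k : ℕ) (s : Star) (m n : ℤ) :
    xQ a k (xpt a k s m n) = n := by
  have hw : (ww a k : ℤ) ≠ 0 := by exact_mod_cast (ww_pos ha k).ne'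
  have hh' : (hh a k : ℤ) ≠ 0 := by exact_mod_cast (hh_pos ha k).ne'
  unfold xpt xQ
  by_cases hk : Even k
  · rw [if_pos hk, if_pos hk]; exact Int.mul_ediv_cancel_left _ hh'
  · rw [if_neg hk, if_neg hk]; exact Int.mul_ediv_cancel_left _ hw

theorem xr_xpt {a : ℕ} (ha : 1 ≤ a) (k : ℕ) (s : Star) (m n : ℤ) :
    xr a k (xpt a k s m n) = rstar (a + k) s m n := by
  rw [xr, xs_xpt, xP_xpt ha, xQ_xpt ha]

/-- every digit occurs -/
theorem xc_nonempty {a : ℕ} (ha : 3 ≤ a) (k j : ℕ) : (xc a k j).Nonempty := by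
  have hn : 0 < 3 * (a + k) := by omega
  refine ⟨xpt a k blankStar 0 (j : ℤ), xpt_mem_xD _ _ _ _ _, ?_⟩
  rw [xQ_xpt (by omega)]
  unfold dg
  rw [← Int.natCast_mod, Int.toNat_natCast]

/-- row `0`: every star occurs -/
theorem xc_zero_xSt_nonempty {a : ℕ} (ha : 3 ≤ a) (k : ℕ) (s : Star) :
    (xc a k 0 ⊓ₒ xSt a k s).Nonempty := by
  rw [set_meet]
  refine ⟨xpt a k s 0 0, ⟨xpt_mem_xD _ _ _ _ _, ?_⟩, xpt_mem_xD _ _ _ _ _, ?_⟩
  · rw [xQ_xpt (by omega), dg_zero', Nat.zero_mod]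
  · rw [xr_xpt (by omega), rstar_zero]

/-- row `j ≠ 0`: the allowed stars occur -/
theorem xc_xSt_nonempty {a : ℕ} (ha : 3 ≤ a) (k : ℕ) {j j' : ℕ} (hj0 : 0 < j)
    (hj : j < 3 * (a + k)) (hj' : j' < 3 * (a + k + 1)) {L0 : Label} (hL : AdmL (a + k) j' L0)
    {s : Star} (hs : s.1 = rstarOf (a + k) j j' L0) : (xc a k j ⊓ₒ xSt a k s).Nonempty := by
  obtain ⟨t, x, y, h1, -, h3⟩ := exists_rstar_eq (a := a + k) (by omega) hj0 hj hj' hL
  rw [set_meet]
  refine ⟨xpt a k t x y, ⟨xpt_mem_xD _ _ _ _ _, ?_⟩, xpt_mem_xD _ _ _ _ _, ?_⟩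
  · rw [xQ_xpt (by omega), h1, Nat.mod_eq_of_lt hj]
  · rw [xr_xpt (by omega), h3, hs]

section transfer
variable {G E : Type*} [CommGroup G] [ROMP E] [OMPAct G E]
variable {D : E} {p q : G} {a : ℕ} {c : ℕ → E} {St : Star → E}

/-- **OCCURRENCE**: atoms of level `k` which are `≠ ⊥` in some level structure are nonempty in the
explicit system -/
theorem occ_transfer (h : LS D p q a c St) (k : ℕ) {j : ℕ} (hj : j < 3 * (a + k)) {s : Star}
    (hne : hc p q a c St k j ⊓ₒ hSt p q a c St k s ≠ ⊥) : (xc a k j ⊓ₒ xSt a k s).Nonempty := by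
  have ha := h.three_le
  rcases Nat.eq_zero_or_pos j with rfl | hj0
  · exact xc_zero_xSt_nonempty ha k s
  · obtain ⟨j', hj', L0, hL, hs⟩ := h.hier_occ k hj0 hj hne
    exact xc_xSt_nonempty ha k hj0 hj hj' hL hs

/-- the same for events `c_j ∧ [A]` (`P_{j,L}`: `A = {s | s.Pf = L}`, `Q_{j,L}`: `A = {s | s.Qf = L}`,
`c_j`: `A = univ`) -/
theorem occ_transfer_ev (h : LS D p q a c St) (k : ℕ) {j : ℕ} (hj : j < 3 * (a + k))
    {A : Set Star} (hne : hc p q a c St k j ⊓ₒ ev (hSt p q a c St k) A ≠ ⊥) :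
    (xc a k j ⊓ₒ ev (xSt a k) A).Nonempty := by
  obtain ⟨s, hs, h1⟩ := h.hier_ev_occ k hj hne
  obtain ⟨x, hx⟩ := occ_transfer h k hj h1
  rw [set_meet] at hx
  refine ⟨x, ?_⟩
  rw [set_meet, set_ev]
  exact ⟨hx.1, Set.mem_biUnion hs hx.2⟩

end transfer

end Crest.Agent.R189.XH
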