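import Crest.Agent.R189.StarOcc

/-!
Row 189, module M1 (task 1383), part 5: existence.  Every valid label occurs ([LabEx], `4 ≤ b`) and
every allowed star with `domP` occurs ([Ex], `4 ≤ a`).
-/

set_option autoImplicit false
set_option linter.unusedVariables false
set_option linter.unreachableTactic false
set_option linter.unusedTactic false
set_option linter.unnecessarySeqFocus false

namespace Crest.Agent.R189


theorem real_umem {a k : ℕ} (ha : 1 ≤ a) (hk1 : 1 ≤ k) (hk2 : k < 3 * (a + 1)) {u : Mem}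
    (hu : validU (tauOf (a + 1) k) u = true) : ∃ i, i < 3 * a ∧ umem a i k = u := by
  by_cases hr : k % (a + 1) = 0
  · have hrs : (tauOf (a + 1) k).reset = true := (tauOf_reset_mod ha hk1 hk2).2 hr
    cases u
    · refine ⟨0, by omega, ?_⟩
      rw [umem_reset hr, if_pos (by omega)]
    · exfalso
      simp [validU, hrs] at hu
    · refine ⟨2 * a, by omega, ?_⟩
      rw [umem_reset hr, if_neg (by omega)]
  · obtain ⟨p1, p2⟩ := pos_pred_move hk1 hk2 hr
    have := le_pos a (k - 1)
    cases u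
    · refine ⟨0, by omega, ?_⟩
      unfold umem; rw [if_neg hr, if_pos (by omega)]
    · refine ⟨pos a (k - 1), by omega, ?_⟩
      unfold umem; rw [if_neg hr, if_neg (by omega), if_pos rfl]
    · refine ⟨pos a (k - 1) + 1, by omega, ?_⟩
      unfold umem; rw [if_neg hr, if_neg (by omega), if_neg (by omega)]

theorem real_st {b : ℕ} (hb : 4 ≤ b) {t : Tau} {st : Option (S × Rel)}
    (h : validSt t st = true) :
    ∃ k j, 1 ≤ k ∧ k < 3 * b ∧ j < 3 * (b + 1) ∧ tauOf b k = t ∧ state b k j = st := by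
  have blank : t.cls = none → ∀ k, 1 ≤ k → k < 3 * b → tauOf b k = t →
      ∃ k j, 1 ≤ k ∧ k < 3 * b ∧ j < 3 * (b + 1) ∧ tauOf b k = t ∧ state b k j = st := by
    intro hc k h1 h2 h3
    refine ⟨k, 0, h1, h2, by omega, h3, ?_⟩
    have h4 : ¬(b ≤ k ∧ k ≤ 2 * b) := by
      intro h5
      have := (tauOf_active (by omega)).2 h5
      rw [h3] at this
      simp [Tau.active, hc] at this
    rw [state_of_blank (by omega)]
    rcases st with _ | ⟨s, r⟩
    · rfl
    · simp [validSt, hc] at h
  cases t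
  · exact blank rfl 1 (by omega) (by omega) ((tauOf_eq_f0 (by omega)).2 rfl)
  · exact blank rfl 2 (by omega) (by omega) ((tauOf_eq_t00 (by omega)).2 (by omega))
  · rcases st with _ | ⟨s, r⟩
    · simp [validSt, Tau.cls] at h
    · obtain ⟨j, hj, hs⟩ := real_alpha (a := b) (by omega) (s := s) (r := r)
        (by simpa [validSt, Tau.cls] using h)
      exact ⟨b, j, by omega, by omega, hj, (tauOf_eq_t01 (by omega)).2 rfl, hs⟩
  · rcases st with _ | ⟨s, r⟩
    · simp [validSt, Tau.cls] at h
    · obtain ⟨j, hj, hs⟩ := real_mu (a := b) (i := b + 2) (by omega) (by omega) (by omega)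
        (s := s) (r := r) (by simpa [validSt, Tau.cls] using h) (by omega) (by omega)
      exact ⟨b + 2, j, by omega, by omega, hj, (tauOf_eq_t11 (by omega)).2 (by omega), hs⟩
  · rcases st with _ | ⟨s, r⟩
    · simp [validSt, Tau.cls] at h
    · obtain ⟨j, hj, hs⟩ := real_beta (a := b) (by omega) (s := s) (r := r)
        (by simpa [validSt, Tau.cls] using h)
      exact ⟨2 * b, j, by omega, by omega, hj, (tauOf_eq_t12 (by omega)).2 rfl, hs⟩
  · exact blank rfl (2 * b + 1) (by omega) (by omega) ((tauOf_eq_t22 (by omega)).2 (by omega))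
  · exact blank rfl (3 * b - 1) (by omega) (by omega) ((tauOf_eq_t2l (by omega)).2 (by omega))

/-- [LabEx] every valid label occurs -/
theorem label_ex {b : ℕ} (hb : 4 ≤ b) {L : Label} (hL : L.Valid = true) :
    ∃ k j i, 1 ≤ k ∧ k < 3 * b ∧ j < 3 * (b + 1) ∧ i < 3 * (b - 1) ∧
      L = ⟨tauOf b k, state b k j, umem (b - 1) i k⟩ := by
  obtain ⟨a, rfl⟩ : ∃ a, b = a + 1 := ⟨b - 1, by omega⟩
  obtain ⟨t, st, u⟩ := L
  simp only [Label.Valid, Bool.and_eq_true] at hL
  obtain ⟨k, j, h1, h2, h3, h4, h5⟩ := real_st hb hL.1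
  obtain ⟨i, hi, hi'⟩ := real_umem (a := a) (by omega) h1 h2 (u := u) (by rw [h4]; exact hL.2)
  refine ⟨k, j, i, h1, h2, h3, by simpa using hi, ?_⟩
  rw [Nat.add_sub_cancel, hi', h4, h5]

/-- closes the numeric goals of a witness -/
macro "wit" : tactic => `(tactic| first
  | omega
  | (unfold tauOf; split_ifs <;> first | rfl | (exfalso; omega)))

theorem mod_ne {a j' : ℕ} (h : j' < 3 * (a + 1)) (h0 : j' ≠ 0) (h1 : j' ≠ a + 1)
    (h2 : j' ≠ 2 * (a + 1)) : j' % (a + 1) ≠ 0 := by
  have c := pos_cases h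
  unfold pos at c
  omega

theorem mvOf_AA {i m0 : ℕ} (h : i < m0) : mvOf i m0 = (.p, .p, .A, .A) := by
  unfold mvOf; rw [if_pos h]
theorem mvOf_Ax {i m0 : ℕ} (h : i = m0) : mvOf i m0 = (.z, .p, .A, .x) := by
  unfold mvOf; rw [if_neg (by omega), if_pos h]
theorem mvOf_xB {i m0 : ℕ} (h : i = m0 + 1) : mvOf i m0 = (.m, .z, .x, .B) := by
  unfold mvOf; rw [if_neg (by omega), if_neg (by omega), if_pos h]
theorem mvOf_BB {i m0 : ℕ} (h : m0 + 1 < i) : mvOf i m0 = (.m, .m, .B, .B) := by
  unfold mvOf; rw [if_neg (by omega), if_neg (by omega), if_neg (by omega)]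

set_option maxHeartbeats 4000000 in
/-- witnesses: indices `i, j'` for the type `t`, the class `k` and the transition `m` -/
theorem ex_ij {a : ℕ} (ha : 4 ≤ a) (t : Tau) (ht : t.reset = false) (k : Cls)
    (m : Rel × Rel × Mem × Mem) (hm : m ∈ moves)
    (v1 : VAL k t.fst m.1 = true) (v2 : VAL k t.snd m.2.1 = true)
    (x1 : ¬(t = .f0 ∧ k = .beta ∧ m.2.2.1 = .x)) (x2 : ¬(t = .t2l ∧ k = .alpha ∧ m.2.2.2 = .x)) :
    ∃ i j', a ≤ i ∧ i ≤ 2 * a ∧ 1 ≤ j' ∧ j' < 3 * (a + 1) ∧ tauOf a i = k.tau ∧
      tauOf (a + 1) j' = t ∧ j' % (a + 1) ≠ 0 ∧ mvOf i (pos a (j' - 1)) = m ∧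
      (t = .t11 → (j' = a + 2 → k = .alpha ∧ m.1 = .z) ∧
        (j' = 2 * a + 1 → k = .beta ∧ m.2.1 = .z)) := by
  simp only [moves, List.mem_cons, List.not_mem_nil, or_false] at hm
  rcases hm with rfl | rfl | rfl | rfl
  · -- AA
    cases t <;> simp [Tau.reset] at ht <;> cases k <;> simp [VAL, Tau.fst, Tau.snd] at v1 v2
    · -- t00 alpha
      have c := pos_cases (a := a) (j := 2 - 1) (by omega)
      exact ⟨a, 2, by wit, by wit, by wit, by wit, by wit, by wit, mod_ne (by omega) (by omega)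
        (by omega) (by omega), mvOf_AA (by omega), by simp⟩
    · -- t00 mu
      have c := pos_cases (a := a) (j := a - 1) (by omega)
      exact ⟨a + 1, a, by wit, by wit, by wit, by wit, by wit, by wit, mod_ne (by omega) (by omega)
        (by omega) (by omega), mvOf_AA (by omega), by simp⟩
    · -- t11 alpha
      have c := pos_cases (a := a) (j := a + 3 - 1) (by omega)
      exact ⟨a, a + 3, by wit, by wit, by wit, by wit, by wit, by wit, mod_ne (by omega) (by omega)
        (by omega) (by omega), mvOf_AA (by omega), fun _ => ⟨by omega, by omega⟩⟩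
    · -- t11 mu
      have c := pos_cases (a := a) (j := 2 * a - 1) (by omega)
      exact ⟨a + 1, 2 * a, by wit, by wit, by wit, by wit, by wit, by wit, mod_ne (by omega) (by omega)
        (by omega) (by omega), mvOf_AA (by omega), fun _ => ⟨by omega, by omega⟩⟩
    · -- t22 alpha
      have c := pos_cases (a := a) (j := 2 * a + 4 - 1) (by omega)
      exact ⟨a, 2 * a + 4, by wit, by wit, by wit, by wit, by wit, by wit, mod_ne (by omega) (by omega)
        (by omega) (by omega), mvOf_AA (by omega), by simp⟩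
    · -- t22 mu
      have c := pos_cases (a := a) (j := 3 * a + 1 - 1) (by omega)
      exact ⟨a + 1, 3 * a + 1, by wit, by wit, by wit, by wit, by wit, by wit, mod_ne (by omega) (by omega)
        (by omega) (by omega), mvOf_AA (by omega), by simp⟩
    · -- t2l alpha
      have c := pos_cases (a := a) (j := 3 * a + 2 - 1) (by omega)
      exact ⟨a, 3 * a + 2, by wit, by wit, by wit, by wit, by wit, by wit, mod_ne (by omega) (by omega)
        (by omega) (by omega), mvOf_AA (by omega), by simp⟩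
    · -- t2l mu
      have c := pos_cases (a := a) (j := 3 * a + 2 - 1) (by omega)
      exact ⟨a + 1, 3 * a + 2, by wit, by wit, by wit, by wit, by wit, by wit, mod_ne (by omega) (by omega)
        (by omega) (by omega), mvOf_AA (by omega), by simp⟩
  · -- Ax
    cases t <;> simp [Tau.reset] at ht <;> cases k <;> simp [VAL, Tau.fst, Tau.snd] at v1 v2
    · -- f0 alpha
      have c := pos_cases (a := a) (j := 1 - 1) (by omega)
      exact ⟨a, 1, by wit, by wit, by wit, by wit, by wit, by wit, mod_ne (by omega) (by omega)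
        (by omega) (by omega), mvOf_Ax (by omega), by simp⟩
    · -- t00 mu
      have c := pos_cases (a := a) (j := 2 - 1) (by omega)
      exact ⟨a + 1, 2, by wit, by wit, by wit, by wit, by wit, by wit, mod_ne (by omega) (by omega)
        (by omega) (by omega), mvOf_Ax (by omega), by simp⟩
    · -- t11 alpha
      have c := pos_cases (a := a) (j := a + 2 - 1) (by omega)
      exact ⟨a, a + 2, by wit, by wit, by wit, by wit, by wit, by wit, mod_ne (by omega) (by omega)
        (by omega) (by omega), mvOf_Ax (by omega), fun _ => ⟨fun _ => ⟨rfl, rfl⟩, by omega⟩⟩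
    · -- t11 mu
      have c := pos_cases (a := a) (j := a + 3 - 1) (by omega)
      exact ⟨a + 1, a + 3, by wit, by wit, by wit, by wit, by wit, by wit, mod_ne (by omega) (by omega)
        (by omega) (by omega), mvOf_Ax (by omega), fun _ => ⟨by omega, by omega⟩⟩
    · -- t22 alpha
      have c := pos_cases (a := a) (j := 2 * a + 3 - 1) (by omega)
      exact ⟨a, 2 * a + 3, by wit, by wit, by wit, by wit, by wit, by wit, mod_ne (by omega) (by omega)
        (by omega) (by omega), mvOf_Ax (by omega), by simp⟩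
    · -- t22 mu
      have c := pos_cases (a := a) (j := 2 * a + 4 - 1) (by omega)
      exact ⟨a + 1, 2 * a + 4, by wit, by wit, by wit, by wit, by wit, by wit, mod_ne (by omega) (by omega)
        (by omega) (by omega), mvOf_Ax (by omega), by simp⟩
    · -- t2l alpha
      simp at x2
    · -- t2l mu
      have c := pos_cases (a := a) (j := 3 * a + 2 - 1) (by omega)
      exact ⟨2 * a - 1, 3 * a + 2, by wit, by wit, by wit, by wit, by wit, by wit, mod_ne (by omega) (by omega)
        (by omega) (by omega), mvOf_Ax (by omega), by simp⟩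
  · -- xB
    cases t <;> simp [Tau.reset] at ht <;> cases k <;> simp [VAL, Tau.fst, Tau.snd] at v1 v2
    · -- f0 mu
      have c := pos_cases (a := a) (j := 1 - 1) (by omega)
      exact ⟨a + 1, 1, by wit, by wit, by wit, by wit, by wit, by wit, mod_ne (by omega) (by omega)
        (by omega) (by omega), mvOf_xB (by omega), by simp⟩
    · -- f0 beta
      simp at x1
    · -- t00 mu
      have c := pos_cases (a := a) (j := 2 - 1) (by omega)
      exact ⟨a + 2, 2, by wit, by wit, by wit, by wit, by wit, by wit, mod_ne (by omega) (by omega)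
        (by omega) (by omega), mvOf_xB (by omega), by simp⟩
    · -- t00 beta
      have c := pos_cases (a := a) (j := a - 1) (by omega)
      exact ⟨2 * a, a, by wit, by wit, by wit, by wit, by wit, by wit, mod_ne (by omega) (by omega)
        (by omega) (by omega), mvOf_xB (by omega), by simp⟩
    · -- t11 mu
      have c := pos_cases (a := a) (j := a + 3 - 1) (by omega)
      exact ⟨a + 2, a + 3, by wit, by wit, by wit, by wit, by wit, by wit, mod_ne (by omega) (by omega)
        (by omega) (by omega), mvOf_xB (by omega), fun _ => ⟨by omega, by omega⟩⟩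
    · -- t11 beta
      have c := pos_cases (a := a) (j := 2 * a + 1 - 1) (by omega)
      exact ⟨2 * a, 2 * a + 1, by wit, by wit, by wit, by wit, by wit, by wit, mod_ne (by omega) (by omega)
        (by omega) (by omega), mvOf_xB (by omega), fun _ => ⟨by omega, fun _ => ⟨rfl, rfl⟩⟩⟩
    · -- t22 mu
      have c := pos_cases (a := a) (j := 2 * a + 3 - 1) (by omega)
      exact ⟨a + 1, 2 * a + 3, by wit, by wit, by wit, by wit, by wit, by wit, mod_ne (by omega) (by omega)
        (by omega) (by omega), mvOf_xB (by omega), by simp⟩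
    · -- t2l beta
      have c := pos_cases (a := a) (j := 3 * a + 2 - 1) (by omega)
      exact ⟨2 * a, 3 * a + 2, by wit, by wit, by wit, by wit, by wit, by wit, mod_ne (by omega) (by omega)
        (by omega) (by omega), mvOf_xB (by omega), by simp⟩
  · -- BB
    cases t <;> simp [Tau.reset] at ht <;> cases k <;> simp [VAL, Tau.fst, Tau.snd] at v1 v2
    · -- f0 mu
      have c := pos_cases (a := a) (j := 1 - 1) (by omega)
      exact ⟨a + 2, 1, by wit, by wit, by wit, by wit, by wit, by wit, mod_ne (by omega) (by omega)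
        (by omega) (by omega), mvOf_BB (by omega), by simp⟩
    · -- f0 beta
      have c := pos_cases (a := a) (j := 1 - 1) (by omega)
      exact ⟨2 * a, 1, by wit, by wit, by wit, by wit, by wit, by wit, mod_ne (by omega) (by omega)
        (by omega) (by omega), mvOf_BB (by omega), by simp⟩
    · -- t00 mu
      have c := pos_cases (a := a) (j := 2 - 1) (by omega)
      exact ⟨a + 3, 2, by wit, by wit, by wit, by wit, by wit, by wit, mod_ne (by omega) (by omega)
        (by omega) (by omega), mvOf_BB (by omega), by simp⟩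
    · -- t00 beta
      have c := pos_cases (a := a) (j := 2 - 1) (by omega)
      exact ⟨2 * a, 2, by wit, by wit, by wit, by wit, by wit, by wit, mod_ne (by omega) (by omega)
        (by omega) (by omega), mvOf_BB (by omega), by simp⟩
    · -- t11 mu
      have c := pos_cases (a := a) (j := a + 3 - 1) (by omega)
      exact ⟨a + 3, a + 3, by wit, by wit, by wit, by wit, by wit, by wit, mod_ne (by omega) (by omega)
        (by omega) (by omega), mvOf_BB (by omega), fun _ => ⟨by omega, by omega⟩⟩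
    · -- t11 beta
      have c := pos_cases (a := a) (j := a + 3 - 1) (by omega)
      exact ⟨2 * a, a + 3, by wit, by wit, by wit, by wit, by wit, by wit, mod_ne (by omega) (by omega)
        (by omega) (by omega), mvOf_BB (by omega), fun _ => ⟨by omega, by omega⟩⟩
    · -- t22 mu
      have c := pos_cases (a := a) (j := 2 * a + 3 - 1) (by omega)
      exact ⟨a + 2, 2 * a + 3, by wit, by wit, by wit, by wit, by wit, by wit, mod_ne (by omega) (by omega)
        (by omega) (by omega), mvOf_BB (by omega), by simp⟩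
    · -- t22 beta
      have c := pos_cases (a := a) (j := 2 * a + 3 - 1) (by omega)
      exact ⟨2 * a, 2 * a + 3, by wit, by wit, by wit, by wit, by wit, by wit, mod_ne (by omega) (by omega)
        (by omega) (by omega), mvOf_BB (by omega), by simp⟩

/-- [Ex] every allowed star with `domP` occurs -/
theorem star_ex {a : ℕ} (ha : 4 ≤ a) (σ : Star) (h : σ.domP = true) :
    (∃ i, 1 ≤ i ∧ i < 3 * a ∧ σ.Pb.Valid = true ∧ σ.1 = qstar a i σ.Pb) ∨
    (∃ i j' j'', 1 ≤ i ∧ i < 3 * a ∧ 1 ≤ j' ∧ j' < 3 * (a + 1) ∧ j'' < 3 * (a + 2) ∧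
      σ.1 = xstar a i j' (state (a + 1) j' j'')) := by
  have hQtau := σ.tau_Q
  have hPtau := σ.tau_P
  have hPst := σ.st_P h
  have hQbu := σ.Qb_u h
  have hQfu := σ.Qf_u h
  have hbad := (σ.rule_P h).2.2.1.2
  have hvst := (σ.rule_P h).2.2.1.1
  -- equality of raw stars
  have key : ∀ τ : RStar, τ.domP = true → σ.Pb.tau = τ.Pb.tau → σ.Pb.st = τ.Pb.st →
      σ.Pb.u = τ.Pb.u → σ.Pb.tau = τ.Pf.tau → σ.Pb.st = τ.Pf.st → σ.Pf.u = τ.Pf.u →
      σ.Qb.tau = τ.Qb.tau → σ.Qb.st = τ.Qb.st → τ.Qb.u = .B →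
      σ.Qb.tau = τ.Qf.tau → σ.Qf.st = τ.Qf.st → τ.Qf.u = .A → σ.1 = τ := by
    intro τ h0 h1 h2 h3 h4 h5 h6 h7 h8 h9 h10 h11 h12
    rw [hPtau] at h4
    rw [hPst] at h5
    rw [hQtau] at h10
    rw [← h9] at hQbu
    rw [← h12] at hQfu
    revert h h1 h2 h3 h4 h5 h6 h7 h8 h10 h11 hQbu hQfu h0
    simp only [Star.domP, Star.Pb, Star.Pf, Star.Qb, Star.Qf]
    generalize σ.1 = ρ
    obtain ⟨d, ⟨a1, a2, a3⟩, ⟨b1, b2, b3⟩, ⟨c1, c2, c3⟩, ⟨d1, d2, d3⟩⟩ := ρ
    obtain ⟨e, ⟨a1', a2', a3'⟩, ⟨b1', b2', b3'⟩, ⟨c1', c2', c3'⟩, ⟨d1', d2', d3'⟩⟩ := τ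
    simp only
    intros
    subst_vars
    rfl
  have e1 : sv (a + 1) (3 * (a + 1) - 1) = .l := by
    unfold sv; rw [if_neg (by omega), if_pos rfl]
  have e2 : sv (a + 1) 0 = .f := by unfold sv; rw [if_pos rfl]
  have e3 : pos a 0 = a := by unfold pos; simp
  have e4 : pos a (3 * (a + 1) - 1) = 2 * a := by
    have := pos_cases (a := a) (j := 3 * (a + 1) - 1) (by omega)
    omega
  rcases Core.mem_kinds _ (σ.core_mem h) with hk | ⟨k, hk⟩ | ⟨k, hk⟩ | ⟨k, m, hm, hk⟩
  · -- blank
    left
    obtain ⟨hact, hb, hb', hu⟩ := hk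
    simp only at hact hb hb' hu
    have : ∃ i, 1 ≤ i ∧ i < 3 * a ∧ (i < a ∨ 2 * a < i) ∧ tauOf a i = σ.Qb.tau := by
      revert hact
      cases σ.Qb.tau <;> intro hact <;> simp [Tau.active, Tau.cls] at hact
      · exact ⟨1, by wit, by wit, by wit, by wit⟩
      · exact ⟨2, by wit, by wit, by wit, by wit⟩
      · exact ⟨2 * a + 1, by wit, by wit, by wit, by wit⟩
      · exact ⟨3 * a - 1, by wit, by wit, by wit, by wit⟩
    obtain ⟨i, h1, h2, h3, h4⟩ := this
    refine ⟨i, h1, h2, σ.Pb_valid, ?_⟩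
    refine key _ rfl rfl rfl rfl rfl rfl hu.symm h4.symm ?_ rfl h4.symm ?_ rfl
    · rw [hb]; simp only [qstar]; rw [state_of_blank h3]
    · rw [hb']; simp only [qstar]; rw [state_of_blank h3]
  · -- R
    left
    obtain ⟨hk1, hb, hb', hu⟩ := hk
    simp only at hk1 hb hb' hu
    have : ∃ i, a ≤ i ∧ i ≤ 2 * a ∧ tauOf a i = k.tau ∧ sgn (2 * a) i = rb k ∧ sgn a i = rf k := by
      cases k
      · exact ⟨a, by wit, by wit, by wit, sgn_p (by omega), sgn_z rfl⟩
      · exact ⟨a + 1, by wit, by wit, by wit, sgn_p (by omega), sgn_m (by omega)⟩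
      · exact ⟨2 * a, by wit, by wit, by wit, sgn_z rfl, sgn_m (by omega)⟩
    obtain ⟨i, h1, h2, h3, h4, h5⟩ := this
    refine ⟨i, by omega, by omega, σ.Pb_valid, ?_⟩
    refine key _ rfl rfl rfl rfl rfl rfl hu.symm (by rw [hk1]; exact h3.symm) ?_ rfl
      (by rw [hk1]; exact h3.symm) ?_ rfl
    · rw [hb]; simp only [qstar]; rw [state_of_active h1 h2, e1, e4, h4]
    · rw [hb']; simp only [qstar]; rw [state_of_active h1 h2, e2, e3, h5]
  · -- reset
    right
    obtain ⟨hr, hk1, hb, hb', hu, hu'⟩ := hk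
    simp only at hr hk1 hb hb' hu hu'
    have : ∃ i, a ≤ i ∧ i ≤ 2 * a ∧ tauOf a i = k.tau ∧ sgn (2 * a) i = rb k ∧ sgn a i = rf k ∧
        (if i < 2 * a then Mem.A else Mem.B) = uf k := by
      cases k
      · exact ⟨a, by wit, by wit, by wit, sgn_p (by omega), sgn_z rfl, by rw [if_pos (by omega)]; rfl⟩
      · exact ⟨a + 1, by wit, by wit, by wit, sgn_p (by omega), sgn_m (by omega),
          by rw [if_pos (by omega)]; rfl⟩
      · exact ⟨2 * a, by wit, by wit, by wit, sgn_z rfl, sgn_m (by omega),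
          by rw [if_neg (by omega)]; rfl⟩
    obtain ⟨i, h1, h2, h3, h4, h5, h6⟩ := this
    have : ∃ j' j'', 1 ≤ j' ∧ j' < 3 * (a + 1) ∧ j'' < 3 * (a + 2) ∧ j' % (a + 1) = 0 ∧
        tauOf (a + 1) j' = σ.Pb.tau ∧ state (a + 1) j' j'' = σ.Pb.st := by
      obtain ⟨j', j'', g1, g2, g3, g4, g5⟩ := real_st (b := a + 1) (by omega) hvst
      exact ⟨j', j'', g1, g2, g3, (tauOf_reset_mod (by omega) g1 g2).1 (by rw [g4]; exact hr), g4, g5⟩
    obtain ⟨j', j'', g1, g2, g3, g4, g5, g6⟩ := this
    obtain ⟨p1, p2⟩ := pos_pred_reset g1 g2 g4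
    have hf := tauOf_fst (a := a + 1) (i := j') (by omega) g1 g2
    have hs := tauOf_snd (a := a + 1) (i := j') (by omega) g1 g2
    refine ⟨i, j', j'', by omega, by omega, g1, g2, g3, ?_⟩
    refine key _ rfl g5.symm g6.symm ?_ g5.symm g6.symm ?_ (by rw [hk1]; exact h3.symm) ?_ rfl
      (by rw [hk1]; exact h3.symm) ?_ rfl
    · rw [hu]; simp only [xstar]; rw [umem_reset g4, if_pos (by omega)]
    · rw [hu']; simp only [xstar]; rw [umem_reset g4, h6]
    · rw [hb]; simp only [xstar]; rw [state_of_active h1 h2, p1, h4, ← hf, g5]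
    · rw [hb']; simp only [xstar]; rw [state_of_active h1 h2, p2, h5, ← hs, g5]
  · -- move
    right
    obtain ⟨hr, hk1, hb, hb', hu, hu', v1, v2, x1, x2⟩ := hk
    simp only at hr hk1 hb hb' hu hu' v1 v2 x1 x2
    obtain ⟨i, j', h1, h2, g1, g2, h3, g5, g4, hmv, hex⟩ := ex_ij ha _ hr k m hm v1 v2 x1 x2
    have : ∃ j'', j'' < 3 * (a + 2) ∧ state (a + 1) j' j'' = σ.Pb.st := by
      by_cases hact : σ.Pb.tau = .t11
      · obtain ⟨q1, q2⟩ := hex hact
        have hi := (tauOf_eq_t11 (a := a + 1) (by omega)).1 (by rw [g5]; exact hact)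
        rw [hact] at hvst
        have hst : ∃ s r, σ.Pb.st = some (s, r) ∧ VAL .mu s r = true := by
          rcases hst : σ.Pb.st with _ | ⟨s, r⟩
          · rw [hst] at hvst; simp [validSt, Tau.cls] at hvst
          · rw [hst] at hvst
            exact ⟨s, r, rfl, by simpa [validSt, Tau.cls] using hvst⟩
        obtain ⟨s, r, hst, hval⟩ := hst
        have hn1 : ¬(j' = a + 1 + 1 ∧ s = .s0 ∧ r = .m) := by
          rintro ⟨w1, w2, w3⟩
          obtain ⟨w4, w5⟩ := q1 (by omega)
          apply hbad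
          left
          refine ⟨hact, by rw [hst, w2, w3], by rw [hk1, w4]; rfl, ?_⟩
          rw [hb, w5, hact]; rfl
        have hn2 : ¬(j' = 2 * (a + 1) - 1 ∧ s = .s2 ∧ r = .p) := by
          rintro ⟨w1, w2, w3⟩
          obtain ⟨w4, w5⟩ := q2 (by omega)
          apply hbad
          right
          refine ⟨hact, by rw [hst, w2, w3], by rw [hk1, w4]; rfl, ?_⟩
          rw [hb', w5, hact]; rfl
        obtain ⟨j'', w1, w2⟩ := real_mu (a := a + 1) (i := j') (by omega) hi.1 hi.2 hval hn1 hn2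
        exact ⟨j'', w1, by rw [w2, hst]⟩
      · refine ⟨0, by omega, ?_⟩
        have hna : σ.Pb.tau.active = false := by
          revert hr hact
          cases σ.Pb.tau <;> simp [Tau.reset, Tau.active, Tau.cls]
        have hna' : ¬(a + 1 ≤ j' ∧ j' ≤ 2 * (a + 1)) := by
          intro hh
          have := (tauOf_active (a := a + 1) (by omega)).2 hh
          rw [g5, hna] at this
          simp at this
        rw [state_of_blank (by omega)]
        exact (Star.st_none σ.Pb_valid hna).symm
    obtain ⟨j'', g3, g6⟩ := this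
    obtain ⟨p1, p2⟩ := pos_pred_move g1 g2 g4
    have hf := tauOf_fst (a := a + 1) (i := j') (by omega) g1 g2
    have hs := tauOf_snd (a := a + 1) (i := j') (by omega) g1 g2
    refine ⟨i, j', j'', by omega, by omega, g1, g2, g3, ?_⟩
    refine key _ rfl g5.symm g6.symm ?_ g5.symm g6.symm ?_ (by rw [hk1]; exact h3.symm) ?_ rfl
      (by rw [hk1]; exact h3.symm) ?_ rfl
    · rw [hu]; simp only [xstar]; rw [umem_move_b g4 (show 1 ≤ i by omega), hmv]
    · rw [hu']; simp only [xstar]; rw [umem_move_f g4, hmv]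
    · rw [hb]; simp only [xstar]; rw [state_of_active h1 h2, ← mvOf_1, hmv, ← hf, g5]
    · rw [hb']; simp only [xstar]; rw [state_of_active h1 h2, p1, ← mvOf_2, hmv, ← hs, g5]

end Crest.Agent.R189
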