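import Crest.Agent.R189.FPBridge_Mg
import Crest.Agent.R189.GlueT
import Crest.Agent.R189.XMin_Mg
import Crest.Agent.R189.KSec
import Crest.Agent.R189.KRef
import Crest.Agent.R189.Glue
import Crest.Agent.R189.HierMap
import Crest.Agent.R189.TBase
import Crest.Agent.R189.Asm
import Crest.Agent.R189.Let
import Crest.Agent.R189.XHierOcc_Mg
import Crest.Agent.R189.EvTrans
import Crest.Agent.R189.KGen
import Crest.Agent.R189.XMatch
import Crest.Agent.R189.XOK

-- ▼ part R189/FPMain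
section

/-!
# Row 189 (S0289), section 3: ASSEMBLY (helper396)

`T = TGrp MD C` (presented group), `q : T →* Gp`, `Tbar = T ⧸ Z(T)`, `qb : Tbar →* Gp`.

* `clo_of_ev_mem` : events with values in `Gp` are clopen;
* `secSys_of_good` : if all events `{x ∈ D | κ x = k}` are good then the system of sections `SecSys`
  of kind `κ` exists.
-/

set_option autoImplicit false

namespace Crest.Agent.R189.FPMain

open Equiv Equiv.Perm

section clopen

variable {X A C : Type} [AddAction (ℤ × ℤ) X] [Finite A] [Fintype C] [DecidableEq C]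
  {letter : X → A}

/-- an event all of whose values lie in `Gp` is clopen -/
theorem clo_of_ev_mem (hC : 5 ≤ Fintype.card C) {E : Set X}
    (h : ∀ s ∈ alternatingGroup C, ev E s ∈ Gp (ℤ × ℤ) letter C) : Clo (ℤ × ℤ) letter E := by
  classical
  obtain ⟨c1, c2, c3, h12, h13, h23⟩ : ∃ c1 c2 c3 : C, c1 ≠ c2 ∧ c1 ≠ c3 ∧ c2 ≠ c3 :=
    Fintype.two_lt_card_iff.1 (by omega)
  let s : Perm C := Equiv.swap c1 c2 * Equiv.swap c1 c3
  have hs : s ∈ alternatingGroup C := by
    rw [Equiv.Perm.mem_alternatingGroup, map_mul, Equiv.Perm.sign_swap h12,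
      Equiv.Perm.sign_swap h13]
    rfl
  obtain ⟨W, d, k, hdk, hg⟩ := isLoc_of_mem_Gp (h s hs)
  have hs3 : s c3 = c2 := by
    simp [s]
  refine ⟨W, ?_⟩
  have key : ∀ x y : X, Agree letter (W : Set (ℤ × ℤ)) x y → x ∈ E → y ∈ E := by
    intro x y hxy hx
    by_contra hy
    have e1 := hg x c3
    have e2 := hg y c3
    rw [ev_apply_mem hx] at e1
    rw [ev_apply_notMem hy] at e2
    have e3 := (hdk x y hxy c3).2
    rw [Prod.ext_iff] at e1 e2
    have : c2 = c3 := by
      rw [← hs3]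
      exact e1.2.trans (e3.trans e2.2.symm)
    exact h23 this
  intro x y hxy
  exact ⟨key x y hxy, key y x hxy.symm⟩

/-- the full map `T →* Perm (X × C)` -/
def qP {T : Type} [Group T] (q : T →* Gp (ℤ × ℤ) letter C) : T →* Perm (X × C) :=
  (Gp (ℤ × ℤ) letter C).subtype.comp q

omit [Finite A] in
@[simp] theorem qP_apply {T : Type} [Group T] (q : T →* Gp (ℤ × ℤ) letter C) (t : T) :
    qP q t = (q t : Perm (X × C)) := rfl

omit [Finite A] in
theorem qP_ker {T : Type} [Group T] (q : T →* Gp (ℤ × ℤ) letter C) : (qP q).ker = q.ker := by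
  ext t
  rw [MonoidHom.mem_ker, MonoidHom.mem_ker, qP_apply]
  exact ⟨fun h => Subtype.ext h, fun h => by rw [h]; rfl⟩

/-- SECTIONS: if every event `{x ∈ D | κ x = k}` is good, the system of sections exists. -/
theorem secSys_of_good {T : Type} [Group T] (q : T →* Gp (ℤ × ℤ) letter C)
    (hq : Function.Surjective q) (hK : q.ker ≤ Subgroup.center T) (hC : 30 ≤ Fintype.card C)
    {Lab Sta : Type} (L : K.Lev X Lab Sta) {κ' : Type} [Fintype κ'] (κ : X → κ')
    (good : ∀ k, ∃ θ : alternatingGroup C →* T,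
      ∀ s, (q (θ s) : Perm (X × C)) = ev {x | x ∈ L.D ∧ κ x = k} (s : Perm C)) :
    Nonempty (K.SecSys L C (qP q) κ) := by
  classical
  choose θ hθ using good
  have hE : ∀ k, Clo (ℤ × ℤ) letter {x | x ∈ L.D ∧ κ x = k} := by
    intro k
    apply clo_of_ev_mem (C := C) (by omega)
    intro s hs
    have := hθ k ⟨s, hs⟩
    change _ = ev _ s at this
    rw [← this]
    exact (q _).2
  have hs : ∀ (W : Finset (ℤ × ℤ)) (hW : L.Dist W),
      ∃ s : (κ' → K.AltOn (K.win C W)) →* T,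
        ∀ z, (q (s z) : Perm (X × C)) = K.realAlt hW.cell κ z :=
    fun W hW => SecW.exists_secK q hq hK hC hW.cell κ hE θ hθ
  choose s hs using hs
  exact ⟨{ s := s
           q_s := hs
           cen := by rw [qP_ker]; exact hK
           five := by omega }⟩

/-- the four kinds of sections from the goodness of the sets `{x ∈ D | dig x = j, st x ∈ A}` -/
theorem secSys_four {T : Type} [Group T] (q : T →* Gp (ℤ × ℤ) letter C)
    (hq : Function.Surjective q) (hK : q.ker ≤ Subgroup.center T) (hC : 30 ≤ Fintype.card C)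
    {Lab Sta : Type} [Fintype Lab] [Fintype Sta] (L : K.Lev X Lab Sta)
    (good : ∀ (j : ZMod L.n) (S : Set Sta), ∃ θ : alternatingGroup C →* T,
      ∀ s, (q (θ s) : Perm (X × C)) =
        ev {x | x ∈ L.D ∧ L.dig x = j ∧ L.st x ∈ S} (s : Perm C)) :
    Nonempty (K.SecSys L C (qP q) L.dig) ∧ Nonempty (K.SecSys L C (qP q) L.kP) ∧
      Nonempty (K.SecSys L C (qP q) L.kQ) ∧ Nonempty (K.SecSys L C (qP q) L.kV) := by
  have : NeZero L.n := ⟨L.n_pos.ne'⟩
  refine ⟨?_, ?_, ?_, ?_⟩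
  · refine secSys_of_good q hq hK hC L L.dig (fun j => ?_)
    obtain ⟨θ, hθ⟩ := good j Set.univ
    refine ⟨θ, fun s => ?_⟩
    rw [hθ]
    congr 2
    ext x
    simp
  · refine secSys_of_good q hq hK hC L L.kP (fun k => ?_)
    obtain ⟨θ, hθ⟩ := good k.1 {σ | L.sPf σ = k.2}
    refine ⟨θ, fun s => ?_⟩
    rw [hθ]
    congr 2
    ext x
    simp only [Set.mem_ofPred_eq, K.Lev.kP, Prod.ext_iff]
    constructor
    · rintro ⟨h1, h2, h3⟩
      exact ⟨h1, h2, by rw [L.Pf_st x h1]; exact h3⟩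
    · rintro ⟨h1, h2, h3⟩
      exact ⟨h1, h2, by rw [← L.Pf_st x h1]; exact h3⟩
  · refine secSys_of_good q hq hK hC L L.kQ (fun k => ?_)
    obtain ⟨θ, hθ⟩ := good k.1 {σ | L.sQf σ = k.2}
    refine ⟨θ, fun s => ?_⟩
    rw [hθ]
    congr 2
    ext x
    simp only [Set.mem_ofPred_eq, K.Lev.kQ, Prod.ext_iff]
    constructor
    · rintro ⟨h1, h2, h3⟩
      exact ⟨h1, h2, by rw [L.Qf_st x h1]; exact h3⟩
    · rintro ⟨h1, h2, h3⟩
      exact ⟨h1, h2, by rw [← L.Qf_st x h1]; exact h3⟩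
  · refine secSys_of_good q hq hK hC L L.kV (fun k => ?_)
    obtain ⟨θ, hθ⟩ := good k.1 {σ | σ = k.2}
    refine ⟨θ, fun s => ?_⟩
    rw [hθ]
    congr 2
    ext x
    simp only [Set.mem_ofPred_eq, K.Lev.kV, Prod.ext_iff]

end clopen

section lift

variable {X C : Type} [AddAction (ℤ × ℤ) X] [Fintype C] [DecidableEq C]
  {T T' : Type} [Group T] [Group T'] {S : ColGrp C (ℤ × ℤ) T} {S' : ColGrp C (ℤ × ℤ) T'}
  {π : T →* T'}

/-- the cells of all levels are good -/
theorem good_cell [Centreless T'] [Cls.IsCentral π] (h : ColMap S S' π) (R : Rep S' X)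
    {D : Ev S'} {p r : Multiplicative (ℤ × ℤ)} {a : ℕ} (ha : Odd a)
    {c : ℕ → Ev S'} {St : Star → Ev S'} (hLS : LS D p r a c St)
    (h0 : ∀ j s, j < 3 * a → ∃ e : Ev S, e.map h = Romp.meet (c j) (St s))
    (k j : ℕ) (hj : j < 3 * (a + k)) (A : Set Star) :
    ∃ θ : alternatingGroup C →* T, ∀ s, R.toHom (π (θ s)) =
      ev (Romp.meet (hc p r a (fun j => R.set (c j)) (fun s => R.set (St s)) k j)
        (Romp.ev (hSt p r a (fun j => R.set (c j)) (fun s => R.set (St s)) k) A))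
        (s : Perm C) := by
  obtain ⟨e, he⟩ := lift_cell' h ha hLS h0 k j hj A
  refine ⟨e.hom, fun s => ?_⟩
  rw [← Ev.map_hom h, he, R.hom_eq]
  congr 2
  exact hLS.map_atom R.ompHom R.ompHom_equiv k hj A

end lift

/-! ### the concrete group -/

section concrete

variable (C : Type) [Fintype C] [DecidableEq C]

/-- `Gp` is centreless -/
theorem centre_Gp (hC : 30 ≤ Fintype.card C) :
    Subgroup.center (Gp (ℤ × ℤ) letter C) = ⊥ :=
  center_Gp (by omega) letter_sep letter_minl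

variable {C} [Nonempty C] (hC : 30 ≤ Fintype.card C)

/-- the representation of `T / Z(T)` -/
noncomputable def RX : Rep ((tModel MD C).modCenter.colGrp hC) X :=
  (conc_qTbar letter MD letter_match (centre_Gp C hC)).rep hC

theorem RX_mk (t : TGrp MD C) :
    (RX hC).toHom (QuotientGroup.mk' _ t) = qT (C := C) letter MD letter_match t := rfl

theorem RX_set_c (j : ℕ) : (RX hC).set (cEv (tModel MD C).modCenter hC j) = cX j := by
  rw [cEv, RX, Conc.set_setEv]
  ext y
  simp [cX]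

theorem RX_set_St (s : Star) :
    (RX hC).set (StEv (tModel MD C).modCenter hC s) = StX s := by
  rw [StEv, RX, Conc.set_setEv]
  ext y
  simp [StX]

omit [Nonempty C] in
include hC in
theorem centreless_bar : Centreless (TGrp MD C ⧸ Subgroup.center (TGrp MD C)) :=
  ⟨(tModel MD C).modCenter_center hC⟩

include hC in
/-- all cells of all levels are good in `T` -/
theorem good_X (k j : ℕ) (hj : j < 3 * (3 + k)) (A : Set Star) :
    ∃ θ : alternatingGroup C →* TGrp MD C, ∀ s, qT (C := C) letter MD letter_match (θ s) =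
      ev (Romp.meet (hc pZ qZ 3 cX StX k j) (Romp.ev (hSt pZ qZ 3 cX StX k) A))
        (s : Perm C) := by
  have := centreless_bar (C := C) hC
  obtain ⟨θ, hθ⟩ := good_cell ((tModel MD C).colMap_modCenter hC) (RX hC)
    (a := 3) (by decide) (TBase.base (tModel MD C).modCenter hC) (by
      intro j s hj
      refine ⟨(tModel MD C).letterEv hC (⟨j, hj⟩, s), ?_⟩
      rw [TModel.map_letterEv_modCenter, TBase.atom _ hC hj]) k j hj A
  have e1 : (fun j => (RX hC).set (cEv (tModel MD C).modCenter hC j)) = cX :=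
    funext (RX_set_c hC)
  have e2 : (fun s => (RX hC).set (StEv (tModel MD C).modCenter hC s)) = StX :=
    funext (RX_set_St hC)
  refine ⟨θ, fun s => ?_⟩
  rw [← RX_mk hC, hθ, e1, e2]

include hC in
/-- the cells of the even levels -/
theorem good_LX (m : ℕ) (j : ZMod (LX m).n) (A : Set Star) :
    ∃ θ : alternatingGroup C →* TGrp MD C, ∀ s, qT (C := C) letter MD letter_match (θ s) =
      ev {x | x ∈ (LX m).D ∧ (LX m).dig x = j ∧ (LX m).st x ∈ A} (s : Perm C) := by
  have : NeZero (LX m).n := ⟨(LX m).n_pos.ne'⟩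
  obtain ⟨θ, hθ⟩ := good_X hC (2 * m) j.val (ZMod.val_lt j) A
  refine ⟨θ, fun s => ?_⟩
  rw [hθ, cell_eq, ZMod.natCast_zmod_val]

include hC in
/-- **the sections of the four kinds** -/
theorem secSys_LX (hK : (qT (C := C) letter MD letter_match).ker ≤
      Subgroup.center (TGrp MD C)) (m : ℕ) :
    Nonempty (K.SecSys (LX m) C (qT letter MD letter_match) (LX m).dig) ∧
    Nonempty (K.SecSys (LX m) C (qT letter MD letter_match) (LX m).kP) ∧
    Nonempty (K.SecSys (LX m) C (qT letter MD letter_match) (LX m).kQ) ∧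
    Nonempty (K.SecSys (LX m) C (qT letter MD letter_match) (LX m).kV) := by
  rw [ker_qT] at hK
  exact secSys_four (gpModel letter MD letter_match).lift
    (gpModel letter MD letter_match).lift_surjective hK hC (LX m) (good_LX hC m)


end concrete

end Crest.Agent.R189.FPMain
end

-- ▼ part R189/CentWin
section

/-!
# Row 189 (S0289): C1 in terms of windows   (helper254)

`WinAtlas S letter lev M`: a family of events `e i` with finite windows `W i ⊂ ℤ × ℤ`, such that the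
translates `v.e_i` (`v ∈ W i`) are below letters, pairwise orthogonal, generate the letters at depth
`≥ M + 1`, and occur in `X`.

`cent_of_win`: if there are such atlases for all `M` then `q w = 1` implies `w ∈ center T`.
-/

set_option autoImplicit false
set_option linter.unusedSectionVars false

open Equiv Equiv.Perm

namespace Crest.Agent.R189.Cent

variable {C : Type} [Fintype C] [DecidableEq C] {T : Type} [Group T]

/-! ### the elements `tv` -/

section tv

variable {V : Type} [AddCommGroup V] [DecidableEq V] {S : ColGrp C V T}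

/-- the embedding of an inner window, shifted by `m` -/
def shiftEmb (W W' : Finset V) (m : C → V) (h : ∀ c, ∀ v ∈ W', m c + v ∈ W) :
    {v // v ∈ W'} × C ↪ {v // v ∈ W} × C where
  toFun p := (⟨m p.2 + p.1.1, h p.2 _ p.1.2⟩, p.2)
  inj' := by
    rintro ⟨⟨v, hv⟩, c⟩ ⟨⟨v', hv'⟩, c'⟩ hh
    simp only [Prod.mk.injEq, Subtype.mk.injEq] at hh ⊢
    obtain ⟨h1, rfl⟩ := hh
    exact ⟨add_left_cancel h1, rfl⟩

open Classical in
/-- the 3-cycle `(a b c)` of the tower over `e` with window `W` (junk `1` off the window) -/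
noncomputable def tv (e : Ev S) (W : Finset V)
    (hO : Tower.OrthFam e (fun w : {v // v ∈ W} => (w : V))) (a b c : V × C) : T :=
  if h : a.1 ∈ W ∧ b.1 ∈ W ∧ c.1 ∈ W then
    Tower.eps e (fun w : {v // v ∈ W} => (w : V)) hO
      (Tower.acyc (⟨a.1, h.1⟩, a.2) (⟨b.1, h.2.1⟩, b.2) (⟨c.1, h.2.2⟩, c.2))
  else 1

variable {e : Ev S} {W : Finset V} {hO : Tower.OrthFam e (fun w : {v // v ∈ W} => (w : V))}

theorem tv_eq {a b c : V × C} (ha : a.1 ∈ W) (hb : b.1 ∈ W) (hc : c.1 ∈ W) :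
    tv e W hO a b c = Tower.eps e (fun w : {v // v ∈ W} => (w : V)) hO
      (Tower.acyc (⟨a.1, ha⟩, a.2) (⟨b.1, hb⟩, b.2) (⟨c.1, hc⟩, c.2)) := by
  unfold tv
  rw [dif_pos ⟨ha, hb, hc⟩]

theorem pne {a b : V × C} (h : a ≠ b) (ha : a.1 ∈ W) (hb : b.1 ∈ W) :
    ((⟨a.1, ha⟩, a.2) : {v // v ∈ W} × C) ≠ (⟨b.1, hb⟩, b.2) := by
  intro h'
  simp only [Prod.mk.injEq, Subtype.mk.injEq] at h'
  exact h (Prod.ext h'.1 h'.2)

/-- conjugation by a translation -/
theorem tv_H {W' : Finset V} {m : C → V} (hm : ∑ c, m c = 0) (h : ∀ c, ∀ v ∈ W', m c + v ∈ W)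
    (h' : W' ⊆ W) {a b c : V × C} (hab : a ≠ b) (hac : a ≠ c) (hbc : b ≠ c)
    (ha : a.1 ∈ W') (hb : b.1 ∈ W') (hc : c.1 ∈ W') :
    S.H m * tv e W hO a b c * (S.H m)⁻¹ =
      tv e W hO (m a.2 + a.1, a.2) (m b.2 + b.1, b.2) (m c.2 + c.1, c.2) := by
  have hO' : Tower.OrthFam e (fun w : {v // v ∈ W'} => (w : V)) := by
    intro i j hij
    exact hO ⟨i.1, h' i.2⟩ ⟨j.1, h' j.2⟩ (fun h2 => hij (Subtype.ext (congrArg Subtype.val h2 : _)))
  have h0 : ∀ c, ∀ v ∈ W', (0 : C → V) c + v ∈ W := fun c v hv => by simpa using h' hv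
  have e1 := Tower.eps_map hO' hO (shiftEmb W W' 0 h0) (fun p => rfl) (fun p => by simp [shiftEmb])
    (Tower.acyc (⟨a.1, ha⟩, a.2) (⟨b.1, hb⟩, b.2) (⟨c.1, hc⟩, c.2))
  have e2 := Tower.eps_H hO' hO hm (shiftEmb W W' m h) (fun p => rfl) (fun p => rfl)
    (Tower.acyc (⟨a.1, ha⟩, a.2) (⟨b.1, hb⟩, b.2) (⟨c.1, hc⟩, c.2))
  rw [Tower.altMap_acyc _ (pne hab ha hb) (pne hac ha hc) (pne hbc hb hc)] at e1 e2
  have e3 : tv e W hO a b c = Tower.eps e (fun w : {v // v ∈ W'} => (w : V)) hO'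
      (Tower.acyc (⟨a.1, ha⟩, a.2) (⟨b.1, hb⟩, b.2) (⟨c.1, hc⟩, c.2)) := by
    rw [tv_eq (h' ha) (h' hb) (h' hc), e1]
    have : ∀ (v : V) (hv : v ∈ W') (c : C), shiftEmb W W' 0 h0 (⟨v, hv⟩, c) = (⟨v, h' hv⟩, c) := by
      intro v hv c
      simp [shiftEmb]
    rw [this, this, this]
  rw [e3, e2, tv_eq (h _ _ ha) (h _ _ hb) (h _ _ hc)]
  rfl

/-- conjugation by an event -/
theorem tv_ev {f : Ev S} (P : V → Prop) [DecidablePred P]
    (h1 : ∀ v ∈ W, P v → Ev.trans v e ≤ f) (h2 : ∀ v ∈ W, ¬ P v → Ev.Orth (Ev.trans v e) f)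
    (τ : alternatingGroup C) {a b c : V × C} (hab : a ≠ b) (hac : a ≠ c) (hbc : b ≠ c)
    (ha : a.1 ∈ W) (hb : b.1 ∈ W) (hc : c.1 ∈ W) :
    f.hom τ * tv e W hO a b c * (f.hom τ)⁻¹ =
      tv e W hO (a.1, if P a.1 then (τ : Perm C) a.2 else a.2)
        (b.1, if P b.1 then (τ : Perm C) b.2 else b.2)
        (c.1, if P c.1 then (τ : Perm C) c.2 else c.2) := by
  have e1 := Tower.eps_conj_event hO (te := fun w : {v // v ∈ W} => Ev.trans (w : V) e)
    (fun w => Ev.isTrans_trans _ _) (Finset.univ.filter (fun w : {v // v ∈ W} => P w.1)) f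
    (fun w hw => h1 _ w.2 (by simpa using hw)) (fun w hw => h2 _ w.2 (by simpa using hw)) τ
    (Tower.acyc (⟨a.1, ha⟩, a.2) (⟨b.1, hb⟩, b.2) (⟨c.1, hc⟩, c.2))
  rw [tv_eq ha hb hc, e1, Tower.conj_acyc _ (pne hab ha hb) (pne hac ha hc) (pne hbc hb hc)]
  have key : ∀ (v : V) (hv : v ∈ W) (c : C),
      ((Tower.lv (fun w : {v // v ∈ W} => if w ∈ Finset.univ.filter (fun w : {v // v ∈ W} => P w.1)
        then τ else 1) : alternatingGroup ({v // v ∈ W} × C)) : Perm ({v // v ∈ W} × C)) (⟨v, hv⟩, c) =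
      (⟨v, hv⟩, if P v then (τ : Perm C) c else c) := by
    intro v hv c
    rw [Tower.lv_apply]
    by_cases h : P v
    · simp [h]
    · simp [h]
  rw [key, key, key]
  exact (tv_eq (a := (a.1, if P a.1 then (τ : Perm C) a.2 else a.2))
    (b := (b.1, if P b.1 then (τ : Perm C) b.2 else b.2))
    (c := (c.1, if P c.1 then (τ : Perm C) c.2 else c.2)) ha hb hc).symm

/-- the diagonal 3-cycles are values of the translates -/
theorem tv_diag {v : V} (hv : v ∈ W) {p q r : C} (hpq : p ≠ q) (hpr : p ≠ r) (hqr : q ≠ r) :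
    tv e W hO (v, p) (v, q) (v, r) = (Ev.trans v e).hom (Tower.acyc p q r) := by
  rw [tv_eq hv hv hv, Tower.eps_M3 hO hpq hpr hqr, Tower.M3_const (Ev.isTrans_trans v e) hpq hpr hqr]

theorem tv_bot (h : e = Ev.zero S) (a b c : V × C) : tv e W hO a b c = 1 := by
  unfold tv
  split
  · next h' =>
    have : (1 : alternatingGroup ({v // v ∈ W} × C) →* T) =
        Tower.eps e (fun w : {v // v ∈ W} => (w : V)) hO := by
      refine Tower.eq_eps hO ?_
      intro p q r h1 h2 h3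
      obtain ⟨l, hl, hlf⟩ := Tower.exists_lam' S ({p.2, q.2, r.2} : Finset C)
        (Finset.card_le_three.trans_lt (by norm_num))
        (Tower.pos3 (p.1 : V) (q.1 : V) (r.1 : V) p.2 q.2)
      have ha : l p.2 = (p.1 : V) := by rw [hlf _ (by simp)]; simp [Tower.pos3]
      have hb : l q.2 = (q.1 : V) := by rw [hlf _ (by simp)]; simp [Tower.pos3, h1.symm]
      have hc : l r.2 = (r.1 : V) := by
        rw [hlf _ (by simp)]; simp [Tower.pos3, h2.symm, h3.symm]
      rw [Tower.M3_eq e h1 h2 h3 hl ha hb hc, h]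
      simp [Ev.zero]
    rw [← this]
    rfl
  · rfl

end tv

/-! ### window atlases -/

section atlas

variable {S : ColGrp C (ℤ × ℤ) T} {A X : Type} [AddAction (ℤ × ℤ) X]

/-- a window atlas of depth `M` -/
structure WinAtlas (S : ColGrp C (ℤ × ℤ) T) (letter : X → A) (lev : A → Ev S) (M : ℕ) where
  κ : Type
  e : κ → Ev S
  W : κ → Finset (ℤ × ℤ)
  dep : κ → ℤ × ℤ → ℕ
  ltr : κ → ℤ × ℤ → A
  dep_W : ∀ i v u, |u.1| ≤ 1 → |u.2| ≤ 1 → 1 ≤ dep i v → u + v ∈ W i
  dep_step : ∀ i v u, |u.1| ≤ 1 → |u.2| ≤ 1 → dep i v ≤ dep i (u + v) + 1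
  le : ∀ i v, v ∈ W i → Ev.trans v (e i) ≤ lev (ltr i v)
  orth : ∀ i v v', v ∈ W i → v' ∈ W i → v ≠ v' → Ev.Orth (Ev.trans v (e i)) (Ev.trans v' (e i))
  sum : ∀ (a : A) (K : Subgroup T) (σ : alternatingGroup C),
    (∀ i v, M + 1 ≤ dep i v → (Ev.trans v (e i)).hom σ ∈ K) → (lev a).hom σ ∈ K
  occ : ∀ i, e i = Ev.zero S ∨ ∃ y : X, ∀ v ∈ W i, letter (v +ᵥ y) = ltr i v

variable {letter : X → A} {lev : A → Ev S} {M : ℕ}

namespace WinAtlas

variable (At : WinAtlas S letter lev M)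

theorem orthFam (i : At.κ) :
    Tower.OrthFam (At.e i) (fun w : {v // v ∈ At.W i} => (w : ℤ × ℤ)) :=
  Tower.orthFam_of (te := fun w => Ev.trans (w : ℤ × ℤ) (At.e i)) (fun _ => Ev.isTrans_trans _ _)
    (fun v w h => At.orth i v w v.2 w.2 (fun h' => h (Subtype.ext h')))

/-- the tower elements -/
noncomputable def t (i : At.κ) (a b c : (ℤ × ℤ) × C) : T := tv (At.e i) (At.W i) (At.orthFam i) a b c

theorem mem_W {i : At.κ} {v : ℤ × ℤ} (h : 1 ≤ At.dep i v) : v ∈ At.W i := by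
  have := At.dep_W i v 0 (by simp) (by simp) h
  simpa using this

/-- conjugation by a small translation -/
theorem t_H (i : At.κ) {m : C → ℤ × ℤ} (hm : ∑ c, m c = 0)
    (h : ∀ c, |(m c).1| ≤ 1 ∧ |(m c).2| ≤ 1) {a b c : (ℤ × ℤ) × C} (hab : a ≠ b) (hac : a ≠ c)
    (hbc : b ≠ c) (ha : 1 ≤ At.dep i a.1) (hb : 1 ≤ At.dep i b.1) (hc : 1 ≤ At.dep i c.1) :
    S.H m * At.t i a b c * (S.H m)⁻¹ =
      At.t i (m a.2 + a.1, a.2) (m b.2 + b.1, b.2) (m c.2 + c.1, c.2) := by
  refine tv_H (W' := (At.W i).filter (fun v => 1 ≤ At.dep i v)) hm ?_ (Finset.filter_subset _ _)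
    hab hac hbc ?_ ?_ ?_
  · intro c v hv
    exact At.dep_W i v _ (h c).1 (h c).2 (Finset.mem_filter.1 hv).2
  · exact Finset.mem_filter.2 ⟨At.mem_W ha, ha⟩
  · exact Finset.mem_filter.2 ⟨At.mem_W hb, hb⟩
  · exact Finset.mem_filter.2 ⟨At.mem_W hc, hc⟩

/-- conjugation by a letter event -/
theorem t_ev (lev_orth : ∀ x y, x ≠ y → Ev.Orth (lev x) (lev y)) [DecidableEq A] (i : At.κ) (x : A)
    (τ : alternatingGroup C) {a b c : (ℤ × ℤ) × C} (hab : a ≠ b) (hac : a ≠ c)
    (hbc : b ≠ c) (ha : a.1 ∈ At.W i) (hb : b.1 ∈ At.W i) (hc : c.1 ∈ At.W i) :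
    (lev x).hom τ * At.t i a b c * ((lev x).hom τ)⁻¹ =
      At.t i (a.1, if At.ltr i a.1 = x then (τ : Perm C) a.2 else a.2)
        (b.1, if At.ltr i b.1 = x then (τ : Perm C) b.2 else b.2)
        (c.1, if At.ltr i c.1 = x then (τ : Perm C) c.2 else c.2) := by
  refine tv_ev (fun v => At.ltr i v = x) ?_ ?_ τ hab hac hbc ha hb hc
  · intro v hv h
    rw [← h]
    exact At.le i v hv
  · intro v hv h
    exact (lev_orth _ _ h).mono (At.le i v hv) le_rfl

section gen

variable (K : Subgroup T) (hK : ∀ i, ∀ a b c : (ℤ × ℤ) × C, a ≠ b → a ≠ c → b ≠ c →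
      M ≤ At.dep i a.1 → M ≤ At.dep i b.1 → M ≤ At.dep i c.1 → At.t i a b c ∈ K)

include hK

theorem trans_mem (i : At.κ) {v : ℤ × ℤ} (hv : M ≤ At.dep i v) (hv1 : 1 ≤ At.dep i v)
    (σ : alternatingGroup C) : (Ev.trans v (At.e i)).hom σ ∈ K := by
  refine alt_induction (P := fun σ => (Ev.trans v (At.e i)).hom σ ∈ K) ?_ ?_ ?_ ?_ σ
  · rintro ⟨s, hs'⟩ hs
    obtain ⟨p, q, r, hpq, hpr, hqr, -, h⟩ := Tower.eq_acyc hs
    have h2 : (⟨s, hs'⟩ : alternatingGroup C) = Tower.acyc p q r := h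
    rw [h2, ← tv_diag (hO := At.orthFam i) (At.mem_W hv1) hpq hpr hqr]
    exact hK i _ _ _ (by simp [hpq]) (by simp [hpr]) (by simp [hqr]) hv hv hv
  · rw [map_one]; exact K.one_mem
  · intro a b ha hb; rw [map_mul]; exact K.mul_mem ha hb
  · intro a ha; rw [map_inv]; exact K.inv_mem ha

theorem lev_mem (x : A) (σ : alternatingGroup C) : (lev x).hom σ ∈ K :=
  At.sum x K σ (fun i v hv => At.trans_mem K hK i (by omega) (by omega) σ)

theorem conj_lev_mem {m : C → ℤ × ℤ} (hm : ∑ c, m c = 0)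
    (h : ∀ c, |(m c).1| ≤ 1 ∧ |(m c).2| ≤ 1) (x : A) (σ : alternatingGroup C)
    (hσ : (σ : Perm C).IsThreeCycle) : S.H m * (lev x).hom σ * (S.H m)⁻¹ ∈ K := by
  have := At.sum x (K.comap (MulAut.conj (S.H m)).toMonoidHom) σ ?_
  · exact this
  intro i v hv
  show S.H m * (Ev.trans v (At.e i)).hom σ * (S.H m)⁻¹ ∈ K
  obtain ⟨s, hs'⟩ := σ
  obtain ⟨p, q, r, hpq, hpr, hqr, -, h3⟩ := Tower.eq_acyc hσ
  have h2 : (⟨s, hs'⟩ : alternatingGroup C) = Tower.acyc p q r := h3
  rw [h2, ← tv_diag (hO := At.orthFam i) (At.mem_W (by omega)) hpq hpr hqr]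
  have h4 := At.t_H i hm h (a := (v, p)) (b := (v, q)) (c := (v, r)) (by simp [hpq])
    (by simp [hpr]) (by simp [hqr]) (show 1 ≤ At.dep i v by omega) (show 1 ≤ At.dep i v by omega)
    (show 1 ≤ At.dep i v by omega)
  rw [t] at h4
  rw [h4]
  have h5 : ∀ c, M ≤ At.dep i (m c + v) := by
    intro c
    have := At.dep_step i v (m c) (h c).1 (h c).2
    omega
  exact hK i _ _ _ (by simp [hpq]) (by simp [hpr]) (by simp [hqr]) (h5 _) (h5 _) (h5 _)

theorem H_mem (hone : ∀ (σ : alternatingGroup C) (K : Subgroup T), (∀ x, (lev x).hom σ ∈ K) →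
    S.one σ ∈ K) (b : Bool) (p q : C) : S.H (dl (uv b) p q) ∈ K := by
  by_cases hpq : p = q
  · subst hpq
    have : dl (uv b) p p = 0 := by simp [dl]
    rw [this, S.H_zero]
    exact K.one_mem
  obtain ⟨r, hr⟩ := S.exists_off (D := {p, q}) (by
    have := Finset.card_le_two (a := p) (b := q); omega)
  obtain ⟨x, hx⟩ := S.exists_off (D := {p, q, r}) (by
    have := Finset.card_le_three (a := p) (b := q) (c := r); omega)
  simp only [Finset.mem_insert, Finset.mem_singleton, not_or] at hr hx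
  have hqp : q ≠ p := Ne.symm hpq
  have hqx : q ≠ x := Ne.symm hx.2.1
  have hpx : p ≠ x := Ne.symm hx.1
  set s : alternatingGroup C := Tower.acyc q p x with hs
  have hs3 : (s : Perm C).IsThreeCycle := by
    rw [hs, Tower.coe_acyc hqp hqx hpx]
    exact AltPres.cyc_isThreeCycle hqp hqx hpx
  have hsq : (s : Perm C) q = p := by
    rw [hs, Tower.coe_acyc hqp hqx hpx, Tower.cyc_apply_fst hqp hpx]
  have hsr : (s : Perm C) r = r := by
    rw [hs, Tower.coe_acyc hqp hqx hpx]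
    exact Tower.cyc_apply_of_ne hr.2 hr.1 (fun h => hx.2.2 h.symm)
  set l := dl (uv b) q r with hl
  have hl0 : ∑ c, l c = 0 := dl_sum _ _ _
  have h1 := S.one_H s l hl0
  have h2 : (fun c => l ((s : Perm C)⁻¹ c)) = dl (uv b) p r := by
    have := dl_comp (uv b) q r (s : Perm C)
    rw [hsq, hsr] at this
    exact this
  rw [h2] at h1
  have h3 : S.H (dl (uv b) p q) = S.one s * (S.H l * S.one s⁻¹ * (S.H l)⁻¹) := by
    have h4 : dl (uv b) p q = dl (uv b) p r - l := by
      rw [hl, ← dl_mul (uv b) p q r]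
      abel
    rw [h4, S.H_sub (dl_sum _ _ _) hl0, ← h1, map_inv]
    group
  rw [h3]
  refine K.mul_mem (hone s K (fun x => At.lev_mem K hK x s)) ?_
  refine hone s⁻¹ (K.comap (MulAut.conj (S.H l)).toMonoidHom) (fun y => ?_)
  have h5 : ∀ c, |(l c).1| ≤ 1 ∧ |(l c).2| ≤ 1 := TModel.dl_small b (Ne.symm hr.2)
  have h6 := At.conj_lev_mem K hK hl0 h5 y s⁻¹ (by
    rw [Subgroup.coe_inv]
    exact hs3.inv)
  exact h6

end gen

end WinAtlas

/-- index of the generators -/
abbrev GI (A C : Type) [Fintype C] [DecidableEq C] : Type := (A × alternatingGroup C) ⊕ (Bool × C × C)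

/-- the generators -/
def gn (lev : A → Ev S) : GI A C → T
  | Sum.inl p => (lev p.1).hom p.2
  | Sum.inr p => S.H (dl (uv p.1) p.2.1 p.2.2)

/-- the partial action -/
def pact [DecidableEq A] (ltr : ℤ × ℤ → A) : GI A C → (ℤ × ℤ) × C → (ℤ × ℤ) × C
  | Sum.inl p, a => (a.1, if ltr a.1 = p.1 then (p.2 : Perm C) a.2 else a.2)
  | Sum.inr p, a => (dl (uv p.1) p.2.1 p.2.2 a.2 + a.1, a.2)

theorem pact_inj [DecidableEq A] (ltr : ℤ × ℤ → A) (g : GI A C) (a b : (ℤ × ℤ) × C)
    (h : pact ltr g a = pact ltr g b) : a = b := by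
  obtain ⟨v, c⟩ := a
  obtain ⟨v', c'⟩ := b
  rcases g with p | p
  · simp only [pact, Prod.mk.injEq] at h
    obtain ⟨rfl, h⟩ := h
    by_cases h1 : ltr v = p.1
    · rw [if_pos h1, if_pos h1] at h
      rw [(p.2 : Perm C).injective h]
    · rw [if_neg h1, if_neg h1] at h
      rw [h]
  · simp only [pact, Prod.mk.injEq] at h
    obtain ⟨h, rfl⟩ := h
    rw [add_left_cancel h]

theorem dl_uv_small (b : Bool) (p q c : C) :
    |(dl (uv b) p q c).1| ≤ 1 ∧ |(dl (uv b) p q c).2| ≤ 1 := by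
  by_cases h : p = q
  · subst h
    simp [dl]
  · exact TModel.dl_small b h c

theorem exists_list {I : Type} (g : I → T) (hinv : ∀ i, ∃ j, g j = (g i)⁻¹)
    (h : Subgroup.closure (Set.range g) = ⊤) (w : T) : ∃ l : List I, (l.map g).prod = w := by
  have hw : w ∈ Subgroup.closure (Set.range g) := by rw [h]; trivial
  induction hw using Subgroup.closure_induction with
  | mem x hx => obtain ⟨i, rfl⟩ := hx; exact ⟨[i], by simp⟩
  | one => exact ⟨[], rfl⟩
  | mul x y _ _ hx hy =>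
    obtain ⟨l, rfl⟩ := hx
    obtain ⟨l', rfl⟩ := hy
    exact ⟨l ++ l', by simp⟩
  | inv x _ hx =>
    obtain ⟨l, rfl⟩ := hx
    choose j hj using hinv
    refine ⟨(l.map j).reverse, ?_⟩
    have key : ∀ l : List I, (((l.map j).reverse).map g).prod = ((l.map g).prod)⁻¹ := by
      intro l
      induction l with
      | nil => simp
      | cons a l ih =>
        rw [List.map_cons, List.reverse_cons, List.map_append, List.prod_append, ih]
        simp [hj]
    exact key l

/-- **C1 from window atlases.** -/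
theorem cent_of_win (lev_orth : ∀ x y, x ≠ y → Ev.Orth (lev x) (lev y))
    (hone : ∀ (σ : alternatingGroup C) (K : Subgroup T), (∀ x, (lev x).hom σ ∈ K) → S.one σ ∈ K)
    (hgen : Subgroup.closure (Set.range (gn (C := C) lev)) = ⊤)
    (q : T →* Perm (X × C))
    (q_lev : ∀ a σ, q ((lev a).hom σ) = ev {x | letter x = a} (σ : Perm C))
    (q_H : ∀ b p r, q (S.H (dl (uv b) p r)) = H (dl (uv b) p r))
    (free : ∀ (v v' : ℤ × ℤ) (y : X), v +ᵥ y = v' +ᵥ y → v = v')
    (hW : ∀ M : ℕ, Nonempty (WinAtlas S letter lev M)) (w : T) (hw : q w = 1) :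
    w ∈ Subgroup.center T := by
  classical
  refine cent_core (V := ℤ × ℤ) q (gn lev) (exists_list _ ?_ hgen) ?_ w hw
  · rintro (p | p)
    · exact ⟨Sum.inl (p.1, p.2⁻¹), by simp [gn]⟩
    · refine ⟨Sum.inr (p.1, p.2.2, p.2.1), ?_⟩
      simp only [gn]
      rw [← S.H_neg (dl_sum _ _ _)]
      congr 1
      simp [dl]
  · intro M
    obtain ⟨At⟩ := hW M
    refine ⟨M, le_rfl, ⟨⟨At.κ, At.t, fun i => pact (At.ltr i), At.dep, ?_, ?_, ?_, ?_, ?_⟩⟩⟩
    · intro i g a b h
      exact pact_inj _ _ _ _ h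
    · rintro i (p | p) a
      · simp [pact]
      · exact At.dep_step i _ _ (dl_uv_small _ _ _ _).1 (dl_uv_small _ _ _ _).2
    · rintro i (p | p) a b c hab hac hbc ha hb hc
      · exact At.t_ev lev_orth i p.1 p.2 hab hac hbc (At.mem_W ha) (At.mem_W hb) (At.mem_W hc)
      · exact At.t_H i (dl_sum _ _ _) (dl_uv_small _ _ _) hab hac hbc ha hb hc
    · intro i
      rcases At.occ i with h | ⟨y, hy⟩
      · left
        intro a b c _ _ _ _ _ _
        exact tv_bot h a b c
      · right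
        refine ⟨y, fun v v' _ _ h => free v v' y h, ?_⟩
        rintro (p | p) a ha
        · simp only [gn, pact, q_lev]
          by_cases h : At.ltr i a.1 = p.1
          · rw [if_pos h, ev_apply_mem]
            rw [Set.mem_ofPred_eq, hy _ (At.mem_W ha), h]
          · rw [if_neg h, ev_apply_notMem]
            rw [Set.mem_ofPred_eq, hy _ (At.mem_W ha)]
            exact h
        · simp only [gn, pact, q_H, H_apply, add_vadd]
    · intro K hK
      rw [← top_le_iff, ← hgen, Subgroup.closure_le]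
      rintro _ ⟨p | p, rfl⟩
      · exact At.lev_mem K hK p.1 p.2
      · exact At.H_mem K hK hone p.1 p.2.1 p.2.2

end atlas

end Crest.Agent.R189.Cent
private theorem rz_baa823dade : type_of% @_root_.Crest.Agent.R189.Cent.gn.eq_1 := @_root_.Crest.Agent.R189.Cent.gn.eq_1 -- L312
private theorem rz_0d52cea0fe : type_of% @_root_.Crest.Agent.R189.Cent.pact.eq_1 := @_root_.Crest.Agent.R189.Cent.pact.eq_1 -- L317
end

-- ▼ part R189/CentLS
section

/-!
# Row 189 (S0289): window atlases from a level structure   (helper254)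

`winAtlas`: `h : LS ⊤ pZ qZ a c St` in `Ev S` (`S` centreless) and occurrence of the nonzero atoms
give window atlases of every depth; `cent_of_LS`: the kernel of `q` is central.
-/

set_option autoImplicit false
set_option linter.unusedSectionVars false

open Equiv Equiv.Perm

namespace Crest.Agent.R189.Cent

/-! ### depth in the neighbourhood of a zone -/

/-- distance at most `r` from `Z` -/
def near (Z : Set (ℤ × ℤ)) (r : ℕ) (v : ℤ × ℤ) : Prop :=
  ∃ z ∈ Z, |v.1 - z.1| ≤ r ∧ |v.2 - z.2| ≤ r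

theorem near.mono {Z : Set (ℤ × ℤ)} {r r' : ℕ} (h : r ≤ r') {v : ℤ × ℤ} (hv : near Z r v) :
    near Z r' v := by
  obtain ⟨z, hz, h1, h2⟩ := hv
  exact ⟨z, hz, h1.trans (by exact_mod_cast h), h2.trans (by exact_mod_cast h)⟩

theorem near.step {Z : Set (ℤ × ℤ)} {r : ℕ} {v : ℤ × ℤ} (hv : near Z r v) {u : ℤ × ℤ}
    (h1 : |u.1| ≤ 1) (h2 : |u.2| ≤ 1) : near Z (r + 1) (u + v) := by
  obtain ⟨z, hz, h3, h4⟩ := hv
  refine ⟨z, hz, ?_, ?_⟩
  · rw [abs_le] at *
    rw [Prod.fst_add]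
    push_cast
    constructor <;> linarith [h1.1, h1.2, h3.1, h3.2]
  · rw [abs_le] at *
    rw [Prod.snd_add]
    push_cast
    constructor <;> linarith [h2.1, h2.2, h4.1, h4.2]

theorem near_finite {Z : Set (ℤ × ℤ)} (hZ : Z.Finite) (r : ℕ) : {v | near Z r v}.Finite := by
  have h1 : ∀ z : ℤ × ℤ, {v : ℤ × ℤ | |v.1 - z.1| ≤ r ∧ |v.2 - z.2| ≤ r}.Finite := by
    intro z
    refine ((Set.finite_Icc (z.1 - r) (z.1 + r)).prod (Set.finite_Icc (z.2 - r) (z.2 + r))).subset ?_
    rintro v ⟨h1, h2⟩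
    rw [abs_le] at h1 h2
    exact ⟨⟨by linarith [h1.1], by linarith [h1.2]⟩, ⟨by linarith [h2.1], by linarith [h2.2]⟩⟩
  refine (hZ.biUnion (fun z _ => h1 z)).subset ?_
  rintro v ⟨z, hz, h2⟩
  exact Set.mem_biUnion hz h2

open Classical in
/-- depth -/
noncomputable def depth (Z : Set (ℤ × ℤ)) (M : ℕ) (v : ℤ × ℤ) : ℕ :=
  ((Finset.range (M + 1)).filter (fun r => near Z r v)).card

theorem near_of_depth {Z : Set (ℤ × ℤ)} {M : ℕ} {v : ℤ × ℤ} (h : 1 ≤ depth Z M v) : near Z M v := by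
  classical
  unfold depth at h
  obtain ⟨r, hr⟩ := Finset.card_pos.1 (show 0 < _ from h)
  rw [Finset.mem_filter, Finset.mem_range] at hr
  exact hr.2.mono (by omega)

theorem depth_zone {Z : Set (ℤ × ℤ)} {M : ℕ} {v : ℤ × ℤ} (h : v ∈ Z) : M + 1 ≤ depth Z M v := by
  classical
  unfold depth
  have h1 : near Z 0 v := ⟨v, h, by simp, by simp⟩
  rw [Finset.filter_true_of_mem (fun r _ => h1.mono (Nat.zero_le r)), Finset.card_range]

theorem depth_step {Z : Set (ℤ × ℤ)} {M : ℕ} (v : ℤ × ℤ) {u : ℤ × ℤ}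
    (h1 : |u.1| ≤ 1) (h2 : |u.2| ≤ 1) : depth Z M v ≤ depth Z M (u + v) + 1 := by
  classical
  unfold depth
  have h3 : ((Finset.range (M + 1)).filter (fun r => near Z r v)).card ≤
      ((Finset.range (M + 2)).filter (fun r => near Z r (u + v))).card := by
    refine Finset.card_le_card_of_injOn (fun r => r + 1) ?_ (fun a _ b _ h => Nat.succ_injective h)
    intro r hr
    rw [Finset.mem_coe, Finset.mem_filter, Finset.mem_range] at hr
    rw [Finset.mem_coe, Finset.mem_filter, Finset.mem_range]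
    exact ⟨by show r + 1 < M + 2; omega, hr.2.step h1 h2⟩
  refine h3.trans ?_
  rw [Finset.range_add_one, Finset.filter_insert]
  split
  · exact (Finset.card_insert_le _ _)
  · exact Nat.le_succ _

/-! ### values of sums -/

section hom

variable {C : Type} [Fintype C] [DecidableEq C] {T : Type} [Group T] {V : Type} [AddCommGroup V]
  {S : ColGrp C V T}

theorem ev_hom_mem [Centreless T] {ι : Type*} [Finite ι] {P : ι → Ev S} {D : Ev S} (hP : Romp.IsPart P D)
    {A : Set ι} (hA : A.Finite) (K : Subgroup T) (σ : alternatingGroup C)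
    (h : ∀ i ∈ A, (P i).hom σ ∈ K) : (Romp.ev P A).hom σ ∈ K := by
  classical
  induction A, hA using Set.Finite.induction_on with
  | empty =>
    rw [Romp.ev_empty, Ev.romp_bot]
    simp [Ev.zero]
  | @insert a B haB hB ih =>
    have h1 : Disjoint ({a} : Set ι) B := by simpa using haB
    have h2 := hP.ev_add h1
    have h3 := hP.ev_orth h1
    rw [Set.insert_eq, ← h2, Ev.romp_add_hom h3, Romp.ev_singleton]
    exact K.mul_mem (h a (Set.mem_insert _ _)) (ih (fun i hi => h i (Set.mem_insert_of_mem _ hi)))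

end hom

/-! ### growth of the boxes -/

theorem ww_hh_ge {a : ℕ} (ha : 3 ≤ a) (m : ℕ) : m + 1 ≤ ww a (2 * m) ∧ m + 1 ≤ hh a (2 * m) := by
  induction m with
  | zero => simp
  | succ m ih =>
    have e1 : 2 * (m + 1) = 2 * m + 1 + 1 := by ring
    have h1 : Even (2 * m) := even_two_mul m
    have h2 : ¬ Even (2 * m + 1) := by
      rw [Nat.not_even_iff_odd]; exact odd_two_mul_add_one m
    rw [e1, ww_succ_odd h2, ww_succ_even h1, hh_succ_odd h2, hh_succ_even h1]
    unfold nn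
    constructor
    · nlinarith [ih.1, Nat.zero_le (a + (2 * m + 1))]
    · nlinarith [ih.2, Nat.zero_le (a + (2 * m))]

/-! ### the atlas -/

section

variable {C : Type} [Fintype C] [DecidableEq C] {T : Type} [Group T] [Centreless T]
  {S : ColGrp C (ℤ × ℤ) T} {X : Type} [AddAction (ℤ × ℤ) X]
  {a : ℕ} {c : ℕ → Ev S} {St : Star → Ev S}

theorem zone_finite (a k : ℕ) (R : ℤ) (κ : Atom (3 * (a + k))) : (κ.Zone a k R).Finite := by
  have h1 : Finite (κ.Zone a k R) :=
    Finite.of_injective (β := Piece a k R) (fun v => ⟨(κ, v.1), v.2⟩) (by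
      intro v v' h
      have h2 := congrArg (fun i : Piece a k R => i.vec) h
      exact Subtype.ext h2)
  exact h1

/-- window atlases from a level structure -/
theorem exists_winAtlas (h : LS (⊤ : Ev S) pZ qZ a c St) {letter : X → Fin (3 * a) × Star}
    {lev : Fin (3 * a) × Star → Ev S} (hlev : ∀ x, lev x = letterE c St x)
    (hocc : ∀ (n : ℕ) (κ : Atom (3 * (a + 2 * n))), atomE a c St (2 * n) κ = ⊥ ∨
      ∃ y : X, ∀ v ∈ κ.Win a (2 * n), letter (v +ᵥ y) = h.ltr (2 * n) κ v) (M : ℕ) :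
    Nonempty (WinAtlas S letter lev M) := by
  classical
  set n : ℕ := 4 * (M + 2) with hn
  set k : ℕ := 2 * n with hk
  have hwh := ww_hh_ge h.three_le n
  rw [← hk] at hwh
  obtain ⟨hw0, hh0⟩ := hwh
  set R : ℤ := (M : ℤ) + 2 with hR
  have hw : 4 * R ≤ (ww a k : ℤ) := by
    have : (4 * (M + 2) : ℕ) ≤ ww a k := by omega
    have h2 : ((4 * (M + 2) : ℕ) : ℤ) ≤ (ww a k : ℤ) := by exact_mod_cast this
    push_cast at h2
    linarith
  have hh : 4 * R ≤ (hh a k : ℤ) := by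
    have : (4 * (M + 2) : ℕ) ≤ Crest.Agent.R189.hh a k := by omega
    have h2 : ((4 * (M + 2) : ℕ) : ℤ) ≤ (Crest.Agent.R189.hh a k : ℤ) := by exact_mod_cast this
    push_cast at h2
    linarith
  have hR0 : 0 < R := by positivity
  have hfin : ∀ κ : Atom (3 * (a + k)), {v | near (κ.Zone a k R) (M + 1) v}.Finite :=
    fun κ => near_finite (zone_finite a k R κ) _
  have hdec : ∀ (κ : Atom (3 * (a + k))) (v : ℤ × ℤ), v ∈ (hfin κ).toFinset →
      ∃ z ∈ κ.Zone a k R, ∃ u : ℤ × ℤ, |u.1| < R ∧ |u.2| < R ∧ v = z + u := by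
    intro κ v hv
    rw [Set.Finite.mem_toFinset] at hv
    obtain ⟨z, hz, h1, h2⟩ := hv
    refine ⟨z, hz, v - z, ?_, ?_, by simp⟩
    · rw [Prod.fst_sub]; push_cast at h1; linarith
    · rw [Prod.snd_sub]; push_cast at h2; linarith
  have hwin : ∀ (κ : Atom (3 * (a + k))) (v : ℤ × ℤ), v ∈ (hfin κ).toFinset → v ∈ κ.Win a k := by
    intro κ v hv
    obtain ⟨z, hz, u, h1, h2, rfl⟩ := hdec κ v hv
    exact Atom.add_mem_Win hw hh hz h1 h2
  refine ⟨{
    κ := Atom (3 * (a + k))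
    e := fun κ => atomE a c St k κ
    W := fun κ => (hfin κ).toFinset
    dep := fun κ v => depth (κ.Zone a k R) M v
    ltr := fun κ v => h.ltr k κ v
    dep_W := ?_
    dep_step := ?_
    le := ?_
    orth := ?_
    sum := ?_
    occ := ?_ }⟩
  · intro κ v u h1 h2 h3
    rw [Set.Finite.mem_toFinset]
    exact (near_of_depth h3).step h1 h2
  · intro κ v u h1 h2
    exact depth_step v h1 h2
  · intro κ v hv
    rw [hlev]
    exact h.le_ltr k κ (hwin κ v hv)
  · intro κ v v' hv hv' hne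
    obtain ⟨z, hz, u, h1, h2, rfl⟩ := hdec κ v hv
    obtain ⟨z', hz', u', h1', h2', rfl⟩ := hdec κ v' hv'
    refine Ev.romp_orth.1 (h.atom_orth k κ κ ?_)
    intro hl
    exact hne (Atom.eq_of_Lat hw hh hz hz' h1 h2 h1' h2' hl)
  · intro x K σ hK
    rw [hlev, h.letter_eq_pieces rfl k hR0 (by linarith) (by linarith) x]
    refine ev_hom_mem (h.piece_part rfl k hR0.le (by linarith) (by linarith)) (Set.toFinite _) K σ ?_
    intro i _
    exact hK i.atom i.vec (depth_zone i.mem)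
  · intro κ
    rcases hocc n κ with h1 | ⟨y, hy⟩
    · exact Or.inl h1
    · exact Or.inr ⟨y, fun v hv => hy v (hwin κ v hv)⟩

end

end Crest.Agent.R189.Cent
end

-- ▼ part R189/Cent
section

/-!
# Row 189 (S0289): C1: the kernel of `T / Z(T) → Perm (X × C)` is central   (helper254)

* `cent_conc`: for a model `m : TModel MD C G` of a centreless group with concrete values, given the
  occurrence of the nonzero atoms.
-/

set_option autoImplicit false
set_option linter.unusedSectionVars false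

open Equiv Equiv.Perm

namespace Crest.Agent.R189.Cent

variable {C : Type} [Fintype C] [DecidableEq C] {G : Type} [Group G]

section gens

variable {A : Type} [Fintype A] {M : MatchData A} (m : TModel M C G) (hC : 30 ≤ Fintype.card C)

theorem one_mem_of (σ : alternatingGroup C) (K : Subgroup G)
    (h : ∀ x, (m.letterEv hC x).hom σ ∈ K) : (m.colGrp hC).one σ ∈ K := by
  show m.one σ ∈ K
  rw [← m.e_prod σ]
  exact lprod_mem (fun x _ => h x)

theorem gn_gen : Subgroup.closure (Set.range (gn (C := C) (fun x => m.letterEv hC x))) = ⊤ := by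
  rw [← top_le_iff, ← m.gen, Subgroup.closure_le]
  rintro _ ((⟨s, rfl⟩ | ⟨i, a, b, rfl⟩) | ⟨x, s, rfl⟩)
  · exact one_mem_of m hC s _ (fun x => Subgroup.subset_closure ⟨Sum.inl (x, s), rfl⟩)
  · refine Subgroup.subset_closure ⟨Sum.inr (i, a, b), ?_⟩
    show (m.colGrp hC).H (dl (uv i) a b) = _
    rw [m.colGrp_H_dl hC, m.hpow_uv]
  · exact Subgroup.subset_closure ⟨Sum.inl (x, s), rfl⟩

end gens

section conc

variable (m : TModel MD C G) (hC : 30 ≤ Fintype.card C)

theorem lev_eq (x : Fin (3 * 3) × Star) :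
    m.letterEv hC x = letterE (cEv m hC) (StEv m hC) x :=
  (TBase.atom m hC (j := (x.1 : ℕ)) x.1.2 x.2).symm

/-- **C1**: the kernel of a concrete representation of a centreless model is central. -/
theorem cent_conc [Centreless G] {φ : G →* Perm (X × C)} (hφ : Conc m letter φ)
    (hocc : ∀ (n : ℕ) (κ : Atom (3 * (3 + 2 * n))),
      atomE 3 (cEv m hC) (StEv m hC) (2 * n) κ = ⊥ ∨
      ∃ y : X, ∀ v ∈ κ.Win 3 (2 * n), letter (v +ᵥ y) = (TBase.base m hC).ltr (2 * n) κ v)
    (w : G) (hw : φ w = 1) : w ∈ Subgroup.center G := by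
  refine cent_of_win (S := m.colGrp hC) (letter := letter) (lev := fun x => m.letterEv hC x)
    (fun x y h => m.letterEv_orth hC h) (one_mem_of m hC) (gn_gen m hC) φ (fun a σ => hφ.e a σ)
    ?_ ?_ ?_ w hw
  · intro b p r
    exact (hφ.rep hC).H _ (dl_sum _ _ _)
  · intro v v' y h
    have h1 := congrArg X.p h
    rw [X.vadd_p, X.vadd_p] at h1
    exact add_right_cancel h1
  · exact exists_winAtlas (TBase.base m hC) (lev_eq m hC) hocc

/-- a nonzero centreless model acts faithfully -/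
theorem injective_conc [Centreless G] {φ : G →* Perm (X × C)} (hφ : Conc m letter φ)
    (hocc : ∀ (n : ℕ) (κ : Atom (3 * (3 + 2 * n))),
      atomE 3 (cEv m hC) (StEv m hC) (2 * n) κ = ⊥ ∨
      ∃ y : X, ∀ v ∈ κ.Win 3 (2 * n), letter (v +ᵥ y) = (TBase.base m hC).ltr (2 * n) κ v) :
    Function.Injective φ := by
  rw [injective_iff_map_eq_one]
  intro w hw
  have h1 := cent_conc m hC hφ hocc w hw
  rw [Centreless.center_eq] at h1
  exact Subgroup.mem_bot.1 h1

end conc

/-! ### the group `T / Z(T)` -/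


section T

variable [Nonempty C] (hC : 30 ≤ Fintype.card C)
  (hZ : Subgroup.center (Gp (ℤ × ℤ) letter C) = ⊥)
  [Centreless (TGrp MD C ⧸ Subgroup.center (TGrp MD C))]
  (hocc : ∀ (n : ℕ) (κ : Atom (3 * (3 + 2 * n))),
      atomE 3 (cEv (tModel MD C).modCenter hC) (StEv (tModel MD C).modCenter hC) (2 * n) κ = ⊥ ∨
      ∃ y : X, ∀ v ∈ κ.Win 3 (2 * n),
        letter (v +ᵥ y) = (TBase.base (tModel MD C).modCenter hC).ltr (2 * n) κ v)

include hZ hocc

/-- `T / Z(T)` acts faithfully on `X × C` -/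
theorem injective_qTbar_of_occ :
    Function.Injective (qTbar (C := C) letter MD letter_match hZ) :=
  injective_conc (tModel MD C).modCenter hC (conc_qTbar letter MD letter_match hZ) hocc

/-- **C1**: the kernel of `T → Gp` is the centre of `T` -/
theorem ker_qT_of_occ :
    (qT (C := C) letter MD letter_match).ker = Subgroup.center (TGrp MD C) :=
  ker_qT_eq_center letter MD letter_match hZ (injective_qTbar_of_occ hC hZ hocc)

end T

end Crest.Agent.R189.Cent
end

-- ▼ part R189/AtomOcc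

/-!
# Row 189: the dictionary between the hierarchy in `Ev(T / Z(T))` and the one in `X` (helper516)

For a model `m : TModel MD C G` (`G` centreless) and a concrete representation
`hφ : Conc m letter φ`, `R := hφ.rep hC`:

* `set_hc`, `set_hSt`, `set_hD` : `R.set` of the level `k` events = the explicit sets `XH.xc`, ..;
* `set_cell : R.set (hc k j ⊓ₒ ev (hSt k) A) = {x ∈ xc 3 k j | xst 3 k x ∈ A}`;
* `atom_occ` : an atom is `⊥` or occurs in `X`, with the right letters on its window.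
-/

set_option autoImplicit false

namespace Crest.Agent.R189

open Romp Equiv Equiv.Perm

namespace AtomOcc

variable {C : Type} [Fintype C] [DecidableEq C] {G : Type} [Group G]
variable {m : TModel MD C G} {φ : G →* Perm (X × C)} (hC : 30 ≤ Fintype.card C)
  (hφ : Conc m letter φ)

theorem set_cEv (j : ℕ) : (hφ.rep hC).set (cEv m hC j) = XH.xc 3 0 j := by
  rw [cEv, hφ.set_setEv hC]
  ext x
  rw [XH.mem_xc]
  show letter x ∈ lset _ ↔ _
  rw [mem_lset, XH.xD_zero, XH.xQ_zero]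
  exact ⟨fun h => ⟨trivial, h⟩, fun h => h.2⟩

theorem set_StEv (s : Star) : (hφ.rep hC).set (StEv m hC s) = XH.xSt 3 0 s := by
  rw [StEv, hφ.set_setEv hC]
  ext x
  rw [XH.mem_xSt]
  show letter x ∈ lset _ ↔ _
  rw [mem_lset, XH.xD_zero, XH.xr_zero, ← star_val le_rfl x.s x.p.1 x.p.2]
  exact ⟨fun h => ⟨trivial, congrArg Subtype.val h⟩, fun h => Subtype.ext h.2⟩

variable [Centreless G]

theorem set_hc (k j : ℕ) :
    (hφ.rep hC).set (hc pZ qZ 3 (cEv m hC) (StEv m hC) k j) = XH.xc 3 k j := by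
  have h := (TBase.base m hC).map_hc (hφ.rep hC).ompHom (hφ.rep hC).ompHom_equiv k j
  rw [Rep.ompHom_apply] at h
  have e1 : (fun j => (hφ.rep hC).ompHom (cEv m hC j)) = XH.xc 3 0 :=
    funext fun j => set_cEv hC hφ j
  have e2 : (fun s => (hφ.rep hC).ompHom (StEv m hC s)) = XH.xSt 3 0 :=
    funext fun s => set_StEv hC hφ s
  rw [e1, e2] at h
  rw [← XH.hc_xc le_rfl k]
  exact h



/-- cells `c_j ∧ [A]` of level `k` -/
theorem set_cell' (k : ℕ) {j : ℕ} (hj : j < 3 * (3 + k)) (A : Set Star) :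
    (hφ.rep hC).set (hc pZ qZ 3 (cEv m hC) (StEv m hC) k j ⊓ₒ
      Romp.ev (hSt pZ qZ 3 (cEv m hC) (StEv m hC) k) A) = XH.xc 3 k j ⊓ₒ Romp.ev (XH.xSt 3 k) A := by
  have h := (TBase.base m hC).map_atom (hφ.rep hC).ompHom (hφ.rep hC).ompHom_equiv k hj A
  rw [Rep.ompHom_apply] at h
  have e1 : (fun j => (hφ.rep hC).ompHom (cEv m hC j)) = XH.xc 3 0 :=
    funext fun j => set_cEv hC hφ j
  have e2 : (fun s => (hφ.rep hC).ompHom (StEv m hC s)) = XH.xSt 3 0 :=
    funext fun s => set_StEv hC hφ s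
  rw [e1, e2] at h
  rw [← XH.hc_xc le_rfl k, ← XH.hSt_xSt le_rfl k]
  exact h


omit [Centreless G] in
/-- the letters are the level `0` atoms -/
theorem letterE_eq (x : Fin (3 * 3) × Star) :
    letterE (a := 3) (cEv m hC) (StEv m hC) x = m.letterEv hC x := by
  unfold letterE
  exact TBase.atom m hC x.1.2 x.2

/-- a point of an atom has the right letters on the window -/
theorem letter_of_mem (k : ℕ) (κ : Atom (3 * (3 + k))) {y : X}
    (hy : y ∈ (hφ.rep hC).set (atomE 3 (cEv m hC) (StEv m hC) k κ)) {v : ℤ × ℤ}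
    (hv : v ∈ κ.Win 3 k) : letter (v +ᵥ y) = (TBase.base m hC).ltr k κ v := by
  have h1 := (hφ.rep hC).set_mono ((TBase.base m hC).le_ltr k κ hv)
  rw [letterE_eq, hφ.set_letterEv, (hφ.rep hC).set_smul] at h1
  exact h1 (vadd_mem_set_smul.2 hy)

/-- an atom which is `≠ ⊥` occurs in `X` -/
theorem atom_nonempty (k : ℕ) (κ : Atom (3 * (3 + k)))
    (h : atomE 3 (cEv m hC) (StEv m hC) k κ ≠ ⊥) :
    ((hφ.rep hC).set (atomE 3 (cEv m hC) (StEv m hC) k κ)).Nonempty := by
  have hb := TBase.base m hC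
  unfold atomE at h ⊢
  cases κ with
  | F j =>
    show ((hφ.rep hC).set (hc pZ qZ 3 (cEv m hC) (StEv m hC) k j)).Nonempty
    rw [set_hc]
    exact XH.xc_nonempty le_rfl k j
  | P j L =>
    change hc pZ qZ 3 (cEv m hC) (StEv m hC) k j ⊓ₒ
      Romp.ev (hSt pZ qZ 3 (cEv m hC) (StEv m hC) k) {s | s.Pf = L} ≠ ⊥ at h
    show ((hφ.rep hC).set (hc pZ qZ 3 (cEv m hC) (StEv m hC) k j ⊓ₒ
      Romp.ev (hSt pZ qZ 3 (cEv m hC) (StEv m hC) k) {s | s.Pf = L})).Nonempty
    rw [set_cell' hC hφ k j.2]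
    exact XH.occ_transfer_ev hb k j.2 h
  | Q j L =>
    change hc pZ qZ 3 (cEv m hC) (StEv m hC) k j ⊓ₒ
      Romp.ev (hSt pZ qZ 3 (cEv m hC) (StEv m hC) k) {s | s.Qf = L} ≠ ⊥ at h
    show ((hφ.rep hC).set (hc pZ qZ 3 (cEv m hC) (StEv m hC) k j ⊓ₒ
      Romp.ev (hSt pZ qZ 3 (cEv m hC) (StEv m hC) k) {s | s.Qf = L})).Nonempty
    rw [set_cell' hC hφ k j.2]
    exact XH.occ_transfer_ev hb k j.2 h
  | V j s =>
    change hc pZ qZ 3 (cEv m hC) (StEv m hC) k j ⊓ₒ
      hSt pZ qZ 3 (cEv m hC) (StEv m hC) k s ≠ ⊥ at h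
    show ((hφ.rep hC).set (hc pZ qZ 3 (cEv m hC) (StEv m hC) k j ⊓ₒ
      hSt pZ qZ 3 (cEv m hC) (StEv m hC) k s)).Nonempty
    have e : hSt pZ qZ 3 (cEv m hC) (StEv m hC) k s =
        Romp.ev (hSt pZ qZ 3 (cEv m hC) (StEv m hC) k) {s} := (Romp.ev_singleton _).symm
    rw [e] at h ⊢
    rw [set_cell' hC hφ k j.2]
    exact XH.occ_transfer_ev hb k j.2 h

include hφ in
/-- **occurrence** (field `occ` of the window atlas) -/
theorem atom_occ (k : ℕ) (κ : Atom (3 * (3 + k))) :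
    atomE 3 (cEv m hC) (StEv m hC) k κ = ⊥ ∨
      ∃ y : X, ∀ v ∈ κ.Win 3 k, letter (v +ᵥ y) = (TBase.base m hC).ltr k κ v := by
  by_cases h : atomE 3 (cEv m hC) (StEv m hC) k κ = ⊥
  · exact Or.inl h
  · obtain ⟨y, hy⟩ := atom_nonempty hC hφ k κ h
    exact Or.inr ⟨y, fun v hv => letter_of_mem hC hφ k κ hy hv⟩

end AtomOcc

end Crest.Agent.R189
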