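import Mathlib

/-!
Row 189, helper516.  Finite generation of the kernel `K = ker (T → G)` from the flux data
`kap k w` (circulation number of the word `w` at level `k`): no explicit word of circulation one is
needed, an ultrafilter limit gives a homomorphism `R → ℤ` whose kernel has finite image in `K`.
-/

set_option autoImplicit false

namespace Crest.Agent.R189.KFin

open Filter

/-- Limit along the hyperfilter of a bounded sequence of integers. -/
theorem exists_ulim (f : ℕ → ℤ) (C : ℤ) (h : ∀ᶠ k in atTop, |f k| ≤ C) :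
    ∃ n : ℤ, ∀ᶠ k in (hyperfilter ℕ : Filter ℕ), f k = n := by
  have hU : (hyperfilter ℕ : Filter ℕ) ≤ atTop := by
    rw [← Nat.cofinite_eq_atTop]; exact hyperfilter_le_cofinite
  have h1 : ∀ᶠ k in (hyperfilter ℕ : Filter ℕ), |f k| ≤ C := hU h
  have h2 : (⋃ n ∈ (Finset.Icc (-C) C : Set ℤ), {k | f k = n}) ∈ (hyperfilter ℕ) := by
    refine Filter.mem_of_superset (Ultrafilter.mem_coe.1 h1) ?_
    intro k hk
    simp only [Set.mem_ofPred_eq] at hk
    have := abs_le.1 hk
    simp only [Set.mem_iUnion, Set.mem_ofPred_eq, exists_prop]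
    exact ⟨f k, by simpa using this, rfl⟩
  rw [Ultrafilter.finite_biUnion_mem_iff (Finset.finite_toSet _)] at h2
  obtain ⟨n, -, hn⟩ := h2
  exact ⟨n, hn⟩

/-- **Finite generation from the flux.**  `p : R → K` onto (`R` = words trivial in `G`, `K` the
kernel), `kap k w` integers which for large `k` are bounded and additive in `w`; if for every finite
set `S` of words, for all large `k`, vanishing of `kap k` on `S` bounds the number of classes of `S`
by an absolute constant `N`, then `K` is finitely generated. -/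
theorem fg_of_flux {R K : Type*} [Group R] [Group K] (p : R →* K)
    (hp : Function.Surjective p) (kap : ℕ → R → ℤ)
    (bdd : ∀ w, ∃ C : ℤ, ∀ᶠ k in atTop, |kap k w| ≤ C)
    (add : ∀ w w', ∀ᶠ k in atTop, kap k (w * w') = kap k w + kap k w') (N : ℕ)
    (cnt : ∀ S : Set R, S.Finite → ∀ᶠ k in atTop, (∀ w ∈ S, kap k w = 0) → (p '' S).ncard ≤ N) :
    Group.FG K := by
  classical
  have hU : (hyperfilter ℕ : Filter ℕ) ≤ atTop := by
    rw [← Nat.cofinite_eq_atTop]; exact hyperfilter_le_cofinite
  have hne : (hyperfilter ℕ : Filter ℕ).NeBot := inferInstance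
  choose C hC using bdd
  have hlim : ∀ w, ∃ n : ℤ, ∀ᶠ k in (hyperfilter ℕ : Filter ℕ), kap k w = n :=
    fun w => exists_ulim _ _ (hC w)
  choose L hL using hlim
  have hLadd : ∀ w w', L (w * w') = L w + L w' := by
    intro w w'
    obtain ⟨k, h1, h2, h3, h4⟩ :=
      ((hL (w * w')).and ((hL w).and ((hL w').and (hU (add w w'))))).exists
    rw [← h1, h4, h2, h3]
  let Lh : R →* Multiplicative ℤ :=
    { toFun := fun w => Multiplicative.ofAdd (L w)
      map_one' := by
        have := hLadd 1 1
        rw [mul_one] at this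
        have h0 : L 1 = 0 := by omega
        rw [h0]; rfl
      map_mul' := fun w w' => by rw [hLadd]; rfl }
  -- the image of the kernel is finite
  have hfin : (p '' (Lh.ker : Set R)).Finite := by
    by_contra hinf
    obtain ⟨A, hA, hAcard⟩ := (Set.Infinite.exists_subset_card_eq hinf (N + 1))
    -- choose preimages
    have : ∀ a ∈ A, ∃ w ∈ Lh.ker, p w = a := fun a ha => hA ha
    choose! g hg1 hg2 using this
    let S : Set R := g '' (A : Set K)
    have hSfin : S.Finite := (Finset.finite_toSet A).image g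
    have hS0 : ∀ᶠ k in (hyperfilter ℕ : Filter ℕ), ∀ w ∈ S, kap k w = 0 := by
      rw [eventually_all_finite hSfin]
      rintro _ ⟨a, ha, rfl⟩
      have h1 := hL (g a)
      have h2 : L (g a) = 0 := by
        have := hg1 a ha
        rw [MonoidHom.mem_ker] at this
        exact Multiplicative.ofAdd.injective this
      rw [h2] at h1
      exact h1
    obtain ⟨k, h1, h2⟩ := (hS0.and (hU (cnt S hSfin))).exists
    have h3 := h2 h1
    have h4 : p '' S = (A : Set K) := by
      ext a
      constructor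
      · rintro ⟨_, ⟨b, hb, rfl⟩, rfl⟩
        rw [hg2 b hb]; exact hb
      · intro ha
        exact ⟨g a, ⟨a, ha, rfl⟩, hg2 a ha⟩
    rw [h4, Set.ncard_coe_finset, hAcard] at h3
    omega
  -- a generator of the image
  obtain ⟨w0, hw0⟩ : ∃ w0 : R, ∀ w, ∃ j : ℤ, L w = j * L w0 := by
    have hcyc : IsCyclic Lh.range := inferInstance
    obtain ⟨⟨g, w0, hg⟩, hgen⟩ := hcyc.exists_generator
    refine ⟨w0, fun w => ?_⟩
    obtain ⟨j, hj⟩ := Subgroup.mem_zpowers_iff.1 (hgen ⟨Lh w, w, rfl⟩)
    refine ⟨j, ?_⟩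
    have h1 := congrArg Subtype.val hj
    simp only [SubgroupClass.coe_zpow] at h1
    rw [← hg] at h1
    have h2 := congrArg Multiplicative.toAdd h1
    rw [toAdd_zpow] at h2
    simpa [Lh, mul_comm] using h2.symm
  rw [Group.fg_iff]
  refine ⟨insert (p w0) (p '' (Lh.ker : Set R)), ?_, hfin.insert _⟩
  rw [eq_top_iff]
  intro y _
  obtain ⟨w, rfl⟩ := hp y
  obtain ⟨j, hj⟩ := hw0 w
  have hmem : w * w0 ^ (-j) ∈ Lh.ker := by
    rw [MonoidHom.mem_ker, map_mul, map_zpow]
    apply Multiplicative.toAdd.injective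
    rw [toAdd_mul, toAdd_zpow]
    simp only [Lh, MonoidHom.coe_mk, OneHom.coe_mk, toAdd_ofAdd, hj, toAdd_one, smul_eq_mul]
    ring
  have h1 : p w = p (w * w0 ^ (-j)) * (p w0) ^ j := by
    rw [← map_zpow, ← map_mul]
    congr 1
    group
  rw [h1]
  refine Subgroup.mul_mem _ (Subgroup.subset_closure (Set.mem_insert_of_mem _ ⟨_, hmem, rfl⟩)) ?_
  exact Subgroup.zpow_mem _ (Subgroup.subset_closure (Set.mem_insert _ _)) _


end Crest.Agent.R189.KFin
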