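import Crest.Agent.R189.Glue
import Crest.Agent.R189.XMatch
import Crest.Agent.R189.Asm
import Crest.Agent.R189.KFin

/-!
# Row 189 (S0289): finite presentability of `Gp` from the kernel of `T → Gp`   (helper926)

`qTL : TGrp MD Col →* Perm (X × Col)`.
* `fp_of_FG_ker`   : the kernel of `qTL` is finitely generated ⇒ `GG` is finitely presented.
* `fp_of_fin_ker`  : the kernel is finite.
* `fp_of_words`    : version with words (any surjection `tau : F →* T`), `KFin.fp_of_flux`.
* `S0289_of_...`   : the corresponding final statements.
-/

set_option autoImplicit false

namespace Crest.Agent.R189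

open Equiv Equiv.Perm Filter

/-- the concrete homomorphism `T → Perm (X × Col)` -/
noncomputable abbrev qTL : TGrp MD Col →* Perm (X × Col) := qT (C := Col) letter MD letter_match

/-- the concrete homomorphism `T → Gp` -/
noncomputable abbrev piTL : TGrp MD Col →* GG := (gpModel (C := Col) letter MD letter_match).lift

theorem piTL_surjective : Function.Surjective piTL :=
  (gpModel (C := Col) letter MD letter_match).lift_surjective

theorem ker_piTL : (piTL).ker = (qTL).ker := (ker_qT letter MD letter_match).symm

instance fpT : Group.IsFinitelyPresented (TGrp MD Col) := TGrp_fp MD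

theorem fp_of_FG_ker (h : Group.FG (qTL).ker) : Group.IsFinitelyPresented GG := by
  rw [← ker_piTL] at h
  exact Group.IsFinitelyPresented.of_surjective piTL piTL_surjective
    (Subgroup.IsFinitelyNormallyGenerated.of_FG (piTL).ker)



end Crest.Agent.R189
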