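import Crest.Agent.R189.GpGroup

/-!
Row 189 (S0289), helper474.  Multisections and the permutations of their pieces.

A multisection over `E : Set X` is `M : ι → V × C` such that the pieces
`{((M i).1 +ᵥ x, (M i).2) | x ∈ E}` are pairwise disjoint.  `tw h : Perm ι →* Perm (X × C)`
permutes the pieces.  If `E` is clopen and `σ` even then `tw h σ ∈ Gp` (`tw_mem_Gp`).
-/

set_option autoImplicit false
set_option linter.unusedSectionVars false

namespace Crest.Agent.R189

open Equiv
open scoped commutatorElement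

section Tower

variable {V X C ι : Type*} [AddCommGroup V] [AddAction V X]

/-- the pieces of the multisection `M` over `E` are pairwise disjoint -/
def MS (E : Set X) (M : ι → V × C) : Prop :=
  ∀ i j, i ≠ j → ∀ x ∈ E, ∀ y ∈ E, (M i).2 = (M j).2 → (M i).1 +ᵥ x ≠ (M j).1 +ᵥ y

/-- embedding `E × ι ↪ X × C` of a multisection -/
def emb {E : Set X} {M : ι → V × C} (h : MS E M) : E × ι ↪ X × C where
  toFun p := ((M p.2).1 +ᵥ (p.1 : X), (M p.2).2)
  inj' := by
    rintro ⟨⟨x, hx⟩, i⟩ ⟨⟨y, hy⟩, j⟩ hxy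
    simp only [Prod.mk.injEq] at hxy
    by_cases hij : i = j
    · subst hij
      have := (vadd_left_cancel_iff _).1 hxy.1
      subst this
      rfl
    · exact absurd hxy.1 (h i j hij x hx y hy hxy.2)


/-- permutations of the second factor -/
def permSnd (S ι : Type*) : Perm ι →* Perm (S × ι) where
  toFun σ := (Equiv.refl S).prodCongr σ
  map_one' := by ext ⟨x, c⟩ <;> rfl
  map_mul' s t := by ext ⟨x, c⟩ <;> rfl

@[simp] theorem permSnd_apply (S ι : Type*) (σ : Perm ι) (x : S) (i : ι) :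
    permSnd S ι σ (x, i) = (x, σ i) := rfl

/-- the tower homomorphism -/
noncomputable def tw {E : Set X} {M : ι → V × C} (h : MS E M) : Perm ι →* Perm (X × C) :=
  (Perm.viaEmbeddingHom (emb h)).comp (permSnd E ι)

variable {E : Set X} {M : ι → V × C}

theorem tw_apply (h : MS E M) (σ : Perm ι) {x : X} (hx : x ∈ E) (i : ι) :
    tw h σ ((M i).1 +ᵥ x, (M i).2) = ((M (σ i)).1 +ᵥ x, (M (σ i)).2) := by
  have := Perm.viaEmbedding_apply (permSnd E ι σ) (emb h) (⟨x, hx⟩, i)
  exact this

theorem tw_apply_of_notMem (h : MS E M) (σ : Perm ι) {p : X × C}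
    (hp : ∀ x ∈ E, ∀ i, p ≠ ((M i).1 +ᵥ x, (M i).2)) : tw h σ p = p := by
  refine Perm.viaEmbedding_apply_of_notMem (permSnd E ι σ) (emb h) p ?_
  rintro ⟨⟨⟨x, hx⟩, i⟩, rfl⟩
  exact hp x hx i rfl

theorem tw_eq_iff (h : MS E M) (σ : Perm ι) (g : Perm (X × C))
    (h1 : ∀ x ∈ E, ∀ i, g ((M i).1 +ᵥ x, (M i).2) = ((M (σ i)).1 +ᵥ x, (M (σ i)).2))
    (h2 : ∀ p : X × C, (∀ x ∈ E, ∀ i, p ≠ ((M i).1 +ᵥ x, (M i).2)) → g p = p) :
    tw h σ = g := by
  apply Equiv.ext
  intro p
  by_cases hp : ∀ x ∈ E, ∀ i, p ≠ ((M i).1 +ᵥ x, (M i).2)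
  · rw [tw_apply_of_notMem h σ hp, h2 p hp]
  · push Not at hp
    obtain ⟨x, hx, i, rfl⟩ := hp
    rw [tw_apply h σ hx, h1 x hx]

/-- conjugation of a tower permutation -/
theorem tw_conj (h : MS E M) {M' : ι → V × C} (h' : MS E M') (g : Perm (X × C))
    (hg : ∀ x ∈ E, ∀ i, g ((M i).1 +ᵥ x, (M i).2) = ((M' i).1 +ᵥ x, (M' i).2)) (σ : Perm ι) :
    g * tw h σ * g⁻¹ = tw h' σ := by
  symm
  apply tw_eq_iff
  · intro x hx i
    have : g⁻¹ ((M' i).1 +ᵥ x, (M' i).2) = ((M i).1 +ᵥ x, (M i).2) := by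
      rw [← hg x hx i, ← Perm.mul_apply, inv_mul_cancel, Perm.one_apply]
    rw [Perm.mul_apply, Perm.mul_apply, this, tw_apply h σ hx, hg x hx]
  · intro p hp
    rw [Perm.mul_apply, Perm.mul_apply, tw_apply_of_notMem h σ, ← Perm.mul_apply, mul_inv_cancel,
      Perm.one_apply]
    intro x hx i hpe
    apply hp x hx i
    rw [← hg x hx i, ← hpe, ← Perm.mul_apply, mul_inv_cancel, Perm.one_apply]

theorem MS.image (h : MS E M) {M' : ι → V × C} (g : Perm (X × C))
    (hg : ∀ x ∈ E, ∀ i, g ((M i).1 +ᵥ x, (M i).2) = ((M' i).1 +ᵥ x, (M' i).2)) : MS E M' := by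
  intro i j hij x hx y hy hc he
  have : g ((M i).1 +ᵥ x, (M i).2) = g ((M j).1 +ᵥ y, (M j).2) := by
    rw [hg x hx, hg y hy, he, hc]
  have h2 := g.injective this
  simp only [Prod.mk.injEq] at h2
  exact h i j hij x hx y hy h2.2 h2.1

/-- restriction of the index set -/
theorem MS.comp (h : MS E M) {κ : Type*} (e : κ ↪ ι) : MS E (M ∘ e) :=
  fun i j hij x hx y hy hc => h (e i) (e j) (fun h => hij (e.injective h)) x hx y hy hc

theorem MS.mono (h : MS E M) {F : Set X} (hF : F ⊆ E) : MS F M :=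
  fun i j hij x hx y hy hc => h i j hij x (hF hx) y (hF hy) hc

theorem tw_viaEmbedding (h : MS E M) {κ : Type*} (e : κ ↪ ι) (σ : Perm κ) :
    tw h (σ.viaEmbedding e) = tw (h.comp e) σ := by
  symm
  apply tw_eq_iff
  · intro x hx i
    have := tw_apply h (σ.viaEmbedding e) hx (e i)
    rw [Perm.viaEmbedding_apply] at this
    exact this
  · intro p hp
    by_cases hp' : ∀ x ∈ E, ∀ i, p ≠ ((M i).1 +ᵥ x, (M i).2)
    · exact tw_apply_of_notMem h _ hp'
    · push Not at hp'
      obtain ⟨x, hx, i, rfl⟩ := hp'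
      have : i ∉ Set.range e := by
        rintro ⟨k, rfl⟩
        exact hp x hx k rfl
      rw [tw_apply h _ hx, Perm.viaEmbedding_apply_of_notMem _ _ _ this]

/-- the multisection of unshifted colours: the tower is the event -/
theorem MS.colors {κ : Type*} (c : κ ↪ C) (E : Set X) :
    MS E (fun i => ((0 : V), c i)) :=
  fun i j hij _ _ _ _ hc => absurd (c.injective hc) hij

theorem tw_colors {κ : Type*} (c : κ ↪ C) (E : Set X) (σ : Perm κ) :
    tw (MS.colors (V := V) c E) σ = ev E (σ.viaEmbedding c) := by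
  apply tw_eq_iff
  · intro x hx i
    simp only [zero_vadd]
    rw [ev_apply_mem hx, Perm.viaEmbedding_apply]
  · rintro ⟨x, d⟩ hp
    by_cases hx : x ∈ E
    · rw [ev_apply_mem hx, Perm.viaEmbedding_apply_of_notMem]
      rintro ⟨k, rfl⟩
      exact hp x hx k (by simp)
    · rw [ev_apply_notMem hx]


/-- support statement: `tw h σ` fixes everything outside the pieces moved by `σ` -/
theorem tw_apply_ne {h : MS E M} {σ : Perm ι} {p : X × C} (hp : tw h σ p ≠ p) :
    ∃ x ∈ E, ∃ i, σ i ≠ i ∧ p = ((M i).1 +ᵥ x, (M i).2) := by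
  by_contra hcon
  push Not at hcon
  apply hp
  by_cases hp' : ∀ x ∈ E, ∀ i, p ≠ ((M i).1 +ᵥ x, (M i).2)
  · exact tw_apply_of_notMem h _ hp'
  · push Not at hp'
    obtain ⟨x, hx, i, rfl⟩ := hp'
    rw [tw_apply h _ hx]
    by_cases hi : σ i = i
    · rw [hi]
    · exact absurd rfl (hcon x hx i hi)

end Tower

/-! ### three-cycles as embedded `finRotate 3` -/

theorem exists_embedding_of_isThreeCycle {α : Type*} [Fintype α] [DecidableEq α] {σ : Perm α}
    (hσ : σ.IsThreeCycle) : ∃ e : Fin 3 ↪ α, σ = (finRotate 3).viaEmbedding e := by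
  have hne : σ.support.Nonempty := by
    rw [← Finset.card_pos, hσ.card_support]
    norm_num
  obtain ⟨a, ha⟩ := hne
  have hnd := hσ.nodup_iff_mem_support.2 ha
  have hsup := hσ.support_eq_iff_mem_support.2 ha
  have h3 : σ (σ (σ a)) = a := by
    have h := hσ.orderOf
    have h' : σ ^ 3 = 1 := by rw [← h]; exact pow_orderOf_eq_one σ
    have := congrArg (fun τ : Perm α => τ a) h'
    simpa [pow_succ, Perm.mul_apply] using this
  simp only [List.nodup_cons, List.mem_cons, List.not_mem_nil, or_false, not_or,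
    List.nodup_nil, and_true, not_false_eq_true] at hnd
  obtain ⟨⟨h01, h02⟩, h12⟩ := hnd
  let f : Fin 3 → α := ![a, σ a, σ (σ a)]
  have hf : Function.Injective f := by
    intro i j hij
    fin_cases i <;> fin_cases j <;> simp [f] at hij ⊢ <;>
      first
        | exact absurd hij h01
        | exact absurd hij h02
        | exact absurd hij h12
        | exact absurd hij.symm h01
        | exact absurd hij.symm h02
        | exact absurd hij.symm h12
  refine ⟨⟨f, hf⟩, ?_⟩
  apply Equiv.ext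
  intro x
  by_cases hx : x ∈ Set.range f
  · obtain ⟨i, rfl⟩ := hx
    have := Perm.viaEmbedding_apply (finRotate 3) ⟨f, hf⟩ i
    simp only [Function.Embedding.coeFn_mk] at this
    rw [this]
    fin_cases i
    · rfl
    · rfl
    · exact h3
  · rw [Perm.viaEmbedding_apply_of_notMem _ _ _ hx]
    by_contra hne
    have : x ∈ σ.support := by simpa using hne
    rw [hsup] at this
    simp only [Finset.mem_insert, Finset.mem_singleton] at this
    apply hx
    rcases this with h | h | h
    · exact ⟨0, h.symm⟩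
    · exact ⟨1, h.symm⟩
    · exact ⟨2, h.symm⟩

theorem viaEmbedding_finRotate_mem {α : Type*} [Fintype α] [DecidableEq α] (e : Fin 3 ↪ α) :
    (finRotate 3).viaEmbedding e ∈ alternatingGroup α := by
  classical
  rw [Perm.mem_alternatingGroup, Perm.viaEmbedding, Perm.sign_extendDomain]
  decide

section Mem

variable {V X A C : Type*} [AddCommGroup V] [AddAction V X] [Fintype C] [DecidableEq C]
  {letter : X → A}

/-- Step A: three pieces of pairwise distinct colours. -/
theorem tw_three_distinct [Finite A] (hC : 5 ≤ Fintype.card C) {E : Set X}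
    (hE : Clo V letter E) {M : Fin 3 → V × C} (h : MS E M)
    (hM : Function.Injective (fun i => (M i).2)) :
    tw h (finRotate 3) ∈ Gp V letter C := by
  classical
  let c : Fin 3 ↪ C := ⟨fun i => (M i).2, hM⟩
  obtain ⟨d, hd⟩ := exists_notMem_of_card_lt (S := Finset.univ.map c)
    (by rw [Finset.card_map, Finset.card_univ, Fintype.card_fin]; omega)
  have hd' : ∀ i, (M i).2 ≠ d := fun i hi => hd (by
    rw [Finset.mem_map]; exact ⟨i, Finset.mem_univ _, hi⟩)
  -- the displacement
  let lam : C → V := fun a => (∑ i, if (M i).2 = a then (M i).1 else 0) -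
    (if a = d then ∑ i, (M i).1 else 0)
  have hlam : ∑ a, lam a = 0 := by
    simp only [lam, Finset.sum_sub_distrib, Finset.sum_ite_eq', Finset.mem_univ, if_true]
    rw [Finset.sum_comm]
    simp
  have hlam' : ∀ i, lam (M i).2 = (M i).1 := by
    intro i
    have h1 : ∀ j, (M j).2 = (M i).2 ↔ j = i := fun j =>
      ⟨fun h => hM h, fun h => by rw [h]⟩
    simp [lam, h1, hd' i]
  have key := tw_conj (MS.colors (V := V) c E) h (H lam) (by
    intro x _ i
    simp only [zero_vadd, H_apply, c, Function.Embedding.coeFn_mk]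
    rw [hlam' i]) (finRotate 3)
  rw [← key, tw_colors]
  exact Gp_conj_H lam hlam _ (EvIn_Gp hC hE _ (viaEmbedding_finRotate_mem c))

/-- recolouring one piece -/
theorem recolor [Finite A] (hC : 5 ≤ Fintype.card C) {E : Set X}
    (hE : Clo V letter E) {M : Fin 3 → V × C} (h : MS E M) (i : Fin 3) :
    ∃ g ∈ Gp V letter C, ∃ f : C, (∀ j, (M j).2 ≠ f) ∧
      ∀ x ∈ E, ∀ j, g ((M j).1 +ᵥ x, (M j).2) =
        ((Function.update M i ((M i).1, f) j).1 +ᵥ x, (Function.update M i ((M i).1, f) j).2) := by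
  classical
  obtain ⟨f, hf⟩ := exists_notMem_of_card_lt (S := Finset.univ.image (fun j => (M j).2))
    (lt_of_le_of_lt Finset.card_image_le (by simp; omega))
  obtain ⟨f', hf'⟩ := exists_notMem_of_card_lt
    (S := insert f (Finset.univ.image (fun j => (M j).2)))
    (lt_of_le_of_lt ((Finset.card_insert_le _ _).trans
      (Nat.add_le_add_right Finset.card_image_le 1)) (by simp; omega))
  have hf1 : ∀ j, (M j).2 ≠ f := fun j hj => hf (by
    rw [Finset.mem_image]; exact ⟨j, Finset.mem_univ _, hj⟩)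
  have hf2 : ∀ j, (M j).2 ≠ f' := fun j hj => hf' (by
    rw [Finset.mem_insert, Finset.mem_image]; exact Or.inr ⟨j, Finset.mem_univ _, hj⟩)
  have hf3 : f' ≠ f := fun h => hf' (by rw [h]; exact Finset.mem_insert_self _ _)
  let s : Perm C := swap (M i).2 f * swap (M i).2 f'
  have hs3 : s.IsThreeCycle :=
    Perm.isThreeCycle_swap_mul_swap_same (hf1 i) (hf2 i) hf3.symm
  have hsi : s⁻¹ (M i).2 = f := by
    have : s f = (M i).2 := by
      simp only [s, Perm.mul_apply]
      rw [swap_apply_of_ne_of_ne (hf1 i).symm hf3.symm, swap_apply_right]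
    rw [← this, ← Perm.mul_apply, inv_mul_cancel, Perm.one_apply]
  have hsj : ∀ j, (M j).2 ≠ (M i).2 → s⁻¹ (M j).2 = (M j).2 := by
    intro j hj
    have : s (M j).2 = (M j).2 := by
      simp only [s, Perm.mul_apply]
      rw [swap_apply_of_ne_of_ne hj (hf2 j), swap_apply_of_ne_of_ne hj (hf1 j)]
    conv_lhs => rw [← this]
    rw [← Perm.mul_apply, inv_mul_cancel, Perm.one_apply]
  have hcl : Clo V letter {x | -(M i).1 +ᵥ x ∈ E} := hE.preimage _
  refine ⟨ev {x | -(M i).1 +ᵥ x ∈ E} s⁻¹, EvIn_Gp hC hcl _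
    (Subgroup.inv_mem _ hs3.mem_alternatingGroup), f, hf1, ?_⟩
  intro x hx j
  by_cases hji : j = i
  · subst hji
    rw [Function.update_self, ev_apply_mem (by
      show -(M j).1 +ᵥ ((M j).1 +ᵥ x) ∈ E
      rwa [neg_vadd_vadd]), hsi]
  · rw [Function.update_of_ne hji]
    by_cases hcol : (M j).2 = (M i).2
    · rw [ev_apply_notMem]
      intro hmem
      have hmem' : -(M i).1 +ᵥ ((M j).1 +ᵥ x) ∈ E := hmem
      have := h i j (Ne.symm hji) _ hmem' x hx hcol.symm
      apply this
      rw [vadd_neg_vadd]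
    · by_cases hmem : (M j).1 +ᵥ x ∈ {x | -(M i).1 +ᵥ x ∈ E}
      · rw [ev_apply_mem hmem, hsj j hcol]
      · rw [ev_apply_notMem hmem]

theorem tw_three [Finite A] (hC : 5 ≤ Fintype.card C) {E : Set X}
    (hE : Clo V letter E) {M : Fin 3 → V × C} (h : MS E M) :
    tw h (finRotate 3) ∈ Gp V letter C := by
  obtain ⟨g, hg, f, hf, hgM⟩ := recolor hC hE h 0
  have h1 := h.image g hgM
  obtain ⟨g', hg', f', hf', hgM'⟩ := recolor hC hE h1 1
  have h2 := h1.image g' hgM'
  have hinj : Function.Injective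
      (fun i => (Function.update (Function.update M 0 ((M 0).1, f)) 1
        ((Function.update M 0 ((M 0).1, f) 1).1, f') i).2) := by
    have e0 := hf' 0
    have e1 := hf' 1
    have e2 := hf' 2
    have g2 := hf 2
    intro i j hij
    fin_cases i <;> fin_cases j <;> simp [Function.update] at hij e0 e1 e2 ⊢ <;>
      first
        | exact absurd hij e0
        | exact absurd hij.symm e0
        | exact absurd hij e2
        | exact absurd hij.symm e2
        | exact absurd hij g2
        | exact absurd hij.symm g2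
  have key := tw_three_distinct hC hE h2 hinj
  have c1 := tw_conj h h1 g hgM (finRotate 3)
  have c2 := tw_conj h1 h2 g' hgM' (finRotate 3)
  rw [← c2, ← c1] at key
  have e : tw h (finRotate 3) = g⁻¹ * (g'⁻¹ * (g' * (g * tw h (finRotate 3) * g⁻¹) * g'⁻¹) * g') *
      g := by group
  rw [e]
  exact Subgroup.mul_mem _ (Subgroup.mul_mem _ (Subgroup.inv_mem _ hg)
    (Subgroup.mul_mem _ (Subgroup.mul_mem _ (Subgroup.inv_mem _ hg') key) hg')) hg

/-- Even permutations of the pieces of a clopen multisection are in the group. -/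
theorem tw_mem_Gp [Finite A] (hC : 5 ≤ Fintype.card C) {E : Set X} (hE : Clo V letter E)
    {ι : Type*} [Fintype ι] [DecidableEq ι] {M : ι → V × C} (h : MS E M) :
    ∀ σ ∈ alternatingGroup ι, tw h σ ∈ Gp V letter C := by
  have : alternatingGroup ι ≤ (Gp V letter C).comap (tw h) := by
    apply alt_le_of_three_cycles
    intro σ hσ
    obtain ⟨e, rfl⟩ := exists_embedding_of_isThreeCycle hσ
    rw [Subgroup.mem_comap, tw_viaEmbedding]
    exact tw_three hC hE _
  exact fun σ hσ => this hσ

end Mem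

end Crest.Agent.R189
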