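import Crest.Agent.R189.KDefs

/-!
Row 189, kernel part F (helper6): the uniform layer of a generator `(z, lam)` over a zone `F`.

`lay z lam F : (v + lam c, c) ↦ (v + lam (z c), z c)` for `v ∈ F`, identity elsewhere.
-/

set_option autoImplicit false

namespace Crest.Agent.R189.K

open Equiv Equiv.Perm

variable {C : Type*}

open Classical in
/-- the uniform layer of the generator `(z, lam)` over the zone `F`:
`(v + lam c, c) ↦ (v + lam (z c), z c)` for `v ∈ F`, identity elsewhere. -/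
noncomputable def lay (z : Perm C) (lam : C → ℤ × ℤ) (F : Set (ℤ × ℤ)) : Perm (Om C) where
  toFun q := if q.1 - lam q.2 ∈ F then (q.1 - lam q.2 + lam (z q.2), z q.2) else q
  invFun q := if q.1 - lam q.2 ∈ F then (q.1 - lam q.2 + lam (z.symm q.2), z.symm q.2) else q
  left_inv q := by
    by_cases h : q.1 - lam q.2 ∈ F
    · simp [h]
    · simp [h]
  right_inv q := by
    by_cases h : q.1 - lam q.2 ∈ F
    · simp [h]
    · simp [h]

theorem lay_mem {z : Perm C} {lam : C → ℤ × ℤ} {F : Set (ℤ × ℤ)} {p : ℤ × ℤ} {c : C}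
    (h : p - lam c ∈ F) : lay z lam F (p, c) = (p - lam c + lam (z c), z c) := by
  simp [lay, h]

theorem lay_not_mem {z : Perm C} {lam : C → ℤ × ℤ} {F : Set (ℤ × ℤ)} {p : ℤ × ℤ} {c : C}
    (h : p - lam c ∉ F) : lay z lam F (p, c) = (p, c) := by
  simp [lay, h]


theorem lay_fix {z : Perm C} {lam : C → ℤ × ℤ} {F : Set (ℤ × ℤ)} {p : ℤ × ℤ} {c : C}
    (h : z c = c) : lay z lam F (p, c) = (p, c) := by
  by_cases hm : p - lam c ∈ F
  · rw [lay_mem hm, h]; simp
  · exact lay_not_mem hm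

theorem lay_inv (z : Perm C) (lam : C → ℤ × ℤ) (F : Set (ℤ × ℤ)) :
    (lay z lam F)⁻¹ = lay z⁻¹ lam F := by
  ext1 q
  rfl

@[simp] theorem lay_empty (z : Perm C) (lam : C → ℤ × ℤ) : lay z lam ∅ = 1 := by
  ext1 ⟨p, c⟩
  rw [lay_not_mem (Set.notMem_empty _)]; rfl

@[simp] theorem lay_one (lam : C → ℤ × ℤ) (F : Set (ℤ × ℤ)) : lay 1 lam F = 1 := by
  ext1 ⟨p, c⟩
  rw [lay_fix rfl]; rfl

theorem lay_mul (z z' : Perm C) (lam : C → ℤ × ℤ) (F : Set (ℤ × ℤ)) :
    lay (z * z') lam F = lay z lam F * lay z' lam F := by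
  ext1 ⟨p, c⟩
  by_cases h : p - lam c ∈ F
  · rw [lay_mem h, Perm.mul_apply (lay z lam F), lay_mem h, lay_mem (by simpa using h)]
    simp
  · rw [lay_not_mem h, Perm.mul_apply (lay z lam F), lay_not_mem h, lay_not_mem h]

/-- layers of the same generator over disjoint zones multiply to the layer over the union. -/
theorem lay_union (z : Perm C) (lam : C → ℤ × ℤ) {F G : Set (ℤ × ℤ)} (h : Disjoint F G) :
    lay z lam (F ∪ G) = lay z lam F * lay z lam G := by
  ext1 ⟨p, c⟩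
  rw [Perm.mul_apply]
  by_cases hG : p - lam c ∈ G
  · have hF : p - lam c ∉ F := fun hF => Set.disjoint_left.1 h hF hG
    rw [lay_mem (Or.inr hG), lay_mem hG, lay_not_mem (by simpa using hF)]
  · rw [lay_not_mem hG]
    by_cases hF : p - lam c ∈ F
    · rw [lay_mem (Or.inl hF), lay_mem hF]
    · rw [lay_not_mem (fun h => h.elim hF hG), lay_not_mem hF]


/-- displacement of a layer. -/
theorem lay_disp {z : Perm C} {lam : C → ℤ × ℤ} {F : Set (ℤ × ℤ)} {n : ℤ} (hn : 0 ≤ n)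
    (h : ∀ c, z c ≠ c → |(lam (z c) - lam c).1| ≤ n ∧ |(lam (z c) - lam c).2| ≤ n) (q : Om C) :
    |((lay z lam F q).1 - q.1).1| ≤ n ∧ |((lay z lam F q).1 - q.1).2| ≤ n := by
  obtain ⟨p, c⟩ := q
  by_cases hc : z c = c
  · rw [lay_fix hc]; simpa using hn
  · by_cases hm : p - lam c ∈ F
    · rw [lay_mem hm]
      have e : p - lam c + lam (z c) - p = lam (z c) - lam c := by abel
      simpa [e] using h c hc
    · rw [lay_not_mem hm]; simpa using hn


/-- a moved cell of a layer is `(v + lam c, c)` with `v ∈ F` and `z c ≠ c`. -/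
theorem lay_ne {z : Perm C} {lam : C → ℤ × ℤ} {F : Set (ℤ × ℤ)} {p : ℤ × ℤ} {c : C}
    (h : lay z lam F (p, c) ≠ (p, c)) : p - lam c ∈ F ∧ z c ≠ c :=
  ⟨by_contra fun hm => h (lay_not_mem hm), fun hc => h (lay_fix hc)⟩

end Crest.Agent.R189.K
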