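import Mathlib
import Crest.Agent.R189.KLay
import Crest.Agent.R189.GpTower

-- ▼ part R189/KZone
section

/-!
# Row 189, part F (F1): zones of a cell `[0,w) × [0,h)` (helper781)

`ZF w h rs rt` (face), `ZP`, `ZQ` (edges), `ZV` (corner): they tile `ℤ²` modulo `wℤ × hℤ`.
`far w r x` / `near w r x`: distance of `x` to `wℤ` is `≥ r` / `< r`.
-/

set_option autoImplicit false

namespace Crest.Agent.R189.K

/-- distance of `x` to `wℤ` is at least `r` -/
def far (w r x : ℤ) : Prop := ∀ k : ℤ, r ≤ |x - w * k|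

/-- distance of `x` to `wℤ` is less than `r` -/
def near (w r x : ℤ) : Prop := ∃ k : ℤ, |x - w * k| < r

theorem not_far_of_near {w r r' x : ℤ} (h : near w r x) (hr : r ≤ r') : ¬ far w r' x := by
  obtain ⟨k, hk⟩ := h
  intro hf
  have := hf k
  omega

theorem far.add {w r x : ℤ} (h : far w r x) {a : ℤ} (ha : |a| ≤ 1) : far w (r - 1) (x + a) := by
  intro k
  have h1 := h k
  have h2 := abs_sub_abs_le_abs_sub (x - w * k) (-a)
  have h3 : x + a - w * k = (x - w * k) - (-a) := by ring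
  rw [h3]
  rw [abs_neg] at h2
  omega

theorem near.add {w r x : ℤ} (h : near w r x) {a : ℤ} (ha : |a| ≤ 1) : near w (r + 1) (x + a) := by
  obtain ⟨k, hk⟩ := h
  refine ⟨k, ?_⟩
  have h3 : x + a - w * k = (x - w * k) + a := by ring
  have h2 := abs_add_le (x - w * k) a
  rw [h3]
  omega

theorem far.congr {w r x x' : ℤ} (h : far w r x) (hd : w ∣ x - x') : far w r x' := by
  obtain ⟨m, hm⟩ := hd
  intro k
  have := h (k + m)
  have e : x - w * (k + m) = x' - w * k := by linarith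
  rwa [e] at this

theorem near.congr {w r x x' : ℤ} (h : near w r x) (hd : w ∣ x - x') : near w r x' := by
  obtain ⟨m, hm⟩ := hd
  obtain ⟨k, hk⟩ := h
  refine ⟨k - m, ?_⟩
  have e : x' - w * (k - m) = x - w * k := by linarith
  rwa [e]

theorem far.mono {w r r' x : ℤ} (h : far w r x) (hr : r' ≤ r) : far w r' x :=
  fun k => hr.trans (h k)

theorem near.mono {w r r' x : ℤ} (h : near w r x) (hr : r ≤ r') : near w r' x := by
  obtain ⟨k, hk⟩ := h
  exact ⟨k, lt_of_lt_of_le hk hr⟩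

theorem far_of_mem {w r x : ℤ} (hw : 0 < w) (h1 : r ≤ x) (h2 : x ≤ w - r) (h0 : 0 ≤ x)
    (h3 : x ≤ w) : far w r x := by
  intro k
  rcases le_or_gt k 0 with hk | hk
  · have : w * k ≤ 0 := mul_nonpos_of_nonneg_of_nonpos hw.le hk
    rw [abs_of_nonneg (by linarith)]
    linarith
  · have : w * 1 ≤ w * k := mul_le_mul_of_nonneg_left (by omega) hw.le
    rw [abs_of_nonpos (by linarith)]
    linarith

theorem near_of_mem {w r x : ℤ} (h1 : -r < x) (h2 : x < r) : near w r x :=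
  ⟨0, by rw [mul_zero, sub_zero, abs_lt]; exact ⟨h1, h2⟩⟩

/-- face zone -/
def ZF (w h rs rt : ℤ) : Set (ℤ × ℤ) :=
  {v | rs ≤ v.1 ∧ v.1 ≤ w - rs ∧ rs ≤ v.2 ∧ v.2 ≤ h - rs ∧
    ((rt ≤ v.1 ∧ v.1 ≤ w - rt) ∨ (rt ≤ v.2 ∧ v.2 ≤ h - rt))}

/-- P edge zone (around the left side of the cell) -/
def ZP (h rs rt : ℤ) : Set (ℤ × ℤ) :=
  {v | -rs < v.1 ∧ v.1 < rs ∧ rt ≤ v.2 ∧ v.2 ≤ h - rt}

/-- Q edge zone (around the bottom side of the cell) -/
def ZQ (w rs rt : ℤ) : Set (ℤ × ℤ) :=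
  {v | rt ≤ v.1 ∧ v.1 ≤ w - rt ∧ -rs < v.2 ∧ v.2 < rs}

/-- corner zone -/
def ZV (rt : ℤ) : Set (ℤ × ℤ) :=
  {v | -rt < v.1 ∧ v.1 < rt ∧ -rt < v.2 ∧ v.2 < rt}

section

variable {w h rs rt : ℤ}

theorem ZF_far (hw : 0 < w) (hh : 0 < h) (h0 : 0 ≤ rs) (hr : rs ≤ rt) {v : ℤ × ℤ}
    (hv : v ∈ ZF w h rs rt) :
    far w rs v.1 ∧ far h rs v.2 ∧ (far w rt v.1 ∨ far h rt v.2) := by
  obtain ⟨h1, h2, h3, h4, h5⟩ := hv
  refine ⟨far_of_mem hw h1 h2 (by omega) (by omega), far_of_mem hh h3 h4 (by omega) (by omega), ?_⟩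
  rcases h5 with ⟨h5, h6⟩ | ⟨h5, h6⟩
  · exact Or.inl (far_of_mem hw h5 h6 (by omega) (by omega))
  · exact Or.inr (far_of_mem hh h5 h6 (by omega) (by omega))

theorem ZP_far (hh : 0 < h) (h0 : 0 ≤ rt) {v : ℤ × ℤ} (hv : v ∈ ZP h rs rt) (w : ℤ) :
    near w rs v.1 ∧ far h rt v.2 := by
  obtain ⟨h1, h2, h3, h4⟩ := hv
  exact ⟨near_of_mem h1 h2, far_of_mem hh h3 h4 (by omega) (by omega)⟩

theorem ZQ_far (hw : 0 < w) (h0 : 0 ≤ rt) {v : ℤ × ℤ} (hv : v ∈ ZQ w rs rt) (h : ℤ) :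
    far w rt v.1 ∧ near h rs v.2 := by
  obtain ⟨h1, h2, h3, h4⟩ := hv
  exact ⟨far_of_mem hw h1 h2 (by omega) (by omega), near_of_mem h3 h4⟩

theorem ZV_near {v : ℤ × ℤ} (hv : v ∈ ZV rt) (w h : ℤ) :
    near w rt v.1 ∧ near h rt v.2 := by
  obtain ⟨h1, h2, h3, h4⟩ := hv
  exact ⟨near_of_mem h1 h2, near_of_mem h3 h4⟩

/-- the zones cover `[0,w) × [0,h)` modulo the lattice -/
theorem zone_cover (hr : rs ≤ rt) {v : ℤ × ℤ} (h1 : 0 ≤ v.1) (h2 : v.1 < w)
    (h3 : 0 ≤ v.2) (h4 : v.2 < h) (h0 : 0 < rs) :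
    v ∈ ZF w h rs rt ∨ (v ∈ ZP h rs rt ∨ v - (w, 0) ∈ ZP h rs rt) ∨
      (v ∈ ZQ w rs rt ∨ v - (0, h) ∈ ZQ w rs rt) ∨
      (v ∈ ZV rt ∨ v - (w, 0) ∈ ZV rt ∨ v - (0, h) ∈ ZV rt ∨ v - (w, h) ∈ ZV rt) := by
  obtain ⟨x, y⟩ := v
  simp only [ZF, ZP, ZQ, ZV, Set.mem_ofPred_eq, Prod.mk_sub_mk] at *
  omega

end

end Crest.Agent.R189.K
end

-- ▼ part R189/KGenReal

/-!
# Row 189, part F (F1, real level): a generator is the product of its four zone parts (helper781)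

`greal letter z lam E = H lam * ev {x | letter x ∈ E} z * (H lam)⁻¹`.
`gpart`: the same with the event restricted to `Z + D`.
-/

set_option autoImplicit false
set_option linter.unusedSectionVars false

namespace Crest.Agent.R189.K

open Equiv Equiv.Perm

section lay

variable {C : Type*} [Fintype C] [DecidableEq C]

theorem lay_mem_PermOn {z : Perm C} {lam : C → ℤ × ℤ} {F : Set (ℤ × ℤ)} {W : Finset (ℤ × ℤ)}
    (hF : ∀ v ∈ F, ∀ c, v + lam c ∈ W) : lay z lam F ∈ PermOn (win C W) := by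
  rintro ⟨p, c⟩ hp
  apply lay_not_mem
  intro h
  apply hp
  have := hF _ h c
  rw [mem_win]
  simpa using this

/-- the sign of a layer, as a homomorphism -/
noncomputable def laySgn (lam : C → ℤ × ℤ) (F : Set (ℤ × ℤ)) (W : Finset (ℤ × ℤ))
    (hF : ∀ v ∈ F, ∀ c, v + lam c ∈ W) : alternatingGroup C →* ℤˣ where
  toFun z := sgn (lay (z : Perm C) lam F)
  map_one' := by rw [Subgroup.coe_one, lay_one, sgn_one]
  map_mul' a b := by
    rw [Subgroup.coe_mul, lay_mul]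
    exact sgn_mul_on (lay_mem_PermOn hF) (lay_mem_PermOn hF)

/-- even layers -/
theorem lay_mem_AltOn (hC : 5 ≤ Fintype.card C) {z : Perm C} (hz : z ∈ alternatingGroup C)
    {lam : C → ℤ × ℤ} {F : Set (ℤ × ℤ)} {W : Finset (ℤ × ℤ)}
    (hF : ∀ v ∈ F, ∀ c, v + lam c ∈ W) : lay z lam F ∈ AltOn (win C W) := by
  rw [mem_AltOn]
  refine ⟨lay_mem_PermOn hF, ?_⟩
  have h5 : commutator (alternatingGroup C) = ⊤ := by
    apply commutator_alternatingGroup_eq_top
    rw [Nat.card_eq_fintype_card]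
    exact hC
  have hφ := Abelianization.commutator_subset_ker (laySgn lam F W hF)
  rw [h5] at hφ
  have h6 : laySgn lam F W hF ⟨z, hz⟩ = 1 := MonoidHom.mem_ker.1 (hφ (Subgroup.mem_top _))
  exact h6

end lay

section real

variable {X A C ι : Type*} [AddAction (ℤ × ℤ) X] [Fintype C] [DecidableEq C]

/-- the union of the translates `v + D`, `v ∈ Z` -/
def zoneSet (D : Set X) (Z : Set (ℤ × ℤ)) : Set X := {x | ∃ v ∈ Z, ∃ y ∈ D, x = v +ᵥ y}

/-- the generator `(E, z, lam)` in `Perm (X × C)` -/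
noncomputable def gev (E : Set X) (z : Perm C) (lam : C → ℤ × ℤ) : Perm (X × C) :=
  H lam * ev E z * (H lam)⁻¹

theorem vadd_shift {l v' : ℤ × ℤ} {x y' : X} (h : -l +ᵥ x = v' +ᵥ y') : x = (v' + l) +ᵥ y' := by
  have h1 : l +ᵥ (-l +ᵥ x) = l +ᵥ (v' +ᵥ y') := by rw [h]
  rw [vadd_neg_vadd, vadd_vadd, add_comm l v'] at h1
  exact h1

theorem gev_apply_mem {E : Set X} {z : Perm C} {lam : C → ℤ × ℤ} {x : X} {c : C}
    (h : -lam c +ᵥ x ∈ E) : gev E z lam (x, c) = (lam (z c) +ᵥ (-lam c +ᵥ x), z c) := by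
  rw [gev, Perm.mul_apply, Perm.mul_apply, H_inv_apply, ev_apply_mem h, H_apply]

theorem gev_apply_notMem {E : Set X} {z : Perm C} {lam : C → ℤ × ℤ} {x : X} {c : C}
    (h : -lam c +ᵥ x ∉ E) : gev E z lam (x, c) = (x, c) := by
  rw [gev, Perm.mul_apply, Perm.mul_apply, H_inv_apply, ev_apply_notMem h, H_apply]
  simp



theorem gev_union {E F : Set X} (h : Disjoint E F) (z : Perm C) (lam : C → ℤ × ℤ) :
    gev (E ∪ F) z lam = gev E z lam * gev F z lam := by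
  simp only [gev, ev_union h]; group

theorem gev_disjoint_commute {E F : Set X} (h : Disjoint E F) (z z' : Perm C)
    (lam : C → ℤ × ℤ) : Commute (gev E z lam) (gev F z' lam) := by
  have := ev_disjoint_commute h z z'
  unfold gev Commute SemiconjBy
  have e := this.eq
  calc _ = H lam * (ev E z * ev F z') * (H lam)⁻¹ := by group
    _ = H lam * (ev F z' * ev E z) * (H lam)⁻¹ := by rw [e]
    _ = _ := by group

/-- commutation from disjointness of the displaced supports -/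
theorem gev_commute {E F : Set X} {z z' : Perm C} {lam mu : C → ℤ × ℤ}
    (h : ∀ x c, -lam c +ᵥ x ∈ E → -mu c +ᵥ x ∉ F) :
    Commute (gev E z lam) (gev F z' mu) := by
  apply Perm.Disjoint.commute
  rintro ⟨x, c⟩
  by_cases hx : -lam c +ᵥ x ∈ E
  · exact Or.inr (gev_apply_notMem (h x c hx))
  · exact Or.inl (gev_apply_notMem hx)

/-- **the zone part of a generator is a family of layers** -/
theorem realFam_lay {D : Set X} {W : Finset (ℤ × ℤ)} (hc : Cell D W) (κ : X → ι)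
    {letter : X → A} {Z : Set (ℤ × ℤ)} {a : ι → ℤ × ℤ → A} {E : Set A} (z : Perm C)
    {lam : C → ℤ × ℤ} (hZ : ∀ v ∈ Z, ∀ c, v + lam c ∈ W)
    (ha : ∀ y ∈ D, ∀ v ∈ Z, letter (v +ᵥ y) = a (κ y) v)
    (F : ι → PermOn (win C W)) (hF : ∀ i, (F i : Perm (Om C)) = lay z lam (Z ∩ {v | a i v ∈ E})) :
    realFam hc κ F = gev ({x | letter x ∈ E} ∩ zoneSet D Z) z lam := by
  apply Equiv.ext
  intro p
  rcases real_cases D W p with ⟨v, hv, y, hy, hp⟩ | h
  · obtain ⟨x, c⟩ := p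
    simp only [Prod.mk.injEq, and_true] at hp
    subst hp
    rw [realFam_apply hc κ F hv hy, hF]
    by_cases hm : v - lam c ∈ Z ∩ {v | a (κ y) v ∈ E}
    · rw [lay_mem hm, gev_apply_mem]
      · simp only [Prod.mk.injEq, and_true, vadd_vadd]
        congr 1
        abel
      · have e : -lam c +ᵥ (v +ᵥ y) = (v - lam c) +ᵥ y := by
          rw [vadd_vadd]; congr 1; abel
        rw [e]
        refine ⟨?_, v - lam c, hm.1, y, hy, rfl⟩
        change letter _ ∈ E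
        rw [ha y hy _ hm.1]
        exact hm.2
    · rw [lay_not_mem hm, gev_apply_notMem]
      rintro ⟨h1, v', hv', y', hy', he⟩
      have he' : v +ᵥ y = (v' + lam c) +ᵥ y' := vadd_shift he
      have hvv := hc v hv _ (hZ v' hv' c) y hy y' hy' he'
      rw [← hvv] at he'
      have hyy : y = y' := (vadd_left_cancel_iff _).1 he'
      apply hm
      have hv2 : v - lam c = v' := by rw [hvv]; abel
      refine ⟨by rw [hv2]; exact hv', ?_⟩
      change a (κ y) (v - lam c) ∈ E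
      rw [hv2, hyy, ← ha y' hy' v' hv', ← he]
      exact h1
  · obtain ⟨x, c⟩ := p
    rw [realFam_off hc κ F h, gev_apply_notMem]
    rintro ⟨-, v', hv', y', hy', he⟩
    apply h _ (hZ v' hv' c)
    have : x = (v' + lam c) +ᵥ y' := vadd_shift he
    change -(v' + lam c) +ᵥ x ∈ D
    rw [this, neg_vadd_vadd]
    exact hy'

end real

end Crest.Agent.R189.K
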