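import Crest.Agent.R189.TowerBase

/-!
Row 189, tower lemma (helper840): functoriality of alternating groups along embeddings.
-/

set_option autoImplicit false
set_option linter.unusedSectionVars false

open Equiv Equiv.Perm Finset

namespace Crest.Agent.R189.Tower

section

variable {α β γ : Type*} [Fintype α] [DecidableEq α] [Fintype β] [DecidableEq β]
  [Fintype γ] [DecidableEq γ]

/-- `Alt(α) → Alt(β)` along an embedding -/
def altMap (f : α ↪ β) : alternatingGroup α →* alternatingGroup β where
  toFun s := ⟨(s : Perm α).viaFintypeEmbedding f, by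
    rw [mem_alternatingGroup, viaFintypeEmbedding_sign]; exact mem_alternatingGroup.1 s.2⟩
  map_one' := by
    apply Subtype.ext
    change (1 : Perm α).extendDomain f.toEquivRange = 1
    exact extendDomain_one _
  map_mul' s t := by
    apply Subtype.ext
    change ((s : Perm α) * (t : Perm α)).extendDomain f.toEquivRange = _
    exact (extendDomain_mul _ _ _).symm

theorem altMap_apply (f : α ↪ β) (s : alternatingGroup α) (a : α) :
    (altMap f s : Perm β) (f a) = f ((s : Perm α) a) :=
  viaFintypeEmbedding_apply_image _ _ _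

theorem altMap_apply_of_notMem (f : α ↪ β) (s : alternatingGroup α) {b : β}
    (h : b ∉ Set.range f) : (altMap f s : Perm β) b = b :=
  viaFintypeEmbedding_apply_notMem_range _ _ h

theorem altMap_acyc (f : α ↪ β) {a b c : α} (hab : a ≠ b) (hac : a ≠ c) (hbc : b ≠ c) :
    altMap f (acyc a b c) = acyc (f a) (f b) (f c) := by
  apply Subtype.ext
  have hi := f.injective
  rw [coe_acyc (hi.ne hab) (hi.ne hac) (hi.ne hbc)]
  ext x
  by_cases hx : x ∈ Set.range f
  · obtain ⟨y, rfl⟩ := hx
    rw [altMap_apply, coe_acyc hab hac hbc]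
    by_cases h1 : y = a
    · subst h1; rw [cyc_apply_fst hab hbc, cyc_apply_fst (hi.ne hab) (hi.ne hbc)]
    by_cases h2 : y = b
    · subst h2; rw [cyc_apply_snd, cyc_apply_snd]
    by_cases h3 : y = c
    · subst h3; rw [cyc_apply_trd hac hbc, cyc_apply_trd (hi.ne hac) (hi.ne hbc)]
    rw [cyc_apply_of_ne h1 h2 h3, cyc_apply_of_ne (hi.ne h1) (hi.ne h2) (hi.ne h3)]
  · rw [altMap_apply_of_notMem f _ hx, cyc_apply_of_ne]
    · rintro rfl; exact hx ⟨_, rfl⟩
    · rintro rfl; exact hx ⟨_, rfl⟩
    · rintro rfl; exact hx ⟨_, rfl⟩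




theorem altMap_injective (f : α ↪ β) : Function.Injective (altMap f) := by
  intro s t h
  apply Subtype.ext
  ext x
  apply f.injective
  rw [← altMap_apply, ← altMap_apply, h]

/-- uniqueness characterisation -/
theorem eq_altMap (f : α ↪ β) (s : alternatingGroup α) {t : alternatingGroup β}
    (h1 : ∀ a, (t : Perm β) (f a) = f ((s : Perm α) a))
    (h2 : ∀ b, b ∉ Set.range f → (t : Perm β) b = b) : t = altMap f s := by
  apply Subtype.ext
  ext x
  by_cases hx : x ∈ Set.range f
  · obtain ⟨y, rfl⟩ := hx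
    rw [h1, altMap_apply]
  · rw [h2 x hx, altMap_apply_of_notMem f s hx]

/-- restriction of an even permutation supported in `B` to `B` -/
def restr (B : Finset α) : AltPres.altOn B →* alternatingGroup {x // x ∈ B} where
  toFun g := ⟨(g : Perm α).subtypePerm (fun x => by
      by_cases hx : (g : Perm α) x = x
      · rw [hx]
      · have h1 : x ∈ B := g.2.2 (mem_support.2 hx)
        have h2 : (g : Perm α) x ∈ B := g.2.2 (mem_support.2 fun h => hx ((g : Perm α).injective h))
        simp [h1, h2]), by
      rw [mem_alternatingGroup, ← sign_ofSubtype, ofSubtype_subtypePerm]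
      · exact mem_alternatingGroup.1 g.2.1
      · exact fun x hx => g.2.2 (mem_support.2 hx)⟩
  map_one' := rfl
  map_mul' _ _ := rfl


theorem altMap_restr (B : Finset α) (g : AltPres.altOn B) :
    altMap (Function.Embedding.subtype (· ∈ B)) (restr B g) = ⟨g.1, g.2.1⟩ := by
  symm
  refine eq_altMap _ _ (fun a => rfl) fun b hb => ?_
  by_contra h
  exact hb ⟨⟨b, g.2.2 (mem_support.2 h)⟩, rfl⟩

theorem restr_acyc (B : Finset α) {a b c : α} (ha : a ∈ B) (hb : b ∈ B) (hc : c ∈ B) (hab : a ≠ b)
    (hac : a ≠ c) (hbc : b ≠ c) (h : AltPres.cyc a b c ∈ AltPres.altOn B) :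
    restr B ⟨AltPres.cyc a b c, h⟩ = acyc ⟨a, ha⟩ ⟨b, hb⟩ ⟨c, hc⟩ := by
  apply altMap_injective (Function.Embedding.subtype (· ∈ B))
  rw [altMap_restr, altMap_acyc _ (by simpa using hab) (by simpa using hac) (by simpa using hbc)]
  apply Subtype.ext
  exact (coe_acyc hab hac hbc).symm

end

end Crest.Agent.R189.Tower
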