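import Crest.Agent.R189.KGen
import Crest.Agent.R189.KGenReal
import Crest.Agent.R189.Glue
import Crest.Agent.R189.TBase
import Crest.Agent.R189.XMatch
import Mathlib
import Crest.Agent.R189.EvOrder
import Crest.Agent.R189.AltPerf
import Crest.Agent.R189.EvTrans
import Crest.Agent.R189.RompHom
import Crest.Agent.R189.MuVan
import Crest.Agent.R189.HierDefs
import Crest.Agent.R189.Tper
import Crest.Agent.R189.UP
import Crest.Agent.R189.TowerMap
import Crest.Agent.R189.GpTower
import Crest.Agent.R189.KDefs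
import Crest.Agent.R189.XLev
import Crest.Agent.R189.HierGeo
import Crest.Agent.R189.XHierLS

-- ▼ part R189/FPGen
section

/-!
# Row 189 (S0289), assembly of section 3 (helper396): the small generators of `T`
-/

set_option autoImplicit false

namespace Crest.Agent.R189.FPMain

open Equiv Equiv.Perm

section

variable (C : Type) [Fintype C] [DecidableEq C]

/-- index set of the small generators: a finset of letters and a displacement function -/
def Gam : Type := {p : Finset Lett × (C → ℤ × ℤ) // TModel.SmallGen p.1 p.2}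

instance : Nonempty (Gam C) :=
  ⟨⟨(Finset.univ, 0), ⟨Or.inl rfl, by simp, fun _ => by simp⟩⟩⟩

variable {C}

/-- letters of a generator -/
def Gam.E (g : Gam C) : Set Lett := (g.1.1 : Set Lett)

/-- displacements of a generator -/
def Gam.lam (g : Gam C) : C → ℤ × ℤ := g.1.2

theorem Gam.lam_le (g : Gam C) (c : C) : |(g.lam c).1| ≤ 1 ∧ |(g.lam c).2| ≤ 1 := g.2.small c

variable (hC : 30 ≤ Fintype.card C)

/-- the generator as a homomorphism -/
noncomputable def Gam.phi (g : Gam C) : alternatingGroup C →* TGrp MD C :=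
  (tModel MD C).sgen hC g.1.1 g.1.2

theorem Gam.q_phi [Nonempty C] (g : Gam C) (z : alternatingGroup C) :
    qT (C := C) letter MD letter_match (g.phi hC z) =
      K.gev {x | letter x ∈ g.E} (z : Perm C) g.lam := by
  have h := conc_qT (C := C) letter MD letter_match
  have := (tModel MD C).map_sgen letter (qT (C := C) letter MD letter_match) hC h.h h.e
    g.1.1 g.1.2 g.2.sum z
  exact this

/-- the small generators generate `T` -/
theorem tau_surjective :
    Function.Surjective (FreeGroup.lift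
      (fun g : Gam C × alternatingGroup C => g.1.phi hC g.2)) := by
  intro w
  obtain ⟨L, hL, hw⟩ := (tModel MD C).exists_list_sgen hC w
  clear hL
  suffices h : ∀ L : List (Finset Lett × (C → ℤ × ℤ) × alternatingGroup C),
      (∀ g ∈ L, TModel.SmallGen g.1 g.2.1) →
      (L.map fun g => (tModel MD C).sgen hC g.1 g.2.1 g.2.2).prod ∈
        (FreeGroup.lift (fun g : Gam C × alternatingGroup C => g.1.phi hC g.2)).range by
    obtain ⟨L, hL, hw⟩ := (tModel MD C).exists_list_sgen hC w
    have := h L hL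
    rw [hw] at this
    exact this
  intro L
  induction L with
  | nil => intro _; simp [Subgroup.one_mem]
  | cons g L ih =>
    intro hL
    rw [List.map_cons, List.prod_cons]
    refine Subgroup.mul_mem _ ?_ (ih fun g hg => hL g (List.mem_cons_of_mem _ hg))
    refine ⟨FreeGroup.of (⟨(g.1, g.2.1), hL g List.mem_cons_self⟩, g.2.2), ?_⟩
    rw [FreeGroup.lift_apply_of]
    rfl

end

end Crest.Agent.R189.FPMain
end

-- ▼ part R189/LiftCls
section

/-!
Row 189, E4 (helper47): classes of homomorphisms `e : Q →* T'`, `Q` a finite perfect group, for a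
central surjection `q : T →* T'`, in `(Q × Q → ker q) ⧸ coboundaries`. The class vanishes iff `e`
lifts to `Q →* T`; it is additive for commuting images, invariant under conjugation by elements of
the image of `q`, and killed by `|Q|`.
-/

set_option autoImplicit false
set_option linter.unusedSectionVars false

namespace Crest.Agent.R189.Cls

variable {T T' : Type*} [Group T] [Group T']

/-- `q` has central kernel -/
class IsCentral (q : T →* T') : Prop where
  ker_le : q.ker ≤ Subgroup.center T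

instance (q : T →* T') [hq : IsCentral q] : CommGroup q.ker :=
  { (inferInstance : Group q.ker) with
    mul_comm := fun a b => Subtype.ext (Subgroup.mem_center_iff.1 (hq.ker_le b.2) a) }

instance isCentral_mk : IsCentral (QuotientGroup.mk' (Subgroup.center T)) :=
  ⟨by rw [QuotientGroup.ker_mk']⟩

variable (q : T →* T') [hq : IsCentral q]

/-! ## Uniqueness of lifts -/

section uniq
variable {Q : Type*} [Group Q]
include hq

theorem comm_of_ker {z : T} (hz : q z = 1) (t : T) : t * z = z * t :=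
  Subgroup.mem_center_iff.1 (hq.ker_le hz) t

theorem perfect_to_comm {H : Type*} [CommGroup H] (hQ : commutator Q = ⊤) (φ : Q →* H) (x : Q) :
    φ x = 1 := by
  have h1 : commutator Q ≤ φ.ker := by
    rw [commutator_def, Subgroup.commutator_le]
    intro x _ y _
    rw [MonoidHom.mem_ker, map_commutatorElement, commutatorElement_eq_one_iff_mul_comm]
    exact mul_comm _ _
  exact h1 (by rw [hQ]; trivial)

/-- two homomorphisms on a perfect group which agree modulo the centre are equal -/
theorem hom_eq_of_perfect (hQ : commutator Q = ⊤) {f g : Q →* T}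
    (h : ∀ x, q (f x) = q (g x)) : f = g := by
  have hc : ∀ x, q (f x * (g x)⁻¹) = 1 := by
    intro x
    rw [map_mul, map_inv, h, mul_inv_cancel]
  let φ : Q →* q.ker := MonoidHom.mk' (fun x => ⟨f x * (g x)⁻¹, hc x⟩) (by
    intro x y
    apply Subtype.ext
    show f (x * y) * (g (x * y))⁻¹ = f x * (g x)⁻¹ * (f y * (g y)⁻¹)
    rw [map_mul, map_mul, mul_inv_rev]
    have h1 := comm_of_ker q (hc y) (g x)⁻¹
    calc f x * f y * ((g y)⁻¹ * (g x)⁻¹) = f x * ((f y * (g y)⁻¹) * (g x)⁻¹) := by group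
      _ = f x * ((g x)⁻¹ * (f y * (g y)⁻¹)) := by rw [h1]
      _ = f x * (g x)⁻¹ * (f y * (g y)⁻¹) := by group)
  ext x
  have h2 := perfect_to_comm q hQ φ x
  exact mul_inv_eq_one.1 (congrArg Subtype.val h2)

/-- version for set-theoretic lifts of a homomorphism to the quotient -/
theorem commute_of_perfect' (hQ : commutator Q = ⊤) (e : Q →* T') (s : Q → T)
    (hs : ∀ g, q (s g) = e g) (y : T)
    (h : ∀ x, e x * q y = q y * e x)
    (x : Q) : s x * y = y * s x := by
  have hc : ∀ x, q (s x * y * (s x)⁻¹ * y⁻¹) = 1 := by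
    intro x
    simp only [map_mul, map_inv, hs, h]
    group
  have hsm : ∀ x x', ∃ z, q z = 1 ∧ s (x * x') = s x * s x' * z := by
    intro x x'
    refine ⟨(s x * s x')⁻¹ * s (x * x'), ?_, by group⟩
    simp only [map_mul, map_inv, hs]
    group
  have key : ∀ x x', s (x * x') * y * (s (x * x'))⁻¹ * y⁻¹ =
      (s x * y * (s x)⁻¹ * y⁻¹) * (s x' * y * (s x')⁻¹ * y⁻¹) := by
    intro x x'
    obtain ⟨z, hz, hz'⟩ := hsm x x'
    rw [hz']
    have hz1 := comm_of_ker q hz
    have h1 := comm_of_ker q (hc x')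
    calc s x * s x' * z * y * (s x * s x' * z)⁻¹ * y⁻¹
        = s x * s x' * (z * (y * z⁻¹)) * (s x')⁻¹ * (s x)⁻¹ * y⁻¹ := by group
      _ = s x * s x' * ((y * z⁻¹) * z) * (s x')⁻¹ * (s x)⁻¹ * y⁻¹ := by rw [hz1]
      _ = s x * ((s x' * y * (s x')⁻¹ * y⁻¹) * (y * (s x)⁻¹ * y⁻¹)) := by group
      _ = s x * ((y * (s x)⁻¹ * y⁻¹) * (s x' * y * (s x')⁻¹ * y⁻¹)) := by
          rw [h1]
      _ = _ := by group
  let φ : Q →* q.ker := MonoidHom.mk' (fun x => ⟨s x * y * (s x)⁻¹ * y⁻¹, hc x⟩)
    (fun x x' => Subtype.ext (key x x'))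
  have h3 : s x * y * (s x)⁻¹ * y⁻¹ = 1 := congrArg Subtype.val (perfect_to_comm q hQ φ x)
  calc s x * y = (s x * y * (s x)⁻¹ * y⁻¹) * (y * s x) := by group
    _ = y * s x := by rw [h3, one_mul]


end uniq

/-! ## The class -/

section cls
variable (Q : Type*) [Group Q] (A : Type*) [AddCommGroup A]

/-- coboundary -/
def cob : (Q → A) →+ (Q × Q → A) where
  toFun φ := fun p => φ p.1 + φ p.2 - φ (p.1 * p.2)
  map_zero' := by ext; simp
  map_add' := by intro φ ψ; ext p; simp; abel

/-- cochains modulo coboundaries -/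
abbrev Coch : Type _ := (Q × Q → A) ⧸ (cob Q A).range

variable {Q A}

theorem mk_eq_mk {c d : Q × Q → A} (φ : Q → A)
    (h : ∀ g k, c (g, k) = d (g, k) + (φ g + φ k - φ (g * k))) :
    (QuotientAddGroup.mk c : Coch Q A) = QuotientAddGroup.mk d := by
  rw [eq_comm, QuotientAddGroup.eq]
  refine ⟨φ, ?_⟩
  ext ⟨g, k⟩
  show φ g + φ k - φ (g * k) = -d (g, k) + c (g, k)
  rw [h]; abel

end cls

section main
variable {Q : Type*} [Group Q]

/-- the kernel as an additive group -/
abbrev Zc (q : T →* T') : Type _ := Additive q.ker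

variable {q}

/-- the underlying element -/
def Zc.val (z : Zc q) : T := z.toMul

@[simp] theorem Zc.val_add (z w : Zc q) : (z + w).val = z.val * w.val := rfl
@[simp] theorem Zc.val_neg (z : Zc q) : (-z).val = z.val⁻¹ := rfl
@[simp] theorem Zc.val_sub (z w : Zc q) : (z - w).val = z.val * w.val⁻¹ := by
  rw [sub_eq_add_neg]; rfl
@[simp] theorem Zc.val_zero : (0 : Zc q).val = 1 := rfl
theorem Zc.ext {z w : Zc q} (h : z.val = w.val) : z = w := Subtype.ext h
theorem Zc.map (z : Zc q) : q z.val = 1 := z.toMul.2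
theorem zc_comm (z : Zc q) (t : T) : t * z.val = z.val * t := comm_of_ker q z.map t

/-- an element of the kernel -/
def Zc.mk (z : T) (h : q z = 1) : Zc q := Additive.ofMul ⟨z, h⟩

@[simp] theorem Zc.val_mk (z : T) (h : q z = 1) : (Zc.mk z h).val = z := rfl

/-- `s` is a set-theoretic lift of `e` -/
def IsSec (q : T →* T') (e : Q →* T') (s : Q → T) : Prop := ∀ g, q (s g) = e g

omit hq in
theorem IsSec.mem {e : Q →* T'} {s : Q → T} (hs : IsSec q e s) (g k : Q) :
    q (s g * s k * (s (g * k))⁻¹) = 1 := by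
  simp only [map_mul, map_inv, hs g, hs k, hs (g * k)]
  group

/-- the factor set of a section -/
def fac {e : Q →* T'} {s : Q → T} (hs : IsSec q e s) : Q × Q → Zc q :=
  fun p => Zc.mk (s p.1 * s p.2 * (s (p.1 * p.2))⁻¹) (hs.mem p.1 p.2)

theorem fac_eq {e : Q →* T'} {s : Q → T} (hs : IsSec q e s) (g k : Q) :
    s g * s k = (fac hs (g, k)).val * s (g * k) := by
  show s g * s k = s g * s k * (s (g * k))⁻¹ * s (g * k)
  group

theorem fac_unique {e : Q →* T'} {s : Q → T} (hs : IsSec q e s) (g k : Q)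
    (z : Zc q) (h : s g * s k = z.val * s (g * k)) : fac hs (g, k) = z := by
  apply Zc.ext
  show s g * s k * (s (g * k))⁻¹ = _
  rw [h]; group

theorem mk_fac_eq {e : Q →* T'} {s s' : Q → T} (hs : IsSec q e s)
    (hs' : IsSec q e s') :
    (QuotientAddGroup.mk (fac hs') : Coch Q (Zc q)) = QuotientAddGroup.mk (fac hs) := by
  have hz : ∀ g, q (s' g * (s g)⁻¹) = 1 := by
    intro g
    rw [map_mul, map_inv, hs g, hs' g, mul_inv_cancel]
  set φ : Q → Zc q := fun g => Zc.mk (s' g * (s g)⁻¹) (hz g) with hφ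
  have hφ' : ∀ g, s' g = (φ g).val * s g := by
    intro g
    show s' g = s' g * (s g)⁻¹ * s g
    group
  apply mk_eq_mk φ
  intro g k
  apply fac_unique
  rw [hφ' g, hφ' k, hφ' (g * k)]
  simp only [Zc.val_add, Zc.val_sub]
  calc (φ g).val * s g * ((φ k).val * s k)
      = (φ g).val * (s g * (φ k).val) * s k := by group
    _ = (φ g).val * ((φ k).val * s g) * s k := by rw [zc_comm]
    _ = (φ g).val * (φ k).val * (s g * s k) := by group
    _ = ((φ g).val * (φ k).val) * (fac hs (g, k)).val * s (g * k) := by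
        rw [fac_eq hs, ← mul_assoc]
    _ = (fac hs (g, k)).val * ((φ g).val * (φ k).val) * s (g * k) := by
        rw [zc_comm (fac hs (g, k))]
    _ = _ := by group

variable (hs : Function.Surjective q)
include hs

/-- the class of `e` -/
noncomputable def cls (e : Q →* T') : Coch Q (Zc q) :=
  QuotientAddGroup.mk (fac (q := q) (e := e) (s := fun g => Function.surjInv hs (e g))
    fun g => Function.surjInv_eq hs (e g))

omit hq in
theorem isSec_out (e : Q →* T') : IsSec q e (fun g => Function.surjInv hs (e g)) :=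
  fun g => Function.surjInv_eq hs (e g)

theorem cls_eq {e : Q →* T'} {s : Q → T} (h : IsSec q e s) :
    cls hs e = QuotientAddGroup.mk (fac h) := mk_fac_eq h (isSec_out hs e)

/-- the class vanishes iff `e` lifts -/
theorem cls_eq_zero_iff (e : Q →* T') :
    cls hs e = 0 ↔ ∃ θ : Q →* T, ∀ g, q (θ g) = e g := by
  constructor
  · intro h
    have hs' := isSec_out hs e
    set s : Q → T := fun g => Function.surjInv hs (e g) with hsdef
    rw [cls_eq hs hs', ← QuotientAddGroup.mk_zero, eq_comm, QuotientAddGroup.eq] at h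
    obtain ⟨φ, hφ⟩ := h
    have hφ' : ∀ g k, fac hs' (g, k) = φ g + φ k - φ (g * k) := by
      intro g k
      have h1 := congrFun hφ (g, k)
      have h2 : (cob Q (Zc q)) φ (g, k) = fac hs' (g, k) := by simpa using h1
      exact h2.symm
    refine ⟨MonoidHom.mk' (fun g => (φ g).val⁻¹ * s g) ?_, ?_⟩
    · intro g k
      have h2 := fac_eq hs' g k
      rw [hφ' g k, Zc.val_sub, Zc.val_add] at h2
      have hc1 : s g * (φ k).val⁻¹ = (φ k).val⁻¹ * s g := by
        have := zc_comm (-(φ k)) (s g)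
        rwa [Zc.val_neg] at this
      have hc2 := zc_comm (φ k) (φ g).val
      show (φ (g * k)).val⁻¹ * s (g * k) = (φ g).val⁻¹ * s g * ((φ k).val⁻¹ * s k)
      calc (φ (g * k)).val⁻¹ * s (g * k)
          = ((φ g).val * (φ k).val)⁻¹ *
            ((φ g).val * (φ k).val * (φ (g * k)).val⁻¹ * s (g * k)) := by group
        _ = ((φ g).val * (φ k).val)⁻¹ * (s g * s k) := by rw [h2]
        _ = ((φ k).val * (φ g).val)⁻¹ * (s g * s k) := by rw [hc2]
        _ = (φ g).val⁻¹ * ((φ k).val⁻¹ * s g) * s k := by group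
        _ = (φ g).val⁻¹ * (s g * (φ k).val⁻¹) * s k := by rw [hc1]
        _ = _ := by group
    · intro g
      show q ((φ g).val⁻¹ * s g) = e g
      rw [map_mul, map_inv, (φ g).map, hs' g]
      group
  · rintro ⟨θ, hθ⟩
    have hs' : IsSec q e (fun g => θ g) := hθ
    rw [cls_eq hs hs']
    have h0 : fac hs' = 0 := by
      funext ⟨g, k⟩
      apply fac_unique
      show θ g * θ k = 1 * θ (g * k)
      rw [map_mul, one_mul]
    rw [h0]; rfl

/-- invariance under conjugation -/
theorem cls_conj (t : T) {e f : Q →* T'}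
    (h : ∀ g, f g = q t * e g * (q t)⁻¹) : cls hs f = cls hs e := by
  have h1 := isSec_out hs e
  set s : Q → T := fun g => Function.surjInv hs (e g) with hsdef
  have h2 : IsSec q f (fun g => t * s g * t⁻¹) := by
    intro g
    rw [h g, map_mul, map_mul, map_inv, h1 g]
  rw [cls_eq hs h1, cls_eq hs h2]
  congr 1
  funext ⟨g, k⟩
  apply fac_unique
  have h3 := zc_comm (fac h1 (g, k)) t
  calc t * s g * t⁻¹ * (t * s k * t⁻¹) = t * (s g * s k) * t⁻¹ := by group
    _ = t * ((fac h1 (g, k)).val * s (g * k)) * t⁻¹ := by rw [fac_eq h1]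
    _ = (t * (fac h1 (g, k)).val) * s (g * k) * t⁻¹ := by group
    _ = ((fac h1 (g, k)).val * t) * s (g * k) * t⁻¹ := by rw [h3]
    _ = _ := by group

/-- additivity for commuting images -/
theorem cls_mul (hQ : commutator Q = ⊤) {e f u : Q →* T'}
    (hc : ∀ g k, e g * f k = f k * e g) (hu : ∀ g, u g = e g * f g) :
    cls hs u = cls hs e + cls hs f := by
  have h1 := isSec_out hs e
  have h2 := isSec_out hs f
  set s : Q → T := fun g => Function.surjInv hs (e g) with hsdef
  set r : Q → T := fun g => Function.surjInv hs (f g) with hrdef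
  have hcomm : ∀ g k, s g * r k = r k * s g := fun g k =>
    commute_of_perfect' q hQ e s h1 (r k) (fun x => by rw [h2 k]; exact hc x k) g
  have h3 : IsSec q u (fun g => s g * r g) := by
    intro g
    rw [hu g, map_mul, h1 g, h2 g]
  rw [cls_eq hs h1, cls_eq hs h2, cls_eq hs h3, ← QuotientAddGroup.mk_add]
  congr 1
  funext ⟨g, k⟩
  apply fac_unique
  have h4 := zc_comm (fac h2 (g, k)) ((fac h1 (g, k)).val * s (g * k))
  calc s g * r g * (s k * r k) = s g * (r g * s k) * r k := by group
    _ = s g * (s k * r g) * r k := by rw [hcomm]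
    _ = (s g * s k) * (r g * r k) := by group
    _ = ((fac h1 (g, k)).val * s (g * k)) * ((fac h2 (g, k)).val * r (g * k)) := by
        rw [fac_eq h1, fac_eq h2]
    _ = (((fac h1 (g, k)).val * s (g * k)) * (fac h2 (g, k)).val) * r (g * k) := by group
    _ = ((fac h2 (g, k)).val * ((fac h1 (g, k)).val * s (g * k))) * r (g * k) := by rw [h4]
    _ = ((fac h2 (g, k)).val * (fac h1 (g, k)).val) * (s (g * k) * r (g * k)) := by group
    _ = ((fac h1 (g, k)).val * (fac h2 (g, k)).val) * (s (g * k) * r (g * k)) := by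
        rw [zc_comm (fac h1 (g, k))]
    _ = _ := rfl

omit hs in
/-- the cocycle identity -/
theorem fac_cocycle {e : Q →* T'} {s : Q → T} (h : IsSec q e s) (g k l : Q) :
    fac h (g, k) + fac h (g * k, l) = fac h (g, k * l) + fac h (k, l) := by
  apply Zc.ext
  simp only [Zc.val_add]
  have h1 : s g * s k * s l = (fac h (g, k)).val * (fac h (g * k, l)).val *
      s (g * k * l) := by
    calc s g * s k * s l = (fac h (g, k)).val * s (g * k) * s l := by rw [fac_eq h g k]
      _ = (fac h (g, k)).val * (s (g * k) * s l) := mul_assoc _ _ _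
      _ = (fac h (g, k)).val * ((fac h (g * k, l)).val * s (g * k * l)) := by
          rw [fac_eq h (g * k) l]
      _ = _ := (mul_assoc _ _ _).symm
  have h2 : s g * s k * s l = (fac h (g, k * l)).val * (fac h (k, l)).val *
      s (g * k * l) := by
    calc s g * s k * s l = s g * (s k * s l) := mul_assoc _ _ _
      _ = (s g * (fac h (k, l)).val) * s (k * l) := by rw [fac_eq h k l, mul_assoc]
      _ = (fac h (k, l)).val * (s g * s (k * l)) := by rw [zc_comm, mul_assoc]
      _ = (fac h (k, l)).val * ((fac h (g, k * l)).val * s (g * (k * l))) := by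
          rw [fac_eq h g (k * l)]
      _ = ((fac h (k, l)).val * (fac h (g, k * l)).val) * s (g * k * l) := by
          rw [← mul_assoc, ← mul_assoc g k l]
      _ = _ := by rw [zc_comm (fac h (g, k * l))]
  rw [h1] at h2
  exact mul_right_cancel h2

/-- the class is killed by the order of `Q` -/
theorem card_nsmul_cls [Finite Q] (e : Q →* T') : Nat.card Q • cls hs e = 0 := by
  classical
  have := Fintype.ofFinite Q
  have h1 := isSec_out hs e
  rw [cls_eq hs h1, ← QuotientAddGroup.mk_nsmul, ← QuotientAddGroup.mk_zero]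
  apply mk_eq_mk (fun g => ∑ l, fac h1 (g, l))
  intro g k
  have h2 : ∑ l, (fac h1 (g, k) + fac h1 (g * k, l)) = ∑ l, (fac h1 (g, k * l) + fac h1 (k, l)) :=
    Finset.sum_congr rfl fun l _ => fac_cocycle h1 g k l
  have h3 : ∑ l, fac h1 (g, k * l) = ∑ l, fac h1 (g, l) :=
    Equiv.sum_comp (Equiv.mulLeft k) (fun l => fac h1 (g, l))
  rw [Finset.sum_add_distrib, Finset.sum_add_distrib, Finset.sum_const, Finset.card_univ,
    h3] at h2
  simp only [Pi.smul_apply, Pi.zero_apply, zero_add]
  rw [Nat.card_eq_fintype_card, ← sub_eq_zero]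
  rw [← sub_eq_zero] at h2
  rw [← h2]
  abel

end main

end Crest.Agent.R189.Cls
end

-- ▼ part R189/LiftEv
section

/-!
Row 189, E4 (helper47): lifting events along a central surjection `q : T →* T'` of coloured groups.

* `ColMap S S' q` : `q` is a surjection compatible with the colour structures; `ColGrp.map`;
* `Ev.map` : image of an event; injective, reflects order, orthogonality and translations when `q` is
  central;
* `mu` : the obstruction class of an event on the even permutations supported in `B`; additive,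
  translation invariant, killed by `|altOn B|`;
* `exists_lift` : an event all of whose classes vanish is the image of a (unique) event.
-/

set_option autoImplicit false
set_option linter.unusedSectionVars false

namespace Crest.Agent.R189

open Equiv Equiv.Perm AltPres
open scoped commutatorElement

variable {C : Type} [Fintype C] [DecidableEq C] {V : Type} [AddCommGroup V]
  {T T' : Type} [Group T] [Group T']

/-! ## Perfectness -/

theorem altOn_le (A : Finset C) : altOn A ≤ alternatingGroup C := fun _ h => h.1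

theorem commutator_alt (h : 30 ≤ Fintype.card C) : commutator (alternatingGroup C) = ⊤ :=
  commutator_alternatingGroup_eq_top (by rw [Nat.card_eq_fintype_card]; omega)

/-- restriction of a homomorphism to `altOn B` -/
def resOn {G : Type} [Group G] (e : alternatingGroup C →* G) (B : Finset C) : altOn B →* G :=
  e.comp (Subgroup.inclusion (altOn_le B))

@[simp] theorem resOn_apply {G : Type} [Group G] (e : alternatingGroup C →* G) (B : Finset C)
    (g : Perm C) (hg : g ∈ altOn B) : resOn e B ⟨g, hg⟩ = e ⟨g, hg.1⟩ := rfl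

/-! ## Maps of coloured groups -/

/-- `q` is a surjection compatible with the colour structures -/
structure ColMap (S : ColGrp C V T) (S' : ColGrp C V T') (q : T →* T') : Prop where
  surj : Function.Surjective q
  one : ∀ σ, q (S.one σ) = S'.one σ
  H : ∀ l : C → V, ∑ c, l c = 0 → q (S.H l) = S'.H l
  map_sub : ∀ A, (S.sub A).map q = S'.sub A

/-- push-forward of a colour structure -/
def ColGrp.map (S : ColGrp C V T) (q : T →* T') (hq : Function.Surjective q) : ColGrp C V T' where
  one := q.comp S.one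
  H := fun l => q (S.H l)
  sub := fun A => (S.sub A).map q
  card_C := S.card_C
  H_add := fun l m hl hm => by rw [S.H_add l m hl hm, map_mul]
  one_H := fun σ l hl => by
    rw [← S.one_H σ l hl]
    simp
  sub_mono := fun A B h => Subgroup.map_mono (S.sub_mono A B h)
  sub_comm := by
    rintro A B h _ ⟨x, hx, rfl⟩ _ ⟨y, hy, rfl⟩
    rw [← map_mul, ← map_mul, S.sub_comm A B h x hx y hy]
  one_mem := fun σ A h => ⟨_, S.one_mem σ A h, rfl⟩
  H_mem := fun l A h1 h2 => ⟨_, S.H_mem l A h1 h2, rfl⟩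
  one_sub := by
    rintro σ A _ ⟨x, hx, rfl⟩
    exact ⟨_, S.one_sub σ A x hx, by simp⟩
  sub_gen := by
    intro A
    refine (Subgroup.map_mono (S.sub_gen A)).trans ?_
    rw [MonoidHom.map_closure, Subgroup.closure_le]
    rintro _ ⟨x, ⟨B, hB, hc, hx⟩, rfl⟩
    exact Subgroup.subset_closure ⟨B, hB, hc, ⟨x, hx, rfl⟩⟩
  sub_univ := by
    rw [S.sub_univ]
    exact Subgroup.map_top_of_surjective q hq

theorem ColGrp.colMap (S : ColGrp C V T) (q : T →* T') (hq : Function.Surjective q) :
    ColMap S (S.map q hq) q where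
  surj := hq
  one := fun _ => rfl
  H := fun _ _ => rfl
  map_sub := fun _ => rfl

variable {S : ColGrp C V T} {S' : ColGrp C V T'} {q : T →* T'}

namespace Ev

/-- image of an event -/
def map (h : ColMap S S' q) (e : Ev S) : Ev S' where
  hom := q.comp e.hom
  mem := fun σ A h1 h2 => by
    rw [← h.map_sub]
    exact ⟨_, e.mem σ A h1 h2, rfl⟩
  equivar := fun σ τ => by
    rw [← h.one]
    show q (S.one τ) * q (e.hom σ) * (q (S.one τ))⁻¹ = q (e.hom (τ * σ * τ⁻¹))
    rw [← e.equivar σ τ]
    simp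

@[simp] theorem map_hom (h : ColMap S S' q) (e : Ev S) (σ : alternatingGroup C) :
    (e.map h).hom σ = q (e.hom σ) := rfl


theorem map_zero (h : ColMap S S' q) : (zero S).map h = zero S' := by
  ext σ; simp [zero]

theorem map_le (h : ColMap S S' q) {e f : Ev S} (hef : e ≤ f) : e.map h ≤ f.map h := by
  intro σ τ
  simp only [map_hom]
  rw [← hef σ τ]; simp

theorem map_orth (h : ColMap S S' q) {e f : Ev S} (hef : Orth e f) : Orth (e.map h) (f.map h) := by
  intro σ τ
  simp only [map_hom]
  rw [← map_mul, ← map_mul, hef σ τ]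

theorem map_compl (h : ColMap S S' q) (e : Ev S) : (compl e).map h = compl (e.map h) := by
  ext σ
  simp [h.one]

theorem map_add (h : ColMap S S' q) {e f : Ev S} (hef : Orth e f) :
    (add e f hef).map h = add (e.map h) (f.map h) (map_orth h hef) := by
  ext σ; simp


variable [hc : Cls.IsCentral q]






end Ev

/-- a vector of sum zero with value `v` on `B` -/
theorem exists_vec (v : V) {B : Finset C} (hB : B ≠ Finset.univ) :
    ∃ l : C → V, ∑ c, l c = 0 ∧ ∀ c ∈ B, l c = v := by
  obtain ⟨d, hd⟩ : ∃ d, d ∉ B := by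
    by_contra h
    exact hB (Finset.eq_univ_iff_forall.2 fun x => by
      by_contra hx
      exact h ⟨x, hx⟩)
  refine ⟨fun c => if c ∈ B then v else if c = d then -(B.card • v) else 0, ?_, ?_⟩
  · have h1 : ∀ c, (if c ∈ B then v else if c = d then -(B.card • v) else 0) =
        (if c ∈ B then v else 0) + (if c = d then -(B.card • v) else 0) := by
      intro c
      by_cases h : c ∈ B
      · have : c ≠ d := fun h' => hd (h' ▸ h)
        simp [h, this]
      · simp [h]
    rw [Finset.sum_congr rfl (fun c _ => h1 c), Finset.sum_add_distrib]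
    simp
  · intro c hc
    simp [hc]

namespace Ev

variable [hc : Cls.IsCentral q]


end Ev

/-! ## The classes -/

section mu
variable (B : Finset C) [hc : Cls.IsCentral q]

variable (q) in
/-- the value group of the classes: killed by `|altOn B|` -/
abbrev MuGrp (B : Finset C) : Type :=
  (nsmulAddMonoidHom (α := Cls.Coch (altOn B) (Cls.Zc q)) (Nat.card (altOn B))).ker

theorem MuGrp.nsmul (x : MuGrp q B) : Nat.card (altOn B) • x = 0 := by
  apply Subtype.ext
  exact x.2

theorem card_altOn_pos : 0 < Nat.card (altOn B) := Nat.card_pos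

/-- the class of an event -/
noncomputable def mu (h : ColMap S S' q) (e : Ev S') : MuGrp q B :=
  ⟨Cls.cls h.surj (resOn e.hom B), Cls.card_nsmul_cls h.surj (resOn e.hom B)⟩

variable {B}

theorem mu_add (hB : 5 ≤ B.card) (h : ColMap S S' q) {e f : Ev S'} (hef : Ev.Orth e f) :
    mu B h (Ev.add e f hef) = mu B h e + mu B h f := by
  apply Subtype.ext
  exact Cls.cls_mul h.surj (commutator_altOn hB) (fun g k => hef _ _) (fun g => rfl)

theorem mu_trans (hB : B ≠ Finset.univ) (h : ColMap S S' q) {v : V} {e f : Ev S'}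
    (hef : Ev.IsTrans v e f) : mu B h f = mu B h e := by
  obtain ⟨l, hl, hl'⟩ := exists_vec v hB
  apply Subtype.ext
  refine Cls.cls_conj h.surj (S.H l) (fun g => ?_)
  rw [h.H l hl]
  exact hef ⟨g.1, g.2.1⟩ l hl (fun c hc => hl' c (g.2.2 hc))

theorem mu_map (h : ColMap S S' q) (e : Ev S) : mu B h (e.map h) = 0 := by
  apply Subtype.ext
  exact (Cls.cls_eq_zero_iff h.surj _).2 ⟨resOn e.hom B, fun g => rfl⟩

/-- an event all of whose classes vanish lifts -/
theorem exists_lift (h : ColMap S S' q) (e : Ev S')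
    (h0 : ∀ B : Finset C, 5 ≤ B.card → B.card ≤ 10 → mu B h e = 0) : ∃ e' : Ev S, e'.map h = e := by
  classical
  -- local lifts
  have hloc : ∀ B : Finset C, 5 ≤ B.card → B.card ≤ 10 →
      ∃ θ : altOn B →* T, ∀ g, q (θ g) = resOn e.hom B g := by
    intro B hB hB'
    have h1 := h0 B hB hB'
    exact (Cls.cls_eq_zero_iff h.surj _).1 (congrArg Subtype.val h1)
  choose! θ hθ using hloc
  -- compatibility
  have hcomp : ∀ B B' : Finset C, 5 ≤ B.card → B'.card ≤ 10 → ∀ hBB' : B ⊆ B',
      ∀ (g : Perm C) (hg : g ∈ altOn B), θ B ⟨g, hg⟩ = θ B' ⟨g, altOn_mono hBB' hg⟩ := by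
    intro B B' hB hB' hBB' g hg
    have h1 : θ B = (θ B').comp (Subgroup.inclusion (altOn_mono hBB')) :=
      Cls.hom_eq_of_perfect q (commutator_altOn hB) (fun x => by
        rw [hθ B hB ((Finset.card_le_card hBB').trans hB')]
        exact (hθ B' (hB.trans (Finset.card_le_card hBB')) hB'
          (Subgroup.inclusion (altOn_mono hBB') x)).symm)
    exact DFunLike.congr_fun h1 ⟨g, hg⟩
  -- a five element set containing the support of a three-cycle
  have hex : ∀ z : Perm C, z.IsThreeCycle → ∃ B : Finset C, z.support ⊆ B ∧ B.card = 5 := by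
    intro z hz
    obtain ⟨B, hB1, hB2, -⟩ := S.exists_superset (A := z.support) (B := ∅) (by simp) 5
      (by rw [hz.card_support]; omega) (by simp)
    exact ⟨B, hB1, hB2⟩
  choose! Bz hBz1 hBz2 using hex
  let φ : Perm C → T := fun z => if hz : z.IsThreeCycle then
    θ (Bz z) ⟨z, threeCycle_mem hz (hBz1 z hz)⟩ else 1
  have hφ : ∀ z (hz : z.IsThreeCycle), φ z = θ (Bz z) ⟨z, threeCycle_mem hz (hBz1 z hz)⟩ := by
    intro z hz
    simp only [φ, dif_pos hz]
  have hag : ∀ B : Finset C, B.card = 5 → ∃ ψ : altOn B →* T, Agrees φ ψ := by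
    intro B hB
    refine ⟨θ B, fun z hz hzB => ?_⟩
    rw [hφ z hz]
    have hc10 : (B ∪ Bz z).card ≤ 10 := by
      have := Finset.card_union_le B (Bz z)
      rw [hB, hBz2 z hz] at this
      exact this
    rw [hcomp B (B ∪ Bz z) (by omega) hc10 Finset.subset_union_left,
      hcomp (Bz z) (B ∪ Bz z) (by rw [hBz2 z hz]) hc10 Finset.subset_union_right]
  obtain ⟨ψ, hψ⟩ := exists_alt_hom' (by have := S.card_C; omega) hag
  -- the projection
  have hqψ : ∀ σ, q (ψ σ) = e.hom σ := by
    have h1 : q.comp ψ = e.hom := alt_hom_ext (fun z hz => by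
      show q (ψ _) = _
      rw [hψ z hz, hφ z hz, hθ (Bz z) (by rw [hBz2 z hz]) (by rw [hBz2 z hz]; omega)]
      rfl)
    exact fun σ => DFunLike.congr_fun h1 σ
  have hperf := commutator_alt S.card_C
  refine ⟨⟨ψ, ?_, ?_⟩, ?_⟩
  · -- locality
    intro σ A hσA hA
    -- elements of `altOn A` whose image is in `sub A`
    have hA' := commutator_altOn hA
    have h1 : commutator (altOn A) ≤ (S.sub A).comap (resOn ψ A) := by
      rw [commutator_def, Subgroup.commutator_le]
      intro x _ y _
      rw [Subgroup.mem_comap, map_commutatorElement]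
      -- representatives in `sub A`
      have h2 : ∀ x : altOn A, ∃ t ∈ S.sub A, ∃ z, q z = 1 ∧ resOn ψ A x = t * z := by
        intro x
        have h3 : e.hom ⟨x.1, x.2.1⟩ ∈ (S.sub A).map q := by
          rw [h.map_sub]
          exact e.mem _ A x.2.2 hA
        obtain ⟨t, ht, ht'⟩ := h3
        refine ⟨t, ht, t⁻¹ * resOn ψ A x, ?_, by group⟩
        rw [map_mul, map_inv, ht', ← hqψ]
        exact inv_mul_cancel _
      obtain ⟨t, ht, z, hz, h3⟩ := h2 x
      obtain ⟨u, hu, w, hw, h4⟩ := h2 y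
      have hz' := Cls.comm_of_ker q hz
      have hw' := Cls.comm_of_ker q hw
      have h5 : ⁅resOn ψ A x, resOn ψ A y⁆ = ⁅t, u⁆ := by
        rw [h3, h4, commutatorElement_def, commutatorElement_def]
        calc t * z * (u * w) * (t * z)⁻¹ * (u * w)⁻¹
            = t * (z * (u * w * z⁻¹)) * t⁻¹ * (u * w)⁻¹ := by group
          _ = t * ((u * w * z⁻¹) * z) * t⁻¹ * (u * w)⁻¹ := by rw [hz']
          _ = t * u * (w * (t⁻¹ * w⁻¹)) * u⁻¹ := by group
          _ = t * u * ((t⁻¹ * w⁻¹) * w) * u⁻¹ := by rw [hw']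
          _ = t * u * t⁻¹ * u⁻¹ := by group
      rw [h5]
      exact (S.sub A).mul_mem ((S.sub A).mul_mem ((S.sub A).mul_mem ht hu) ((S.sub A).inv_mem ht))
        ((S.sub A).inv_mem hu)
    have h2 : (⟨σ.1, σ.2, hσA⟩ : altOn A) ∈ commutator (altOn A) := by rw [hA']; trivial
    exact h1 h2
  · -- equivariance
    intro σ τ
    have h1 : (MulAut.conj (S.one τ)).toMonoidHom.comp ψ = ψ.comp (MulAut.conj τ).toMonoidHom :=
      Cls.hom_eq_of_perfect q hperf (fun x => by
        show q (S.one τ * ψ x * (S.one τ)⁻¹) = q (ψ (τ * x * τ⁻¹))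
        rw [hqψ (τ * x * τ⁻¹), ← e.equivar x τ, map_mul, map_mul, map_inv, h.one, hqψ])
    exact DFunLike.congr_fun h1 σ
  · ext σ
    exact hqψ σ

end mu

end Crest.Agent.R189
end

-- ▼ part R189/Lift
section

/-!
Row 189, E4 = M8 (helper47): the atoms of all levels lift to genuine events.

* `TModel.colMap` : the homomorphisms of models are maps of coloured groups;
* `invMu_mu` : the classes `mu B` are additive and invariant;
* `lift_cell` : if the atoms of level `0` lift, then all the events `c^(k)_j ⊓ ev St^(k) A` lift.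
-/

set_option autoImplicit false
set_option linter.unusedSectionVars false

namespace Crest.Agent.R189

open Equiv Equiv.Perm

/-! ## Models -/

namespace TModel

variable {A : Type} [Fintype A] {C : Type} [Fintype C] [DecidableEq C] {M : MatchData A}
  {G G' : Type} [Group G] [Group G'] (m : TModel M C G)

theorem HK_eq_lprod (c0 : C) (l : C → ℤ × ℤ) :
    (m.HK c0 l : G) = lprod Finset.univ (fun c => hpow m.h (l c) c c0) := by
  have h1 : ∀ c, hpow m.h (l c) c c0 = (m.pK c c0 (Multiplicative.ofAdd (l c)) : G) :=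
    fun c => (m.pK_coe c c0 (l c)).symm
  simp only [h1]
  exact (m.lprod_coe _ _).symm

/-- homomorphisms of models are maps of coloured groups -/
theorem colMap (φ : G →* G') (hφ : Function.Surjective φ) (hC : 30 ≤ Fintype.card C) :
    ColMap (m.colGrp hC) ((m.map φ hφ).colGrp hC) φ where
  surj := hφ
  one := fun _ => rfl
  H := fun l _ => by
    show φ (m.HK _ l : G) = ((m.map φ hφ).HK _ l : G')
    rw [HK_eq_lprod, HK_eq_lprod, map_lprod]
    exact lprod_congr (fun c _ => map_hpow φ m.h (l c) c _)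
  map_sub := fun S => by
    show (m.sub S).map φ = (m.map φ hφ).sub S
    unfold sub
    rw [MonoidHom.map_closure]
    congr 1
    ext g
    simp only [Set.mem_image, Set.mem_union, Set.mem_ofPred_eq]
    constructor
    · rintro ⟨_, ((⟨s, hs, rfl⟩ | ⟨i, a, b, ha, hb, rfl⟩) | ⟨x, s, hs, rfl⟩), rfl⟩
      · exact Or.inl (Or.inl ⟨s, hs, rfl⟩)
      · exact Or.inl (Or.inr ⟨i, a, b, ha, hb, rfl⟩)
      · exact Or.inr ⟨x, s, hs, rfl⟩
    · rintro ((⟨s, hs, rfl⟩ | ⟨i, a, b, ha, hb, rfl⟩) | ⟨x, s, hs, rfl⟩)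
      · exact ⟨m.one s, Or.inl (Or.inl ⟨s, hs, rfl⟩), rfl⟩
      · exact ⟨m.h i a b, Or.inl (Or.inr ⟨i, a, b, ha, hb, rfl⟩), rfl⟩
      · exact ⟨m.e x s, Or.inr ⟨x, s, hs, rfl⟩, rfl⟩


/-- the map of coloured groups `T → T / Z(T)` -/
theorem colMap_modCenter (hC : 30 ≤ Fintype.card C) :
    ColMap (m.colGrp hC) (m.modCenter.colGrp hC) (QuotientGroup.mk' (Subgroup.center G)) :=
  m.colMap _ _ hC

theorem map_letterEv_modCenter (hC : 30 ≤ Fintype.card C) (x : A) :
    (m.letterEv hC x).map (m.colMap_modCenter hC) = m.modCenter.letterEv hC x := rfl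

end TModel

/-! ## The classes are additive and invariant -/

variable {C : Type} [Fintype C] [DecidableEq C] {V : Type} [AddCommGroup V]
  {T T' : Type} [Group T] [Group T'] {S : ColGrp C V T} {S' : ColGrp C V T'} {q : T →* T'}

section lift

variable {G : Type} [CommGroup G] [OMPAct G (Ev S')]

/-- every element of `G` acts on the events as a translation -/
def ActTrans (G : Type) [CommGroup G] {S' : ColGrp C V T'} [OMPAct G (Ev S')] : Prop :=
  ∀ (g : G) (e : Ev S'), ∃ v : V, Ev.IsTrans v e (g • e)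

theorem invMu_mu [Cls.IsCentral q] {B : Finset C} (hB : 5 ≤ B.card) (hB' : B ≠ Finset.univ)
    (h : ColMap S S' q) (htr : ActTrans G (S' := S')) :
    InvMu G (fun _ : Ev S' => True) (mu B h) where
  K_bot := trivial
  K_add := fun _ _ _ => trivial
  K_smul := fun _ _ _ => trivial
  add := fun {e f} hef _ _ => by
    have h1 := Ev.romp_orth.1 hef
    rw [Ev.romp_add h1]
    exact mu_add hB h h1
  smul := fun g {e} _ => by
    obtain ⟨v, hv⟩ := htr g e
    exact mu_trans hB' h hv

/-- **E4.** If the atoms of level `0` lift, all the events `c^(k)_j ⊓ ev St^(k) A` lift. -/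
theorem lift_cell [Centreless T'] [Cls.IsCentral q] (h : ColMap S S' q)
    (htr : ActTrans G (S' := S')) {D : Ev S'} {p r : G} {a : ℕ} (ha : Odd a)
    {c : ℕ → Ev S'} {St : Star → Ev S'} (hLS : LS D p r a c St)
    (h0 : ∀ j s, j < 3 * a → ∃ e : Ev S, e.map h = Romp.meet (c j) (St s))
    (k j : ℕ) (hj : j < 3 * (a + k)) (A : Set Star) :
    ∃ e : Ev S, e.map h = Romp.meet (hc p r a c St k j) (Romp.ev (hSt p r a c St k) A) := by
  apply exists_lift h
  intro B hB hB'
  have hBu : B ≠ Finset.univ := by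
    intro hu
    rw [hu, Finset.card_univ] at hB'
    have := S.card_C
    omega
  have hmu := invMu_mu (G := G) hB hBu h htr
  have h1 : ∀ k j s, j < 3 * (a + k) →
      mu B h (Romp.meet (hc p r a c St k j) (hSt p r a c St k s)) = 0 :=
    mu_vanish a ha (card_altOn_pos (B := B)) (MuGrp.nsmul (q := q) (B := B)) hmu
      (hD D p r a c St) (hP p r a) (hQ p r a) (hc p r a c St) (hSt p r a c St)
      (fun k => hLS.lvl k) (fun _ => rfl) (fun _ => rfl) (fun _ _ _ _ => trivial)
      (by
        intro j s hj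
        obtain ⟨e, he⟩ := h0 j s hj
        show mu B h (Romp.meet (c j) (St s)) = 0
        rw [← he]
        exact mu_map h e)
  exact ((hLS.lvl k).mu_ev_zero hmu hj (fun _ => trivial) (fun s => h1 k j s hj) A).2


end lift

/-! ## Translations, morphisms -/

theorem actTrans : ActTrans (T' := T') (Multiplicative V) (S' := S') :=
  fun g e => ⟨g.toAdd, Ev.isTrans_trans g.toAdd e⟩

namespace Ev


/-- the map on events as a morphism of orthomodular posets -/
def mapHom (h : ColMap S S' q) : Romp.OMPHom (Ev S) (Ev S') where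
  toFun := Ev.map h
  mono' := map_le h
  map_cpl' := map_compl h
  map_bot' := map_zero h
  map_add' := fun {e f} hef => by
    have h1 := romp_orth.1 hef
    rw [romp_add h1, romp_add (map_orth h h1), map_add h h1]

@[simp] theorem mapHom_apply (h : ColMap S S' q) (e : Ev S) : mapHom h e = e.map h := rfl


end Ev

/-- **E4** for the translation action: if the atoms of level `0` lift, all the events
`c^(k)_j ⊓ ev St^(k) A` lift. -/
theorem lift_cell' [Centreless T'] [Cls.IsCentral q] (h : ColMap S S' q)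
    {D : Ev S'} {p r : Multiplicative V} {a : ℕ} (ha : Odd a)
    {c : ℕ → Ev S'} {St : Star → Ev S'} (hLS : LS D p r a c St)
    (h0 : ∀ j s, j < 3 * a → ∃ e : Ev S, e.map h = Romp.meet (c j) (St s))
    (k j : ℕ) (hj : j < 3 * (a + k)) (A : Set Star) :
    ∃ e : Ev S, e.map h = Romp.meet (hc p r a c St k j) (Romp.ev (hSt p r a c St k) A) :=
  lift_cell h actTrans ha hLS h0 k j hj A


end Crest.Agent.R189
end

-- ▼ part R189/SecW
section

/-!
# Row 189 (S0289): sections over towers (K2)

`q : T →* Gp V letter C` central surjection.  If `Alt(C)_E` is good (`θ : alternatingGroup C →* T`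
with `q (θ s) = ev E s`) then the tower group `Alt(ι × C)_E` (`GpTower.tw`) is good:
`exists_sec`.  For a finite family of pairwise disjoint events, `exists_secFam` gives the section of
the product of the tower groups.
-/

set_option autoImplicit false
set_option linter.unusedSectionVars false

open Equiv Equiv.Perm Finset

namespace Crest.Agent.R189.SecW

open Crest.Agent.R189.AltPres Crest.Agent.R189.UP Crest.Agent.R189.Tower

variable {V X A C : Type} [AddCommGroup V] [AddAction V X] {letter : X → A} [Finite A]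
  [Fintype C] [DecidableEq C] {T : Type} [Group T]

/-- the pieces of a tower: position `pos i`, colour `c` -/
def pc {ι : Type} (pos : ι → V) : ι × C → V × C := fun p => (pos p.1, p.2)

/-- explicit action of the tower of `E` -/
theorem tw_pc {ι : Type} {E : Set X} {pos : ι → V} (h : MS E (pc (C := C) pos))
    (z : Perm (ι × C)) {y : X} (hy : y ∈ E) (i : ι) (c : C) :
    tw h z (pos i +ᵥ y, c) = (pos (z (i, c)).1 +ᵥ y, (z (i, c)).2) :=
  tw_apply (M := pc pos) h z hy (i, c)

/-- the section over the tower of one event -/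
theorem exists_sec (q : T →* Gp V letter C) (hq : Function.Surjective q)
    (hK : q.ker ≤ Subgroup.center T) (hC : 30 ≤ Fintype.card C) {E : Set X}
    (hE : Clo V letter E) (θ : alternatingGroup C →* T)
    (hθ : ∀ s, (q (θ s) : Perm (X × C)) = ev E (s : Perm C))
    {ι : Type} [Fintype ι] [DecidableEq ι] (pos : ι → V) (hM : MS E (pc (C := C) pos)) :
    ∃ Φ : alternatingGroup (ι × C) →* T,
      ∀ z, (q (Φ z) : Perm (X × C)) = tw hM (z : Perm (ι × C)) := by
  classical
  by_cases hne : Nonempty ι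
  swap
  · refine ⟨1, fun z => ?_⟩
    have hz : (z : Perm (ι × C)) = 1 := by
      apply Equiv.ext
      intro x
      exact absurd ⟨x.1⟩ hne
    rw [hz, map_one, MonoidHom.one_apply, map_one, Subgroup.coe_one]
  obtain ⟨i0⟩ := hne
  obtain ⟨A₀, hA₀⟩ : ∃ A₀ : Finset C, A₀.card = 7 := by
    obtain ⟨B, -, hB⟩ := exists_subset_card_eq (s := (univ : Finset C)) (n := 7)
      (by rw [card_univ]; omega)
    exact ⟨B, hB⟩
  obtain ⟨d, hd⟩ := exists_notMem_of_card_lt (S := A₀) (by omega)
  have hHm : (H (lamOf A₀ (pos i0) d) : Perm (X × C)) ∈ Gp V letter C :=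
    H_mem_Gp (lamOf_sum A₀ (pos i0) d)
  obtain ⟨g, hg⟩ := hq ⟨_, hHm⟩
  let B₀ : Finset (ι × C) := A₀.map ⟨fun c => (i0, c), fun c c' h => (Prod.ext_iff.1 h).2⟩
  have hB₀ : B₀.card = 7 := by rw [card_map, hA₀]
  have hmemB : ∀ p : ι × C, p ∈ B₀ ↔ p.1 = i0 ∧ p.2 ∈ A₀ := by
    intro p
    rw [mem_map]
    constructor
    · rintro ⟨c, hc, rfl⟩
      exact ⟨rfl, hc⟩
    · rintro ⟨h1, h2⟩
      exact ⟨p.2, h2, Prod.ext h1.symm rfl⟩
  let f : {x // x ∈ B₀} ↪ C := ⟨fun p => p.1.2, by
    intro p p' h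
    have h1 := (hmemB p.1).1 p.2
    have h2 := (hmemB p'.1).1 p'.2
    exact Subtype.ext (Prod.ext (h1.1.trans h2.1.symm) h)⟩
  let φ : alternatingGroup (ι × C) →* Gp V letter C :=
    { toFun := fun z => ⟨tw hM z, tw_mem_Gp (by omega) hE hM z z.2⟩
      map_one' := by
        apply Subtype.ext
        simp
      map_mul' := by
        intro a b
        apply Subtype.ext
        simp }
  let ψ : altOn B₀ →* T := conjHom g (θ.comp ((altMap f).comp (restr B₀)))
  have hψ : ∀ x, q (ψ x) = φ (inc B₀ x) := by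
    intro x
    apply Subtype.ext
    have e0 : (q (ψ x) : Perm (X × C)) = H (lamOf A₀ (pos i0) d) *
        ev E (altMap f (restr B₀ x) : Perm C) * (H (lamOf A₀ (pos i0) d))⁻¹ := by
      change ((q (conjHom g _ x) : Gp V letter C) : Perm (X × C)) = _
      rw [conjHom_apply, map_mul, map_mul, map_inv, Subgroup.coe_mul, Subgroup.coe_mul,
        Subgroup.coe_inv, hg, MonoidHom.comp_apply, hθ]
      rfl
    have hfix : ∀ c, c ∉ A₀ → (altMap f (restr B₀ x) : Perm C) c = c := by
      intro c hc
      apply altMap_apply_of_notMem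
      rintro ⟨p, rfl⟩
      exact hc ((hmemB p.1).1 p.2).2
    have hx0 : ∀ c, (x : Perm (ι × C)) (i0, c) = (i0, (altMap f (restr B₀ x) : Perm C) c) := by
      intro c
      by_cases hc : c ∈ A₀
      · have hmem : (i0, c) ∈ B₀ := (hmemB _).2 ⟨rfl, hc⟩
        have e1 := altMap_apply f (restr B₀ x) ⟨(i0, c), hmem⟩
        have e2 : f ⟨(i0, c), hmem⟩ = c := rfl
        rw [e2] at e1
        rw [e1]
        have e3 := (hmemB _).1 ((restr B₀ x : Perm {x // x ∈ B₀}) ⟨(i0, c), hmem⟩).2
        refine Prod.ext ?_ ?_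
        · exact e3.1
        · rfl
      · rw [hfix c hc]
        by_contra h
        exact hc ((hmemB _).1 (x.2.2 (mem_support.2 h))).2
    have hxi : ∀ i c, i ≠ i0 → (x : Perm (ι × C)) (i, c) = (i, c) := by
      intro i c hi
      by_contra h
      exact hi ((hmemB _).1 (x.2.2 (mem_support.2 h))).1
    rw [e0, H_conj_ev _ (pos i0) E _ (by
      intro c hc
      refine lamOf_mem hd ?_
      by_contra h
      exact hc (hfix c h))]
    symm
    change tw hM (x : Perm (ι × C)) = _
    apply tw_eq_iff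
    · rintro y hy ⟨i, c⟩
      by_cases hi : i = i0
      · subst hi
        rw [hx0]
        exact ev_apply_mem (show pos i +ᵥ y ∈ {x | -pos i +ᵥ x ∈ E} by simpa using hy) c
      · rw [hxi i c hi]
        refine ev_apply_notMem ?_ c
        intro h
        have h' : -pos i0 +ᵥ (pos i +ᵥ y) ∈ E := h
        refine hM (i, c) (i0, c) (fun h => hi (congrArg Prod.fst h)) y hy _ h' rfl ?_
        change pos i +ᵥ y = pos i0 +ᵥ (-pos i0 +ᵥ (pos i +ᵥ y))
        simp
    · rintro ⟨y, c⟩ hp
      refine ev_apply_notMem ?_ c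
      intro h
      refine hp _ h (i0, c) ?_
      refine Prod.ext ?_ rfl
      change y = pos i0 +ᵥ (-pos i0 +ᵥ y)
      simp
  obtain ⟨Φ, hΦ⟩ := exists_alt_lift hq hK φ B₀ hB₀.ge ψ hψ
  refine ⟨Φ, fun z => ?_⟩
  rw [hΦ]
  rfl

theorem noncommProd_fix {K : Type*} {Y : Type*} (s : Finset K) (f : K → Perm Y) (hc)
    (p : Y) (h : ∀ i ∈ s, f i p = p) : s.noncommProd f hc p = p := by
  have : s.noncommProd f hc ∈ MulAction.stabilizer (Perm Y) p := by
    apply Subgroup.noncommProd_mem
    intro i hi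
    exact h i hi
  exact this

theorem noncommProd_apply {K : Type*} [DecidableEq K] {Y : Type*} (s : Finset K)
    (f : K → Perm Y) (hc) {κ : K} (hκ : κ ∈ s) (p : Y)
    (h : ∀ i ∈ s, i ≠ κ → f i (f κ p) = f κ p) : s.noncommProd f hc p = f κ p := by
  have e := noncommProd_erase_mul s hκ f hc
  rw [← e, Perm.mul_apply]
  apply noncommProd_fix
  intro i hi
  exact h i (mem_of_mem_erase hi) (ne_of_mem_erase hi)

/-- the section over the product of the towers of a finite family of disjoint events -/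
theorem exists_secFam (q : T →* Gp V letter C) (hq : Function.Surjective q)
    (hK : q.ker ≤ Subgroup.center T) (hC : 30 ≤ Fintype.card C)
    {K : Type} [Fintype K] (E : K → Set X) (hE : ∀ κ, Clo V letter (E κ))
    (hdisj : ∀ κ κ', κ ≠ κ' → Disjoint (E κ) (E κ'))
    (θ : K → alternatingGroup C →* T)
    (hθ : ∀ κ s, (q (θ κ s) : Perm (X × C)) = ev (E κ) (s : Perm C))
    {ι : Type} [Fintype ι] [DecidableEq ι] (pos : ι → V)
    (hM : MS (⋃ κ, E κ) (pc (C := C) pos)) :
    ∃ Φ : (K → alternatingGroup (ι × C)) →* T,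
      (∀ z κ y, y ∈ E κ → ∀ i c, (q (Φ z) : Perm (X × C)) (pos i +ᵥ y, c) =
        (pos ((z κ : Perm (ι × C)) (i, c)).1 +ᵥ y, ((z κ : Perm (ι × C)) (i, c)).2)) ∧
      (∀ z p, (∀ κ, ∀ y ∈ E κ, ∀ i, p.1 ≠ pos i +ᵥ y) → (q (Φ z) : Perm (X × C)) p = p) := by
  classical
  have hMκ : ∀ κ, MS (E κ) (pc (C := C) pos) := fun κ => hM.mono (Set.subset_iUnion E κ)
  have hsec : ∀ κ, ∃ Φ : alternatingGroup (ι × C) →* T,
      ∀ z, (q (Φ z) : Perm (X × C)) = tw (hMκ κ) (z : Perm (ι × C)) :=
    fun κ => exists_sec q hq hK hC (hE κ) (θ κ) (hθ κ) pos (hMκ κ)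
  choose Φ hΦ using hsec
  -- a point of one tower is not in another tower
  have hnot : ∀ κ κ' : K, κ ≠ κ' → ∀ y ∈ E κ, ∀ i c (z : Perm (ι × C)),
      tw (hMκ κ') z (pos i +ᵥ y, c) = (pos i +ᵥ y, c) := by
    intro κ κ' hκ y hy i c z
    apply tw_apply_of_notMem
    rintro y' hy' ⟨j, c'⟩ h
    have h1 : pos i +ᵥ y = pos j +ᵥ y' := congrArg Prod.fst h
    have h2 : c = c' := congrArg Prod.snd h
    by_cases hij : i = j
    · subst hij
      have := (vadd_left_cancel_iff _).1 h1
      subst this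
      exact Set.disjoint_left.1 (hdisj κ κ' hκ) hy hy'
    · exact hM (i, c) (j, c) (fun h => hij (congrArg Prod.fst h)) y (Set.mem_iUnion.2 ⟨κ, hy⟩)
        y' (Set.mem_iUnion.2 ⟨κ', hy'⟩) rfl h1
  have hcommG : ∀ κ κ' : K, κ ≠ κ' → ∀ z z', Commute (q (Φ κ z)) (q (Φ κ' z')) := by
    intro κ κ' hκ z z'
    apply Subtype.ext
    rw [Subgroup.coe_mul, Subgroup.coe_mul, hΦ, hΦ]
    apply Equiv.ext
    intro p
    rw [Perm.mul_apply, Perm.mul_apply]
    by_cases hp : ∃ y ∈ E κ, ∃ i, p.1 = pos i +ᵥ y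
    · obtain ⟨y, hy, i, hpi⟩ := hp
      obtain ⟨p1, c⟩ := p
      change p1 = _ at hpi
      subst hpi
      rw [hnot κ κ' hκ y hy, tw_pc (hMκ κ) z hy i c]
      exact (hnot κ κ' hκ y hy _ _ _).symm
    · push Not at hp
      have e1 : ∀ z : Perm (ι × C), tw (hMκ κ) z p = p := fun z => by
        apply tw_apply_of_notMem
        intro y hy i h
        exact hp y hy i.1 (congrArg Prod.fst h)
      by_cases hp' : ∃ y ∈ E κ', ∃ i, p.1 = pos i +ᵥ y
      · obtain ⟨y, hy, i, hpi⟩ := hp'
        obtain ⟨p1, c⟩ := p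
        change p1 = _ at hpi
        subst hpi
        rw [hnot κ' κ hκ.symm y hy, tw_pc (hMκ κ') z' hy i c]
        exact hnot κ' κ hκ.symm y hy _ _ _
      · push Not at hp'
        have e2 : ∀ z : Perm (ι × C), tw (hMκ κ') z p = p := fun z => by
          apply tw_apply_of_notMem
          intro y hy i h
          exact hp' y hy i.1 (congrArg Prod.fst h)
        rw [e1, e2, e1]
  have hcomm : Pairwise fun κ κ' => ∀ z z', Commute (Φ κ z) (Φ κ' z') := by
    intro κ κ' hκ z z'
    by_cases hne : Nonempty ι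
    · have h5 : 5 ≤ Nat.card (ι × C) := by
        rw [Nat.card_eq_fintype_card, Fintype.card_prod]
        have : 0 < Fintype.card ι := Fintype.card_pos
        nlinarith
      exact commute_of hK (commutator_alternatingGroup_eq_top h5) (Φ κ) (Φ κ')
        (fun z z' => hcommG κ κ' hκ z z') z z'
    · have hz : z = 1 := by
        apply Subtype.ext
        apply Equiv.ext
        intro x
        exact absurd ⟨x.1⟩ hne
      rw [hz, map_one]
      exact Commute.one_left _
  refine ⟨MonoidHom.noncommPiCoprod Φ hcomm, ?_, ?_⟩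
  · intro z κ y hy i c
    have e' : (q (MonoidHom.noncommPiCoprod Φ hcomm z) : Perm (X × C)) =
        Finset.univ.noncommProd (fun κ => (q (Φ κ (z κ)) : Perm (X × C)))
          (fun i _ j _ h => ((hcomm h _ _).map q).map (Gp V letter C).subtype) :=
      Finset.map_noncommProd Finset.univ (fun κ => Φ κ (z κ)) (fun i _ j _ h => hcomm h _ _)
        ((Gp V letter C).subtype.comp q)
    refine (DFunLike.congr_fun e' (pos i +ᵥ y, c)).trans ?_
    refine (noncommProd_apply univ _ _ (mem_univ κ) _ ?_).trans ?_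
    · intro κ' _ hκ'
      change (q (Φ κ' (z κ')) : Perm (X × C)) ((q (Φ κ (z κ)) : Perm (X × C)) (pos i +ᵥ y, c)) =
        (q (Φ κ (z κ)) : Perm (X × C)) (pos i +ᵥ y, c)
      rw [hΦ, hΦ, tw_pc (hMκ κ) _ hy i c]
      exact hnot κ κ' hκ'.symm y hy _ _ _
    · change (q (Φ κ (z κ)) : Perm (X × C)) (pos i +ᵥ y, c) = _
      rw [hΦ, tw_pc (hMκ κ) _ hy i c]
  · intro z p hp
    have e' : (q (MonoidHom.noncommPiCoprod Φ hcomm z) : Perm (X × C)) =
        Finset.univ.noncommProd (fun κ => (q (Φ κ (z κ)) : Perm (X × C)))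
          (fun i _ j _ h => ((hcomm h _ _).map q).map (Gp V letter C).subtype) :=
      Finset.map_noncommProd Finset.univ (fun κ => Φ κ (z κ)) (fun i _ j _ h => hcomm h _ _)
        ((Gp V letter C).subtype.comp q)
    refine (DFunLike.congr_fun e' p).trans ?_
    apply noncommProd_fix
    intro κ _
    change (q (Φ κ (z κ)) : Perm (X × C)) p = p
    rw [hΦ]
    apply tw_apply_of_notMem
    intro y hy i h
    exact hp κ y hy i.1 (congrArg Prod.fst h)

end Crest.Agent.R189.SecW
end

-- ▼ part R189/SecK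
section

/-!
# Row 189 (S0289): sections over `realAlt` (K2, in the form of `KDefs.lean`)

`exists_secK`: if for every `κ` the event `{x ∈ D | kap x = κ}` is good then
`realAlt hc kap : (K → AltOn (win C W)) →* Perm (X × C)` has a section into `T`.
-/

set_option autoImplicit false
set_option linter.unusedSectionVars false

open Equiv Equiv.Perm Finset

namespace Crest.Agent.R189.SecW

open Crest.Agent.R189.K

section tow

variable {C : Type} [Fintype C] [DecidableEq C]

/-- the points of the window as a product -/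
def winEquiv (W : Finset (ℤ × ℤ)) : {p // p ∈ win C W} ≃ {v // v ∈ W} × C where
  toFun p := (⟨p.1.1, mem_win.1 p.2⟩, p.1.2)
  invFun p := ⟨(p.1.1, p.2), mem_win.2 p.1.2⟩
  left_inv p := rfl
  right_inv p := rfl

/-- even permutations of the window, as even permutations of the product type -/
noncomputable def toTow (W : Finset (ℤ × ℤ)) :
    AltOn (win C W) →* alternatingGroup ({v // v ∈ W} × C) where
  toFun z := ⟨(winEquiv W).permCongr (res (win C W) (z : Perm (Om C))), by
    rw [mem_alternatingGroup, sign_permCongr, ← sgn_eq z.2.1]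
    exact z.2.2⟩
  map_one' := by
    apply Subtype.ext
    change (winEquiv W).permCongr (res (win C W) (1 : Perm (Om C))) = 1
    have : res (win C W) (1 : Perm (Om C)) = 1 := by
      rw [res_of (fun _ => Iff.rfl)]
      rfl
    rw [this]
    apply Equiv.ext
    intro x
    simp
  map_mul' := by
    intro a b
    apply Subtype.ext
    change (winEquiv W).permCongr (res (win C W) ((a : Perm (Om C)) * (b : Perm (Om C)))) =
      (winEquiv W).permCongr (res (win C W) (a : Perm (Om C))) *
        (winEquiv W).permCongr (res (win C W) (b : Perm (Om C)))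
    rw [res_mul (on_mem_iff a.2.1) (on_mem_iff b.2.1)]
    apply Equiv.ext
    intro x
    simp

theorem toTow_fst (W : Finset (ℤ × ℤ)) (z : AltOn (win C W)) {v : ℤ × ℤ} (hv : v ∈ W) (c : C) :
    (((toTow W z : Perm ({v // v ∈ W} × C)) (⟨v, hv⟩, c)).1 : ℤ × ℤ) =
      ((z : Perm (Om C)) (v, c)).1 := by
  change ((res (win C W) (z : Perm (Om C)) ⟨(v, c), mem_win.2 hv⟩ : Om C)).1 = _
  rw [res_apply (on_mem_iff z.2.1)]

theorem toTow_snd (W : Finset (ℤ × ℤ)) (z : AltOn (win C W)) {v : ℤ × ℤ} (hv : v ∈ W) (c : C) :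
    ((toTow W z : Perm ({v // v ∈ W} × C)) (⟨v, hv⟩, c)).2 = ((z : Perm (Om C)) (v, c)).2 := by
  change ((res (win C W) (z : Perm (Om C)) ⟨(v, c), mem_win.2 hv⟩ : Om C)).2 = _
  rw [res_apply (on_mem_iff z.2.1)]

end tow

variable {X A C : Type} [AddAction (ℤ × ℤ) X] {letter : X → A} [Finite A]
  [Fintype C] [DecidableEq C] {T : Type} [Group T]

/-- **(K2)** sections over `realAlt`. -/
theorem exists_secK (q : T →* Gp (ℤ × ℤ) letter C) (hq : Function.Surjective q)
    (hK : q.ker ≤ Subgroup.center T) (hC : 30 ≤ Fintype.card C)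
    {D : Set X} {W : Finset (ℤ × ℤ)} (hc : Cell D W) {K : Type} [Fintype K] (kap : X → K)
    (hE : ∀ κ, Clo (ℤ × ℤ) letter {x | x ∈ D ∧ kap x = κ})
    (θ : K → alternatingGroup C →* T)
    (hθ : ∀ κ s, (q (θ κ s) : Perm (X × C)) = ev {x | x ∈ D ∧ kap x = κ} (s : Perm C)) :
    ∃ s : (K → AltOn (win C W)) →* T,
      ∀ z, (q (s z) : Perm (X × C)) = realAlt hc kap z := by
  classical
  have hM : MS (⋃ κ, {x | x ∈ D ∧ kap x = κ})
      (pc (C := C) (fun v : {v // v ∈ W} => (v : ℤ × ℤ))) := by
    rintro ⟨⟨v, hv⟩, c⟩ ⟨⟨v', hv'⟩, c'⟩ hne y hy y' hy' hcc h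
    rw [Set.mem_iUnion] at hy hy'
    obtain ⟨_, hy, -⟩ := hy
    obtain ⟨_, hy', -⟩ := hy'
    change c = c' at hcc
    subst hcc
    have := hc v hv v' hv' y hy y' hy' h
    subst this
    exact hne rfl
  obtain ⟨Φ, h1, h2⟩ := exists_secFam q hq hK hC (fun κ => {x | x ∈ D ∧ kap x = κ}) hE
    (fun κ κ' hκ => Set.disjoint_left.2 (fun x hx hx' => hκ (hx.2.symm.trans hx'.2))) θ hθ
    (fun v : {v // v ∈ W} => (v : ℤ × ℤ)) hM
  let P : (K → AltOn (win C W)) →* (K → alternatingGroup ({v // v ∈ W} × C)) :=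
    { toFun := fun z κ => toTow W (z κ)
      map_one' := by
        funext κ
        exact map_one (toTow W)
      map_mul' := by
        intro a b
        funext κ
        exact map_mul (toTow W) (a κ) (b κ) }
  refine ⟨Φ.comp P, fun z => ?_⟩
  apply Equiv.ext
  intro p
  rcases real_cases D W p with ⟨v, hv, x, hx, hp⟩ | h
  · rw [hp, realAlt_apply hc kap z hv hx]
    have e := h1 (P z) (kap x) x ⟨hx, rfl⟩ ⟨v, hv⟩ p.2
    refine e.trans ?_
    refine Prod.ext ?_ ?_
    · change (((toTow W (z (kap x)) : Perm ({v // v ∈ W} × C)) (⟨v, hv⟩, p.2)).1 : ℤ × ℤ) +ᵥ x = _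
      rw [toTow_fst]
    · exact toTow_snd W (z (kap x)) hv p.2
  · rw [realAlt_off hc kap z h]
    refine h2 (P z) p ?_
    rintro κ y ⟨hy, -⟩ ⟨v, hv⟩ hpy
    refine h v hv ?_
    rw [hpy]
    simpa using hy

end Crest.Agent.R189.SecW
end

-- ▼ part R189/FPGeo
section

/-!
# Row 189 (S0289), assembly of section 3 (helper396): geometry bridge `ww`/`hh` = `xh`
-/

set_option autoImplicit false

namespace Crest.Agent.R189

theorem ww_hh_two_mul (a m : ℕ) : ww a (2 * m) = xh (a + 1) m ∧ hh a (2 * m) = xh a m := by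
  induction m with
  | zero => exact ⟨rfl, rfl⟩
  | succ m ih =>
    have he : Even (2 * m) := even_two_mul m
    have ho : ¬ Even (2 * m + 1) := by
      rw [Nat.even_add_one, not_not]
      exact he
    have e : 2 * (m + 1) = 2 * m + 1 + 1 := by ring
    constructor
    · rw [e, ww_succ_odd ho, ww_succ_even he, ih.1, xh_succ', nn]
      ring
    · rw [e, hh_succ_odd ho, hh_succ_even he, ih.2, xh_succ', nn]
      ring

theorem ww_two_mul (a m : ℕ) : ww a (2 * m) = xh (a + 1) m := (ww_hh_two_mul a m).1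

theorem hh_two_mul (a m : ℕ) : hh a (2 * m) = xh a m := (ww_hh_two_mul a m).2

theorem natCast_eq_intCast_iff_dg {n : ℕ} (hn : 0 < n) (y : ℤ) (j : ℕ) :
    ((y : ℤ) : ZMod n) = (j : ZMod n) ↔ dg n y = j % n := by
  have h1 := dg_cast hn y
  have h2 : ((j % n : ℕ) : ℤ) = (j : ℤ) % (n : ℤ) := Int.natCast_mod j n
  have h3 : ((j : ℕ) : ZMod n) = (((j : ℕ) : ℤ) : ZMod n) := by push_cast; rfl
  rw [h3, ZMod.intCast_eq_intCast_iff' y (j : ℤ) n]
  constructor
  · intro h
    have : ((dg n y : ℕ) : ℤ) = ((j % n : ℕ) : ℤ) := by rw [h1, h2, h]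
    exact_mod_cast this
  · intro h
    rw [← h1, ← h2, h]

end Crest.Agent.R189
end

-- ▼ part R189/FPBridge

/-!
# Row 189 (S0289), assembly of section 3 (helper396): the even levels of the hierarchy of `X`
(`XH.xc`, `XH.xSt`, helper787) in terms of the level data `xLev` (helper260)
-/

set_option autoImplicit false

namespace Crest.Agent.R189.FPMain

/-- base digits in `X` -/
def cX (j : ℕ) : Set X := {y | ((letter y).1 : ℕ) = j % 9}

/-- base stars in `X` -/
def StX (s : Star) : Set X := {y | (letter y).2 = s}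

theorem cX_eq : cX = XH.xc 3 0 := by
  funext j
  ext y
  rw [XH.mem_xc, XH.xD_zero, XH.xQ_zero]
  exact ⟨fun h => ⟨trivial, h⟩, fun h => h.2⟩

theorem StX_eq : StX = XH.xSt 3 0 := by
  funext s
  ext y
  rw [XH.mem_xSt, XH.xD_zero, XH.xr_zero, ← star_val le_rfl]
  constructor
  · intro h
    refine ⟨trivial, ?_⟩
    have h' : star 3 y.s y.p.1 y.p.2 = s := h
    rw [h']
  · intro h
    exact Subtype.ext h.2

/-- the even level `2m` as a level of the kernel part -/
def LX (m : ℕ) : K.Lev X Label Star := xLev (a := 3) le_rfl (allOK le_rfl) m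


theorem mem_xD_iff (m : ℕ) (x : X) : x ∈ XH.xD 3 (2 * m) ↔ x ∈ (LX m).D := by
  show ((ww 3 (2 * m) : ℤ) ∣ x.p.1 ∧ (hh 3 (2 * m) : ℤ) ∣ x.p.2) ↔ _
  rw [ww_two_mul, hh_two_mul]
  rfl

theorem mem_xc_iff (m j : ℕ) (x : X) :
    x ∈ XH.xc 3 (2 * m) j ↔ x ∈ (LX m).D ∧ (LX m).dig x = (j : ZMod (LX m).n) := by
  rw [XH.mem_xc, mem_xD_iff]
  refine and_congr_right fun _ => ?_
  have h1 : XH.xQ 3 (2 * m) x = x.p.2 / ((xh 3 m : ℕ) : ℤ) := by
    rw [XH.xQ, if_pos (even_two_mul m), hh_two_mul]
  rw [h1]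
  exact (natCast_eq_intCast_iff_dg (by omega) _ _).symm

theorem mem_xSt_iff (m : ℕ) (s : Star) (x : X) :
    x ∈ XH.xSt 3 (2 * m) s ↔ x ∈ (LX m).D ∧ (LX m).st x = s := by
  rw [XH.mem_xSt, mem_xD_iff]
  refine and_congr_right fun _ => ?_
  have h1 : XH.xr 3 (2 * m) x = ((LX m).st x).1 := by
    show rstar (3 + 2 * m) (XH.xs (2 * m) x) (XH.xP 3 (2 * m) x) (XH.xQ 3 (2 * m) x) =
      rstar (3 + 2 * m) x.s (x.p.1 / ((xh 4 m : ℕ) : ℤ)) (x.p.2 / ((xh 3 m : ℕ) : ℤ))
    rw [XH.xs, if_pos (even_two_mul m), XH.xP, if_pos (even_two_mul m), XH.xQ,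
      if_pos (even_two_mul m), hh_two_mul, ww_two_mul]
  rw [h1]
  exact ⟨fun h => Subtype.ext h, fun h => by rw [h]⟩

/-- the cells of level `2m` in `X` -/
theorem cell_eq (m j : ℕ) (A : Set Star) :
    Romp.meet (hc pZ qZ 3 cX StX (2 * m) j) (Romp.ev (hSt pZ qZ 3 cX StX (2 * m)) A) =
      {x | x ∈ (LX m).D ∧ (LX m).dig x = (j : ZMod (LX m).n) ∧ (LX m).st x ∈ A} := by
  rw [cX_eq, StX_eq, XH.hc_xc le_rfl, XH.hSt_xSt le_rfl]
  ext x
  have h1 : x ∈ Romp.ev (XH.xSt 3 (2 * m)) A ↔ x ∈ (LX m).D ∧ (LX m).st x ∈ A := by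
    rw [XH.mem_ev_xSt le_rfl, mem_xD_iff]
    refine and_congr_right fun hx => ?_
    have h2 : XH.xst 3 (2 * m) x = (LX m).st x := by
      have h3 := (XH.mem_xSt_iff (a := 3) (k := 2 * m) le_rfl (s := (LX m).st x) (x := x)).1
        ((mem_xSt_iff m _ x).2 ⟨hx, rfl⟩)
      exact h3.2
    rw [h2]
  have h4 : x ∈ Romp.meet (XH.xc 3 (2 * m) j) (Romp.ev (XH.xSt 3 (2 * m)) A) ↔
      x ∈ XH.xc 3 (2 * m) j ∧ x ∈ Romp.ev (XH.xSt 3 (2 * m)) A := by
    rw [Romp.set_meet]
    rfl
  rw [h4, h1, mem_xc_iff]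
  constructor
  · rintro ⟨⟨h1, h2⟩, h3, h4⟩
    exact ⟨h1, h2, h4⟩
  · rintro ⟨h1, h2, h3⟩
    exact ⟨⟨h1, h2⟩, h1, h3⟩

end Crest.Agent.R189.FPMain
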