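import Crest.Agent.R189.KGenReal
import Crest.Agent.R189.KRef
import Crest.Agent.R189.KLocal
import Crest.Agent.R189.UP

/-!
# Row 189, part F1 = (K3): layer decomposition of a word (helper781)

`LevLet L letter`: letter functions of a level.  `Sched`: the radii.
`layer`: a product of `M` generators is `sF f * sP eP * sQ eQ * sV v` with explicit
`f, eP, eQ, v` (ordered products of `lay`'s).
-/

set_option autoImplicit false
set_option linter.unusedSectionVars false

namespace Crest.Agent.R189.K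

open Equiv Equiv.Perm

/-! ### group theory -/

/-- ordered product `f 0 * f 1 * ... * f (M-1)` -/
def prodN {G : Type*} [Monoid G] (f : ℕ → G) : ℕ → G
  | 0 => 1
  | M + 1 => prodN f M * f M

section prodN

variable {G : Type*} [Monoid G]

@[simp] theorem prodN_zero (f : ℕ → G) : prodN f 0 = 1 := rfl

theorem prodN_succ (f : ℕ → G) (M : ℕ) : prodN f (M + 1) = prodN f M * f M := rfl

theorem prodN_congr {f g : ℕ → G} {M : ℕ} (h : ∀ i < M, f i = g i) : prodN f M = prodN g M := by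
  induction M with
  | zero => rfl
  | succ M ih =>
    rw [prodN_succ, prodN_succ, ih (fun i hi => h i (by omega)), h M (by omega)]

theorem map_prodN {H F : Type*} [Monoid H] [FunLike F G H] [MonoidHomClass F G H] (φ : F)
    (f : ℕ → G) (M : ℕ) : φ (prodN f M) = prodN (fun i => φ (f i)) M := by
  induction M with
  | zero => exact map_one φ
  | succ M ih => rw [prodN_succ, prodN_succ, map_mul, ih]

theorem prodN_commute {f : ℕ → G} {M : ℕ} {x : G} (h : ∀ i < M, Commute (f i) x) :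
    Commute (prodN f M) x := by
  induction M with
  | zero => exact Commute.one_left x
  | succ M ih => exact (ih (fun i hi => h i (by omega))).mul_left (h M (by omega))



theorem prodN_apply {ι : Type*} {G : ι → Type*} [∀ i, Monoid (G i)] (f : ℕ → ∀ i, G i) (M : ℕ)
    (i : ι) : prodN f M i = prodN (fun k => f k i) M := by
  induction M with
  | zero => rfl
  | succ M ih => rw [prodN_succ, prodN_succ, Pi.mul_apply, ih]

/-- regrouping of a product of four-fold products -/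
theorem regroup (F P Q V : ℕ → G) (M : ℕ)
    (hPF : ∀ i j, j < i → i < M → Commute (P j) (F i))
    (hQF : ∀ i j, j < i → i < M → Commute (Q j) (F i))
    (hVF : ∀ i j, j < i → i < M → Commute (V j) (F i))
    (hQP : ∀ i j, j < i → i < M → Commute (Q j) (P i))
    (hVP : ∀ i j, j < i → i < M → Commute (V j) (P i))
    (hVQ : ∀ i j, j < i → i < M → Commute (V j) (Q i)) :
    prodN (fun i => F i * P i * Q i * V i) M = prodN F M * prodN P M * prodN Q M * prodN V M := by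
  induction M with
  | zero => simp
  | succ M ih =>
    rw [prodN_succ, ih (fun i j h1 h2 => hPF i j h1 (by omega))
      (fun i j h1 h2 => hQF i j h1 (by omega)) (fun i j h1 h2 => hVF i j h1 (by omega))
      (fun i j h1 h2 => hQP i j h1 (by omega)) (fun i j h1 h2 => hVP i j h1 (by omega))
      (fun i j h1 h2 => hVQ i j h1 (by omega))]
    have c1 : Commute (prodN P M) (F M) := prodN_commute (fun i hi => hPF M i hi (by omega))
    have c2 : Commute (prodN Q M) (F M) := prodN_commute (fun i hi => hQF M i hi (by omega))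
    have c3 : Commute (prodN V M) (F M) := prodN_commute (fun i hi => hVF M i hi (by omega))
    have c4 : Commute (prodN Q M) (P M) := prodN_commute (fun i hi => hQP M i hi (by omega))
    have c5 : Commute (prodN V M) (P M) := prodN_commute (fun i hi => hVP M i hi (by omega))
    have c6 : Commute (prodN V M) (Q M) := prodN_commute (fun i hi => hVQ M i hi (by omega))
    have e1 : prodN P M * prodN Q M * prodN V M * F M = F M * (prodN P M * prodN Q M * prodN V M) :=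
      ((c1.mul_left c2).mul_left c3).eq
    have e2 : prodN Q M * prodN V M * P M = P M * (prodN Q M * prodN V M) := (c4.mul_left c5).eq
    have e3 : prodN V M * Q M = Q M * prodN V M := c6.eq
    simp only [prodN_succ]
    calc prodN F M * prodN P M * prodN Q M * prodN V M * (F M * P M * Q M * V M)
        = prodN F M * (prodN P M * prodN Q M * prodN V M * F M) * P M * Q M * V M := by
          simp only [mul_assoc]
      _ = prodN F M * F M * prodN P M * (prodN Q M * prodN V M * P M) * Q M * V M := by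
          rw [e1]; simp only [mul_assoc]
      _ = prodN F M * F M * (prodN P M * P M) * prodN Q M * (prodN V M * Q M) * V M := by
          rw [e2]; simp only [mul_assoc]
      _ = _ := by rw [e3]; simp only [mul_assoc]

end prodN

/-- product of two commuting homomorphisms -/
def mulHom {P T : Type*} [Group P] [Group T] (f g : P →* T) (h : ∀ x y, Commute (f x) (g y)) :
    P →* T where
  toFun x := f x * g x
  map_one' := by simp
  map_mul' x y := by
    have := (h y x).eq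
    rw [map_mul, map_mul, mul_assoc, mul_assoc, ← mul_assoc (f y), this, mul_assoc]

@[simp] theorem mulHom_apply {P T : Type*} [Group P] [Group T] (f g : P →* T)
    (h : ∀ x y, Commute (f x) (g y)) (x : P) : mulHom f g h x = f x * g x := rfl

/-! ### radii -/

/-- schedule of radii for `M` letters -/
structure Sched (w h s t0 t : ℤ) (M : ℕ) (rs rt : ℕ → ℤ) : Prop where
  rs0 : ∀ i, i < M → 2 ≤ rs i
  rs_mono : ∀ i j, i < j → j < M → rs i + 2 ≤ rs j
  rt_mono : ∀ i j, i < j → j < M → rt i + 2 ≤ rt j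
  rs_s : ∀ i, i < M → rs i < s
  t0_rt : ∀ i, i < M → t0 + 2 ≤ rt i
  rt_t : ∀ i, i < M → rt i < t
  s_pos : 0 < s
  s_t0 : s ≤ t0
  t0_t : t0 ≤ t
  w_t : 2 * t ≤ w
  h_t : 2 * t ≤ h

/-- the standard schedule -/
theorem sched_std {w h : ℤ} (M : ℕ) (hw : 2 * (8 * M + 12) ≤ w) (hh : 2 * (8 * M + 12) ≤ h) :
    Sched w h (4 * M + 2) (4 * M + 8) (8 * M + 12) M (fun i => 4 * (i + 1))
      (fun i => 4 * M + 10 + 4 * (i + 1)) where
  rs0 i hi := by omega
  rs_mono i j h1 h2 := by omega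
  rt_mono i j h1 h2 := by omega
  rs_s i hi := by omega
  t0_rt i hi := by omega
  rt_t i hi := by omega
  s_pos := by omega
  s_t0 := by omega
  t0_t := by omega
  w_t := hw
  h_t := hh

/-! ### letter functions and zones of a level -/

/-- letter functions of a level -/
structure LevLet {X Lab Sta A : Type*} [AddAction (ℤ × ℤ) X] (L : Lev X Lab Sta)
    (letter : X → A) where
  aF : ZMod L.n → ℤ × ℤ → A
  aP : ZMod L.n × Lab → ℤ × ℤ → A
  aQ : ZMod L.n × Lab → ℤ × ℤ → A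
  aV : ZMod L.n × Sta → ℤ × ℤ → A
  hF : ∀ y ∈ L.D, ∀ v : ℤ × ℤ, 0 < v.1 → v.1 < L.w → 0 < v.2 → v.2 < L.h →
    letter (v +ᵥ y) = aF (L.dig y) v
  hP : ∀ y ∈ L.D, ∀ v : ℤ × ℤ, -L.w < v.1 → v.1 < L.w → 0 < v.2 → v.2 < L.h →
    letter (v +ᵥ y) = aP (L.dig y, L.Pf y) v
  hQ : ∀ y ∈ L.D, ∀ v : ℤ × ℤ, 0 < v.1 → v.1 < L.w → -L.h < v.2 → v.2 < L.h →
    letter (v +ᵥ y) = aQ (L.dig y, L.Qf y) v
  hV : ∀ y ∈ L.D, ∀ v : ℤ × ℤ, -L.w < v.1 → v.1 < L.w → -L.h < v.2 → v.2 < L.h →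
    letter (v +ᵥ y) = aV (L.dig y, L.st y) v

section zones

variable {X Lab Sta A C : Type*} [AddAction (ℤ × ℤ) X] [Fintype C] [DecidableEq C]
variable {L : Lev X Lab Sta}

theorem clash {w r r' x x' a b : ℤ} (hf : far w r x) (hn : near w r' x') (ha : |a| ≤ 1)
    (hb : |b| ≤ 1) (hr : r' + 2 ≤ r) : ¬ w ∣ (x + a) - (x' + b) := by
  intro hd
  exact not_far_of_near (hn.add hb) (by omega : r' + 1 ≤ r - 1)
    ((hf.add ha).congr hd)

theorem clash' {w r r' x x' : ℤ} (hf : far w r x) (hn : near w r' x') (hr : r' ≤ r) :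
    ¬ w ∣ x - x' := by
  intro hd
  exact not_far_of_near hn hr (hf.congr hd)

theorem zone_disjoint {Z Z' : Set (ℤ × ℤ)}
    (h : ∀ v ∈ Z, ∀ v' ∈ Z', ¬ (L.w ∣ v.1 - v'.1 ∧ L.h ∣ v.2 - v'.2)) :
    Disjoint (zoneSet L.D Z) (zoneSet L.D Z') := by
  rw [Set.disjoint_left]
  rintro x ⟨v, hv, y, hy, rfl⟩ ⟨v', hv', y', hy', he⟩
  exact h v hv v' hv' (Lev.dvd_of_vadd_eq hy hy' he)

theorem gev_zone_commute {E E' : Set X} {Z Z' : Set (ℤ × ℤ)} (hE : E ⊆ zoneSet L.D Z)
    (hE' : E' ⊆ zoneSet L.D Z') {z z' : Perm C} {lam mu : C → ℤ × ℤ}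
    (h : ∀ v ∈ Z, ∀ v' ∈ Z', ∀ c, ¬ (L.w ∣ (v.1 + (lam c).1) - (v'.1 + (mu c).1) ∧
      L.h ∣ (v.2 + (lam c).2) - (v'.2 + (mu c).2))) :
    Commute (gev E z lam) (gev E' z' mu) := by
  apply gev_commute
  intro x c h1 h2
  obtain ⟨v, hv, y, hy, e1⟩ := hE h1
  obtain ⟨v', hv', y', hy', e2⟩ := hE' h2
  have e3 := vadd_shift e1
  have e4 := vadd_shift e2
  rw [e3] at e4
  exact h v hv v' hv' c (Lev.dvd_of_vadd_eq hy hy' e4)

variable {rs rt : ℤ}

theorem disj_FP (h0 : 0 ≤ rs) (hr : rs ≤ rt) : Disjoint (zoneSet L.D (ZF L.w L.h rs rt))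
    (zoneSet L.D (ZP L.h rs rt)) :=
  zone_disjoint fun _ hv _ hv' h => clash' (ZF_far L.w_pos L.h_pos h0 hr hv).1
    (ZP_far L.h_pos (h0.trans hr) hv' L.w).1 le_rfl h.1

theorem disj_FQ (h0 : 0 ≤ rs) (hr : rs ≤ rt) : Disjoint (zoneSet L.D (ZF L.w L.h rs rt))
    (zoneSet L.D (ZQ L.w rs rt)) :=
  zone_disjoint fun _ hv _ hv' h => clash' (ZF_far L.w_pos L.h_pos h0 hr hv).2.1
    (ZQ_far L.w_pos (h0.trans hr) hv' L.h).2 le_rfl h.2

theorem disj_FV (h0 : 0 ≤ rs) (hr : rs ≤ rt) : Disjoint (zoneSet L.D (ZF L.w L.h rs rt))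
    (zoneSet L.D (ZV rt)) :=
  zone_disjoint fun _ hv _ hv' h => (ZF_far L.w_pos L.h_pos h0 hr hv).2.2.elim
    (fun h1 => clash' h1 (ZV_near hv' L.w L.h).1 le_rfl h.1)
    (fun h1 => clash' h1 (ZV_near hv' L.w L.h).2 le_rfl h.2)

theorem disj_PQ (h0 : 0 ≤ rs) (hr : rs ≤ rt) : Disjoint (zoneSet L.D (ZP L.h rs rt))
    (zoneSet L.D (ZQ L.w rs rt)) :=
  zone_disjoint fun _ hv _ hv' h => clash' (ZP_far L.h_pos (h0.trans hr) hv L.w).2
    (ZQ_far L.w_pos (h0.trans hr) hv' L.h).2 hr h.2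

theorem disj_PV (h0 : 0 ≤ rs) (hr : rs ≤ rt) : Disjoint (zoneSet L.D (ZP L.h rs rt))
    (zoneSet L.D (ZV rt)) :=
  zone_disjoint fun _ hv _ hv' h => clash' (ZP_far L.h_pos (h0.trans hr) hv L.w).2
    (ZV_near hv' L.w L.h).2 le_rfl h.2

theorem disj_QV (h0 : 0 ≤ rs) (hr : rs ≤ rt) : Disjoint (zoneSet L.D (ZQ L.w rs rt))
    (zoneSet L.D (ZV rt)) :=
  zone_disjoint fun _ hv _ hv' h => clash' (ZQ_far L.w_pos (h0.trans hr) hv L.h).1
    (ZV_near hv' L.w L.h).1 le_rfl h.1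

theorem mem_zone_of {Z : Set (ℤ × ℤ)} {v u : ℤ × ℤ} {y : X} (hy : y ∈ L.D) (hv : v - u ∈ Z)
    (h1 : L.w ∣ u.1) (h2 : L.h ∣ u.2) : v +ᵥ y ∈ zoneSet L.D Z :=
  ⟨v - u, hv, u +ᵥ y, (L.D_iff y hy u).2 ⟨h1, h2⟩, by rw [vadd_vadd, sub_add_cancel]⟩

theorem zone_cover_X (h0 : 0 < rs) (hr : rs ≤ rt) (x : X) :
    x ∈ zoneSet L.D (ZF L.w L.h rs rt) ∪ (zoneSet L.D (ZP L.h rs rt) ∪
      (zoneSet L.D (ZQ L.w rs rt) ∪ zoneSet L.D (ZV rt))) := by
  obtain ⟨v, y, hy, h1, h2, h3, h4, rfl⟩ := L.cover x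
  rcases zone_cover (w := L.w) (h := L.h) hr h1 h2 h3 h4 h0 with h | (h | h) | (h | h) |
    (h | h | h | h)
  · exact Or.inl ⟨v, h, y, hy, rfl⟩
  · exact Or.inr (Or.inl ⟨v, h, y, hy, rfl⟩)
  · exact Or.inr (Or.inl (mem_zone_of hy h (dvd_refl _) (dvd_zero _)))
  · exact Or.inr (Or.inr (Or.inl ⟨v, h, y, hy, rfl⟩))
  · exact Or.inr (Or.inr (Or.inl (mem_zone_of hy h (dvd_zero _) (dvd_refl _))))
  · exact Or.inr (Or.inr (Or.inr ⟨v, h, y, hy, rfl⟩))
  · exact Or.inr (Or.inr (Or.inr (mem_zone_of hy h (dvd_refl _) (dvd_zero _))))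
  · exact Or.inr (Or.inr (Or.inr (mem_zone_of hy h (dvd_zero _) (dvd_refl _))))
  · exact Or.inr (Or.inr (Or.inr (mem_zone_of hy h (dvd_refl _) (dvd_refl _))))

/-- the event of a generator is the disjoint union of its four zone parts -/
theorem gev_split (h0 : 0 < rs) (hr : rs ≤ rt) (E : Set X) (z : Perm C) (lam : C → ℤ × ℤ) :
    gev E z lam = gev (E ∩ zoneSet L.D (ZF L.w L.h rs rt)) z lam *
      (gev (E ∩ zoneSet L.D (ZP L.h rs rt)) z lam *
      (gev (E ∩ zoneSet L.D (ZQ L.w rs rt)) z lam * gev (E ∩ zoneSet L.D (ZV rt)) z lam)) := by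
  have dis : ∀ {A B : Set X}, Disjoint A B → Disjoint (E ∩ A) (E ∩ B) := fun h =>
    h.mono Set.inter_subset_right Set.inter_subset_right
  rw [← gev_union (dis (disj_QV h0.le hr)), ← gev_union, ← gev_union]
  · congr 1
    rw [← Set.inter_union_distrib_left, ← Set.inter_union_distrib_left,
      ← Set.inter_union_distrib_left]
    ext x
    simp only [Set.mem_inter_iff]
    exact ⟨fun h => ⟨h, zone_cover_X h0 hr x⟩, fun h => h.1⟩
  · rw [Set.disjoint_union_right, Set.disjoint_union_right]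
    exact ⟨dis (disj_FP h0.le hr), dis (disj_FQ h0.le hr), dis (disj_FV h0.le hr)⟩
  · rw [Set.disjoint_union_right]
    exact ⟨dis (disj_PQ h0.le hr), dis (disj_PV h0.le hr)⟩

end zones

/-! ### the generator in `T` -/

section T

variable {X Lab Sta A C T : Type*} [AddAction (ℤ × ℤ) X] [Fintype C] [DecidableEq C] [Group T]
variable {q : T →* Perm (X × C)} {L : Lev X Lab Sta} {letter : X → A} {s t0 t : ℤ}

/-- layers of a fixed generator type as a homomorphism -/
noncomputable def layHom (hC : 5 ≤ Fintype.card C) {ι : Type*} (W : Finset (ℤ × ℤ))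
    (lam : C → ℤ × ℤ) (F : ι → Set (ℤ × ℤ)) (hF : ∀ i, ∀ v ∈ F i, ∀ c, v + lam c ∈ W) :
    alternatingGroup C →* (ι → AltOn (win C W)) where
  toFun z i := ⟨lay (z : Perm C) lam (F i), lay_mem_AltOn hC z.2 (hF i)⟩
  map_one' := by
    ext1 i
    apply Subtype.ext
    exact lay_one lam (F i)
  map_mul' a b := by
    ext1 i
    apply Subtype.ext
    exact lay_mul (a : Perm C) (b : Perm C) lam (F i)

@[simp] theorem layHom_coe (hC : 5 ≤ Fintype.card C) {ι : Type*} (W : Finset (ℤ × ℤ))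
    (lam : C → ℤ × ℤ) (F : ι → Set (ℤ × ℤ)) (hF : ∀ i, ∀ v ∈ F i, ∀ c, v + lam c ∈ W)
    (z : alternatingGroup C) (i : ι) :
    (layHom hC W lam F hF z i : Perm (Om C)) = lay (z : Perm C) lam (F i) := rfl

theorem realAlt_layHom (hC : 5 ≤ Fintype.card C) {ι : Type*} {D : Set X} {W : Finset (ℤ × ℤ)}
    (hc : Cell D W) (κ : X → ι) {Z : Set (ℤ × ℤ)} {a : ι → ℤ × ℤ → A} {E : Set A}
    {lam : C → ℤ × ℤ} (hZ : ∀ v ∈ Z, ∀ c, v + lam c ∈ W)
    (ha : ∀ y ∈ D, ∀ v ∈ Z, letter (v +ᵥ y) = a (κ y) v) (z : alternatingGroup C) :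
    realAlt hc κ (layHom hC W lam (fun i => Z ∩ {v | a i v ∈ E})
      (fun _ v hv => hZ v hv.1) z) = gev ({x | letter x ∈ E} ∩ zoneSet D Z) (z : Perm C) lam :=
  realFam_lay hc κ (z : Perm C) hZ ha (altIncl ι W (layHom hC W lam
    (fun i => Z ∩ {v | a i v ∈ E}) (fun _ v hv => hZ v hv.1) z)) (fun _ => rfl)

/-- The sections over the four windows used by the layer decomposition. -/
structure Secs4 (q : T →* Perm (X × C)) (L : Lev X Lab Sta) (s t0 t : ℤ)
    (hP : L.Dist (L.WP s t0)) (hQ : L.Dist (L.WQ s t0)) (hV : L.Dist (WV t)) where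
  sF : (ZMod L.n → AltOn (win C L.WF)) →* T
  sP : (ZMod L.n × Lab → AltOn (win C (L.WP s t0))) →* T
  sQ : (ZMod L.n × Lab → AltOn (win C (L.WQ s t0))) →* T
  sV : (ZMod L.n × Sta → AltOn (win C (WV t))) →* T
  qF : ∀ z, q (sF z) = realAlt (Lev.dist_WF (L := L)).cell L.dig z
  qP : ∀ z, q (sP z) = realAlt hP.cell L.kP z
  qQ : ∀ z, q (sQ z) = realAlt hQ.cell L.kQ z
  qV : ∀ z, q (sV z) = realAlt hV.cell L.kV z

section gen

variable {hP : L.Dist (L.WP s t0)} {hQ : L.Dist (L.WQ s t0)} {hV : L.Dist (WV t)}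

theorem abs_le_one {a : ℤ} (h : |a| ≤ 1) : -1 ≤ a ∧ a ≤ 1 := abs_le.1 h

/-- one generator: decomposition into four zone parts, in `T` -/
theorem gen_split (hK : q.ker ≤ Subgroup.center T) (hC : 5 ≤ Fintype.card C)
    (LL : LevLet L letter) (S : Secs4 q L s t0 t hP hQ hV) {rs rt : ℤ}
    (h1 : 2 ≤ rs) (h2 : rs < s) (h3 : s ≤ t0) (h4 : t0 + 2 ≤ rt) (h5 : rt < t)
    (h6 : 2 * t ≤ L.w) (h7 : 2 * t ≤ L.h) (E : Set A) (lam : C → ℤ × ℤ)
    (hlam : ∀ c, |(lam c).1| ≤ 1 ∧ |(lam c).2| ≤ 1)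
    (φ : alternatingGroup C →* T) (hφ : ∀ z, q (φ z) = gev {x | letter x ∈ E} (z : Perm C) lam) :
    ∃ (fF : alternatingGroup C →* (ZMod L.n → AltOn (win C L.WF)))
      (fP : alternatingGroup C →* (ZMod L.n × Lab → AltOn (win C (L.WP s t0))))
      (fQ : alternatingGroup C →* (ZMod L.n × Lab → AltOn (win C (L.WQ s t0))))
      (fV : alternatingGroup C →* (ZMod L.n × Sta → AltOn (win C (WV t)))),
      (∀ z j, (fF z j : Perm (Om C)) =
        lay (z : Perm C) lam (ZF L.w L.h rs rt ∩ {v | LL.aF j v ∈ E})) ∧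
      (∀ z j, (fP z j : Perm (Om C)) =
        lay (z : Perm C) lam (ZP L.h rs rt ∩ {v | LL.aP j v ∈ E})) ∧
      (∀ z j, (fQ z j : Perm (Om C)) =
        lay (z : Perm C) lam (ZQ L.w rs rt ∩ {v | LL.aQ j v ∈ E})) ∧
      (∀ z j, (fV z j : Perm (Om C)) =
        lay (z : Perm C) lam (ZV rt ∩ {v | LL.aV j v ∈ E})) ∧
      (∀ z, q (S.sF (fF z)) =
        gev ({x | letter x ∈ E} ∩ zoneSet L.D (ZF L.w L.h rs rt)) (z : Perm C) lam) ∧
      (∀ z, q (S.sP (fP z)) =
        gev ({x | letter x ∈ E} ∩ zoneSet L.D (ZP L.h rs rt)) (z : Perm C) lam) ∧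
      (∀ z, q (S.sQ (fQ z)) =
        gev ({x | letter x ∈ E} ∩ zoneSet L.D (ZQ L.w rs rt)) (z : Perm C) lam) ∧
      (∀ z, q (S.sV (fV z)) =
        gev ({x | letter x ∈ E} ∩ zoneSet L.D (ZV rt)) (z : Perm C) lam) ∧
      ∀ z, φ z = S.sF (fF z) * S.sP (fP z) * S.sQ (fQ z) * S.sV (fV z) := by
  have hl : ∀ c, (-1 ≤ (lam c).1 ∧ (lam c).1 ≤ 1) ∧ (-1 ≤ (lam c).2 ∧ (lam c).2 ≤ 1) :=
    fun c => ⟨abs_le_one (hlam c).1, abs_le_one (hlam c).2⟩
  have wF : ∀ v ∈ ZF L.w L.h rs rt, ∀ c, v + lam c ∈ L.WF := by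
    intro v hv c
    have := hl c
    obtain ⟨g1, g2, g3, g4, -⟩ := hv
    rw [Lev.mem_WF, Prod.fst_add, Prod.snd_add]
    omega
  have wP : ∀ v ∈ ZP L.h rs rt, ∀ c, v + lam c ∈ L.WP s t0 := by
    intro v hv c
    have := hl c
    obtain ⟨g1, g2, g3, g4⟩ := hv
    rw [Lev.mem_WP, Prod.fst_add, Prod.snd_add]
    omega
  have wQ : ∀ v ∈ ZQ L.w rs rt, ∀ c, v + lam c ∈ L.WQ s t0 := by
    intro v hv c
    have := hl c
    obtain ⟨g1, g2, g3, g4⟩ := hv
    rw [Lev.mem_WQ, Prod.fst_add, Prod.snd_add]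
    omega
  have wV : ∀ v ∈ ZV rt, ∀ c, v + lam c ∈ WV t := by
    intro v hv c
    have := hl c
    obtain ⟨g1, g2, g3, g4⟩ := hv
    rw [mem_WV, Prod.fst_add, Prod.snd_add]
    omega
  have aF : ∀ y ∈ L.D, ∀ v ∈ ZF L.w L.h rs rt, letter (v +ᵥ y) = LL.aF (L.dig y) v := by
    intro y hy v hv
    obtain ⟨g1, g2, g3, g4, -⟩ := hv
    exact LL.hF y hy v (by omega) (by omega) (by omega) (by omega)
  have aP : ∀ y ∈ L.D, ∀ v ∈ ZP L.h rs rt, letter (v +ᵥ y) = LL.aP (L.kP y) v := by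
    intro y hy v hv
    obtain ⟨g1, g2, g3, g4⟩ := hv
    exact LL.hP y hy v (by omega) (by omega) (by omega) (by omega)
  have aQ : ∀ y ∈ L.D, ∀ v ∈ ZQ L.w rs rt, letter (v +ᵥ y) = LL.aQ (L.kQ y) v := by
    intro y hy v hv
    obtain ⟨g1, g2, g3, g4⟩ := hv
    exact LL.hQ y hy v (by omega) (by omega) (by omega) (by omega)
  have aV : ∀ y ∈ L.D, ∀ v ∈ ZV rt, letter (v +ᵥ y) = LL.aV (L.kV y) v := by
    intro y hy v hv
    obtain ⟨g1, g2, g3, g4⟩ := hv
    exact LL.hV y hy v (by omega) (by omega) (by omega) (by omega)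
  set fF := layHom hC L.WF lam (fun i => ZF L.w L.h rs rt ∩ {v | LL.aF i v ∈ E})
    (fun _ v hv => wF v hv.1) with hfF
  set fP := layHom hC (L.WP s t0) lam (fun i => ZP L.h rs rt ∩ {v | LL.aP i v ∈ E})
    (fun _ v hv => wP v hv.1) with hfP
  set fQ := layHom hC (L.WQ s t0) lam (fun i => ZQ L.w rs rt ∩ {v | LL.aQ i v ∈ E})
    (fun _ v hv => wQ v hv.1) with hfQ
  set fV := layHom hC (WV t) lam (fun i => ZV rt ∩ {v | LL.aV i v ∈ E})
    (fun _ v hv => wV v hv.1) with hfV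
  have qF : ∀ z, q (S.sF (fF z)) =
        gev ({x | letter x ∈ E} ∩ zoneSet L.D (ZF L.w L.h rs rt)) (z : Perm C) lam := by
    intro z
    rw [S.qF, hfF]
    exact realAlt_layHom hC _ L.dig wF aF z
  have qP : ∀ z, q (S.sP (fP z)) =
        gev ({x | letter x ∈ E} ∩ zoneSet L.D (ZP L.h rs rt)) (z : Perm C) lam := by
    intro z
    rw [S.qP, hfP]
    exact realAlt_layHom hC _ L.kP wP aP z
  have qQ : ∀ z, q (S.sQ (fQ z)) =
        gev ({x | letter x ∈ E} ∩ zoneSet L.D (ZQ L.w rs rt)) (z : Perm C) lam := by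
    intro z
    rw [S.qQ, hfQ]
    exact realAlt_layHom hC _ L.kQ wQ aQ z
  have qV : ∀ z, q (S.sV (fV z)) =
        gev ({x | letter x ∈ E} ∩ zoneSet L.D (ZV rt)) (z : Perm C) lam := by
    intro z
    rw [S.qV, hfV]
    exact realAlt_layHom hC _ L.kV wV aV z
  have h0 : 0 ≤ rs := by omega
  have hr : rs ≤ rt := by omega
  have dis : ∀ {A B : Set X}, Disjoint A B →
      Disjoint ({x | letter x ∈ E} ∩ A) ({x | letter x ∈ E} ∩ B) := fun h =>
    h.mono Set.inter_subset_right Set.inter_subset_right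
  have hperf : commutator (alternatingGroup C) = ⊤ := by
    apply commutator_alternatingGroup_eq_top
    rw [Nat.card_eq_fintype_card]
    exact hC
  have com : ∀ (f g : alternatingGroup C →* T) (E1 E2 : Set X), Disjoint E1 E2 →
      (∀ z, q (f z) = gev E1 (z : Perm C) lam) → (∀ z, q (g z) = gev E2 (z : Perm C) lam) →
      ∀ x y, Commute (f x) (g y) := by
    intro f g E1 E2 hd hf hg x y
    apply UP.commute_of hK hperf f g
    intro a b
    rw [hf, hg]
    exact gev_disjoint_commute hd _ _ _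
  have cQV := com (S.sQ.comp fQ) (S.sV.comp fV) _ _ (dis (disj_QV h0 hr)) qQ qV
  have cPQ := com (S.sP.comp fP) (S.sQ.comp fQ) _ _ (dis (disj_PQ h0 hr)) qP qQ
  have cPV := com (S.sP.comp fP) (S.sV.comp fV) _ _ (dis (disj_PV h0 hr)) qP qV
  have cFP := com (S.sF.comp fF) (S.sP.comp fP) _ _ (dis (disj_FP h0 hr)) qF qP
  have cFQ := com (S.sF.comp fF) (S.sQ.comp fQ) _ _ (dis (disj_FQ h0 hr)) qF qQ
  have cFV := com (S.sF.comp fF) (S.sV.comp fV) _ _ (dis (disj_FV h0 hr)) qF qV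
  have c2 : ∀ x y, Commute ((S.sP.comp fP) x) (mulHom (S.sQ.comp fQ) (S.sV.comp fV) cQV y) :=
    fun x y => (cPQ x y).mul_right (cPV x y)
  have c3 : ∀ x y, Commute ((S.sF.comp fF) x)
      (mulHom (S.sP.comp fP) (mulHom (S.sQ.comp fQ) (S.sV.comp fV) cQV) c2 y) :=
    fun x y => (cFP x y).mul_right ((cFQ x y).mul_right (cFV x y))
  have key : φ = mulHom (S.sF.comp fF) (mulHom (S.sP.comp fP)
      (mulHom (S.sQ.comp fQ) (S.sV.comp fV) cQV) c2) c3 := by
    apply UP.hom_unique hK hperf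
    intro z
    rw [hφ, mulHom_apply, mulHom_apply, mulHom_apply, map_mul, map_mul, map_mul]
    change _ = q (S.sF (fF z)) * (q (S.sP (fP z)) * (q (S.sQ (fQ z)) * q (S.sV (fV z))))
    rw [qF, qP, qQ, qV]
    exact gev_split (by omega) hr _ _ _
  refine ⟨fF, fP, fQ, fV, fun z j => rfl, fun z j => rfl, fun z j => rfl, fun z j => rfl,
    qF, qP, qQ, qV, ?_⟩
  intro z
  rw [key, mulHom_apply, mulHom_apply, mulHom_apply, ← mul_assoc, ← mul_assoc]
  rfl

/-- **F1.**  A product of `M` generators is `sF f * sP eP * sQ eQ * sV v`, with explicit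
families of ordered products of layers. -/
theorem layer (hK : q.ker ≤ Subgroup.center T) (hC : 5 ≤ Fintype.card C)
    (LL : LevLet L letter) (S : Secs4 q L s t0 t hP hQ hV) {M : ℕ} {rs rt : ℕ → ℤ}
    (hS : Sched L.w L.h s t0 t M rs rt) (z : ℕ → alternatingGroup C) (lam : ℕ → C → ℤ × ℤ)
    (E : ℕ → Set A) (hlam : ∀ i c, |(lam i c).1| ≤ 1 ∧ |(lam i c).2| ≤ 1)
    (φ : ℕ → alternatingGroup C →* T)
    (hφ : ∀ i z, q (φ i z) = gev {x | letter x ∈ E i} (z : Perm C) (lam i)) :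
    ∃ (f : ZMod L.n → AltOn (win C L.WF))
      (eP : ZMod L.n × Lab → AltOn (win C (L.WP s t0)))
      (eQ : ZMod L.n × Lab → AltOn (win C (L.WQ s t0)))
      (v : ZMod L.n × Sta → AltOn (win C (WV t))),
      (∀ j, (f j : Perm (Om C)) = prodN (fun i => lay (z i : Perm C) (lam i)
        (ZF L.w L.h (rs i) (rt i) ∩ {v | LL.aF j v ∈ E i})) M) ∧
      (∀ j, (eP j : Perm (Om C)) = prodN (fun i => lay (z i : Perm C) (lam i)
        (ZP L.h (rs i) (rt i) ∩ {v | LL.aP j v ∈ E i})) M) ∧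
      (∀ j, (eQ j : Perm (Om C)) = prodN (fun i => lay (z i : Perm C) (lam i)
        (ZQ L.w (rs i) (rt i) ∩ {v | LL.aQ j v ∈ E i})) M) ∧
      (∀ j, (v j : Perm (Om C)) = prodN (fun i => lay (z i : Perm C) (lam i)
        (ZV (rt i) ∩ {v | LL.aV j v ∈ E i})) M) ∧
      prodN (fun i => φ i (z i)) M = S.sF f * S.sP eP * S.sQ eQ * S.sV v := by
  have hperf : commutator (alternatingGroup C) = ⊤ := by
    apply commutator_alternatingGroup_eq_top
    rw [Nat.card_eq_fintype_card]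
    exact hC
  have hsplit := fun i (hi : i < M) => gen_split hK hC LL S (hS.rs0 i hi) (hS.rs_s i hi) hS.s_t0
    (hS.t0_rt i hi) (hS.rt_t i hi) hS.w_t hS.h_t (E i) (lam i) (hlam i) (φ i) (hφ i)
  choose! fF fP fQ fV lF lP lQ lV qF qP qQ qV hprod using hsplit
  have com : ∀ {i j : ℕ} (f g : alternatingGroup C →* T) {E1 E2 : Set X} {Z1 Z2 : Set (ℤ × ℤ)},
      (∀ z, q (f z) = gev (E1 ∩ zoneSet L.D Z1) (z : Perm C) (lam j)) →
      (∀ z, q (g z) = gev (E2 ∩ zoneSet L.D Z2) (z : Perm C) (lam i)) →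
      (∀ v ∈ Z1, ∀ v' ∈ Z2, ∀ c,
        ¬ (L.w ∣ (v.1 + (lam j c).1) - (v'.1 + (lam i c).1) ∧
          L.h ∣ (v.2 + (lam j c).2) - (v'.2 + (lam i c).2))) →
      ∀ x y, Commute (f x) (g y) := by
    intro i j f g E1 E2 Z1 Z2 hf hg hd x y
    apply UP.commute_of hK hperf f g
    intro a b
    rw [hf, hg]
    exact gev_zone_commute Set.inter_subset_right Set.inter_subset_right hd
  have hw := L.w_pos
  have hh := L.h_pos
  have flip : ∀ {w x y : ℤ}, ¬ w ∣ x - y → ¬ w ∣ y - x := by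
    intro w x y h hd
    apply h
    rw [← neg_sub]
    exact (dvd_neg).2 hd
  have main := regroup (fun i => S.sF (fF i (z i))) (fun i => S.sP (fP i (z i)))
    (fun i => S.sQ (fQ i (z i))) (fun i => S.sV (fV i (z i))) M
    (fun i j hji hi => com (i := i) (j := j) (S.sP.comp (fP j)) (S.sF.comp (fF i))
      (qP j (by omega)) (qF i hi) (fun v hv v' hv' c h => flip (clash
        (ZF_far hw hh (by have := hS.rs0 i hi; omega)
          (by have := hS.rs_s i hi; have := hS.s_t0; have := hS.t0_rt i hi; omega) hv').1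
        (ZP_far hh (by have := hS.t0_rt j (by omega); have := hS.s_t0; have := hS.s_pos; omega)
          hv L.w).1 (hlam i c).1 (hlam j c).1 (hS.rs_mono j i hji hi)) h.1) (z j) (z i))
    (fun i j hji hi => com (i := i) (j := j) (S.sQ.comp (fQ j)) (S.sF.comp (fF i))
      (qQ j (by omega)) (qF i hi) (fun v hv v' hv' c h => flip (clash
        (ZF_far hw hh (by have := hS.rs0 i hi; omega)
          (by have := hS.rs_s i hi; have := hS.s_t0; have := hS.t0_rt i hi; omega) hv').2.1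
        (ZQ_far hw (by have := hS.t0_rt j (by omega); have := hS.s_t0; have := hS.s_pos; omega)
          hv L.h).2 (hlam i c).2 (hlam j c).2 (hS.rs_mono j i hji hi)) h.2) (z j) (z i))
    (fun i j hji hi => com (i := i) (j := j) (S.sV.comp (fV j)) (S.sF.comp (fF i))
      (qV j (by omega)) (qF i hi) (fun v hv v' hv' c h =>
        (ZF_far hw hh (by have := hS.rs0 i hi; omega)
          (by have := hS.rs_s i hi; have := hS.s_t0; have := hS.t0_rt i hi; omega) hv').2.2.elim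
        (fun h1 => flip (clash h1 (ZV_near hv L.w L.h).1 (hlam i c).1 (hlam j c).1
          (hS.rt_mono j i hji hi)) h.1)
        (fun h1 => flip (clash h1 (ZV_near hv L.w L.h).2 (hlam i c).2 (hlam j c).2
          (hS.rt_mono j i hji hi)) h.2)) (z j) (z i))
    (fun i j hji hi => com (i := i) (j := j) (S.sQ.comp (fQ j)) (S.sP.comp (fP i))
      (qQ j (by omega)) (qP i hi) (fun v hv v' hv' c h => flip (clash
        (ZP_far hh (by have := hS.t0_rt i hi; have := hS.s_t0; have := hS.s_pos; omega) hv' L.w).2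
        (ZQ_far hw (by have := hS.t0_rt j (by omega); have := hS.s_t0; have := hS.s_pos; omega)
          hv L.h).2 (hlam i c).2 (hlam j c).2
          (by have := hS.rs_s j (by omega); have := hS.s_t0; have := hS.t0_rt i hi; omega))
          h.2) (z j) (z i))
    (fun i j hji hi => com (i := i) (j := j) (S.sV.comp (fV j)) (S.sP.comp (fP i))
      (qV j (by omega)) (qP i hi) (fun v hv v' hv' c h => flip (clash
        (ZP_far hh (by have := hS.t0_rt i hi; have := hS.s_t0; have := hS.s_pos; omega) hv' L.w).2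
        (ZV_near hv L.w L.h).2 (hlam i c).2 (hlam j c).2 (hS.rt_mono j i hji hi)) h.2) (z j) (z i))
    (fun i j hji hi => com (i := i) (j := j) (S.sV.comp (fV j)) (S.sQ.comp (fQ i))
      (qV j (by omega)) (qQ i hi) (fun v hv v' hv' c h => flip (clash
        (ZQ_far hw (by have := hS.t0_rt i hi; have := hS.s_t0; have := hS.s_pos; omega) hv' L.h).1
        (ZV_near hv L.w L.h).1 (hlam i c).1 (hlam j c).1 (hS.rt_mono j i hji hi)) h.1) (z j) (z i))
  refine ⟨prodN (fun i => fF i (z i)) M, prodN (fun i => fP i (z i)) M,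
    prodN (fun i => fQ i (z i)) M, prodN (fun i => fV i (z i)) M, ?_, ?_, ?_, ?_, ?_⟩
  · intro j
    rw [prodN_apply, ← Subgroup.coe_subtype, map_prodN]
    exact prodN_congr (fun i hi => lF i hi (z i) j)
  · intro j
    rw [prodN_apply, ← Subgroup.coe_subtype, map_prodN]
    exact prodN_congr (fun i hi => lP i hi (z i) j)
  · intro j
    rw [prodN_apply, ← Subgroup.coe_subtype, map_prodN]
    exact prodN_congr (fun i hi => lQ i hi (z i) j)
  · intro j
    rw [prodN_apply, ← Subgroup.coe_subtype, map_prodN]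
    exact prodN_congr (fun i hi => lV i hi (z i) j)
  · rw [map_prodN, map_prodN, map_prodN, map_prodN, ← main]
    exact prodN_congr (fun i hi => hprod i hi (z i))

end gen

end T

end Crest.Agent.R189.K
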