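import Mathlib

/-!
# Row 189, part F2 (flux identities)

Positions are `ℤ × ℤ`, colours `C` (finite).  `Ω = (ℤ × ℤ) × C`.
For a map `π : Ω → Ω`, a decidable set `A` and a finite region `R`,
`fl π A R = ∑_{z ∈ R} (1_A (π z) - 1_A z)` (flux of `π` INTO `A` through `R`).
-/

set_option autoImplicit false

namespace Crest.Agent.R189.KFlux

open Finset

section General

variable {Ω : Type*}

/-- flux of `π` into `A` through the finite region `R` -/
def fl (π : Ω → Ω) (A : Ω → Prop) [DecidablePred A] (R : Finset Ω) : ℤ :=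
  ∑ z ∈ R, ((if A (π z) then (1 : ℤ) else 0) - (if A z then 1 else 0))

/-- a permutation preserving a finite set has no flux through it -/
lemma fl_zero (π : Equiv.Perm Ω) (A : Ω → Prop) [DecidablePred A] (S : Finset Ω)
    (hS : ∀ z ∈ S, π z ∈ S) : fl π A S = 0 := by
  classical
  have himg : S.map π.toEmbedding = S := by
    apply Finset.eq_of_subset_of_card_le
    · intro z hz
      obtain ⟨u, hu, rfl⟩ := Finset.mem_map.1 hz
      exact hS u hu
    · rw [Finset.card_map]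
  unfold fl
  rw [Finset.sum_sub_distrib, sub_eq_zero]
  conv_rhs => rw [← himg, Finset.sum_map]
  rfl




/-- product rule, when `π'` maps the region to itself up to points without flux of `π` -/
lemma fl_mul (π π' : Equiv.Perm Ω) (A : Ω → Prop) [DecidablePred A] (R : Finset Ω)
    (h : ∀ z ∈ R, ¬ (A (π z) ↔ A z) → π'.symm z ∈ R)
    (h' : ∀ z ∈ R, ¬ (A (π (π' z)) ↔ A (π' z)) → π' z ∈ R) :
    fl (π * π') A R = fl π A R + fl π' A R := by
  classical
  have e1 : fl (π * π') A R =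
      (∑ z ∈ R, ((if A (π (π' z)) then (1 : ℤ) else 0) - (if A (π' z) then 1 else 0))) +
        fl π' A R := by
    unfold fl
    rw [← Finset.sum_add_distrib]
    refine Finset.sum_congr rfl fun z _ => ?_
    rw [Equiv.Perm.mul_apply]
    exact (sub_add_sub_cancel _ _ _).symm
  rw [e1]
  congr 1
  -- compare the two sums through the subset where the term is nonzero
  have e2 : (∑ z ∈ R, ((if A (π (π' z)) then (1 : ℤ) else 0) - (if A (π' z) then 1 else 0))) =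
      ∑ z ∈ R.filter (fun z => ¬ (A (π (π' z)) ↔ A (π' z))),
        ((if A (π (π' z)) then (1 : ℤ) else 0) - (if A (π' z) then 1 else 0)) := by
    rw [Finset.sum_filter_of_ne]
    intro z _ hne hiff
    apply hne
    by_cases hz : A (π' z)
    · simp [hz, hiff.2 hz]
    · have : ¬ A (π (π' z)) := fun hh => hz (hiff.1 hh)
      simp [hz, this]
  have e3 : fl π A R = ∑ z ∈ R.filter (fun z => ¬ (A (π z) ↔ A z)),
        ((if A (π z) then (1 : ℤ) else 0) - (if A z then 1 else 0)) := by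
    unfold fl
    rw [Finset.sum_filter_of_ne]
    intro z _ hne hiff
    apply hne
    by_cases hz : A z
    · simp [hz, hiff.2 hz]
    · have : ¬ A (π z) := fun hh => hz (hiff.1 hh)
      simp [hz, this]
  rw [e2, e3]
  refine Finset.sum_nbij' (fun z => π' z) (fun z => π'.symm z) ?_ ?_ ?_ ?_ ?_
  · intro z hz
    rw [Finset.mem_filter] at hz ⊢
    exact ⟨h' z hz.1 hz.2, hz.2⟩
  · intro z hz
    rw [Finset.mem_filter] at hz ⊢
    refine ⟨h z hz.1 hz.2, ?_⟩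
    simpa using hz.2
  · intro z _; simp
  · intro z _; simp
  · intro z _; rfl

end General

section Box

variable {C : Type*} [Fintype C]

/-- the box `[x0, x1) × [y0, y1) × C` -/
noncomputable def bx (C : Type*) [Fintype C] (x0 x1 y0 y1 : ℤ) : Finset ((ℤ × ℤ) × C) :=
  (Finset.Ico x0 x1 ×ˢ Finset.Ico y0 y1) ×ˢ (Finset.univ : Finset C)

lemma mem_bx {x0 x1 y0 y1 : ℤ} {z : (ℤ × ℤ) × C} :
    z ∈ bx C x0 x1 y0 y1 ↔ (x0 ≤ z.1.1 ∧ z.1.1 < x1) ∧ (y0 ≤ z.1.2 ∧ z.1.2 < y1) := by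
  simp [bx, Finset.mem_product, Finset.mem_Ico]

/-- `π` is an "annular" permutation of the box `[0,w) × [0,h) × C`: displacement `≤ D`, trivial
away from the boundary strips of width `s` (outside the corner squares of size `t`). -/
structure Ann (w h s t D : ℤ) (π : Equiv.Perm ((ℤ × ℤ) × C)) : Prop where
  box : ∀ z ∈ bx C 0 w 0 h, π z ∈ bx C 0 w 0 h
  dispx : ∀ z ∈ bx C 0 w 0 h, |(π z).1.1 - z.1.1| ≤ D
  dispy : ∀ z ∈ bx C 0 w 0 h, |(π z).1.2 - z.1.2| ≤ D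
  midx : ∀ z ∈ bx C 0 w 0 h, t ≤ z.1.1 → z.1.1 < w - t → s ≤ z.1.2 → z.1.2 < h - s → π z = z
  midy : ∀ z ∈ bx C 0 w 0 h, t ≤ z.1.2 → z.1.2 < h - t → s ≤ z.1.1 → z.1.1 < w - s → π z = z

/-- numeric side conditions: `x0, y0` are far from the corners -/
structure Mid (w h s t D x0 y0 : ℤ) : Prop where
  s0 : 0 < s
  st : s ≤ t
  D0 : 0 ≤ D
  xl : t + D ≤ x0
  xr : x0 ≤ w - t - D
  yl : t + D ≤ y0
  yr : y0 ≤ h - t - D

/-- rightward flux through the bottom strip at abscissa `x0` -/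
noncomputable def phiB (w s x0 : ℤ) (π : (ℤ × ℤ) × C → (ℤ × ℤ) × C) : ℤ :=
  fl π (fun z => x0 ≤ z.1.1) (bx C 0 w 0 s)

/-- rightward flux through the top strip at abscissa `x0` -/
noncomputable def phiT (w h s x0 : ℤ) (π : (ℤ × ℤ) × C → (ℤ × ℤ) × C) : ℤ :=
  fl π (fun z => x0 ≤ z.1.1) (bx C 0 w (h - s) h)

/-- upward flux through the left strip at height `y0` -/
noncomputable def phiL (h s y0 : ℤ) (π : (ℤ × ℤ) × C → (ℤ × ℤ) × C) : ℤ :=
  fl π (fun z => y0 ≤ z.1.2) (bx C 0 s 0 h)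

/-- upward flux through the right strip at height `y0` -/
noncomputable def phiR (w h s y0 : ℤ) (π : (ℤ × ℤ) × C → (ℤ × ℤ) × C) : ℤ :=
  fl π (fun z => y0 ≤ z.1.2) (bx C (w - s) w 0 h)

omit [Fintype C] in
lemma fl_filter (π : (ℤ × ℤ) × C → (ℤ × ℤ) × C) (A : (ℤ × ℤ) × C → Prop) [DecidablePred A]
    (S R : Finset ((ℤ × ℤ) × C)) (P : (ℤ × ℤ) × C → Prop) [DecidablePred P]
    (hR : ∀ z, z ∈ R ↔ z ∈ S ∧ P z) :
    fl π A R = ∑ z ∈ S, if P z then
      ((if A (π z) then (1 : ℤ) else 0) - (if A z then 1 else 0)) else 0 := by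
  classical
  have : R = S.filter P := by ext z; rw [hR, Finset.mem_filter]
  rw [this, fl, Finset.sum_filter]

variable {w h s t D x0 y0 : ℤ} {π : Equiv.Perm ((ℤ × ℤ) × C)}

/-- coordinates facts of an annular permutation at a point -/
lemma Ann.facts (hπ : Ann w h s t D π) {z : (ℤ × ℤ) × C} (hz : z ∈ bx C 0 w 0 h) :
    (0 ≤ z.1.1 ∧ z.1.1 < w ∧ 0 ≤ z.1.2 ∧ z.1.2 < h) ∧
    (0 ≤ (π z).1.1 ∧ (π z).1.1 < w ∧ 0 ≤ (π z).1.2 ∧ (π z).1.2 < h) ∧
    (z.1.1 - D ≤ (π z).1.1 ∧ (π z).1.1 ≤ z.1.1 + D) ∧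
    (z.1.2 - D ≤ (π z).1.2 ∧ (π z).1.2 ≤ z.1.2 + D) ∧
    (t ≤ z.1.1 → z.1.1 < w - t → s ≤ z.1.2 → z.1.2 < h - s →
      (π z).1.1 = z.1.1 ∧ (π z).1.2 = z.1.2) ∧
    (t ≤ z.1.2 → z.1.2 < h - t → s ≤ z.1.1 → z.1.1 < w - s →
      (π z).1.1 = z.1.1 ∧ (π z).1.2 = z.1.2) := by
  have h1 := mem_bx.1 hz
  have h2 := mem_bx.1 (hπ.box z hz)
  have h3 := abs_le.1 (hπ.dispx z hz)
  have h4 := abs_le.1 (hπ.dispy z hz)
  refine ⟨⟨h1.1.1, h1.1.2, h1.2.1, h1.2.2⟩, ⟨h2.1.1, h2.1.2, h2.2.1, h2.2.2⟩,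
    ⟨by linarith [h3.1], by linarith [h3.2]⟩, ⟨by linarith [h4.1], by linarith [h4.2]⟩, ?_, ?_⟩
  · intro a b c d
    rw [hπ.midx z hz a b c d]
    exact ⟨rfl, rfl⟩
  · intro a b c d
    rw [hπ.midy z hz a b c d]
    exact ⟨rfl, rfl⟩

/-- lower left corner -/
theorem corner_LB (hπ : Ann w h s t D π) (hm : Mid w h s t D x0 y0) :
    phiL h s y0 π + phiB w s x0 π = 0 := by
  classical
  have h0 : fl π (fun z => z.1.1 < x0 ∧ z.1.2 < y0) (bx C 0 w 0 h) = 0 :=
    fl_zero π _ _ hπ.box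
  obtain ⟨a1, a2, a3, a4, a5, a6, a7⟩ := hm
  have e1 : phiL h s y0 π = ∑ z ∈ bx C 0 w 0 h, if z.1.1 < s then
      ((if y0 ≤ (π z).1.2 then (1 : ℤ) else 0) - (if y0 ≤ z.1.2 then 1 else 0)) else 0 := by
    refine fl_filter _ _ _ _ (fun z => z.1.1 < s) fun z => ?_
    rw [mem_bx, mem_bx]
    constructor
    · rintro ⟨⟨b1, b2⟩, b3⟩; exact ⟨⟨⟨b1, by linarith⟩, b3⟩, b2⟩
    · rintro ⟨⟨⟨b1, b2⟩, b3⟩, b4⟩; exact ⟨⟨b1, b4⟩, b3⟩
  have e2 : phiB w s x0 π = ∑ z ∈ bx C 0 w 0 h, if z.1.2 < s then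
      ((if x0 ≤ (π z).1.1 then (1 : ℤ) else 0) - (if x0 ≤ z.1.1 then 1 else 0)) else 0 := by
    refine fl_filter _ _ _ _ (fun z => z.1.2 < s) fun z => ?_
    rw [mem_bx, mem_bx]
    constructor
    · rintro ⟨⟨b1, b2⟩, b3, b4⟩; exact ⟨⟨⟨b1, b2⟩, b3, by linarith⟩, b4⟩
    · rintro ⟨⟨⟨b1, b2⟩, b3⟩, b4⟩; exact ⟨⟨b1, b2⟩, b3.1, b4⟩
  have key : phiL h s y0 π + phiB w s x0 π +
      fl π (fun z => z.1.1 < x0 ∧ z.1.2 < y0) (bx C 0 w 0 h) = 0 := by
    rw [e1, e2, fl, ← Finset.sum_add_distrib, ← Finset.sum_add_distrib]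
    refine Finset.sum_eq_zero fun z hz => ?_
    obtain ⟨f1, f2, f3, f4, f5, f6⟩ := hπ.facts hz
    generalize (π z).1.1 = x' at *
    generalize (π z).1.2 = y' at *
    generalize z.1.1 = x at *
    generalize z.1.2 = y at *
    split_ifs <;> omega
  linarith

/-- lower right corner -/
theorem corner_RB (hπ : Ann w h s t D π) (hm : Mid w h s t D x0 y0) :
    phiR w h s y0 π = phiB w s x0 π := by
  classical
  have h0 : fl π (fun z => x0 ≤ z.1.1 ∧ z.1.2 < y0) (bx C 0 w 0 h) = 0 :=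
    fl_zero π _ _ hπ.box
  obtain ⟨a1, a2, a3, a4, a5, a6, a7⟩ := hm
  have e1 : phiR w h s y0 π = ∑ z ∈ bx C 0 w 0 h, if w - s ≤ z.1.1 then
      ((if y0 ≤ (π z).1.2 then (1 : ℤ) else 0) - (if y0 ≤ z.1.2 then 1 else 0)) else 0 := by
    refine fl_filter _ _ _ _ (fun z => w - s ≤ z.1.1) fun z => ?_
    rw [mem_bx, mem_bx]
    constructor
    · rintro ⟨⟨b1, b2⟩, b3⟩; exact ⟨⟨⟨by linarith, b2⟩, b3⟩, b1⟩
    · rintro ⟨⟨⟨b1, b2⟩, b3⟩, b4⟩; exact ⟨⟨b4, b2⟩, b3⟩
  have e2 : phiB w s x0 π = ∑ z ∈ bx C 0 w 0 h, if z.1.2 < s then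
      ((if x0 ≤ (π z).1.1 then (1 : ℤ) else 0) - (if x0 ≤ z.1.1 then 1 else 0)) else 0 := by
    refine fl_filter _ _ _ _ (fun z => z.1.2 < s) fun z => ?_
    rw [mem_bx, mem_bx]
    constructor
    · rintro ⟨⟨b1, b2⟩, b3, b4⟩; exact ⟨⟨⟨b1, b2⟩, b3, by linarith⟩, b4⟩
    · rintro ⟨⟨⟨b1, b2⟩, b3⟩, b4⟩; exact ⟨⟨b1, b2⟩, b3.1, b4⟩
  have key : phiR w h s y0 π - phiB w s x0 π +
      fl π (fun z => x0 ≤ z.1.1 ∧ z.1.2 < y0) (bx C 0 w 0 h) = 0 := by
    rw [e1, e2, fl, ← Finset.sum_sub_distrib, ← Finset.sum_add_distrib]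
    refine Finset.sum_eq_zero fun z hz => ?_
    obtain ⟨f1, f2, f3, f4, f5, f6⟩ := hπ.facts hz
    generalize (π z).1.1 = x' at *
    generalize (π z).1.2 = y' at *
    generalize z.1.1 = x at *
    generalize z.1.2 = y at *
    split_ifs <;> omega
  linarith

/-- upper left corner -/
theorem corner_LT (hπ : Ann w h s t D π) (hm : Mid w h s t D x0 y0) :
    phiT w h s x0 π = phiL h s y0 π := by
  classical
  have h0 : fl π (fun z => z.1.1 < x0 ∧ y0 ≤ z.1.2) (bx C 0 w 0 h) = 0 :=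
    fl_zero π _ _ hπ.box
  obtain ⟨a1, a2, a3, a4, a5, a6, a7⟩ := hm
  have e1 : phiL h s y0 π = ∑ z ∈ bx C 0 w 0 h, if z.1.1 < s then
      ((if y0 ≤ (π z).1.2 then (1 : ℤ) else 0) - (if y0 ≤ z.1.2 then 1 else 0)) else 0 := by
    refine fl_filter _ _ _ _ (fun z => z.1.1 < s) fun z => ?_
    rw [mem_bx, mem_bx]
    constructor
    · rintro ⟨⟨b1, b2⟩, b3⟩; exact ⟨⟨⟨b1, by linarith⟩, b3⟩, b2⟩
    · rintro ⟨⟨⟨b1, b2⟩, b3⟩, b4⟩; exact ⟨⟨b1, b4⟩, b3⟩
  have e2 : phiT w h s x0 π = ∑ z ∈ bx C 0 w 0 h, if h - s ≤ z.1.2 then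
      ((if x0 ≤ (π z).1.1 then (1 : ℤ) else 0) - (if x0 ≤ z.1.1 then 1 else 0)) else 0 := by
    refine fl_filter _ _ _ _ (fun z => h - s ≤ z.1.2) fun z => ?_
    rw [mem_bx, mem_bx]
    constructor
    · rintro ⟨⟨b1, b2⟩, b3, b4⟩; exact ⟨⟨⟨b1, b2⟩, by linarith, b4⟩, b3⟩
    · rintro ⟨⟨⟨b1, b2⟩, b3⟩, b4⟩; exact ⟨⟨b1, b2⟩, b4, b3.2⟩
  have key : phiT w h s x0 π - phiL h s y0 π +
      fl π (fun z => z.1.1 < x0 ∧ y0 ≤ z.1.2) (bx C 0 w 0 h) = 0 := by
    rw [e1, e2, fl, ← Finset.sum_sub_distrib, ← Finset.sum_add_distrib]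
    refine Finset.sum_eq_zero fun z hz => ?_
    obtain ⟨f1, f2, f3, f4, f5, f6⟩ := hπ.facts hz
    generalize (π z).1.1 = x' at *
    generalize (π z).1.2 = y' at *
    generalize z.1.1 = x at *
    generalize z.1.2 = y at *
    split_ifs <;> omega
  linarith

/-! ### summary of the corner identities: one number `kap` -/

/-- circulation of `π` (independent of `x0`, see `kap_indep`) -/
noncomputable def kap (w s x0 : ℤ) (π : (ℤ × ℤ) × C → (ℤ × ℤ) × C) : ℤ := phiB w s x0 π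

theorem phiB_eq : phiB w s x0 π = kap w s x0 π := rfl

theorem phiR_eq (hπ : Ann w h s t D π) (hm : Mid w h s t D x0 y0) :
    phiR w h s y0 π = kap w s x0 π := corner_RB hπ hm

theorem phiL_eq (hπ : Ann w h s t D π) (hm : Mid w h s t D x0 y0) :
    phiL h s y0 π = - kap w s x0 π := by
  have := corner_LB hπ hm
  unfold kap
  linarith

theorem phiT_eq (hπ : Ann w h s t D π) (hm : Mid w h s t D x0 y0) :
    phiT w h s x0 π = - kap w s x0 π := by
  rw [corner_LT hπ hm, phiL_eq hπ hm]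

/-- `kap` does not depend on the abscissa -/
theorem kap_indep (hπ : Ann w h s t D π) {x1 y1 : ℤ} (hm : Mid w h s t D x0 y0)
    (hm' : Mid w h s t D x1 y1) : kap w s x0 π = kap w s x1 π := by
  have h1 := phiL_eq hπ hm
  have h2 := phiL_eq hπ
    (⟨hm'.s0, hm'.st, hm'.D0, hm'.xl, hm'.xr, hm.yl, hm.yr⟩ : Mid w h s t D x1 y0)
  linarith

/-! ### group structure -/

lemma Ann.box_symm (hπ : Ann w h s t D π) {z : (ℤ × ℤ) × C} (hz : z ∈ bx C 0 w 0 h) :
    π.symm z ∈ bx C 0 w 0 h := by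
  have himg : (bx C 0 w 0 h).map π.toEmbedding = bx C 0 w 0 h := by
    apply Finset.eq_of_subset_of_card_le
    · intro z hz
      obtain ⟨u, hu, rfl⟩ := Finset.mem_map.1 hz
      exact hπ.box u hu
    · rw [Finset.card_map]
  rw [← himg] at hz
  obtain ⟨u, hu, rfl⟩ := Finset.mem_map.1 hz
  simpa using hu

lemma Ann.one (hD : 0 ≤ D) : Ann w h s t D (1 : Equiv.Perm ((ℤ × ℤ) × C)) where
  box z hz := hz
  dispx z _ := by simpa using hD
  dispy z _ := by simpa using hD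
  midx z _ _ _ _ _ := rfl
  midy z _ _ _ _ _ := rfl

lemma Ann.mono {D' : ℤ} (hπ : Ann w h s t D π) (hD : D ≤ D') : Ann w h s t D' π where
  box := hπ.box
  dispx z hz := (hπ.dispx z hz).trans hD
  dispy z hz := (hπ.dispy z hz).trans hD
  midx := hπ.midx
  midy := hπ.midy

lemma Ann.mul {D' : ℤ} {π' : Equiv.Perm ((ℤ × ℤ) × C)} (hπ : Ann w h s t D π)
    (hπ' : Ann w h s t D' π') : Ann w h s t (D + D') (π * π') where
  box z hz := hπ.box _ (hπ'.box z hz)
  dispx z hz := by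
    have h1 := abs_le.1 (hπ.dispx _ (hπ'.box z hz))
    have h2 := abs_le.1 (hπ'.dispx z hz)
    rw [Equiv.Perm.mul_apply, abs_le]
    constructor <;> linarith [h1.1, h1.2, h2.1, h2.2]
  dispy z hz := by
    have h1 := abs_le.1 (hπ.dispy _ (hπ'.box z hz))
    have h2 := abs_le.1 (hπ'.dispy z hz)
    rw [Equiv.Perm.mul_apply, abs_le]
    constructor <;> linarith [h1.1, h1.2, h2.1, h2.2]
  midx z hz a b c d := by
    rw [Equiv.Perm.mul_apply, hπ'.midx z hz a b c d, hπ.midx z hz a b c d]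
  midy z hz a b c d := by
    rw [Equiv.Perm.mul_apply, hπ'.midy z hz a b c d, hπ.midy z hz a b c d]

lemma Ann.inv (hπ : Ann w h s t D π) : Ann w h s t D π⁻¹ where
  box z hz := hπ.box_symm hz
  dispx z hz := by
    have h1 := hπ.dispx _ (hπ.box_symm hz)
    rw [Equiv.apply_symm_apply, abs_sub_comm] at h1
    exact h1
  dispy z hz := by
    have h1 := hπ.dispy _ (hπ.box_symm hz)
    rw [Equiv.apply_symm_apply, abs_sub_comm] at h1
    exact h1
  midx z hz a b c d := by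
    have := hπ.midx z hz a b c d
    rw [Equiv.Perm.inv_eq_iff_eq]
    exact this.symm
  midy z hz a b c d := by
    have := hπ.midy z hz a b c d
    rw [Equiv.Perm.inv_eq_iff_eq]
    exact this.symm

/-- `kap` is additive -/
theorem kap_mul {D' : ℤ} {π' : Equiv.Perm ((ℤ × ℤ) × C)} (hπ : Ann w h s t D π)
    (hπ' : Ann w h s t D' π') (hm : Mid w h s t (D + D') x0 y0) (hD : 0 ≤ D) (hD' : 0 ≤ D') :
    kap w s x0 (π * π' : Equiv.Perm ((ℤ × ℤ) × C)) = kap w s x0 π + kap w s x0 π' := by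
  obtain ⟨a1, a2, a3, a4, a5, a6, a7⟩ := hm
  unfold kap phiB
  apply fl_mul
  · intro z hz hne
    rw [mem_bx] at hz
    have hzb : z ∈ bx C 0 w 0 h := by
      rw [mem_bx]; exact ⟨hz.1, hz.2.1, by omega⟩
    obtain ⟨f1, f2, f3, f4, f5, f6⟩ := hπ.facts hzb
    have hub : π'.symm z ∈ bx C 0 w 0 h := hπ'.box_symm hzb
    obtain ⟨g1, g2, g3, g4, g5, g6⟩ := hπ'.facts hub
    rw [Equiv.apply_symm_apply] at g2 g3 g4 g5 g6
    rw [mem_bx]
    refine ⟨⟨g1.1, g1.2.1⟩, g1.2.2.1, ?_⟩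
    by_contra hcon
    by_cases c1 : (π'.symm z).1.2 < h - s
    · have := g5 (by omega) (by omega) (by omega) c1
      omega
    · omega
  · intro z hz hne
    rw [mem_bx] at hz
    have hzb : z ∈ bx C 0 w 0 h := by
      rw [mem_bx]; exact ⟨hz.1, hz.2.1, by omega⟩
    obtain ⟨f1, f2, f3, f4, f5, f6⟩ := hπ'.facts hzb
    have hub : π' z ∈ bx C 0 w 0 h := hπ'.box _ hzb
    obtain ⟨g1, g2, g3, g4, g5, g6⟩ := hπ.facts hub
    rw [mem_bx]
    refine ⟨⟨g1.1, g1.2.1⟩, g1.2.2.1, ?_⟩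
    by_contra hcon
    by_cases c1 : (π' z).1.2 < h - s
    · have h1 := hπ'.midx (π' z) hub (by omega) (by omega) (by omega) c1
      have h2 : π' z = z := π'.injective h1
      rw [h2] at hcon
      omega
    · omega

theorem kap_one : kap w s x0 (1 : Equiv.Perm ((ℤ × ℤ) × C)) = 0 := by
  unfold kap phiB fl
  refine Finset.sum_eq_zero fun z _ => ?_
  rw [Equiv.Perm.one_apply, sub_self]

theorem kap_inv (hπ : Ann w h s t D π) (hm : Mid w h s t (D + D) x0 y0) (hD : 0 ≤ D) :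
    kap w s x0 (π⁻¹ : Equiv.Perm ((ℤ × ℤ) × C)) = - kap w s x0 π := by
  have h1 := kap_mul hπ.inv hπ hm hD hD
  rw [inv_mul_cancel, kap_one] at h1
  linarith

/-! ### edges -/

/-- the shift by `(a, b)` -/
def sh (a b : ℤ) (z : (ℤ × ℤ) × C) : (ℤ × ℤ) × C := ((z.1.1 + a, z.1.2 + b), z.2)

/-- `Q`-edge: a permutation `e` of the horizontal strip `[t0, w - t0) × [-s, s)` which is `π` on
the upper half and the translate of `π'` on the lower half (in the middle) -/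
theorem edge_Q {π' : Equiv.Perm ((ℤ × ℤ) × C)} {e : Equiv.Perm ((ℤ × ℤ) × C)} {t0 : ℤ}
    (hπ : Ann w h s t D π) (hπ' : Ann w h s t D π') (hm : Mid w h s t D x0 y0)
    (ht0 : 0 ≤ t0) (htt : t0 ≤ t)
    (he : ∀ z ∈ bx C t0 (w - t0) (-s) s, e z ∈ bx C t0 (w - t0) (-s) s)
    (hd : ∀ z ∈ bx C t0 (w - t0) (-s) s, |(e z).1.1 - z.1.1| ≤ D)
    (h1 : ∀ z ∈ bx C t (w - t) 0 s, e z = π z)
    (h2 : ∀ z ∈ bx C t (w - t) (-s) 0, e z = sh 0 (-h) (π' (sh 0 h z))) :
    kap w s x0 π = kap w s x0 π' := by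
  classical
  have hT := phiT_eq hπ' hm
  obtain ⟨a1, a2, a3, a4, a5, a6, a7⟩ := hm
  have h0 := fl_zero e (fun z => x0 ≤ z.1.1) _ he
  have key : phiB w s x0 π + phiT w h s x0 π' = 0 := by
    rw [← h0]
    have eB : phiB w s x0 π = ∑ z ∈ bx C t (w - t) 0 s,
        ((if x0 ≤ (e z).1.1 then (1 : ℤ) else 0) - (if x0 ≤ z.1.1 then 1 else 0)) := by
      unfold phiB fl
      symm
      have hsub : bx C t (w - t) 0 s ⊆ bx C 0 w 0 s := by
        intro z; rw [mem_bx, mem_bx]; omega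
      rw [← Finset.sum_subset hsub]
      · refine Finset.sum_congr rfl fun z hz => ?_
        rw [h1 z hz]
      · intro z hz hz'
        rw [mem_bx] at hz hz'
        have hzb : z ∈ bx C 0 w 0 h := by rw [mem_bx]; omega
        obtain ⟨f1, f2, f3, f4, f5, f6⟩ := hπ.facts hzb
        split_ifs <;> omega
    have eT : phiT w h s x0 π' = ∑ z ∈ bx C t (w - t) (-s) 0,
        ((if x0 ≤ (e z).1.1 then (1 : ℤ) else 0) - (if x0 ≤ z.1.1 then 1 else 0)) := by
      unfold phiT fl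
      have hsub : bx C t (w - t) (h - s) h ⊆ bx C 0 w (h - s) h := by
        intro z; rw [mem_bx, mem_bx]; omega
      rw [← Finset.sum_subset hsub]
      · refine Finset.sum_nbij' (fun z => sh 0 (-h) z) (fun z => sh 0 h z) ?_ ?_ ?_ ?_ ?_
        · intro z hz; rw [mem_bx] at hz ⊢; simp only [sh]; omega
        · intro z hz; rw [mem_bx] at hz ⊢; simp only [sh]; omega
        · intro z hz; simp [sh]
        · intro z hz; simp [sh]
        · intro z hz
          have hz2 : sh 0 (-h) z ∈ bx C t (w - t) (-s) 0 := by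
            rw [mem_bx] at hz ⊢; simp only [sh]; omega
          rw [h2 _ hz2]
          have : sh 0 h (sh 0 (-h) z) = z := by simp [sh]
          rw [this]
          simp [sh]
      · intro z hz hz'
        rw [mem_bx] at hz hz'
        have hzb : z ∈ bx C 0 w 0 h := by rw [mem_bx]; omega
        obtain ⟨f1, f2, f3, f4, f5, f6⟩ := hπ'.facts hzb
        split_ifs <;> omega
    have hdis : Disjoint (bx C t (w - t) 0 s) (bx C t (w - t) (-s) 0) := by
      rw [Finset.disjoint_left]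
      intro z hz hz'
      rw [mem_bx] at hz hz'
      omega
    rw [eB, eT, ← Finset.sum_union hdis]
    unfold fl
    apply Finset.sum_subset
    · intro z hz
      rw [Finset.mem_union, mem_bx, mem_bx] at hz
      rw [mem_bx]
      omega
    · intro z hz hz'
      have hdz := abs_le.1 (hd z hz)
      rw [Finset.mem_union, mem_bx, mem_bx] at hz'
      rw [mem_bx] at hz
      split_ifs <;> omega
  rw [phiB_eq, hT] at key
  linarith

/-! ### the counting form used in the peeling step -/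

/-- crossings: left side -/
theorem cross_L (hπ : Ann w h s t D π) (hm : Mid w h s t D x0 y0) :
    (((bx C 0 s t (h - t)).filter fun z => z.1.2 < y0 ∧ y0 ≤ (π z).1.2).card : ℤ) -
      ((bx C 0 s t (h - t)).filter fun z => y0 ≤ z.1.2 ∧ (π z).1.2 < y0).card =
      - kap w s x0 π := by
  rw [← phiL_eq hπ hm]
  obtain ⟨a1, a2, a3, a4, a5, a6, a7⟩ := hm
  have hsub : bx C 0 s t (h - t) ⊆ bx C 0 s 0 h := by
    intro z; rw [mem_bx, mem_bx]; omega
  unfold phiL fl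
  rw [← Finset.sum_subset hsub, Finset.card_filter, Finset.card_filter, Nat.cast_sum,
    Nat.cast_sum, ← Finset.sum_sub_distrib]
  · refine Finset.sum_congr rfl fun z _ => ?_
    split_ifs <;> first | rfl | omega
  · intro z hz hz'
    rw [mem_bx] at hz hz'
    have hzb : z ∈ bx C 0 w 0 h := by rw [mem_bx]; omega
    obtain ⟨f1, f2, f3, f4, f5, f6⟩ := hπ.facts hzb
    split_ifs <;> omega

/-- crossings: right side -/
theorem cross_R (hπ : Ann w h s t D π) (hm : Mid w h s t D x0 y0) :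
    (((bx C (w - s) w t (h - t)).filter fun z => z.1.2 < y0 ∧ y0 ≤ (π z).1.2).card : ℤ) -
      ((bx C (w - s) w t (h - t)).filter fun z => y0 ≤ z.1.2 ∧ (π z).1.2 < y0).card =
      kap w s x0 π := by
  rw [← phiR_eq hπ hm]
  obtain ⟨a1, a2, a3, a4, a5, a6, a7⟩ := hm
  have hsub : bx C (w - s) w t (h - t) ⊆ bx C (w - s) w 0 h := by
    intro z; rw [mem_bx, mem_bx]; omega
  unfold phiR fl
  rw [← Finset.sum_subset hsub, Finset.card_filter, Finset.card_filter, Nat.cast_sum,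
    Nat.cast_sum, ← Finset.sum_sub_distrib]
  · refine Finset.sum_congr rfl fun z _ => ?_
    split_ifs <;> first | rfl | omega
  · intro z hz hz'
    rw [mem_bx] at hz hz'
    have hzb : z ∈ bx C 0 w 0 h := by rw [mem_bx]; omega
    obtain ⟨f1, f2, f3, f4, f5, f6⟩ := hπ.facts hzb
    split_ifs <;> omega

/-- crossings: bottom side -/
theorem cross_B (hπ : Ann w h s t D π) (hm : Mid w h s t D x0 y0) :
    (((bx C t (w - t) 0 s).filter fun z => z.1.1 < x0 ∧ x0 ≤ (π z).1.1).card : ℤ) -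
      ((bx C t (w - t) 0 s).filter fun z => x0 ≤ z.1.1 ∧ (π z).1.1 < x0).card =
      kap w s x0 π := by
  obtain ⟨a1, a2, a3, a4, a5, a6, a7⟩ := hm
  have hsub : bx C t (w - t) 0 s ⊆ bx C 0 w 0 s := by
    intro z; rw [mem_bx, mem_bx]; omega
  unfold kap phiB fl
  rw [← Finset.sum_subset hsub, Finset.card_filter, Finset.card_filter, Nat.cast_sum,
    Nat.cast_sum, ← Finset.sum_sub_distrib]
  · refine Finset.sum_congr rfl fun z _ => ?_
    split_ifs <;> first | rfl | omega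
  · intro z hz hz'
    rw [mem_bx] at hz hz'
    have hzb : z ∈ bx C 0 w 0 h := by rw [mem_bx]; omega
    obtain ⟨f1, f2, f3, f4, f5, f6⟩ := hπ.facts hzb
    split_ifs <;> omega

/-- crossings: top side -/
theorem cross_T (hπ : Ann w h s t D π) (hm : Mid w h s t D x0 y0) :
    (((bx C t (w - t) (h - s) h).filter fun z => z.1.1 < x0 ∧ x0 ≤ (π z).1.1).card : ℤ) -
      ((bx C t (w - t) (h - s) h).filter fun z => x0 ≤ z.1.1 ∧ (π z).1.1 < x0).card =
      - kap w s x0 π := by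
  rw [← phiT_eq hπ hm]
  obtain ⟨a1, a2, a3, a4, a5, a6, a7⟩ := hm
  have hsub : bx C t (w - t) (h - s) h ⊆ bx C 0 w (h - s) h := by
    intro z; rw [mem_bx, mem_bx]; omega
  unfold phiT fl
  rw [← Finset.sum_subset hsub, Finset.card_filter, Finset.card_filter, Nat.cast_sum,
    Nat.cast_sum, ← Finset.sum_sub_distrib]
  · refine Finset.sum_congr rfl fun z _ => ?_
    split_ifs <;> first | rfl | omega
  · intro z hz hz'
    rw [mem_bx] at hz hz'
    have hzb : z ∈ bx C 0 w 0 h := by rw [mem_bx]; omega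
    obtain ⟨f1, f2, f3, f4, f5, f6⟩ := hπ.facts hzb
    split_ifs <;> omega

/-- chain of `Q`-edges: all faces have the same circulation -/
theorem kap_const {n : ℕ} (F : ℕ → Equiv.Perm ((ℤ × ℤ) × C))
    (hc : ∀ j, j + 1 < n → kap w s x0 (F (j + 1)) = kap w s x0 (F j)) :
    ∀ j, j < n → kap w s x0 (F j) = kap w s x0 (F 0) := by
  intro j
  induction j with
  | zero => intro _; rfl
  | succ j ih => intro hj; rw [hc j hj, ih (by omega)]

end Box

end Crest.Agent.R189.KFlux
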