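import Mathlib
import Crest.Agent.R189.KSgn
import Crest.Agent.R189.KDefs
import Crest.Agent.R189.KFlux
import Crest.Agent.R189.KSec
import Crest.Agent.R189.KRef
import Crest.Agent.R189.KLocal

-- ▼ part R189/KPeel
section

/-!
# Row 189, part F (F4, parities of F5): peeling

Abstract lemmas about a finite set `S = lo ∪ mid ∪ up` (a strip with its two ends).
-/

set_option autoImplicit false
set_option linter.unusedSectionVars false

namespace Crest.Agent.R189.K

open Equiv Equiv.Perm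

variable {Ω : Type*} [DecidableEq Ω]

/-- an injective self map of a finset is a permutation -/
lemma exists_perm_of_injOn {S : Finset Ω} (G : Ω → Ω) (hm : ∀ x ∈ S, G x ∈ S)
    (hi : ∀ x ∈ S, ∀ y ∈ S, G x = G y → x = y) :
    ∃ g : Equiv.Perm Ω, g ∈ PermOn S ∧ ∀ x ∈ S, g x = G x := by
  let F : {x // x ∈ S} → {x // x ∈ S} := fun x => ⟨G x.1, hm x.1 x.2⟩
  have hF : Function.Injective F := by
    intro x y hxy
    apply Subtype.ext
    exact hi x.1 x.2 y.1 y.2 (congrArg Subtype.val hxy)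
  let e : Equiv.Perm {x // x ∈ S} := Equiv.ofBijective F (Finite.injective_iff_bijective.1 hF)
  refine ⟨Equiv.Perm.ofSubtype e, fun x hx => Equiv.Perm.ofSubtype_apply_of_not_mem e hx, ?_⟩
  intro x hx
  rw [Equiv.Perm.ofSubtype_apply_of_mem (p := fun x => x ∈ S) e hx]
  rfl

/-- a partial matching of two finsets of the same cardinality -/
lemma exists_inj_of_card {A B : Finset Ω} (h : A.card = B.card) :
    ∃ G : Ω → Ω, (∀ x ∈ A, G x ∈ B) ∧ ∀ x ∈ A, ∀ y ∈ A, G x = G y → x = y := by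
  classical
  let e : {x // x ∈ A} ≃ {x // x ∈ B} := Finset.equivOfCardEq h
  refine ⟨fun x => if hx : x ∈ A then (e ⟨x, hx⟩).1 else x, ?_, ?_⟩
  · intro x hx
    simp only [hx, dif_pos]
    exact (e ⟨x, hx⟩).2
  · intro x hx y hy hxy
    simp only [hx, hy, dif_pos] at hxy
    have := e.injective (Subtype.ext hxy)
    exact congrArg Subtype.val this

/-- Data of a strip with two ends. -/
structure Strip (S lo mid up : Finset Ω) (low : Ω → Prop) : Prop where
  eq : ∀ x, x ∈ S ↔ x ∈ lo ∨ x ∈ mid ∨ x ∈ up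
  lm : Disjoint lo mid
  mu : Disjoint mid up
  lo_low : ∀ x ∈ lo, low x
  up_low : ∀ x ∈ up, ¬ low x

section strip
variable {S lo mid up : Finset Ω} {low : Ω → Prop} [DecidablePred low]

lemma Strip.lu (H : Strip S lo mid up low) : Disjoint lo up := by
  rw [Finset.disjoint_left]
  intro x hx hx'
  exact H.up_low x hx' (H.lo_low x hx)

/-- EXTENSION: an injection of the middle part with zero flux extends to a permutation of the strip
which sends the lower end to the lower half and the upper end to the upper half. -/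
lemma Strip.exists_ext (H : Strip S lo mid up low) (φ : Ω → Ω)
    (hφ : ∀ x ∈ mid, φ x ∈ S) (hi : ∀ x ∈ mid, ∀ y ∈ mid, φ x = φ y → x = y)
    (hflux : (mid.filter (fun x => low (φ x))).card = (mid.filter (fun x => low x)).card) :
    ∃ g : Equiv.Perm Ω, g ∈ PermOn S ∧ (∀ x ∈ mid, g x = φ x) ∧ (∀ x ∈ lo, low (g x)) ∧
      (∀ x ∈ up, ¬ low (g x)) := by
  classical
  have hlo : lo ⊆ S := fun x hx => (H.eq x).2 (Or.inl hx)
  have hmid : mid ⊆ S := fun x hx => (H.eq x).2 (Or.inr (Or.inl hx))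
  have hup : up ⊆ S := fun x hx => (H.eq x).2 (Or.inr (Or.inr hx))
  set I := mid.image φ with hI
  have hIS : I ⊆ S := by
    intro y hy
    obtain ⟨x, hx, rfl⟩ := Finset.mem_image.1 hy
    exact hφ x hx
  have hinj : Set.InjOn φ mid := fun x hx y hy h => hi x hx y hy h
  -- cardinalities of the halves
  have e1 : (S.filter (fun x => low x)).card = lo.card + (mid.filter (fun x => low x)).card := by
    rw [← Finset.card_union_of_disjoint]
    · congr 1
      ext x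
      simp only [Finset.mem_filter, Finset.mem_union, H.eq x]
      constructor
      · rintro ⟨h1 | h1 | h1, h2⟩
        · exact Or.inl h1
        · exact Or.inr ⟨h1, h2⟩
        · exact absurd h2 (H.up_low x h1)
      · rintro (h1 | ⟨h1, h2⟩)
        · exact ⟨Or.inl h1, H.lo_low x h1⟩
        · exact ⟨Or.inr (Or.inl h1), h2⟩
    · exact Finset.disjoint_of_subset_right (Finset.filter_subset _ _) H.lm
  have e2 : (S.filter (fun x => ¬ low x)).card
      = up.card + (mid.filter (fun x => ¬ low x)).card := by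
    rw [← Finset.card_union_of_disjoint]
    · congr 1
      ext x
      simp only [Finset.mem_filter, Finset.mem_union, H.eq x]
      constructor
      · rintro ⟨h1 | h1 | h1, h2⟩
        · exact absurd (H.lo_low x h1) h2
        · exact Or.inr ⟨h1, h2⟩
        · exact Or.inl h1
      · rintro (h1 | ⟨h1, h2⟩)
        · exact ⟨Or.inr (Or.inr h1), H.up_low x h1⟩
        · exact ⟨Or.inr (Or.inl h1), h2⟩
    · exact Finset.disjoint_of_subset_right (Finset.filter_subset _ _) H.mu.symm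
  have e3 : (I.filter (fun x => low x)).card = (mid.filter (fun x => low (φ x))).card := by
    rw [hI, Finset.filter_image, Finset.card_image_of_injOn]
    exact hinj.mono (fun x hx => (Finset.mem_filter.1 hx).1)
  have e4 : (I.filter (fun x => ¬ low x)).card = (mid.filter (fun x => ¬ low (φ x))).card := by
    rw [hI, Finset.filter_image, Finset.card_image_of_injOn]
    exact hinj.mono (fun x hx => (Finset.mem_filter.1 hx).1)
  have e5 := Finset.card_filter_add_card_filter_not (s := mid) (fun x => low x)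
  have e6 := Finset.card_filter_add_card_filter_not (s := mid) (fun x => low (φ x))
  have c1 : ((S.filter (fun x => low x)) \ (I.filter (fun x => low x))).card = lo.card := by
    rw [Finset.card_sdiff_of_subset (Finset.filter_subset_filter _ hIS), e1, e3, hflux]
    omega
  have c2 : ((S.filter (fun x => ¬ low x)) \ (I.filter (fun x => ¬ low x))).card = up.card := by
    rw [Finset.card_sdiff_of_subset (Finset.filter_subset_filter _ hIS), e2, e4]
    omega
  obtain ⟨G1, hG1, hG1i⟩ := exists_inj_of_card c1.symm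
  obtain ⟨G2, hG2, hG2i⟩ := exists_inj_of_card c2.symm
  let G : Ω → Ω := fun x => if x ∈ lo then G1 x else if x ∈ up then G2 x else φ x
  have Glo : ∀ x ∈ lo, G x = G1 x := fun x hx => by simp [G, hx]
  have Gup : ∀ x ∈ up, G x = G2 x := fun x hx => by
    have : x ∉ lo := Finset.disjoint_right.1 H.lu hx
    simp [G, hx, this]
  have Gmid : ∀ x ∈ mid, G x = φ x := fun x hx => by
    have h1 : x ∉ lo := Finset.disjoint_right.1 H.lm hx
    have h2 : x ∉ up := Finset.disjoint_left.1 H.mu hx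
    simp [G, h1, h2]
  have l1 : ∀ x ∈ lo, G x ∈ S ∧ low (G x) ∧ G x ∉ I := by
    intro x hx
    have h := hG1 x hx
    rw [Finset.mem_sdiff, Finset.mem_filter] at h
    rw [Glo x hx]
    exact ⟨h.1.1, h.1.2, fun h' => h.2 (Finset.mem_filter.2 ⟨h', h.1.2⟩)⟩
  have l2 : ∀ x ∈ up, G x ∈ S ∧ ¬ low (G x) ∧ G x ∉ I := by
    intro x hx
    have h := hG2 x hx
    rw [Finset.mem_sdiff, Finset.mem_filter] at h
    rw [Gup x hx]
    exact ⟨h.1.1, h.1.2, fun h' => h.2 (Finset.mem_filter.2 ⟨h', h.1.2⟩)⟩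
  have l3 : ∀ x ∈ mid, G x ∈ S ∧ G x ∈ I := by
    intro x hx
    rw [Gmid x hx]
    exact ⟨hφ x hx, Finset.mem_image_of_mem _ hx⟩
  obtain ⟨g, hg, hgG⟩ := exists_perm_of_injOn (S := S) G (by
    intro x hx
    rcases (H.eq x).1 hx with h | h | h
    · exact (l1 x h).1
    · exact (l3 x h).1
    · exact (l2 x h).1) (by
    intro x hx y hy hxy
    rcases (H.eq x).1 hx with h | h | h <;> rcases (H.eq y).1 hy with h' | h' | h'
    · rw [Glo x h, Glo y h'] at hxy; exact hG1i x h y h' hxy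
    · exact absurd (hxy ▸ (l3 y h').2) (l1 x h).2.2
    · exact absurd (hxy ▸ (l1 x h).2.1) (l2 y h').2.1
    · exact absurd (hxy ▸ (l3 x h).2) (l1 y h').2.2
    · rw [Gmid x h, Gmid y h'] at hxy; exact hi x h y h' hxy
    · exact absurd (hxy ▸ (l3 x h).2) (l2 y h').2.2
    · exact absurd (hxy ▸ (l2 x h).2.1) (not_not.2 (l1 y h').2.1)
    · exact absurd (hxy ▸ (l3 y h').2) (l2 x h).2.2
    · rw [Gup x h, Gup y h'] at hxy; exact hG2i x h y h' hxy)
  refine ⟨g, hg, ?_, ?_, ?_⟩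
  · intro x hx; rw [hgG x (hmid hx), Gmid x hx]
  · intro x hx; rw [hgG x (hlo hx)]; exact (l1 x hx).2.1
  · intro x hx; rw [hgG x (hup hx)]; exact (l2 x hx).2.1

/-- the extension can be chosen even, if the lower end has two points -/
lemma Strip.exists_ext_even (H : Strip S lo mid up low) (φ : Ω → Ω)
    (hφ : ∀ x ∈ mid, φ x ∈ S) (hi : ∀ x ∈ mid, ∀ y ∈ mid, φ x = φ y → x = y)
    (hflux : (mid.filter (fun x => low (φ x))).card = (mid.filter (fun x => low x)).card)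
    {a b : Ω} (ha : a ∈ lo) (hb : b ∈ lo) (hab : a ≠ b) :
    ∃ g : Equiv.Perm Ω, g ∈ AltOn S ∧ (∀ x ∈ mid, g x = φ x) ∧ (∀ x ∈ lo, low (g x)) ∧
      (∀ x ∈ up, ¬ low (g x)) := by
  obtain ⟨g, hg, h1, h2, h3⟩ := H.exists_ext φ hφ hi hflux
  have hlo : lo ⊆ S := fun x hx => (H.eq x).2 (Or.inl hx)
  have hsw : Equiv.swap a b ∈ PermOn lo := swap_mem_PermOn ha hb
  rcases Int.units_eq_one_or (sgn g) with hs | hs
  · exact ⟨g, ⟨hg, hs⟩, h1, h2, h3⟩
  · refine ⟨g * Equiv.swap a b, ⟨(PermOn S).mul_mem hg (PermOn_mono hlo hsw), ?_⟩, ?_, ?_, ?_⟩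
    · rw [sgn_mul_on hg (PermOn_mono hlo hsw), hs, sgn_swap hab]; rfl
    · intro x hx
      have : Equiv.swap a b x = x := hsw x (Finset.disjoint_right.1 H.lm hx)
      simp only [Equiv.Perm.coe_mul, Function.comp_apply, this]
      exact h1 x hx
    · intro x hx
      simp only [Equiv.Perm.coe_mul, Function.comp_apply]
      exact h2 _ ((on_mem_iff hsw x).2 hx)
    · intro x hx
      have : Equiv.swap a b x = x := hsw x (Finset.disjoint_right.1 H.lu hx)
      simp only [Equiv.Perm.coe_mul, Function.comp_apply, this]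
      exact h3 x hx

/-- `g` is a good filling of the strip for the (injective) map `φ`. -/
structure Filling (S lo mid up : Finset Ω) (low : Ω → Prop) (φ : Ω → Ω) (g : Equiv.Perm Ω) :
    Prop where
  mem : g ∈ PermOn S
  mid : ∀ x ∈ mid, g x = φ x
  lo : ∀ x ∈ lo, low (g x)
  up : ∀ x ∈ up, ¬ low (g x)

/-- toggling a filling by permutations of the two ends -/
lemma Filling.toggle (H : Strip S lo mid up low) {φ : Ω → Ω} {g : Equiv.Perm Ω}
    (hg : Filling S lo mid up low φ g) {σ τ : Equiv.Perm Ω} (hσ : σ ∈ PermOn lo)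
    (hτ : τ ∈ PermOn up) : Filling S lo mid up low φ (g * (σ * τ)) := by
  have hlo : lo ⊆ S := fun x hx => (H.eq x).2 (Or.inl hx)
  have hup : up ⊆ S := fun x hx => (H.eq x).2 (Or.inr (Or.inr hx))
  refine ⟨(PermOn S).mul_mem hg.mem ((PermOn S).mul_mem (PermOn_mono hlo hσ)
    (PermOn_mono hup hτ)), ?_, ?_, ?_⟩
  · intro x hx
    have h1 : τ x = x := hτ x (Finset.disjoint_left.1 H.mu hx)
    have h2 : σ x = x := hσ x (Finset.disjoint_right.1 H.lm hx)
    simp only [Equiv.Perm.coe_mul, Function.comp_apply, h1, h2]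
    exact hg.mid x hx
  · intro x hx
    have h1 : τ x = x := hτ x (Finset.disjoint_left.1 H.lu hx)
    simp only [Equiv.Perm.coe_mul, Function.comp_apply, h1]
    exact hg.lo _ ((on_mem_iff hσ x).2 hx)
  · intro x hx
    have h1 : τ x ∈ up := (on_mem_iff hτ x).2 hx
    have h2 : σ (τ x) = τ x := hσ _ (Finset.disjoint_right.1 H.lu h1)
    simp only [Equiv.Perm.coe_mul, Function.comp_apply, h2]
    exact hg.up _ h1

/-- EDGE LEMMA (abstract): `e` and the filling `g` agree in the middle and `e` keeps the two ends in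
their halves; then `g⁻¹ e = l u`. -/
lemma Filling.edge (H : Strip S lo mid up low) {φ : Ω → Ω} {g e : Equiv.Perm Ω}
    (hg : Filling S lo mid up low φ g) (he : e ∈ PermOn S) (hem : ∀ x ∈ mid, e x = φ x)
    (hel : ∀ x ∈ lo, low (e x)) (heu : ∀ x ∈ up, ¬ low (e x)) :
    (∀ x ∈ mid, (g⁻¹ * e) x = x) ∧ (∀ x ∈ lo, (g⁻¹ * e) x ∈ lo) ∧
      (∀ x ∈ up, (g⁻¹ * e) x ∈ up) := by
  have hr : g⁻¹ * e ∈ PermOn S := (PermOn S).mul_mem ((PermOn S).inv_mem hg.mem) he
  have hlo : lo ⊆ S := fun x hx => (H.eq x).2 (Or.inl hx)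
  have hup : up ⊆ S := fun x hx => (H.eq x).2 (Or.inr (Or.inr hx))
  have h1 : ∀ x ∈ mid, (g⁻¹ * e) x = x := by
    intro x hx
    simp only [Equiv.Perm.coe_mul, Function.comp_apply, hem x hx, ← hg.mid x hx]
    simp
  have key : ∀ x, g ((g⁻¹ * e) x) = e x := by intro x; simp
  refine ⟨h1, ?_, ?_⟩
  · intro x hx
    have hS : (g⁻¹ * e) x ∈ S := (on_mem_iff hr x).2 (hlo hx)
    rcases (H.eq _).1 hS with h | h | h
    · exact h
    · have h2 := h1 _ h
      have h3 := (g⁻¹ * e).injective h2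
      rw [h3] at h
      exact absurd h (Finset.disjoint_left.1 H.lm hx)
    · exact absurd (hel x hx) (by rw [← key x]; exact hg.up _ h)
  · intro x hx
    have hS : (g⁻¹ * e) x ∈ S := (on_mem_iff hr x).2 (hup hx)
    rcases (H.eq _).1 hS with h | h | h
    · exact absurd (by rw [← key x]; exact hg.lo _ h) (heu x hx)
    · have h2 := h1 _ h
      have h3 := (g⁻¹ * e).injective h2
      rw [h3] at h
      exact absurd h (Finset.disjoint_right.1 H.mu hx)
    · exact h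

end strip

/-- a permutation of `A ∪ B` (disjoint) preserving both is the product of its parts -/
lemma eq_part_mul_part {A B : Finset Ω} (hAB : Disjoint A B) {π : Equiv.Perm Ω}
    (h : π ∈ PermOn (A ∪ B)) (hA : ∀ x ∈ A, π x ∈ A) (hB : ∀ x ∈ B, π x ∈ B) :
    π = part A π * part B π := by
  have iA := inv_of_maps hA
  have iB := inv_of_maps hB
  apply Equiv.ext
  intro x
  simp only [Equiv.Perm.coe_mul, Function.comp_apply]
  by_cases hx : x ∈ B
  · rw [part_apply iB hx]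
    exact (part_mem A π _ (Finset.disjoint_right.1 hAB (hB x hx))).symm
  · rw [part_mem B π x hx]
    by_cases hx' : x ∈ A
    · rw [part_apply iA hx']
    · rw [part_mem A π x hx']
      exact h x (by simp [hx, hx'])

/-- the conclusion of the edge lemma as a factorisation -/
lemma Filling.edge_factor {S lo mid up : Finset Ω} {low : Ω → Prop} [DecidablePred low]
    (H : Strip S lo mid up low) {φ : Ω → Ω} {g e : Equiv.Perm Ω}
    (hg : Filling S lo mid up low φ g) (he : e ∈ PermOn S) (hem : ∀ x ∈ mid, e x = φ x)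
    (hel : ∀ x ∈ lo, low (e x)) (heu : ∀ x ∈ up, ¬ low (e x)) :
    ∃ l ∈ PermOn lo, ∃ u ∈ PermOn up, g⁻¹ * e = l * u := by
  obtain ⟨h1, h2, h3⟩ := hg.edge H he hem hel heu
  have hr : g⁻¹ * e ∈ PermOn S := (PermOn S).mul_mem ((PermOn S).inv_mem hg.mem) he
  refine ⟨part lo (g⁻¹ * e), part_mem _ _, part up (g⁻¹ * e), part_mem _ _, ?_⟩
  apply eq_part_mul_part H.lu _ h2 h3
  intro x hx
  by_cases hS : x ∈ S
  · rcases (H.eq x).1 hS with h | h | h
    · exact absurd (Finset.mem_union_left _ h) hx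
    · exact h1 x h
    · exact absurd (Finset.mem_union_right _ h) hx
  · exact hr x hS

end Crest.Agent.R189.K
end

-- ▼ part R189/KFace
section

/-!
# Row 189, part F (F4, parities of F5): FACE LEMMA, EDGE LEMMAS, TOGGLE

Everything lives in `Equiv.Perm ((ℤ × ℤ) × C)`.
-/

set_option autoImplicit false
set_option linter.unusedSectionVars false
set_option linter.unusedVariables false
set_option linter.unusedSimpArgs false

noncomputable section

namespace Crest.Agent.R189.K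

open Equiv Equiv.Perm

/-! ### sign on an invariant piece -/

section inv
variable {Ω : Type*} [DecidableEq Ω]

/-- `A` is invariant under `π` -/
def Invt (A : Finset Ω) (π : Equiv.Perm Ω) : Prop := ∀ x, π x ∈ A ↔ x ∈ A

/-- sign of `π` on the invariant finset `A` -/
def sgnP (A : Finset Ω) (π : Equiv.Perm Ω) : ℤˣ := Equiv.Perm.sign (res A π)

lemma Invt.mul {A : Finset Ω} {π ρ : Equiv.Perm Ω} (h : Invt A π) (h' : Invt A ρ) : Invt A (π * ρ) :=
  fun x => (h (ρ x)).trans (h' x)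

lemma sgnP_mul {A : Finset Ω} {π ρ : Equiv.Perm Ω} (h : Invt A π) (h' : Invt A ρ) :
    sgnP A (π * ρ) = sgnP A π * sgnP A ρ := by
  unfold sgnP
  rw [res_mul h h', map_mul]

lemma inv_of_sub {A T : Finset Ω} (h : T ⊆ A) {π : Equiv.Perm Ω} (hπ : π ∈ PermOn T) :
    Invt A π := on_mem_iff (PermOn_mono h hπ)

lemma inv_of_disj {A T : Finset Ω} (h : Disjoint T A) {π : Equiv.Perm Ω} (hπ : π ∈ PermOn T) :
    Invt A π := by
  apply inv_of_maps
  intro x hx
  rw [hπ x (Finset.disjoint_right.1 h hx)]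
  exact hx

lemma sgnP_of_sub {A T : Finset Ω} (h : T ⊆ A) {π : Equiv.Perm Ω} (hπ : π ∈ PermOn T) :
    sgnP A π = sgn π := by
  rw [sgn_eq (PermOn_mono h hπ)]; rfl

lemma sgnP_of_disj {A T : Finset Ω} (h : Disjoint T A) {π : Equiv.Perm Ω} (hπ : π ∈ PermOn T) :
    sgnP A π = 1 := by
  have : res A π = 1 := by
    apply Equiv.ext
    intro x
    apply Subtype.ext
    rw [res_apply (inv_of_disj h hπ)]
    exact hπ x (Finset.disjoint_right.1 h x.2)
  unfold sgnP
  rw [this, map_one]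

lemma sgn_part {A : Finset Ω} {π : Equiv.Perm Ω} (h : Invt A π) : sgn (part A π) = sgnP A π := by
  rw [sgn_eq (part_mem A π)]
  unfold sgnP
  congr 1
  apply Equiv.ext
  intro x
  apply Subtype.ext
  rw [res_apply (on_mem_iff (part_mem A π)), res_apply h, part_apply h x.2]

end inv

/-! ### the plane -/

variable {C : Type*} [Fintype C] [DecidableEq C]

open KFlux (bx mem_bx)

lemma sh_mem_bx {u : ℤ × ℤ} {x1 x2 y1 y2 : ℤ} {z : Equiv.Perm ((ℤ × ℤ) × C)}
    (h : z ∈ PermOn (bx C x1 x2 y1 y2)) :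
    sh u z ∈ PermOn (bx C (x1 + u.1) (x2 + u.1) (y1 + u.2) (y2 + u.2)) := by
  intro x hx
  have h1 : ((x.1 - u, x.2) : (ℤ × ℤ) × C) ∉ bx C x1 x2 y1 y2 := by
    intro h'
    apply hx
    rw [mem_bx] at h' ⊢
    simp only [Prod.fst_sub, Prod.snd_sub] at h'
    omega
  rw [sh_apply, h _ h1]
  ext <;> simp

lemma sgn_sh' {u : ℤ × ℤ} {S : Finset ((ℤ × ℤ) × C)} {z : Equiv.Perm ((ℤ × ℤ) × C)}
    (h : z ∈ PermOn S) : sgn (sh u z) = sgn z := sgn_conj h _

/-- displacement at most `d` -/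
def Disp (d : ℤ) (z : Equiv.Perm ((ℤ × ℤ) × C)) : Prop :=
  ∀ x, ((z x).1.1 ≤ x.1.1 + d ∧ x.1.1 - d ≤ (z x).1.1) ∧
    ((z x).1.2 ≤ x.1.2 + d ∧ x.1.2 - d ≤ (z x).1.2)

lemma Disp.inv {d : ℤ} {z : Equiv.Perm ((ℤ × ℤ) × C)} (h : Disp d z) : Disp d z⁻¹ := by
  intro x
  have := h (z⁻¹ x)
  have h1 : z (z⁻¹ x) = x := z.apply_symm_apply x
  rw [h1] at this
  omega

/-- numerical parameters of the peeling: cell `[0,w) × [0,h)`, strips of half width `s`, strips
start at distance `t0` of the corners, corner squares of radius `t`, displacement `d`, middle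
heights `mx`, `my`. -/
structure Geo where
  (w h s t0 t d mx my : ℤ)
  (d0 : 0 ≤ d) (s0 : 0 < s) (hst : s ≤ t0) (htd : t0 + d ≤ t) (hsd : s + d ≤ t) (ht0 : t0 < t)
  (m1 : t + d ≤ mx) (m2 : mx + d ≤ w - t) (m3 : t + d ≤ my) (m4 : my + d ≤ h - t)

namespace Geo

/-- vertical strip with abscissas in `[a,b)`: whole, lower end, middle, upper end -/
def vS (C : Type*) [Fintype C] (P : Geo) (a b : ℤ) := bx C a b P.t0 (P.h - P.t0)
def vlo (C : Type*) [Fintype C] (P : Geo) (a b : ℤ) := bx C a b P.t0 P.t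
def vmid (C : Type*) [Fintype C] (P : Geo) (a b : ℤ) := bx C a b P.t (P.h - P.t)
def vup (C : Type*) [Fintype C] (P : Geo) (a b : ℤ) := bx C a b (P.h - P.t) (P.h - P.t0)
/-- lower half plane -/
def vlow (C : Type*) (P : Geo) (x : (ℤ × ℤ) × C) : Prop := x.1.2 < P.my
/-- horizontal strip with ordinates in `[a,b)` -/
def hS (C : Type*) [Fintype C] (P : Geo) (a b : ℤ) := bx C P.t0 (P.w - P.t0) a b
def hlo (C : Type*) [Fintype C] (P : Geo) (a b : ℤ) := bx C P.t0 P.t a b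
def hmid (C : Type*) [Fintype C] (P : Geo) (a b : ℤ) := bx C P.t (P.w - P.t) a b
def hup (C : Type*) [Fintype C] (P : Geo) (a b : ℤ) := bx C (P.w - P.t) (P.w - P.t0) a b
/-- left half plane -/
def hlow (C : Type*) (P : Geo) (x : (ℤ × ℤ) × C) : Prop := x.1.1 < P.mx

instance (P : Geo) : DecidablePred (P.vlow C) := fun x => inferInstanceAs (Decidable (x.1.2 < P.my))
instance (P : Geo) : DecidablePred (P.hlow C) := fun x => inferInstanceAs (Decidable (x.1.1 < P.mx))

/-- the four corner squares of the cell -/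
def c00 (C : Type*) [Fintype C] (P : Geo) := bx C 0 P.t 0 P.t
def c10 (C : Type*) [Fintype C] (P : Geo) := bx C (P.w - P.t) P.w 0 P.t
def c01 (C : Type*) [Fintype C] (P : Geo) := bx C 0 P.t (P.h - P.t) P.h
def c11 (C : Type*) [Fintype C] (P : Geo) := bx C (P.w - P.t) P.w (P.h - P.t) P.h

variable (P : Geo)

lemma vstrip (a b : ℤ) : Strip (P.vS C a b) (P.vlo C a b) (P.vmid C a b) (P.vup C a b)
    (P.vlow C) := by
  have := P.d0; have := P.m3; have := P.m4; have := P.htd; have := P.ht0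
  refine ⟨?_, ?_, ?_, ?_, ?_⟩
  · intro x; simp only [vS, vlo, vmid, vup, mem_bx]; omega
  · rw [Finset.disjoint_left]; intro x; simp only [vlo, vmid, mem_bx]; omega
  · rw [Finset.disjoint_left]; intro x; simp only [vmid, vup, mem_bx]; omega
  · intro x; simp only [vlo, vlow, mem_bx]; omega
  · intro x; simp only [vup, vlow, mem_bx]; omega

lemma hstrip (a b : ℤ) : Strip (P.hS C a b) (P.hlo C a b) (P.hmid C a b) (P.hup C a b)
    (P.hlow C) := by
  have := P.d0; have := P.m1; have := P.m2; have := P.htd; have := P.ht0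
  refine ⟨?_, ?_, ?_, ?_, ?_⟩
  · intro x; simp only [hS, hlo, hmid, hup, mem_bx]; omega
  · rw [Finset.disjoint_left]; intro x; simp only [hlo, hmid, mem_bx]; omega
  · rw [Finset.disjoint_left]; intro x; simp only [hmid, hup, mem_bx]; omega
  · intro x; simp only [hlo, hlow, mem_bx]; omega
  · intro x; simp only [hup, hlow, mem_bx]; omega

/-- the hypotheses on the face permutation `f` -/
structure FaceHyp (f : Equiv.Perm ((ℤ × ℤ) × C)) : Prop where
  mem : f ∈ AltOn (bx C 0 P.w 0 P.h)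
  disp : Disp P.d f
  triv : ∀ x, x ∉ P.vmid C 0 P.s → x ∉ P.vmid C (P.w - P.s) P.w → x ∉ P.hmid C 0 P.s →
    x ∉ P.hmid C (P.h - P.s) P.h → x ∉ P.c00 C → x ∉ P.c10 C → x ∉ P.c01 C → x ∉ P.c11 C →
    f x = x
  stL : ∀ x ∈ P.vmid C 0 P.s, (f⁻¹ x).1.1 < P.s
  stR : ∀ x ∈ P.vmid C (P.w - P.s) P.w, P.w - P.s ≤ (f⁻¹ x).1.1
  stB : ∀ x ∈ P.hmid C 0 P.s, (f⁻¹ x).1.2 < P.s
  stT : ∀ x ∈ P.hmid C (P.h - P.s) P.h, P.h - P.s ≤ (f⁻¹ x).1.2
  flL : ((P.vmid C 0 P.s).filter (fun x => P.vlow C (f⁻¹ x))).card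
    = ((P.vmid C 0 P.s).filter (fun x => P.vlow C x)).card
  flR : ((P.vmid C (P.w - P.s) P.w).filter (fun x => P.vlow C (f⁻¹ x))).card
    = ((P.vmid C (P.w - P.s) P.w).filter (fun x => P.vlow C x)).card
  flB : ((P.hmid C 0 P.s).filter (fun x => P.hlow C (f⁻¹ x))).card
    = ((P.hmid C 0 P.s).filter (fun x => P.hlow C x)).card
  flT : ((P.hmid C (P.h - P.s) P.h).filter (fun x => P.hlow C (f⁻¹ x))).card
    = ((P.hmid C (P.h - P.s) P.h).filter (fun x => P.hlow C x)).card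

/-- four good fillings for the face permutation `f` (without the parity conditions) -/
structure PreFace (f gL gR gB gT : Equiv.Perm ((ℤ × ℤ) × C)) : Prop where
  L : Filling (P.vS C 0 P.s) (P.vlo C 0 P.s) (P.vmid C 0 P.s) (P.vup C 0 P.s) (P.vlow C) (fun x => f⁻¹ x) gL
  R : Filling (P.vS C (P.w - P.s) P.w) (P.vlo C (P.w - P.s) P.w) (P.vmid C (P.w - P.s) P.w)
    (P.vup C (P.w - P.s) P.w) (P.vlow C) (fun x => f⁻¹ x) gR
  B : Filling (P.hS C 0 P.s) (P.hlo C 0 P.s) (P.hmid C 0 P.s) (P.hup C 0 P.s) (P.hlow C) (fun x => f⁻¹ x) gB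
  T : Filling (P.hS C (P.h - P.s) P.h) (P.hlo C (P.h - P.s) P.h) (P.hmid C (P.h - P.s) P.h)
    (P.hup C (P.h - P.s) P.h) (P.hlow C) (fun x => f⁻¹ x) gT
  sL : sgn gL = 1
  sR : sgn gR = 1
  sB : sgn gB = 1
  sT : sgn gT = 1

/-- the peeled face permutation -/
def fpeel (f gL gR gB gT : Equiv.Perm ((ℤ × ℤ) × C)) : Equiv.Perm ((ℤ × ℤ) × C) :=
  f * (gL * gR * gB * gT)

/-- FACE DATA: the peeled permutation is even on every corner square -/
structure Face (f gL gR gB gT : Equiv.Perm ((ℤ × ℤ) × C)) : Prop extends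
    PreFace P f gL gR gB gT where
  e00 : sgnP (P.c00 C) (fpeel f gL gR gB gT) = 1
  e10 : sgnP (P.c10 C) (fpeel f gL gR gB gT) = 1
  e01 : sgnP (P.c01 C) (fpeel f gL gR gB gT) = 1
  e11 : sgnP (P.c11 C) (fpeel f gL gR gB gT) = 1


/-! ### action of the product of the four fillings -/

section act
variable {P}
variable {f gL gR gB gT : Equiv.Perm ((ℤ × ℤ) × C)}

lemma PreFace.apply_L (H : PreFace P f gL gR gB gT) {x : (ℤ × ℤ) × C} (hx : x ∈ P.vS C 0 P.s) :
    (gL * gR * gB * gT) x = gL x := by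
  have := P.d0; have := P.m1; have := P.m2; have := P.htd; have := P.ht0; have := P.hst
  have := P.m3; have := P.m4; have := P.s0; have := P.hsd
  have h1 : gT x = x := H.T.mem x (by simp only [vS, hS, mem_bx] at hx ⊢; omega)
  have h2 : gB x = x := H.B.mem x (by simp only [vS, hS, mem_bx] at hx ⊢; omega)
  have h3 : gR x = x := H.R.mem x (by simp only [vS, hS, mem_bx] at hx ⊢; omega)
  simp only [Equiv.Perm.coe_mul, Function.comp_apply, h1, h2, h3]

lemma PreFace.apply_R (H : PreFace P f gL gR gB gT) {x : (ℤ × ℤ) × C}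
    (hx : x ∈ P.vS C (P.w - P.s) P.w) : (gL * gR * gB * gT) x = gR x := by
  have := P.d0; have := P.m1; have := P.m2; have := P.htd; have := P.ht0; have := P.hst
  have := P.m3; have := P.m4; have := P.s0; have := P.hsd
  have h1 : gT x = x := H.T.mem x (by simp only [vS, hS, mem_bx] at hx ⊢; omega)
  have h2 : gB x = x := H.B.mem x (by simp only [vS, hS, mem_bx] at hx ⊢; omega)
  have h4 : gR x ∈ P.vS C (P.w - P.s) P.w := (on_mem_iff H.R.mem x).2 hx
  have h3 : gL (gR x) = gR x := H.L.mem _ (by simp only [vS, hS, mem_bx] at h4 ⊢; omega)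
  simp only [Equiv.Perm.coe_mul, Function.comp_apply, h1, h2, h3]

lemma PreFace.apply_B (H : PreFace P f gL gR gB gT) {x : (ℤ × ℤ) × C}
    (hx : x ∈ P.hS C 0 P.s) : (gL * gR * gB * gT) x = gB x := by
  have := P.d0; have := P.m1; have := P.m2; have := P.htd; have := P.ht0; have := P.hst
  have := P.m3; have := P.m4; have := P.s0; have := P.hsd
  have h1 : gT x = x := H.T.mem x (by simp only [vS, hS, mem_bx] at hx ⊢; omega)
  have h4 : gB x ∈ P.hS C 0 P.s := (on_mem_iff H.B.mem x).2 hx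
  have h2 : gR (gB x) = gB x := H.R.mem _ (by simp only [vS, hS, mem_bx] at h4 ⊢; omega)
  have h3 : gL (gB x) = gB x := H.L.mem _ (by simp only [vS, hS, mem_bx] at h4 ⊢; omega)
  simp only [Equiv.Perm.coe_mul, Function.comp_apply, h1, h2, h3]

lemma PreFace.apply_T (H : PreFace P f gL gR gB gT) {x : (ℤ × ℤ) × C}
    (hx : x ∈ P.hS C (P.h - P.s) P.h) : (gL * gR * gB * gT) x = gT x := by
  have := P.d0; have := P.m1; have := P.m2; have := P.htd; have := P.ht0; have := P.hst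
  have := P.m3; have := P.m4; have := P.s0; have := P.hsd
  have h4 : gT x ∈ P.hS C (P.h - P.s) P.h := (on_mem_iff H.T.mem x).2 hx
  have h1 : gB (gT x) = gT x := H.B.mem _ (by simp only [vS, hS, mem_bx] at h4 ⊢; omega)
  have h2 : gR (gT x) = gT x := H.R.mem _ (by simp only [vS, hS, mem_bx] at h4 ⊢; omega)
  have h3 : gL (gT x) = gT x := H.L.mem _ (by simp only [vS, hS, mem_bx] at h4 ⊢; omega)
  simp only [Equiv.Perm.coe_mul, Function.comp_apply, h1, h2, h3]

lemma PreFace.apply_else (H : PreFace P f gL gR gB gT) {x : (ℤ × ℤ) × C}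
    (h1 : x ∉ P.vS C 0 P.s) (h2 : x ∉ P.vS C (P.w - P.s) P.w) (h3 : x ∉ P.hS C 0 P.s)
    (h4 : x ∉ P.hS C (P.h - P.s) P.h) : (gL * gR * gB * gT) x = x := by
  simp only [Equiv.Perm.coe_mul, Function.comp_apply, H.T.mem x h4, H.B.mem x h3, H.R.mem x h2,
    H.L.mem x h1]

/-- the peeled permutation is supported on the four corner squares -/
lemma PreFace.peel_mem (hf : FaceHyp P f) (H : PreFace P f gL gR gB gT) :
    fpeel f gL gR gB gT ∈ PermOn (P.c00 C ∪ P.c10 C ∪ P.c01 C ∪ P.c11 C) := by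
  have := P.d0; have := P.m1; have := P.m2; have := P.htd; have := P.ht0; have := P.hst
  have := P.m3; have := P.m4; have := P.s0; have := P.hsd
  intro x hx
  simp only [Finset.mem_union, not_or] at hx
  obtain ⟨⟨⟨x1, x2⟩, x3⟩, x4⟩ := hx
  change f ((gL * gR * gB * gT) x) = x
  have key : ∀ y, f (f⁻¹ y) = y := fun y => f.apply_symm_apply y
  by_cases h1 : x ∈ P.vmid C 0 P.s
  · rw [H.apply_L (by simp only [vS, vmid, mem_bx] at h1 ⊢; omega), H.L.mid x h1, key]
  by_cases h2 : x ∈ P.vmid C (P.w - P.s) P.w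
  · rw [H.apply_R (by simp only [vS, vmid, mem_bx] at h2 ⊢; omega), H.R.mid x h2, key]
  by_cases h3 : x ∈ P.hmid C 0 P.s
  · rw [H.apply_B (by simp only [hS, hmid, mem_bx] at h3 ⊢; omega), H.B.mid x h3, key]
  by_cases h4 : x ∈ P.hmid C (P.h - P.s) P.h
  · rw [H.apply_T (by simp only [hS, hmid, mem_bx] at h4 ⊢; omega), H.T.mid x h4, key]
  rw [H.apply_else, hf.triv x h1 h2 h3 h4 x1 x2 x3 x4]
  all_goals
    simp only [vS, hS, vmid, hmid, c00, c10, c01, c11, mem_bx] at h1 h2 h3 h4 x1 x2 x3 x4 ⊢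
    omega

/-- where the product of the fillings sends a point of a corner square -/
lemma PreFace.loc (H : PreFace P f gL gR gB gT) (x : (ℤ × ℤ) × C) :
    ((gL * gR * gB * gT) x = x) ∨
    (x ∈ P.vlo C 0 P.s ∧ (gL * gR * gB * gT) x ∈ P.vS C 0 P.s ∧
      ((gL * gR * gB * gT) x).1.2 < P.my) ∨
    (x ∈ P.vup C 0 P.s ∧ (gL * gR * gB * gT) x ∈ P.vS C 0 P.s ∧
      P.my ≤ ((gL * gR * gB * gT) x).1.2) ∨
    (x ∈ P.vlo C (P.w - P.s) P.w ∧ (gL * gR * gB * gT) x ∈ P.vS C (P.w - P.s) P.w ∧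
      ((gL * gR * gB * gT) x).1.2 < P.my) ∨
    (x ∈ P.vup C (P.w - P.s) P.w ∧ (gL * gR * gB * gT) x ∈ P.vS C (P.w - P.s) P.w ∧
      P.my ≤ ((gL * gR * gB * gT) x).1.2) ∨
    (x ∈ P.hlo C 0 P.s ∧ (gL * gR * gB * gT) x ∈ P.hS C 0 P.s ∧
      ((gL * gR * gB * gT) x).1.1 < P.mx) ∨
    (x ∈ P.hup C 0 P.s ∧ (gL * gR * gB * gT) x ∈ P.hS C 0 P.s ∧
      P.mx ≤ ((gL * gR * gB * gT) x).1.1) ∨
    (x ∈ P.hlo C (P.h - P.s) P.h ∧ (gL * gR * gB * gT) x ∈ P.hS C (P.h - P.s) P.h ∧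
      ((gL * gR * gB * gT) x).1.1 < P.mx) ∨
    (x ∈ P.hup C (P.h - P.s) P.h ∧ (gL * gR * gB * gT) x ∈ P.hS C (P.h - P.s) P.h ∧
      P.mx ≤ ((gL * gR * gB * gT) x).1.1) ∨
    (x ∈ P.vmid C 0 P.s ∨ x ∈ P.vmid C (P.w - P.s) P.w ∨ x ∈ P.hmid C 0 P.s ∨
      x ∈ P.hmid C (P.h - P.s) P.h) := by
  by_cases h1 : x ∈ P.vS C 0 P.s
  · have hm : gL x ∈ P.vS C 0 P.s := (on_mem_iff H.L.mem x).2 h1
    rw [H.apply_L h1]
    rcases ((P.vstrip (C := C) 0 P.s).eq x).1 h1 with h | h | h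
    · exact Or.inr (Or.inl ⟨h, hm, H.L.lo x h⟩)
    · simp only [h, true_or, or_true]
    · exact Or.inr (Or.inr (Or.inl ⟨h, hm, not_lt.1 (H.L.up x h)⟩))
  by_cases h2 : x ∈ P.vS C (P.w - P.s) P.w
  · have hm : gR x ∈ P.vS C (P.w - P.s) P.w := (on_mem_iff H.R.mem x).2 h2
    rw [H.apply_R h2]
    rcases ((P.vstrip (C := C) (P.w - P.s) P.w).eq x).1 h2 with h | h | h
    · exact Or.inr (Or.inr (Or.inr (Or.inl ⟨h, hm, H.R.lo x h⟩)))
    · simp only [h, true_or, or_true]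
    · exact Or.inr (Or.inr (Or.inr (Or.inr (Or.inl ⟨h, hm, not_lt.1 (H.R.up x h)⟩))))
  by_cases h3 : x ∈ P.hS C 0 P.s
  · have hm : gB x ∈ P.hS C 0 P.s := (on_mem_iff H.B.mem x).2 h3
    rw [H.apply_B h3]
    rcases ((P.hstrip (C := C) 0 P.s).eq x).1 h3 with h | h | h
    · exact Or.inr (Or.inr (Or.inr (Or.inr (Or.inr (Or.inl ⟨h, hm, H.B.lo x h⟩)))))
    · simp only [h, true_or, or_true]
    · exact Or.inr (Or.inr (Or.inr (Or.inr (Or.inr (Or.inr (Or.inl
        ⟨h, hm, not_lt.1 (H.B.up x h)⟩))))))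
  by_cases h4 : x ∈ P.hS C (P.h - P.s) P.h
  · have hm : gT x ∈ P.hS C (P.h - P.s) P.h := (on_mem_iff H.T.mem x).2 h4
    rw [H.apply_T h4]
    rcases ((P.hstrip (C := C) (P.h - P.s) P.h).eq x).1 h4 with h | h | h
    · exact Or.inr (Or.inr (Or.inr (Or.inr (Or.inr (Or.inr (Or.inr (Or.inl
        ⟨h, hm, H.T.lo x h⟩)))))))
    · simp only [h, true_or, or_true]
    · exact Or.inr (Or.inr (Or.inr (Or.inr (Or.inr (Or.inr (Or.inr (Or.inr (Or.inl
        ⟨h, hm, not_lt.1 (H.T.up x h)⟩))))))))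
  · exact Or.inl (H.apply_else h1 h2 h3 h4)

lemma PreFace.inv00 (hf : FaceHyp P f) (H : PreFace P f gL gR gB gT) :
    Invt (P.c00 C) (fpeel f gL gR gB gT) := by
  have := P.d0; have := P.m1; have := P.m2; have := P.htd; have := P.ht0; have := P.hst
  have := P.m3; have := P.m4; have := P.s0; have := P.hsd
  apply inv_of_maps
  intro x hx
  have h1 := (on_mem_iff (H.peel_mem hf) x).2 (by simp [hx])
  have h2 := H.loc x
  have h3 := hf.disp ((gL * gR * gB * gT) x)
  change f ((gL * gR * gB * gT) x) ∈ _ at h1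
  change f ((gL * gR * gB * gT) x) ∈ _
  generalize (gL * gR * gB * gT) x = y at *
  generalize f y = z at *
  simp only [vS, hS, vlo, hlo, vup, hup, vmid, hmid, c00, c10, c01, c11, mem_bx,
    Finset.mem_union] at hx h1 h2 h3 ⊢
  rcases h2 with rfl | h2 | h2 | h2 | h2 | h2 | h2 | h2 | h2 | h2
  all_goals omega

lemma PreFace.inv10 (hf : FaceHyp P f) (H : PreFace P f gL gR gB gT) :
    Invt (P.c10 C) (fpeel f gL gR gB gT) := by
  have := P.d0; have := P.m1; have := P.m2; have := P.htd; have := P.ht0; have := P.hst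
  have := P.m3; have := P.m4; have := P.s0; have := P.hsd
  apply inv_of_maps
  intro x hx
  have h1 := (on_mem_iff (H.peel_mem hf) x).2 (by simp [hx])
  have h2 := H.loc x
  have h3 := hf.disp ((gL * gR * gB * gT) x)
  change f ((gL * gR * gB * gT) x) ∈ _ at h1
  change f ((gL * gR * gB * gT) x) ∈ _
  generalize (gL * gR * gB * gT) x = y at *
  generalize f y = z at *
  simp only [vS, hS, vlo, hlo, vup, hup, vmid, hmid, c00, c10, c01, c11, mem_bx,
    Finset.mem_union] at hx h1 h2 h3 ⊢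
  rcases h2 with rfl | h2 | h2 | h2 | h2 | h2 | h2 | h2 | h2 | h2
  all_goals omega

lemma PreFace.inv01 (hf : FaceHyp P f) (H : PreFace P f gL gR gB gT) :
    Invt (P.c01 C) (fpeel f gL gR gB gT) := by
  have := P.d0; have := P.m1; have := P.m2; have := P.htd; have := P.ht0; have := P.hst
  have := P.m3; have := P.m4; have := P.s0; have := P.hsd
  apply inv_of_maps
  intro x hx
  have h1 := (on_mem_iff (H.peel_mem hf) x).2 (by simp [hx])
  have h2 := H.loc x
  have h3 := hf.disp ((gL * gR * gB * gT) x)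
  change f ((gL * gR * gB * gT) x) ∈ _ at h1
  change f ((gL * gR * gB * gT) x) ∈ _
  generalize (gL * gR * gB * gT) x = y at *
  generalize f y = z at *
  simp only [vS, hS, vlo, hlo, vup, hup, vmid, hmid, c00, c10, c01, c11, mem_bx,
    Finset.mem_union] at hx h1 h2 h3 ⊢
  rcases h2 with rfl | h2 | h2 | h2 | h2 | h2 | h2 | h2 | h2 | h2
  all_goals omega

lemma PreFace.inv11 (hf : FaceHyp P f) (H : PreFace P f gL gR gB gT) :
    Invt (P.c11 C) (fpeel f gL gR gB gT) := by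
  have := P.d0; have := P.m1; have := P.m2; have := P.htd; have := P.ht0; have := P.hst
  have := P.m3; have := P.m4; have := P.s0; have := P.hsd
  apply inv_of_maps
  intro x hx
  have h1 := (on_mem_iff (H.peel_mem hf) x).2 (by simp [hx])
  have h2 := H.loc x
  have h3 := hf.disp ((gL * gR * gB * gT) x)
  change f ((gL * gR * gB * gT) x) ∈ _ at h1
  change f ((gL * gR * gB * gT) x) ∈ _
  generalize (gL * gR * gB * gT) x = y at *
  generalize f y = z at *
  simp only [vS, hS, vlo, hlo, vup, hup, vmid, hmid, c00, c10, c01, c11, mem_bx,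
    Finset.mem_union] at hx h1 h2 h3 ⊢
  rcases h2 with rfl | h2 | h2 | h2 | h2 | h2 | h2 | h2 | h2 | h2
  all_goals omega

end act


/-! ### factorisation in four corner parts -/

lemma disj_0010 : Disjoint (P.c00 C) (P.c10 C) := by
  have := P.d0; have := P.m1; have := P.m2
  rw [Finset.disjoint_left]; intro x; simp only [c00, c10, mem_bx]; omega
lemma disj_0001 : Disjoint (P.c00 C) (P.c01 C) := by
  have := P.d0; have := P.m3; have := P.m4
  rw [Finset.disjoint_left]; intro x; simp only [c00, c01, mem_bx]; omega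
lemma disj_0011 : Disjoint (P.c00 C) (P.c11 C) := by
  have := P.d0; have := P.m3; have := P.m4
  rw [Finset.disjoint_left]; intro x; simp only [c00, c11, mem_bx]; omega
lemma disj_1001 : Disjoint (P.c10 C) (P.c01 C) := by
  have := P.d0; have := P.m3; have := P.m4
  rw [Finset.disjoint_left]; intro x; simp only [c10, c01, mem_bx]; omega
lemma disj_1011 : Disjoint (P.c10 C) (P.c11 C) := by
  have := P.d0; have := P.m3; have := P.m4
  rw [Finset.disjoint_left]; intro x; simp only [c10, c11, mem_bx]; omega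
lemma disj_0111 : Disjoint (P.c01 C) (P.c11 C) := by
  have := P.d0; have := P.m1; have := P.m2
  rw [Finset.disjoint_left]; intro x; simp only [c01, c11, mem_bx]; omega

lemma factor4 {π : Equiv.Perm ((ℤ × ℤ) × C)}
    (h : π ∈ PermOn (P.c00 C ∪ P.c10 C ∪ P.c01 C ∪ P.c11 C))
    (h00 : Invt (P.c00 C) π) (h10 : Invt (P.c10 C) π) (h01 : Invt (P.c01 C) π)
    (h11 : Invt (P.c11 C) π) :
    π = part (P.c00 C) π * part (P.c10 C) π * part (P.c01 C) π * part (P.c11 C) π := by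
  apply Equiv.ext
  intro x
  simp only [Equiv.Perm.coe_mul, Function.comp_apply]
  have dj1 := Finset.disjoint_left.1 (P.disj_0010 (C := C))
  have dj2 := Finset.disjoint_left.1 (P.disj_0001 (C := C))
  have dj3 := Finset.disjoint_left.1 (P.disj_0011 (C := C))
  have dj4 := Finset.disjoint_left.1 (P.disj_1001 (C := C))
  have dj5 := Finset.disjoint_left.1 (P.disj_1011 (C := C))
  have dj6 := Finset.disjoint_left.1 (P.disj_0111 (C := C))
  by_cases x4 : x ∈ P.c11 C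
  · have hx : π x ∈ P.c11 C := (h11 x).2 x4
    rw [part_apply h11 x4, part_mem _ π _ (fun h' => dj6 h' hx),
      part_mem _ π _ (fun h' => dj5 h' hx), part_mem _ π _ (fun h' => dj3 h' hx)]
  rw [part_mem (P.c11 C) π x x4]
  by_cases x3 : x ∈ P.c01 C
  · have hx : π x ∈ P.c01 C := (h01 x).2 x3
    rw [part_apply h01 x3, part_mem _ π _ (fun h' => dj4 h' hx),
      part_mem _ π _ (fun h' => dj2 h' hx)]
  rw [part_mem (P.c01 C) π x x3]
  by_cases x2 : x ∈ P.c10 C
  · have hx : π x ∈ P.c10 C := (h10 x).2 x2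
    rw [part_apply h10 x2, part_mem _ π _ (fun h' => dj1 h' hx)]
  rw [part_mem (P.c10 C) π x x2]
  by_cases x1 : x ∈ P.c00 C
  · rw [part_apply h00 x1]
  rw [part_mem (P.c00 C) π x x1]
  exact h x (by simp [x1, x2, x3, x4])

lemma sgn_factor4 {π : Equiv.Perm ((ℤ × ℤ) × C)}
    (h : π ∈ PermOn (P.c00 C ∪ P.c10 C ∪ P.c01 C ∪ P.c11 C))
    (h00 : Invt (P.c00 C) π) (h10 : Invt (P.c10 C) π) (h01 : Invt (P.c01 C) π)
    (h11 : Invt (P.c11 C) π) :
    sgn π = sgnP (P.c00 C) π * sgnP (P.c10 C) π * sgnP (P.c01 C) π * sgnP (P.c11 C) π := by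
  conv_lhs => rw [P.factor4 h h00 h10 h01 h11]
  have m1 := part_mem (P.c00 C) π
  have m2 := part_mem (P.c10 C) π
  have m3 := part_mem (P.c01 C) π
  have m4 := part_mem (P.c11 C) π
  have M1 := PermOn_mono (T := P.c00 C ∪ P.c10 C ∪ P.c01 C ∪ P.c11 C) (by
    intro x hx; simp [hx]) m1
  have M2 := PermOn_mono (T := P.c00 C ∪ P.c10 C ∪ P.c01 C ∪ P.c11 C) (by
    intro x hx; simp [hx]) m2
  have M3 := PermOn_mono (T := P.c00 C ∪ P.c10 C ∪ P.c01 C ∪ P.c11 C) (by
    intro x hx; simp [hx]) m3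
  have M4 := PermOn_mono (T := P.c00 C ∪ P.c10 C ∪ P.c01 C ∪ P.c11 C) (by
    intro x hx; simp [hx]) m4
  rw [sgn_mul_on (mul_mem (mul_mem M1 M2) M3) M4, sgn_mul_on (mul_mem M1 M2) M3,
    sgn_mul_on M1 M2, sgn_part h00, sgn_part h10, sgn_part h01, sgn_part h11]

/-! ### toggles -/

/-- permutations of the eight ends of the four strips of a cell -/
structure Tog (σL τL σR τR σB τB σT τT : Equiv.Perm ((ℤ × ℤ) × C)) : Prop where
  sL : σL ∈ PermOn (P.vlo C 0 P.s)
  tL : τL ∈ PermOn (P.vup C 0 P.s)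
  sR : σR ∈ PermOn (P.vlo C (P.w - P.s) P.w)
  tR : τR ∈ PermOn (P.vup C (P.w - P.s) P.w)
  sB : σB ∈ PermOn (P.hlo C 0 P.s)
  tB : τB ∈ PermOn (P.hup C 0 P.s)
  sT : σT ∈ PermOn (P.hlo C (P.h - P.s) P.h)
  tT : τT ∈ PermOn (P.hup C (P.h - P.s) P.h)

section tog
variable {P}
variable {f gL gR gB gT : Equiv.Perm ((ℤ × ℤ) × C)}
variable {σL τL σR τR σB τB σT τT : Equiv.Perm ((ℤ × ℤ) × C)}

lemma vlo_sub (a b : ℤ) : P.vlo C a b ⊆ P.vS C a b := fun x hx =>
  ((P.vstrip a b).eq x).2 (Or.inl hx)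
lemma vup_sub (a b : ℤ) : P.vup C a b ⊆ P.vS C a b := fun x hx =>
  ((P.vstrip a b).eq x).2 (Or.inr (Or.inr hx))
lemma hlo_sub (a b : ℤ) : P.hlo C a b ⊆ P.hS C a b := fun x hx =>
  ((P.hstrip a b).eq x).2 (Or.inl hx)
lemma hup_sub (a b : ℤ) : P.hup C a b ⊆ P.hS C a b := fun x hx =>
  ((P.hstrip a b).eq x).2 (Or.inr (Or.inr hx))

lemma fpeel_tog (H : PreFace P f gL gR gB gT) (K : Tog P σL τL σR τR σB τB σT τT) :
    fpeel f (gL * (σL * τL)) (gR * (σR * τR)) (gB * (σB * τB)) (gT * (σT * τT))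
      = fpeel f gL gR gB gT * ((σL * τL) * (σR * τR) * (σB * τB) * (σT * τT)) := by
  have := P.d0; have := P.m1; have := P.m2; have := P.htd; have := P.ht0; have := P.hst
  have := P.m3; have := P.m4; have := P.s0; have := P.hsd
  have dLR : Disjoint (P.vS C 0 P.s) (P.vS C (P.w - P.s) P.w) := by
    rw [Finset.disjoint_left]; intro x; simp only [vS, mem_bx]; omega
  have dLB : Disjoint (P.vS C 0 P.s) (P.hS C 0 P.s) := by
    rw [Finset.disjoint_left]; intro x; simp only [vS, hS, mem_bx]; omega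
  have dLT : Disjoint (P.vS C 0 P.s) (P.hS C (P.h - P.s) P.h) := by
    rw [Finset.disjoint_left]; intro x; simp only [vS, hS, mem_bx]; omega
  have dRB : Disjoint (P.vS C (P.w - P.s) P.w) (P.hS C 0 P.s) := by
    rw [Finset.disjoint_left]; intro x; simp only [vS, hS, mem_bx]; omega
  have dRT : Disjoint (P.vS C (P.w - P.s) P.w) (P.hS C (P.h - P.s) P.h) := by
    rw [Finset.disjoint_left]; intro x; simp only [vS, hS, mem_bx]; omega
  have dBT : Disjoint (P.hS C 0 P.s) (P.hS C (P.h - P.s) P.h) := by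
    rw [Finset.disjoint_left]; intro x; simp only [hS, mem_bx]; omega
  have mL : σL * τL ∈ PermOn (P.vS C 0 P.s) :=
    mul_mem (PermOn_mono (vlo_sub _ _) K.sL) (PermOn_mono (vup_sub _ _) K.tL)
  have mR : σR * τR ∈ PermOn (P.vS C (P.w - P.s) P.w) :=
    mul_mem (PermOn_mono (vlo_sub _ _) K.sR) (PermOn_mono (vup_sub _ _) K.tR)
  have mB : σB * τB ∈ PermOn (P.hS C 0 P.s) :=
    mul_mem (PermOn_mono (hlo_sub _ _) K.sB) (PermOn_mono (hup_sub _ _) K.tB)
  have c1 : Commute (σL * τL) gR := commute_of_disjoint dLR mL H.R.mem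
  have c2 : Commute (σL * τL) gB := commute_of_disjoint dLB mL H.B.mem
  have c3 : Commute (σL * τL) gT := commute_of_disjoint dLT mL H.T.mem
  have c4 : Commute (σR * τR) gB := commute_of_disjoint dRB mR H.B.mem
  have c5 : Commute (σR * τR) gT := commute_of_disjoint dRT mR H.T.mem
  have c6 : Commute (σB * τB) gT := commute_of_disjoint dBT mB H.T.mem
  unfold fpeel
  generalize σL * τL = a at *
  generalize σR * τR = b at *
  generalize σB * τB = c at *
  generalize σT * τT = e at *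
  have E : gL * a * (gR * b) * (gB * c) * (gT * e)
      = gL * gR * gB * gT * (a * b * c * e) := by
    have s1 : a * (gR * b) = gR * (a * b) := by rw [← mul_assoc, c1.eq, mul_assoc]
    have s2 : (a * b) * (gB * c) = gB * (a * b * c) := by
      rw [← mul_assoc, (c2.mul_left c4).eq, mul_assoc]
    have s3 : (a * b * c) * (gT * e) = gT * (a * b * c * e) := by
      rw [← mul_assoc, ((c3.mul_left c5).mul_left c6).eq, mul_assoc]
    calc gL * a * (gR * b) * (gB * c) * (gT * e)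
        = gL * (a * (gR * b)) * (gB * c) * (gT * e) := by simp only [mul_assoc]
      _ = gL * gR * ((a * b) * (gB * c)) * (gT * e) := by rw [s1]; simp only [mul_assoc]
      _ = gL * gR * gB * ((a * b * c) * (gT * e)) := by rw [s2]; simp only [mul_assoc]
      _ = gL * gR * gB * gT * (a * b * c * e) := by rw [s3]; simp only [mul_assoc]
  rw [E]; simp only [mul_assoc]

/-- the toggle keeps `PreFace` if the toggles are even on every side -/
lemma PreFace.toggle (H : PreFace P f gL gR gB gT) (K : Tog P σL τL σR τR σB τB σT τT)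
    (hL : sgn σL = sgn τL) (hR : sgn σR = sgn τR) (hB : sgn σB = sgn τB) (hT : sgn σT = sgn τT) :
    PreFace P f (gL * (σL * τL)) (gR * (σR * τR)) (gB * (σB * τB)) (gT * (σT * τT)) := by
  have mL : σL * τL ∈ PermOn (P.vS C 0 P.s) :=
    mul_mem (PermOn_mono (vlo_sub _ _) K.sL) (PermOn_mono (vup_sub _ _) K.tL)
  have mR : σR * τR ∈ PermOn (P.vS C (P.w - P.s) P.w) :=
    mul_mem (PermOn_mono (vlo_sub _ _) K.sR) (PermOn_mono (vup_sub _ _) K.tR)
  have mB : σB * τB ∈ PermOn (P.hS C 0 P.s) :=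
    mul_mem (PermOn_mono (hlo_sub _ _) K.sB) (PermOn_mono (hup_sub _ _) K.tB)
  have mT : σT * τT ∈ PermOn (P.hS C (P.h - P.s) P.h) :=
    mul_mem (PermOn_mono (hlo_sub _ _) K.sT) (PermOn_mono (hup_sub _ _) K.tT)
  refine ⟨H.L.toggle (P.vstrip _ _) K.sL K.tL, H.R.toggle (P.vstrip _ _) K.sR K.tR,
    H.B.toggle (P.hstrip _ _) K.sB K.tB, H.T.toggle (P.hstrip _ _) K.sT K.tT, ?_, ?_, ?_, ?_⟩
  · rw [sgn_mul_on H.L.mem mL, sgn_mul K.sL K.tL, H.sL, hL, Int.units_mul_self, one_mul]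
  · rw [sgn_mul_on H.R.mem mR, sgn_mul K.sR K.tR, H.sR, hR, Int.units_mul_self, one_mul]
  · rw [sgn_mul_on H.B.mem mB, sgn_mul K.sB K.tB, H.sB, hB, Int.units_mul_self, one_mul]
  · rw [sgn_mul_on H.T.mem mT, sgn_mul K.sT K.tT, H.sT, hT, Int.units_mul_self, one_mul]

/-- effect of a toggle on the corner signs -/
lemma sgnP_tog (hf : FaceHyp P f) (H : PreFace P f gL gR gB gT)
    (K : Tog P σL τL σR τR σB τB σT τT) :
    sgnP (P.c00 C) (fpeel f (gL * (σL * τL)) (gR * (σR * τR)) (gB * (σB * τB)) (gT * (σT * τT)))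
      = sgnP (P.c00 C) (fpeel f gL gR gB gT) * (sgn σL * sgn σB) ∧
    sgnP (P.c10 C) (fpeel f (gL * (σL * τL)) (gR * (σR * τR)) (gB * (σB * τB)) (gT * (σT * τT)))
      = sgnP (P.c10 C) (fpeel f gL gR gB gT) * (sgn σR * sgn τB) ∧
    sgnP (P.c01 C) (fpeel f (gL * (σL * τL)) (gR * (σR * τR)) (gB * (σB * τB)) (gT * (σT * τT)))
      = sgnP (P.c01 C) (fpeel f gL gR gB gT) * (sgn τL * sgn σT) ∧
    sgnP (P.c11 C) (fpeel f (gL * (σL * τL)) (gR * (σR * τR)) (gB * (σB * τB)) (gT * (σT * τT)))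
      = sgnP (P.c11 C) (fpeel f gL gR gB gT) * (sgn τR * sgn τT) := by
  have := P.d0; have := P.m1; have := P.m2; have := P.htd; have := P.ht0; have := P.hst
  have := P.m3; have := P.m4; have := P.s0; have := P.hsd
  have S : ∀ (A T : Finset ((ℤ × ℤ) × C)) (π : Equiv.Perm ((ℤ × ℤ) × C)), π ∈ PermOn T →
      (∀ x ∈ T, x ∈ A) → Invt A π ∧ sgnP A π = sgn π :=
    fun A T π hπ h => ⟨inv_of_sub h hπ, sgnP_of_sub h hπ⟩
  have D : ∀ (A T : Finset ((ℤ × ℤ) × C)) (π : Equiv.Perm ((ℤ × ℤ) × C)), π ∈ PermOn T →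
      (∀ x ∈ T, x ∉ A) → Invt A π ∧ sgnP A π = 1 :=
    fun A T π hπ h => ⟨inv_of_disj (Finset.disjoint_left.2 h) hπ,
      sgnP_of_disj (Finset.disjoint_left.2 h) hπ⟩
  have main : ∀ (A : Finset ((ℤ × ℤ) × C)) (hA : Invt A (fpeel f gL gR gB gT))
      {e1 e2 e3 e4 e5 e6 e7 e8 : ℤˣ}
      (h1 : Invt A σL ∧ sgnP A σL = e1) (h2 : Invt A τL ∧ sgnP A τL = e2)
      (h3 : Invt A σR ∧ sgnP A σR = e3) (h4 : Invt A τR ∧ sgnP A τR = e4)
      (h5 : Invt A σB ∧ sgnP A σB = e5) (h6 : Invt A τB ∧ sgnP A τB = e6)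
      (h7 : Invt A σT ∧ sgnP A σT = e7) (h8 : Invt A τT ∧ sgnP A τT = e8),
      sgnP A (fpeel f (gL * (σL * τL)) (gR * (σR * τR)) (gB * (σB * τB)) (gT * (σT * τT)))
        = sgnP A (fpeel f gL gR gB gT) * (e1 * e2 * (e3 * e4) * (e5 * e6) * (e7 * e8)) := by
    intro A hA e1 e2 e3 e4 e5 e6 e7 e8 h1 h2 h3 h4 h5 h6 h7 h8
    rw [fpeel_tog H K, sgnP_mul hA ((((h1.1.mul h2.1).mul (h3.1.mul h4.1)).mul
      (h5.1.mul h6.1)).mul (h7.1.mul h8.1)),
      sgnP_mul (((h1.1.mul h2.1).mul (h3.1.mul h4.1)).mul (h5.1.mul h6.1)) (h7.1.mul h8.1),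
      sgnP_mul ((h1.1.mul h2.1).mul (h3.1.mul h4.1)) (h5.1.mul h6.1),
      sgnP_mul (h1.1.mul h2.1) (h3.1.mul h4.1),
      sgnP_mul h1.1 h2.1, sgnP_mul h3.1 h4.1, sgnP_mul h5.1 h6.1, sgnP_mul h7.1 h8.1,
      h1.2, h2.2, h3.2, h4.2, h5.2, h6.2, h7.2, h8.2]
  refine ⟨?_, ?_, ?_, ?_⟩
  · rw [main (P.c00 C) (H.inv00 hf)
      (S _ _ _ K.sL (by intro x; simp only [vlo, c00, mem_bx]; omega))
      (D _ _ _ K.tL (by intro x; simp only [vup, c00, mem_bx]; omega))
      (D _ _ _ K.sR (by intro x; simp only [vlo, c00, mem_bx]; omega))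
      (D _ _ _ K.tR (by intro x; simp only [vup, c00, mem_bx]; omega))
      (S _ _ _ K.sB (by intro x; simp only [hlo, c00, mem_bx]; omega))
      (D _ _ _ K.tB (by intro x; simp only [hup, c00, mem_bx]; omega))
      (D _ _ _ K.sT (by intro x; simp only [hlo, c00, mem_bx]; omega))
      (D _ _ _ K.tT (by intro x; simp only [hup, c00, mem_bx]; omega))]
    simp only [mul_one, one_mul]
  · rw [main (P.c10 C) (H.inv10 hf)
      (D _ _ _ K.sL (by intro x; simp only [vlo, c10, mem_bx]; omega))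
      (D _ _ _ K.tL (by intro x; simp only [vup, c10, mem_bx]; omega))
      (S _ _ _ K.sR (by intro x; simp only [vlo, c10, mem_bx]; omega))
      (D _ _ _ K.tR (by intro x; simp only [vup, c10, mem_bx]; omega))
      (D _ _ _ K.sB (by intro x; simp only [hlo, c10, mem_bx]; omega))
      (S _ _ _ K.tB (by intro x; simp only [hup, c10, mem_bx]; omega))
      (D _ _ _ K.sT (by intro x; simp only [hlo, c10, mem_bx]; omega))
      (D _ _ _ K.tT (by intro x; simp only [hup, c10, mem_bx]; omega))]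
    simp only [mul_one, one_mul]
  · rw [main (P.c01 C) (H.inv01 hf)
      (D _ _ _ K.sL (by intro x; simp only [vlo, c01, mem_bx]; omega))
      (S _ _ _ K.tL (by intro x; simp only [vup, c01, mem_bx]; omega))
      (D _ _ _ K.sR (by intro x; simp only [vlo, c01, mem_bx]; omega))
      (D _ _ _ K.tR (by intro x; simp only [vup, c01, mem_bx]; omega))
      (D _ _ _ K.sB (by intro x; simp only [hlo, c01, mem_bx]; omega))
      (D _ _ _ K.tB (by intro x; simp only [hup, c01, mem_bx]; omega))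
      (S _ _ _ K.sT (by intro x; simp only [hlo, c01, mem_bx]; omega))
      (D _ _ _ K.tT (by intro x; simp only [hup, c01, mem_bx]; omega))]
    simp only [mul_one, one_mul]
  · rw [main (P.c11 C) (H.inv11 hf)
      (D _ _ _ K.sL (by intro x; simp only [vlo, c11, mem_bx]; omega))
      (D _ _ _ K.tL (by intro x; simp only [vup, c11, mem_bx]; omega))
      (D _ _ _ K.sR (by intro x; simp only [vlo, c11, mem_bx]; omega))
      (S _ _ _ K.tR (by intro x; simp only [vup, c11, mem_bx]; omega))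
      (D _ _ _ K.sB (by intro x; simp only [hlo, c11, mem_bx]; omega))
      (D _ _ _ K.tB (by intro x; simp only [hup, c11, mem_bx]; omega))
      (D _ _ _ K.sT (by intro x; simp only [hlo, c11, mem_bx]; omega))
      (S _ _ _ K.tT (by intro x; simp only [hup, c11, mem_bx]; omega))]
    simp only [mul_one, one_mul]

/-- TOGGLE LEMMA: simultaneous odd toggles of all four sides keep the face data -/
theorem Face.toggle (hf : FaceHyp P f) (H : Face P f gL gR gB gT)
    (K : Tog P σL τL σR τR σB τB σT τT)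
    (hL : sgn σL = -1) (hL' : sgn τL = -1) (hR : sgn σR = -1) (hR' : sgn τR = -1)
    (hB : sgn σB = -1) (hB' : sgn τB = -1) (hT : sgn σT = -1) (hT' : sgn τT = -1) :
    Face P f (gL * (σL * τL)) (gR * (σR * τR)) (gB * (σB * τB)) (gT * (σT * τT)) := by
  obtain ⟨h1, h2, h3, h4⟩ := sgnP_tog hf H.toPreFace K
  refine ⟨H.toPreFace.toggle K (by rw [hL, hL']) (by rw [hR, hR']) (by rw [hB, hB'])
    (by rw [hT, hT']), ?_, ?_, ?_, ?_⟩
  · rw [h1, H.e00, hL, hB]; rfl
  · rw [h2, H.e10, hR, hB']; rfl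
  · rw [h3, H.e01, hL', hT]; rfl
  · rw [h4, H.e11, hR', hT']; rfl

end tog


/-! ### existence of the face data -/

section exist
variable {P}
variable {f gL gR gB gT : Equiv.Perm ((ℤ × ℤ) × C)}

lemma exists_preface (hf : FaceHyp P f) {c c' : C} (hc : c ≠ c') :
    ∃ gL gR gB gT : Equiv.Perm ((ℤ × ℤ) × C), PreFace P f gL gR gB gT := by
  have := P.d0; have := P.m1; have := P.m2; have := P.htd; have := P.ht0; have := P.hst
  have := P.m3; have := P.m4; have := P.s0; have := P.hsd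
  have hi : ∀ (A : Finset ((ℤ × ℤ) × C)), ∀ x ∈ A, ∀ y ∈ A, f⁻¹ x = f⁻¹ y → x = y :=
    fun A x _ y _ h => f⁻¹.injective h
  have hm : ∀ x, x ∈ bx C 0 P.w 0 P.h → f⁻¹ x ∈ bx C 0 P.w 0 P.h := fun x hx =>
    (on_mem_iff ((PermOn _).inv_mem hf.mem.1) x).2 hx
  have hd := hf.disp.inv
  have hne : ∀ v : ℤ × ℤ, ((v, c) : (ℤ × ℤ) × C) ≠ (v, c') := fun v h => hc (congrArg Prod.snd h)
  obtain ⟨gL, mL, L1, L2, L3⟩ := (P.vstrip (C := C) 0 P.s).exists_ext_even (fun x => f⁻¹ x)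
    (by
      intro x hx
      have h1 := hm x (by simp only [vmid, mem_bx] at hx ⊢; omega)
      have h2 := hf.stL x hx
      have h3 := hd x
      simp only [vmid, vS, mem_bx] at hx h1 ⊢
      omega) (hi _) hf.flL (a := ((0, P.t0), c)) (b := ((0, P.t0), c'))
    (by simp only [vlo, mem_bx]; omega) (by simp only [vlo, mem_bx]; omega) (hne _)
  obtain ⟨gR, mR, R1, R2, R3⟩ := (P.vstrip (C := C) (P.w - P.s) P.w).exists_ext_even
    (fun x => f⁻¹ x)
    (by
      intro x hx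
      have h1 := hm x (by simp only [vmid, mem_bx] at hx ⊢; omega)
      have h2 := hf.stR x hx
      have h3 := hd x
      simp only [vmid, vS, mem_bx] at hx h1 ⊢
      omega) (hi _) hf.flR (a := ((P.w - P.s, P.t0), c)) (b := ((P.w - P.s, P.t0), c'))
    (by simp only [vlo, mem_bx]; omega) (by simp only [vlo, mem_bx]; omega) (hne _)
  obtain ⟨gB, mB, B1, B2, B3⟩ := (P.hstrip (C := C) 0 P.s).exists_ext_even (fun x => f⁻¹ x)
    (by
      intro x hx
      have h1 := hm x (by simp only [hmid, mem_bx] at hx ⊢; omega)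
      have h2 := hf.stB x hx
      have h3 := hd x
      simp only [hmid, hS, mem_bx] at hx h1 ⊢
      omega) (hi _) hf.flB (a := ((P.t0, 0), c)) (b := ((P.t0, 0), c'))
    (by simp only [hlo, mem_bx]; omega) (by simp only [hlo, mem_bx]; omega) (hne _)
  obtain ⟨gT, mT, T1, T2, T3⟩ := (P.hstrip (C := C) (P.h - P.s) P.h).exists_ext_even
    (fun x => f⁻¹ x)
    (by
      intro x hx
      have h1 := hm x (by simp only [hmid, mem_bx] at hx ⊢; omega)
      have h2 := hf.stT x hx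
      have h3 := hd x
      simp only [hmid, hS, mem_bx] at hx h1 ⊢
      omega) (hi _) hf.flT (a := ((P.t0, P.h - P.s), c)) (b := ((P.t0, P.h - P.s), c'))
    (by simp only [hlo, mem_bx]; omega) (by simp only [hlo, mem_bx]; omega) (hne _)
  exact ⟨gL, gR, gB, gT, ⟨mL.1, L1, L2, L3⟩, ⟨mR.1, R1, R2, R3⟩, ⟨mB.1, B1, B2, B3⟩,
    ⟨mT.1, T1, T2, T3⟩, mL.2, mR.2, mB.2, mT.2⟩

lemma exists_sgn {A : Finset ((ℤ × ℤ) × C)} {x y : (ℤ × ℤ) × C} (hx : x ∈ A) (hy : y ∈ A)
    (h : x ≠ y) (e : ℤˣ) : ∃ σ ∈ PermOn A, sgn σ = e := by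
  rcases Int.units_eq_one_or e with rfl | rfl
  · exact ⟨1, one_mem _, sgn_one⟩
  · exact ⟨Equiv.swap x y, swap_mem_PermOn hx hy, sgn_swap h⟩

lemma units_aux1 : ∀ a e : ℤˣ, a * (e * (a * e)) = 1 := by decide
lemma units_aux2 : ∀ a b e : ℤˣ, b * (a * e * b * (a * e)) = 1 := by decide
lemma units_aux3 : ∀ e : ℤˣ, e * (e * 1) = 1 := by decide
lemma units_aux4 : ∀ a b e r : ℤˣ, a * b * e * r = 1 → r * (a * e * b * 1) = 1 := by decide

/-- FACE LEMMA -/
theorem exists_face (hf : FaceHyp P f) {c c' : C} (hc : c ≠ c') :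
    ∃ gL gR gB gT : Equiv.Perm ((ℤ × ℤ) × C), Face P f gL gR gB gT := by
  obtain ⟨gL, gR, gB, gT, H⟩ := exists_preface hf hc
  have := P.d0; have := P.m1; have := P.m2; have := P.htd; have := P.ht0; have := P.hst
  have := P.m3; have := P.m4; have := P.s0; have := P.hsd
  have hne : ∀ v : ℤ × ℤ, ((v, c) : (ℤ × ℤ) × C) ≠ (v, c') := fun v h => hc (congrArg Prod.snd h)
  have mem := H.peel_mem hf
  have i00 := H.inv00 hf
  have i10 := H.inv10 hf
  have i01 := H.inv01 hf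
  have i11 := H.inv11 hf
  have hs := P.sgn_factor4 mem i00 i10 i01 i11
  have htot : sgn (fpeel f gL gR gB gT) = 1 := by
    have sub : ∀ {x1 x2 y1 y2 : ℤ}, (0 ≤ x1 ∧ x2 ≤ P.w ∧ 0 ≤ y1 ∧ y2 ≤ P.h) →
        bx C x1 x2 y1 y2 ⊆ bx C 0 P.w 0 P.h := by
      intro x1 x2 y1 y2 h x
      simp only [mem_bx]; omega
    have m1 : gL ∈ AltOn (bx C 0 P.w 0 P.h) := ⟨PermOn_mono (sub (by omega)) H.L.mem, H.sL⟩
    have m2 : gR ∈ AltOn (bx C 0 P.w 0 P.h) := ⟨PermOn_mono (sub (by omega)) H.R.mem, H.sR⟩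
    have m3 : gB ∈ AltOn (bx C 0 P.w 0 P.h) := ⟨PermOn_mono (sub (by omega)) H.B.mem, H.sB⟩
    have m4 : gT ∈ AltOn (bx C 0 P.w 0 P.h) := ⟨PermOn_mono (sub (by omega)) H.T.mem, H.sT⟩
    exact (mul_mem hf.mem (mul_mem (mul_mem (mul_mem m1 m2) m3) m4)).2
  -- choose the toggles
  set a := sgnP (P.c00 C) (fpeel f gL gR gB gT) with ha
  set b := sgnP (P.c10 C) (fpeel f gL gR gB gT) with hb
  set e := sgnP (P.c01 C) (fpeel f gL gR gB gT) with he
  set r := sgnP (P.c11 C) (fpeel f gL gR gB gT) with hr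
  -- side L has parity e, side B has parity a * e, side R has parity a * e * b
  obtain ⟨σL, mσL, sσL⟩ := exists_sgn (A := P.vlo C 0 P.s) (x := ((0, P.t0), c))
    (y := ((0, P.t0), c')) (by simp only [vlo, mem_bx]; omega)
    (by simp only [vlo, mem_bx]; omega) (hne _) e
  obtain ⟨τL, mτL, sτL⟩ := exists_sgn (A := P.vup C 0 P.s) (x := ((0, P.h - P.t), c))
    (y := ((0, P.h - P.t), c')) (by simp only [vup, mem_bx]; omega)
    (by simp only [vup, mem_bx]; omega) (hne _) e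
  obtain ⟨σB, mσB, sσB⟩ := exists_sgn (A := P.hlo C 0 P.s) (x := ((P.t0, 0), c))
    (y := ((P.t0, 0), c')) (by simp only [hlo, mem_bx]; omega)
    (by simp only [hlo, mem_bx]; omega) (hne _) (a * e)
  obtain ⟨τB, mτB, sτB⟩ := exists_sgn (A := P.hup C 0 P.s) (x := ((P.w - P.t, 0), c))
    (y := ((P.w - P.t, 0), c')) (by simp only [hup, mem_bx]; omega)
    (by simp only [hup, mem_bx]; omega) (hne _) (a * e)
  obtain ⟨σR, mσR, sσR⟩ := exists_sgn (A := P.vlo C (P.w - P.s) P.w) (x := ((P.w - P.s, P.t0), c))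
    (y := ((P.w - P.s, P.t0), c')) (by simp only [vlo, mem_bx]; omega)
    (by simp only [vlo, mem_bx]; omega) (hne _) (a * e * b)
  obtain ⟨τR, mτR, sτR⟩ := exists_sgn (A := P.vup C (P.w - P.s) P.w)
    (x := ((P.w - P.s, P.h - P.t), c))
    (y := ((P.w - P.s, P.h - P.t), c')) (by simp only [vup, mem_bx]; omega)
    (by simp only [vup, mem_bx]; omega) (hne _) (a * e * b)
  have K : Tog P σL τL σR τR σB τB (1 : Equiv.Perm ((ℤ × ℤ) × C)) 1 :=
    ⟨mσL, mτL, mσR, mτR, mσB, mτB, one_mem _, one_mem _⟩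
  obtain ⟨h1, h2, h3, h4⟩ := sgnP_tog hf H K
  have hprod : a * b * e * r = 1 := by rw [← htot, hs]
  refine ⟨_, _, _, _, H.toggle K (by rw [sσL, sτL]) (by rw [sσR, sτR]) (by rw [sσB, sτB]) rfl,
    ?_, ?_, ?_, ?_⟩
  · rw [h1, ← ha, sσL, sσB]; exact units_aux1 a e
  · rw [h2, ← hb, sσR, sτB]; exact units_aux2 a b e
  · rw [h3, ← he, sτL, sgn_one]; exact units_aux3 e
  · rw [h4, ← hr, sτR, sgn_one]; exact units_aux4 a b e r hprod

/-- the peeled permutation is a product of four even corner parts -/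
theorem Face.factor (hf : FaceHyp P f) (H : Face P f gL gR gB gT) :
    ∃ k00 ∈ AltOn (P.c00 C), ∃ k10 ∈ AltOn (P.c10 C), ∃ k01 ∈ AltOn (P.c01 C),
      ∃ k11 ∈ AltOn (P.c11 C), f * (gL * gR * gB * gT) = k00 * k10 * k01 * k11 := by
  have i00 := H.toPreFace.inv00 hf
  have i10 := H.toPreFace.inv10 hf
  have i01 := H.toPreFace.inv01 hf
  have i11 := H.toPreFace.inv11 hf
  refine ⟨part (P.c00 C) (fpeel f gL gR gB gT), ⟨part_mem _ _, by rw [sgn_part i00, H.e00]⟩,
    part (P.c10 C) (fpeel f gL gR gB gT), ⟨part_mem _ _, by rw [sgn_part i10, H.e10]⟩,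
    part (P.c01 C) (fpeel f gL gR gB gT), ⟨part_mem _ _, by rw [sgn_part i01, H.e01]⟩,
    part (P.c11 C) (fpeel f gL gR gB gT), ⟨part_mem _ _, by rw [sgn_part i11, H.e11]⟩, ?_⟩
  exact P.factor4 (H.toPreFace.peel_mem hf) i00 i10 i01 i11

lemma Face.memL (H : Face P f gL gR gB gT) : gL ∈ AltOn (P.vS C 0 P.s) := ⟨H.L.mem, H.sL⟩
lemma Face.memR (H : Face P f gL gR gB gT) : gR ∈ AltOn (P.vS C (P.w - P.s) P.w) :=
  ⟨H.R.mem, H.sR⟩
lemma Face.memB (H : Face P f gL gR gB gT) : gB ∈ AltOn (P.hS C 0 P.s) := ⟨H.B.mem, H.sB⟩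
lemma Face.memT (H : Face P f gL gR gB gT) : gT ∈ AltOn (P.hS C (P.h - P.s) P.h) :=
  ⟨H.T.mem, H.sT⟩

end exist

/-! ### the edge lemmas -/

section edge
variable {P}
variable {f gL gR gB gT f' gL' gR' gB' gT' e : Equiv.Perm ((ℤ × ℤ) × C)}

lemma sh_mem_v {g : Equiv.Perm ((ℤ × ℤ) × C)} (h : g ∈ PermOn (P.vS C (P.w - P.s) P.w)) :
    sh (-P.w, 0) g ∈ PermOn (P.vS C (-P.s) 0) := by
  have := sh_mem_bx (u := (-P.w, 0)) h
  refine PermOn_mono ?_ this
  intro x; simp only [vS, mem_bx]; omega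

lemma sh_mem_h {g : Equiv.Perm ((ℤ × ℤ) × C)} (h : g ∈ PermOn (P.hS C (P.h - P.s) P.h)) :
    sh (0, -P.h) g ∈ PermOn (P.hS C (-P.s) 0) := by
  have := sh_mem_bx (u := (0, -P.h)) h
  refine PermOn_mono ?_ this
  intro x; simp only [hS, mem_bx]; omega

/-- the piece of a `P`-edge : `g_L * (g_R - q)` -/
def gamP (P : Geo) (gL gR : Equiv.Perm ((ℤ × ℤ) × C)) : Equiv.Perm ((ℤ × ℤ) × C) :=
  gL * sh (-P.w, 0) gR

/-- the piece of a `Q`-edge : `g_B * (g_T - p)` (`g_T` of the face below) -/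
def gamQ (P : Geo) (gB gT : Equiv.Perm ((ℤ × ℤ) × C)) : Equiv.Perm ((ℤ × ℤ) × C) :=
  gB * sh (0, -P.h) gT

lemma gamP_mem (hL : gL ∈ AltOn (P.vS C 0 P.s)) (hR : gR ∈ AltOn (P.vS C (P.w - P.s) P.w)) :
    gamP P gL gR ∈ AltOn (P.vS C (-P.s) P.s) := by
  have := P.s0
  refine mul_mem (AltOn_mono ?_ hL) (AltOn_mono ?_ ⟨sh_mem_v hR.1, ?_⟩)
  · intro x; simp only [vS, mem_bx]; omega
  · intro x; simp only [vS, mem_bx]; omega
  · rw [sgn_sh' hR.1, hR.2]

lemma gamQ_mem (hB : gB ∈ AltOn (P.hS C 0 P.s)) (hT : gT ∈ AltOn (P.hS C (P.h - P.s) P.h)) :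
    gamQ P gB gT ∈ AltOn (P.hS C (-P.s) P.s) := by
  have := P.s0
  refine mul_mem (AltOn_mono ?_ hB) (AltOn_mono ?_ ⟨sh_mem_h hT.1, ?_⟩)
  · intro x; simp only [hS, mem_bx]; omega
  · intro x; simp only [hS, mem_bx]; omega
  · rw [sgn_sh' hT.1, hT.2]

/-- `gamP` is a filling of the strip of the `P`-edge -/
lemma gamP_filling (H : PreFace P f gL gR gB gT) (φ : (ℤ × ℤ) × C → (ℤ × ℤ) × C)
    (h1 : ∀ x ∈ P.vmid C 0 P.s, φ x = f⁻¹ x)
    (h2 : ∀ x ∈ P.vmid C (-P.s) 0, φ x = sh (-P.w, 0) f⁻¹ x) :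
    Filling (P.vS C (-P.s) P.s) (P.vlo C (-P.s) P.s) (P.vmid C (-P.s) P.s)
      (P.vup C (-P.s) P.s) (P.vlow C) φ (gamP P gL gR) := by
  have := P.d0; have := P.m1; have := P.m2; have := P.htd; have := P.ht0; have := P.hst
  have := P.m3; have := P.m4; have := P.s0; have := P.hsd
  have mR := sh_mem_v H.R.mem
  -- value on the right half
  have vr : ∀ x, 0 ≤ x.1.1 → gamP P gL gR x = gL x := by
    intro x hx
    change gL (sh (-P.w, 0) gR x) = gL x
    rw [mR x (by simp only [vS, mem_bx]; omega)]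
  have vl : ∀ x ∈ P.vS C (-P.s) 0, gamP P gL gR x = sh (-P.w, 0) gR x := by
    intro x hx
    have h3 : sh (-P.w, 0) gR x ∈ P.vS C (-P.s) 0 := (on_mem_iff mR x).2 hx
    exact H.L.mem _ (by simp only [vS, mem_bx] at h3 ⊢; omega)
  refine ⟨?_, ?_, ?_, ?_⟩
  · refine mul_mem (PermOn_mono ?_ H.L.mem) (PermOn_mono ?_ mR)
    · intro x; simp only [vS, mem_bx]; omega
    · intro x; simp only [vS, mem_bx]; omega
  · intro x hx
    by_cases h0 : 0 ≤ x.1.1
    · have hx' : x ∈ P.vmid C 0 P.s := by simp only [vmid, mem_bx] at hx ⊢; omega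
      rw [vr x h0, h1 x hx']; exact H.L.mid x hx'
    · have hx' : x ∈ P.vmid C (-P.s) 0 := by simp only [vmid, mem_bx] at hx ⊢; omega
      rw [vl x (by simp only [vmid, vS, mem_bx] at hx' ⊢; omega), h2 x hx', sh_apply,
        sh_apply]
      have h4 : ((x.1 - (-P.w, 0), x.2) : (ℤ × ℤ) × C) ∈ P.vmid C (P.w - P.s) P.w := by
        simp only [vmid, mem_bx, Prod.fst_sub, Prod.snd_sub] at hx' ⊢; omega
      rw [H.R.mid _ h4]
  · intro x hx
    by_cases h0 : 0 ≤ x.1.1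
    · have hx' : x ∈ P.vlo C 0 P.s := by simp only [vlo, mem_bx] at hx ⊢; omega
      rw [vr x h0]; exact H.L.lo x hx'
    · rw [vl x (by simp only [vlo, vS, mem_bx] at hx ⊢; omega), sh_apply]
      have h4 : ((x.1 - (-P.w, 0), x.2) : (ℤ × ℤ) × C) ∈ P.vlo C (P.w - P.s) P.w := by
        simp only [vlo, mem_bx, Prod.fst_sub, Prod.snd_sub] at hx ⊢; omega
      have h5 := H.R.lo _ h4
      simp only [vlow, Prod.snd_add, add_zero] at h5 ⊢
      exact h5
  · intro x hx
    by_cases h0 : 0 ≤ x.1.1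
    · have hx' : x ∈ P.vup C 0 P.s := by simp only [vup, mem_bx] at hx ⊢; omega
      rw [vr x h0]; exact H.L.up x hx'
    · rw [vl x (by simp only [vup, vS, mem_bx] at hx ⊢; omega), sh_apply]
      have h4 : ((x.1 - (-P.w, 0), x.2) : (ℤ × ℤ) × C) ∈ P.vup C (P.w - P.s) P.w := by
        simp only [vup, mem_bx, Prod.fst_sub, Prod.snd_sub] at hx ⊢; omega
      have h5 := H.R.up _ h4
      simp only [vlow, Prod.snd_add, add_zero] at h5 ⊢
      exact h5

/-- `gamQ` is a filling of the strip of the `Q`-edge (`f'` is the face below) -/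
lemma gamQ_filling (H : PreFace P f gL gR gB gT) (H' : PreFace P f' gL' gR' gB' gT')
    (φ : (ℤ × ℤ) × C → (ℤ × ℤ) × C)
    (h1 : ∀ x ∈ P.hmid C 0 P.s, φ x = f⁻¹ x)
    (h2 : ∀ x ∈ P.hmid C (-P.s) 0, φ x = sh (0, -P.h) f'⁻¹ x) :
    Filling (P.hS C (-P.s) P.s) (P.hlo C (-P.s) P.s) (P.hmid C (-P.s) P.s)
      (P.hup C (-P.s) P.s) (P.hlow C) φ (gamQ P gB gT') := by
  have := P.d0; have := P.m1; have := P.m2; have := P.htd; have := P.ht0; have := P.hst
  have := P.m3; have := P.m4; have := P.s0; have := P.hsd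
  have mT := sh_mem_h H'.T.mem
  have vr : ∀ x, 0 ≤ x.1.2 → gamQ P gB gT' x = gB x := by
    intro x hx
    change gB (sh (0, -P.h) gT' x) = gB x
    rw [mT x (by simp only [hS, mem_bx]; omega)]
  have vl : ∀ x ∈ P.hS C (-P.s) 0, gamQ P gB gT' x = sh (0, -P.h) gT' x := by
    intro x hx
    have h3 : sh (0, -P.h) gT' x ∈ P.hS C (-P.s) 0 := (on_mem_iff mT x).2 hx
    exact H.B.mem _ (by simp only [hS, mem_bx] at h3 ⊢; omega)
  refine ⟨?_, ?_, ?_, ?_⟩
  · refine mul_mem (PermOn_mono ?_ H.B.mem) (PermOn_mono ?_ mT)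
    · intro x; simp only [hS, mem_bx]; omega
    · intro x; simp only [hS, mem_bx]; omega
  · intro x hx
    by_cases h0 : 0 ≤ x.1.2
    · have hx' : x ∈ P.hmid C 0 P.s := by simp only [hmid, mem_bx] at hx ⊢; omega
      rw [vr x h0, h1 x hx']; exact H.B.mid x hx'
    · have hx' : x ∈ P.hmid C (-P.s) 0 := by simp only [hmid, mem_bx] at hx ⊢; omega
      rw [vl x (by simp only [hmid, hS, mem_bx] at hx' ⊢; omega), h2 x hx', sh_apply,
        sh_apply]
      have h4 : ((x.1 - (0, -P.h), x.2) : (ℤ × ℤ) × C) ∈ P.hmid C (P.h - P.s) P.h := by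
        simp only [hmid, mem_bx, Prod.fst_sub, Prod.snd_sub] at hx' ⊢; omega
      rw [H'.T.mid _ h4]
  · intro x hx
    by_cases h0 : 0 ≤ x.1.2
    · have hx' : x ∈ P.hlo C 0 P.s := by simp only [hlo, mem_bx] at hx ⊢; omega
      rw [vr x h0]; exact H.B.lo x hx'
    · rw [vl x (by simp only [hlo, hS, mem_bx] at hx ⊢; omega), sh_apply]
      have h4 : ((x.1 - (0, -P.h), x.2) : (ℤ × ℤ) × C) ∈ P.hlo C (P.h - P.s) P.h := by
        simp only [hlo, mem_bx, Prod.fst_sub, Prod.snd_sub] at hx ⊢; omega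
      have h5 := H'.T.lo _ h4
      simp only [hlow, Prod.fst_add, add_zero] at h5 ⊢
      exact h5
  · intro x hx
    by_cases h0 : 0 ≤ x.1.2
    · have hx' : x ∈ P.hup C 0 P.s := by simp only [hup, mem_bx] at hx ⊢; omega
      rw [vr x h0]; exact H.B.up x hx'
    · rw [vl x (by simp only [hup, hS, mem_bx] at hx ⊢; omega), sh_apply]
      have h4 : ((x.1 - (0, -P.h), x.2) : (ℤ × ℤ) × C) ∈ P.hup C (P.h - P.s) P.h := by
        simp only [hup, mem_bx, Prod.fst_sub, Prod.snd_sub] at hx ⊢; omega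
      have h5 := H'.T.up _ h4
      simp only [hlow, Prod.fst_add, add_zero] at h5 ⊢
      exact h5

lemma units_eq_of_mul {a b : ℤˣ} (h : a * b = 1) : a = b := by
  rcases Int.units_eq_one_or a with q1 | q1 <;> rcases Int.units_eq_one_or b with q2 | q2 <;>
    simp_all

/-- EDGE LEMMA, `P`-edges -/
theorem edgeP (H : PreFace P f gL gR gB gT) (he : e ∈ AltOn (P.vS C (-P.s) P.s))
    (hd : Disp P.d e) (h1 : ∀ x ∈ P.vmid C 0 P.s, e x = f⁻¹ x)
    (h2 : ∀ x ∈ P.vmid C (-P.s) 0, e x = sh (-P.w, 0) f⁻¹ x) :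
    ∃ l ∈ PermOn (P.vlo C (-P.s) P.s), ∃ u ∈ PermOn (P.vup C (-P.s) P.s),
      (gamP P gL gR)⁻¹ * e = l * u ∧ sgn l = sgn u := by
  have := P.d0; have := P.m1; have := P.m2; have := P.htd; have := P.ht0; have := P.hst
  have := P.m3; have := P.m4; have := P.s0; have := P.hsd
  have hF := gamP_filling H e h1 h2
  obtain ⟨l, hl, u, hu, hlu⟩ := hF.edge_factor (P.vstrip _ _) he.1 (fun x _ => rfl)
    (by
      intro x hx
      have := hd x
      simp only [vlo, vlow, mem_bx] at hx ⊢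
      omega)
    (by
      intro x hx
      have := hd x
      simp only [vup, vlow, mem_bx] at hx ⊢
      omega)
  refine ⟨l, hl, u, hu, hlu, ?_⟩
  have hg := gamP_mem (P := P) (C := C) ⟨H.L.mem, H.sL⟩ ⟨H.R.mem, H.sR⟩
  have h3 := (mul_mem (inv_mem hg) he).2
  rw [hlu, sgn_mul hl hu] at h3
  exact units_eq_of_mul h3

/-- EDGE LEMMA, `Q`-edges (`f'` is the face below) -/
theorem edgeQ (H : PreFace P f gL gR gB gT) (H' : PreFace P f' gL' gR' gB' gT')
    (he : e ∈ AltOn (P.hS C (-P.s) P.s))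
    (hd : Disp P.d e) (h1 : ∀ x ∈ P.hmid C 0 P.s, e x = f⁻¹ x)
    (h2 : ∀ x ∈ P.hmid C (-P.s) 0, e x = sh (0, -P.h) f'⁻¹ x) :
    ∃ l ∈ PermOn (P.hlo C (-P.s) P.s), ∃ u ∈ PermOn (P.hup C (-P.s) P.s),
      (gamQ P gB gT')⁻¹ * e = l * u ∧ sgn l = sgn u := by
  have := P.d0; have := P.m1; have := P.m2; have := P.htd; have := P.ht0; have := P.hst
  have := P.m3; have := P.m4; have := P.s0; have := P.hsd
  have hF := gamQ_filling H H' e h1 h2
  obtain ⟨l, hl, u, hu, hlu⟩ := hF.edge_factor (P.hstrip _ _) he.1 (fun x _ => rfl)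
    (by
      intro x hx
      have := hd x
      simp only [hlo, hlow, mem_bx] at hx ⊢
      omega)
    (by
      intro x hx
      have := hd x
      simp only [hup, hlow, mem_bx] at hx ⊢
      omega)
  refine ⟨l, hl, u, hu, hlu, ?_⟩
  have hg := gamQ_mem (P := P) (C := C) ⟨H.B.mem, H.sB⟩ ⟨H'.T.mem, H'.sT⟩
  have h3 := (mul_mem (inv_mem hg) he).2
  rw [hlu, sgn_mul hl hu] at h3
  exact units_eq_of_mul h3

end edge

end Geo

end Crest.Agent.R189.K

end
end

-- ▼ part R189/KFam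
section

/-!
# Row 189, part F (F4): the peeling for all faces and edges of a level

`FaceHyp.of_ann`: the hypotheses of the face lemma from `KFlux.Ann`, `kap = 0` and the edge
relations; `peel_family`: faces `j : ZMod n`, edges `(j, lam)`, `(j, mu)`.
-/

set_option autoImplicit false
set_option linter.unusedSectionVars false
set_option linter.unusedVariables false
set_option linter.unusedSimpArgs false

noncomputable section

namespace Crest.Agent.R189.K

open Equiv Equiv.Perm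
open KFlux (bx mem_bx Ann Mid kap cross_L cross_R cross_B cross_T)

variable {C : Type*} [Fintype C] [DecidableEq C]

lemma card_aux {α : Type*} (s : Finset α) (A B : α → Prop) [DecidablePred A]
    [DecidablePred B] (h : (s.filter (fun x => A x ∧ ¬ B x)).card
      = (s.filter (fun x => ¬ A x ∧ B x)).card) :
    (s.filter (fun x => B x)).card = (s.filter (fun x => A x)).card := by
  have h1 : (s.filter (fun x => B x)).card
      = (s.filter (fun x => A x ∧ B x)).card + (s.filter (fun x => ¬ A x ∧ B x)).card := by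
    rw [← Finset.card_filter_add_card_filter_not (s := s.filter (fun x => B x)) (fun x => A x),
      Finset.filter_filter, Finset.filter_filter]
    congr 2
    · ext x; simp only [Finset.mem_filter]; tauto
    · ext x; simp only [Finset.mem_filter]; tauto
  have h2 : (s.filter (fun x => A x)).card
      = (s.filter (fun x => A x ∧ B x)).card + (s.filter (fun x => A x ∧ ¬ B x)).card := by
    rw [← Finset.card_filter_add_card_filter_not (s := s.filter (fun x => A x)) (fun x => B x),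
      Finset.filter_filter, Finset.filter_filter]
  rw [h1, h2, h]

namespace Geo

variable {P : Geo} {f e : Equiv.Perm ((ℤ × ℤ) × C)}

lemma mid (P : Geo) : Mid P.w P.h P.s P.t P.d P.mx P.my := by
  have := P.d0; have := P.m1; have := P.m2; have := P.htd; have := P.ht0; have := P.hst
  have := P.m3; have := P.m4; have := P.s0; have := P.hsd
  exact ⟨by omega, by omega, by omega, by omega, by omega, by omega, by omega⟩

lemma fl_of {A : Finset ((ℤ × ℤ) × C)} {π : (ℤ × ℤ) × C → (ℤ × ℤ) × C}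
    {y : (ℤ × ℤ) × C → ℤ} {m : ℤ}
    (h : ((A.filter fun z => y z < m ∧ m ≤ y (π z)).card : ℤ)
      - ((A.filter fun z => m ≤ y z ∧ y (π z) < m).card : ℤ) = 0) :
    (A.filter (fun z => y (π z) < m)).card = (A.filter (fun z => y z < m)).card := by
  apply card_aux
  have h1 : (A.filter fun z => y z < m ∧ ¬ (y (π z) < m)).card
      = (A.filter fun z => y z < m ∧ m ≤ y (π z)).card := by
    congr 1; ext z; simp only [Finset.mem_filter, not_lt]
  have h2 : (A.filter fun z => ¬ (y z < m) ∧ y (π z) < m).card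
      = (A.filter fun z => m ≤ y z ∧ y (π z) < m).card := by
    congr 1; ext z; simp only [Finset.mem_filter, not_lt]
  rw [h1, h2]
  omega

/-- the hypotheses of the face lemma from the annular property and zero circulation -/
theorem faceHyp_of_ann (hm : f ∈ AltOn (bx C 0 P.w 0 P.h))
    (ha : Ann P.w P.h P.s P.t P.d f⁻¹) (hk : kap P.w P.s P.mx (f⁻¹ : Equiv.Perm _) = 0)
    (stL : ∀ x ∈ P.vmid C 0 P.s, (f⁻¹ x).1.1 < P.s)
    (stR : ∀ x ∈ P.vmid C (P.w - P.s) P.w, P.w - P.s ≤ (f⁻¹ x).1.1)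
    (stB : ∀ x ∈ P.hmid C 0 P.s, (f⁻¹ x).1.2 < P.s)
    (stT : ∀ x ∈ P.hmid C (P.h - P.s) P.h, P.h - P.s ≤ (f⁻¹ x).1.2) : P.FaceHyp f := by
  have := P.d0; have := P.m1; have := P.m2; have := P.htd; have := P.ht0; have := P.hst
  have := P.m3; have := P.m4; have := P.s0; have := P.hsd
  have hinv : f⁻¹ ∈ PermOn (bx C 0 P.w 0 P.h) := (PermOn _).inv_mem hm.1
  have hd : Disp P.d f⁻¹ := by
    intro x
    by_cases hx : x ∈ bx C 0 P.w 0 P.h
    · have h1 := abs_le.1 (ha.dispx x hx)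
      have h2 := abs_le.1 (ha.dispy x hx)
      omega
    · rw [hinv x hx]; omega
  have hfix : ∀ x, f⁻¹ x = x → f x = x := by
    intro x h
    have h1 : f (f⁻¹ x) = x := f.apply_symm_apply x
    rw [h] at h1; exact h1
  have M := P.mid
  refine ⟨hm, ?_, ?_, stL, stR, stB, stT, ?_, ?_, ?_, ?_⟩
  · have := hd.inv
    rwa [inv_inv] at this
  · intro x h1 h2 h3 h4 h5 h6 h7 h8
    by_cases hx : x ∈ bx C 0 P.w 0 P.h
    · apply hfix
      simp only [vmid, hmid, c00, c10, c01, c11, mem_bx] at h1 h2 h3 h4 h5 h6 h7 h8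
      have hx' := hx
      rw [mem_bx] at hx'
      by_cases k1 : P.t ≤ x.1.1 ∧ x.1.1 < P.w - P.t
      · exact ha.midx x hx k1.1 k1.2 (by omega) (by omega)
      · exact ha.midy x hx (by omega) (by omega) (by omega) (by omega)
    · exact hm.1 x hx
  · have := cross_L ha M
    rw [hk, neg_zero] at this
    exact fl_of (y := fun z => z.1.2) this
  · have := cross_R ha M
    rw [hk] at this
    exact fl_of (y := fun z => z.1.2) this
  · have := cross_B ha M
    rw [hk] at this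
    exact fl_of (y := fun z => z.1.1) this
  · have := cross_T ha M
    rw [hk, neg_zero] at this
    exact fl_of (y := fun z => z.1.1) this

/-- `f⁻¹` preserves the left and right strips, from the relation with a `P`-edge -/
lemma st_of_edgeP (he : e ∈ PermOn (P.vS C (-P.s) P.s))
    (h1 : ∀ x ∈ P.vmid C 0 P.s, e x = f⁻¹ x)
    (h2 : ∀ x ∈ P.vmid C (-P.s) 0, e x = sh (-P.w, 0) f⁻¹ x) :
    (∀ x ∈ P.vmid C 0 P.s, (f⁻¹ x).1.1 < P.s) ∧
      (∀ x ∈ P.vmid C (P.w - P.s) P.w, P.w - P.s ≤ (f⁻¹ x).1.1) := by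
  have := P.d0; have := P.m1; have := P.m2; have := P.htd; have := P.ht0; have := P.hst
  have := P.m3; have := P.m4; have := P.s0; have := P.hsd
  constructor
  · intro x hx
    have h3 := (on_mem_iff he x).2 (by simp only [vmid, vS, mem_bx] at hx ⊢; omega)
    rw [h1 x hx] at h3
    simp only [vS, mem_bx] at h3
    omega
  · intro x hx
    have hx' : ((x.1 + (-P.w, 0), x.2) : (ℤ × ℤ) × C) ∈ P.vmid C (-P.s) 0 := by
      simp only [vmid, mem_bx, Prod.fst_add, Prod.snd_add] at hx ⊢; omega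
    have h3 := (on_mem_iff he (x.1 + (-P.w, 0), x.2)).2 (by
      simp only [vmid, vS, mem_bx] at hx' ⊢; omega)
    rw [h2 _ hx', sh_apply] at h3
    simp only [add_sub_cancel_right, vS, mem_bx, Prod.fst_add, Prod.snd_add, Prod.mk.eta] at h3
    omega

/-- `f⁻¹` preserves the bottom strip, from the relation with its `Q`-edge -/
lemma st_of_edgeQ1 (he : e ∈ PermOn (P.hS C (-P.s) P.s))
    (h1 : ∀ x ∈ P.hmid C 0 P.s, e x = f⁻¹ x) :
    ∀ x ∈ P.hmid C 0 P.s, (f⁻¹ x).1.2 < P.s := by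
  have := P.d0; have := P.m1; have := P.m2; have := P.htd; have := P.ht0; have := P.hst
  have := P.m3; have := P.m4; have := P.s0; have := P.hsd
  intro x hx
  have h3 := (on_mem_iff he x).2 (by simp only [hmid, hS, mem_bx] at hx ⊢; omega)
  rw [h1 x hx] at h3
  simp only [hS, mem_bx] at h3
  omega

/-- `f⁻¹` preserves the top strip, from the relation with the `Q`-edge above -/
lemma st_of_edgeQ2 (he : e ∈ PermOn (P.hS C (-P.s) P.s))
    (h2 : ∀ x ∈ P.hmid C (-P.s) 0, e x = sh (0, -P.h) f⁻¹ x) :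
    ∀ x ∈ P.hmid C (P.h - P.s) P.h, P.h - P.s ≤ (f⁻¹ x).1.2 := by
  have := P.d0; have := P.m1; have := P.m2; have := P.htd; have := P.ht0; have := P.hst
  have := P.m3; have := P.m4; have := P.s0; have := P.hsd
  intro x hx
  have hx' : ((x.1 + (0, -P.h), x.2) : (ℤ × ℤ) × C) ∈ P.hmid C (-P.s) 0 := by
    simp only [hmid, mem_bx, Prod.fst_add, Prod.snd_add] at hx ⊢; omega
  have h3 := (on_mem_iff he (x.1 + (0, -P.h), x.2)).2 (by
    simp only [hmid, hS, mem_bx] at hx' ⊢; omega)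
  rw [h2 _ hx', sh_apply] at h3
  simp only [add_sub_cancel_right, hS, mem_bx, Prod.fst_add, Prod.snd_add, Prod.mk.eta] at h3
  omega

/-- PEELING OF ALL FACES AND EDGES.  Faces `j : ZMod n`, `P`-edges `(j, lam)` with `oP j lam`
(occurring), `Q`-edges `(j, mu)` with `oQ j mu`; the face below the `Q`-edge `(j, mu)` is
`j - 1`. -/
theorem peel_family (P : Geo) {n : ℕ} {Lab : Type*} {c c' : C} (hc : c ≠ c')
    (f : ZMod n → Equiv.Perm ((ℤ × ℤ) × C)) (eP eQ : ZMod n → Lab → Equiv.Perm ((ℤ × ℤ) × C))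
    (oP oQ : ZMod n → Lab → Prop) (hoP : ∀ j, ∃ l, oP j l) (hoQ : ∀ j, ∃ l, oQ j l)
    (hf : ∀ j, f j ∈ AltOn (bx C 0 P.w 0 P.h))
    (heP : ∀ j l, oP j l → eP j l ∈ AltOn (P.vS C (-P.s) P.s))
    (heQ : ∀ j l, oQ j l → eQ j l ∈ AltOn (P.hS C (-P.s) P.s))
    (dP : ∀ j l, oP j l → Disp P.d (eP j l)) (dQ : ∀ j l, oQ j l → Disp P.d (eQ j l))
    (ann : ∀ j, Ann P.w P.h P.s P.t P.d (f j)⁻¹)
    (hk : ∀ j, kap P.w P.s P.mx ((f j)⁻¹ : Equiv.Perm _) = 0)
    (P1 : ∀ j l, oP j l → ∀ x ∈ P.vmid C 0 P.s, eP j l x = (f j)⁻¹ x)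
    (P2 : ∀ j l, oP j l → ∀ x ∈ P.vmid C (-P.s) 0, eP j l x = sh (-P.w, 0) (f j)⁻¹ x)
    (Q1 : ∀ j l, oQ j l → ∀ x ∈ P.hmid C 0 P.s, eQ j l x = (f j)⁻¹ x)
    (Q2 : ∀ j l, oQ j l → ∀ x ∈ P.hmid C (-P.s) 0, eQ j l x = sh (0, -P.h) (f (j - 1))⁻¹ x) :
    ∃ gL gR gB gT k00 k10 k01 k11 : ZMod n → Equiv.Perm ((ℤ × ℤ) × C),
    ∃ lP uP lQ uQ : ZMod n → Lab → Equiv.Perm ((ℤ × ℤ) × C),
      (∀ j, P.FaceHyp (f j)) ∧ (∀ j, P.Face (f j) (gL j) (gR j) (gB j) (gT j)) ∧
      (∀ j, gL j ∈ AltOn (P.vS C 0 P.s)) ∧ (∀ j, gR j ∈ AltOn (P.vS C (P.w - P.s) P.w)) ∧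
      (∀ j, gB j ∈ AltOn (P.hS C 0 P.s)) ∧ (∀ j, gT j ∈ AltOn (P.hS C (P.h - P.s) P.h)) ∧
      (∀ j, k00 j ∈ AltOn (P.c00 C)) ∧ (∀ j, k10 j ∈ AltOn (P.c10 C)) ∧
      (∀ j, k01 j ∈ AltOn (P.c01 C)) ∧ (∀ j, k11 j ∈ AltOn (P.c11 C)) ∧
      (∀ j, f j * (gL j * gR j * gB j * gT j) = k00 j * k10 j * k01 j * k11 j) ∧
      (∀ j l, lP j l ∈ PermOn (P.vlo C (-P.s) P.s)) ∧
      (∀ j l, uP j l ∈ PermOn (P.vup C (-P.s) P.s)) ∧
      (∀ j l, lQ j l ∈ PermOn (P.hlo C (-P.s) P.s)) ∧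
      (∀ j l, uQ j l ∈ PermOn (P.hup C (-P.s) P.s)) ∧
      (∀ j l, sgn (lP j l) = sgn (uP j l)) ∧ (∀ j l, sgn (lQ j l) = sgn (uQ j l)) ∧
      (∀ j l, oP j l → (gamP P (gL j) (gR j))⁻¹ * eP j l = lP j l * uP j l) ∧
      (∀ j l, oQ j l → (gamQ P (gB j) (gT (j - 1)))⁻¹ * eQ j l = lQ j l * uQ j l) := by
  classical
  have FH : ∀ j, P.FaceHyp (f j) := by
    intro j
    obtain ⟨l, hl⟩ := hoP j
    obtain ⟨m, hm⟩ := hoQ j
    obtain ⟨m', hm'⟩ := hoQ (j + 1)
    have h1 := st_of_edgeP (heP j l hl).1 (P1 j l hl) (P2 j l hl)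
    have h2 := st_of_edgeQ1 (heQ j m hm).1 (Q1 j m hm)
    have h3 := Q2 (j + 1) m' hm'
    rw [add_sub_cancel_right] at h3
    have h4 := st_of_edgeQ2 (heQ (j + 1) m' hm').1 h3
    exact faceHyp_of_ann (hf j) (ann j) (hk j) h1.1 h1.2 h2 h4
  choose gL gR gB gT F using fun j => exists_face (FH j) hc
  choose k00 m00 k10 m10 k01 m01 k11 m11 hk4 using fun j => (F j).factor (FH j)
  have EP : ∀ j l, ∃ a ∈ PermOn (P.vlo C (-P.s) P.s), ∃ b ∈ PermOn (P.vup C (-P.s) P.s),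
      sgn a = sgn b ∧ (oP j l → (gamP P (gL j) (gR j))⁻¹ * eP j l = a * b) := by
    intro j l
    by_cases h : oP j l
    · obtain ⟨a, ha, b, hb, hab, hs⟩ := edgeP (F j).toPreFace (heP j l h) (dP j l h)
        (P1 j l h) (P2 j l h)
      exact ⟨a, ha, b, hb, hs, fun _ => hab⟩
    · exact ⟨1, one_mem _, 1, one_mem _, rfl, fun h' => absurd h' h⟩
  have EQ : ∀ j l, ∃ a ∈ PermOn (P.hlo C (-P.s) P.s), ∃ b ∈ PermOn (P.hup C (-P.s) P.s),
      sgn a = sgn b ∧ (oQ j l → (gamQ P (gB j) (gT (j - 1)))⁻¹ * eQ j l = a * b) := by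
    intro j l
    by_cases h : oQ j l
    · obtain ⟨a, ha, b, hb, hab, hs⟩ := edgeQ (F j).toPreFace (F (j - 1)).toPreFace
        (heQ j l h) (dQ j l h) (Q1 j l h) (Q2 j l h)
      exact ⟨a, ha, b, hb, hs, fun _ => hab⟩
    · exact ⟨1, one_mem _, 1, one_mem _, rfl, fun h' => absurd h' h⟩
  choose lP mlP uP muP sP hP using EP
  choose lQ mlQ uQ muQ sQ hQ using EQ
  exact ⟨gL, gR, gB, gT, k00, k10, k01, k11, lP, uP, lQ, uQ, FH, F, fun j => (F j).memL,
    fun j => (F j).memR, fun j => (F j).memB, fun j => (F j).memT, m00, m10, m01, m11, hk4,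
    mlP, muP, mlQ, muQ, sP, sQ, hP, hQ⟩

end Geo

end Crest.Agent.R189.K

end
end

-- ▼ part R189/KCtx

/-!
# Row 189, part F (kernel): context at one level, transfers, reference elements (helper503)

`Ctx L C q`: geometry `P : Geo` (445) with `P.w = L.w`, `P.h = L.h`, the four systems of sections
`SF SP SQ SV` and two colours.  `M.Es a b = SP.val (famP a) * SQ.val (famQ b)` is the product of the
reference swaps, `M.Rep w a b`: `w = SV.val z * Es a b` for some even `z` in the ball `[-t,t)²`.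
-/

set_option autoImplicit false
set_option linter.unusedSectionVars false

namespace Crest.Agent.R189.K

open Equiv Equiv.Perm
open KFlux (bx mem_bx)

/-- box of positions -/
noncomputable abbrev bw (x0 x1 y0 y1 : ℤ) : Finset (ℤ × ℤ) := Finset.Ico x0 x1 ×ˢ Finset.Ico y0 y1

@[simp] lemma mem_bw {x0 x1 y0 y1 : ℤ} {v : ℤ × ℤ} :
    v ∈ bw x0 x1 y0 y1 ↔ (x0 ≤ v.1 ∧ v.1 < x1) ∧ (y0 ≤ v.2 ∧ v.2 < y1) := by
  simp [bw, Finset.mem_product, Finset.mem_Ico]


/-- the swap of the colours `c0`, `c1` at the position `v` -/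
def sw {C : Type*} [DecidableEq C] (c0 c1 : C) (v : ℤ × ℤ) : Equiv.Perm (Om C) :=
  swap (v, c0) (v, c1)

section sw
variable {C : Type*} [Fintype C] [DecidableEq C] {c0 c1 : C}

lemma sw_mul_self (v : ℤ × ℤ) : sw c0 c1 v * sw c0 c1 v = 1 := swap_mul_self _ _

lemma sw_mem_PermOn {W : Finset (ℤ × ℤ)} {v : ℤ × ℤ} (hv : v ∈ W) :
    sw c0 c1 v ∈ PermOn (win C W) :=
  swap_mem_PermOn (by simpa using hv) (by simpa using hv)

lemma sgn_sw (h : c0 ≠ c1) (v : ℤ × ℤ) : sgn (sw c0 c1 v) = -1 :=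
  sgn_swap (by simpa using h)

lemma sh_sw (u v : ℤ × ℤ) : sh u (sw c0 c1 v) = sw c0 c1 (v + u) := by
  simp only [sh, sw, conj]
  rw [Equiv.mul_swap_eq_swap_mul]
  simp

lemma sw_commute (v v' : ℤ × ℤ) : Commute (sw c0 c1 v) (sw c0 c1 v') := by
  by_cases h : v = v'
  · subst h; exact Commute.refl _
  · apply commute_of_disjoint (S := win C {v}) (T := win C {v'})
    · rw [Finset.disjoint_left]
      intro p hp hp'
      rw [mem_win, Finset.mem_singleton] at hp hp'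
      exact h (hp.symm.trans hp')
    · exact sw_mem_PermOn (by simp)
    · exact sw_mem_PermOn (by simp)

lemma sw_mul_sw_mem {W : Finset (ℤ × ℤ)} {v v' : ℤ × ℤ} (h : c0 ≠ c1) (hv : v ∈ W)
    (hv' : v' ∈ W) : sw c0 c1 v * sw c0 c1 v' ∈ AltOn (win C W) := by
  refine ⟨(PermOn _).mul_mem (sw_mem_PermOn hv) (sw_mem_PermOn hv'), ?_⟩
  rw [sgn_mul_on (sw_mem_PermOn hv) (sw_mem_PermOn hv'), sgn_sw h, sgn_sw h]
  rfl

end sw

variable {X Lab Sta C T : Type*} [AddAction (ℤ × ℤ) X] [Fintype C] [DecidableEq C] [Group T]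

lemma Lev.dist_bw {L : Lev X Lab Sta} {x0 x1 y0 y1 : ℤ} (h1 : x1 - x0 ≤ L.w)
    (h2 : y1 - y0 ≤ L.h) : L.Dist (bw x0 x1 y0 y1) := by
  apply Lev.dist_of (a := x0) (b := y0)
  · intro v hv; rw [mem_bw] at hv; omega
  · intro v hv; rw [mem_bw] at hv; omega

/-- geometry and sections at one level -/
structure Ctx (L : Lev X Lab Sta) (C : Type*) [Fintype C] [DecidableEq C]
    (q : T →* Equiv.Perm (X × C)) where
  P : Geo
  hw : P.w = L.w
  hh : P.h = L.h
  SF : SecSys L C q L.dig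
  SP : SecSys L C q L.kP
  SQ : SecSys L C q L.kQ
  SV : SecSys L C q L.kV
  c0 : C
  c1 : C
  hc : c0 ≠ c1

namespace Ctx

variable {L : Lev X Lab Sta} {q : T →* Equiv.Perm (X × C)} (M : Ctx L C q)

/-- lower reference swap of a `P` edge -/
def dn : Equiv.Perm (Om C) := sw M.c0 M.c1 (0, M.P.t0)
/-- upper reference swap of a `P` edge -/
def up : Equiv.Perm (Om C) := sw M.c0 M.c1 (0, M.P.h - M.P.t0 - 1)
/-- left reference swap of a `Q` edge -/
def lf : Equiv.Perm (Om C) := sw M.c0 M.c1 (M.P.t0, 0)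
/-- right reference swap of a `Q` edge -/
def rt : Equiv.Perm (Om C) := sw M.c0 M.c1 (M.P.w - M.P.t0 - 1, 0)

/-- the reference family of the `P` edges -/
def famP (a : ZMod L.n × Lab → ZMod 2) : ZMod L.n × Lab → Equiv.Perm (Om C) :=
  fun i => (M.dn * M.up) ^ (a i).val

/-- the reference family of the `Q` edges -/
def famQ (b : ZMod L.n × Lab → ZMod 2) : ZMod L.n × Lab → Equiv.Perm (Om C) :=
  fun i => (M.lf * M.rt) ^ (b i).val

/-- reference element of the signs `(a, b)` -/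
noncomputable def Es (a b : ZMod L.n × Lab → ZMod 2) : T :=
  M.SP.val (M.famP a) * M.SQ.val (M.famQ b)

/-- the window `[-t,t)²` of the corners -/
noncomputable abbrev WB : Finset (ℤ × ℤ) := bw (-M.P.t) M.P.t (-M.P.t) M.P.t

/-- `w = SV.val z * Es a b` with `z` even in the ball -/
def Rep (w : T) (a b : ZMod L.n × Lab → ZMod 2) : Prop :=
  ∃ z : ZMod L.n × Sta → Equiv.Perm (Om C), (∀ i, z i ∈ AltOn (win C M.WB)) ∧
    w = M.SV.val z * M.Es a b

lemma dB : L.Dist M.WB := by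
  have h1 := M.P.m1; have h2 := M.P.m2; have h3 := M.P.m3; have h4 := M.P.m4
  have h5 := M.P.d0; have hw := M.hw; have hh := M.hh
  exact Lev.dist_bw (by omega) (by omega)

lemma dWP : L.Dist (bw (-M.P.s) M.P.s M.P.t0 (M.P.h - M.P.t0)) := by
  have h1 := M.P.m1; have h2 := M.P.m2; have h3 := M.P.m3; have h4 := M.P.m4
  have h5 := M.P.d0; have hw := M.hw; have hh := M.hh; have h6 := M.P.hst; have h7 := M.P.ht0
  have h8 := M.P.s0
  exact Lev.dist_bw (by omega) (by omega)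

lemma dWQ : L.Dist (bw M.P.t0 (M.P.w - M.P.t0) (-M.P.s) M.P.s) := by
  have h1 := M.P.m1; have h2 := M.P.m2; have h3 := M.P.m3; have h4 := M.P.m4
  have h5 := M.P.d0; have hw := M.hw; have hh := M.hh; have h6 := M.P.hst; have h7 := M.P.ht0
  have h8 := M.P.s0
  exact Lev.dist_bw (by omega) (by omega)

lemma dWF : L.Dist (bw 0 M.P.w 0 M.P.h) := by
  have hw := M.hw; have hh := M.hh
  exact Lev.dist_bw (by omega) (by omega)

/-! ### transfers -/

variable {W : Finset (ℤ × ℤ)} (hW : L.Dist W)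
include hW

section transfer
variable [Finite Lab] [Finite Sta]

lemma val_FV {k : ZMod L.n → Equiv.Perm (Om C)} (hk : ∀ j, k j ∈ AltOn (win C W)) :
    M.SF.val k = M.SV.val (fun i => k i.1) := by
  have : NeZero L.n := ⟨L.n_pos.ne'⟩
  have := M.SF.val_move M.SV hW 0 (by simp) (fun i => i.1) (fun x _ => by simp [Lev.kV]) hk
  simpa using this

lemma val_FVq {k : ZMod L.n → Equiv.Perm (Om C)} (hk : ∀ j, k j ∈ AltOn (win C W)) :
    M.SF.val k = M.SV.val (fun i => sh (-L.w, 0) (k i.1)) := by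
  have : NeZero L.n := ⟨L.n_pos.ne'⟩
  have := M.SF.val_move M.SV hW (L.w, 0) (by simp) (fun i => i.1)
    (fun x hx => by simp [Lev.kV, L.dig_q x hx]) hk
  simpa using this

lemma val_FVp {k : ZMod L.n → Equiv.Perm (Om C)} (hk : ∀ j, k j ∈ AltOn (win C W)) :
    M.SF.val k = M.SV.val (fun i => sh (0, -L.h) (k (i.1 - 1))) := by
  have : NeZero L.n := ⟨L.n_pos.ne'⟩
  have := M.SF.val_move M.SV hW (0, L.h) (by simp) (fun i => i.1 - 1)
    (fun x hx => by simp [Lev.kV, L.dig_p x hx]) hk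
  simpa using this

lemma val_FVpq {k : ZMod L.n → Equiv.Perm (Om C)} (hk : ∀ j, k j ∈ AltOn (win C W)) :
    M.SF.val k = M.SV.val (fun i => sh (-L.w, -L.h) (k (i.1 - 1))) := by
  have : NeZero L.n := ⟨L.n_pos.ne'⟩
  have := M.SF.val_move M.SV hW (L.w, L.h) (by simp) (fun i => i.1 - 1)
    (fun x hx => by
      have h1 := L.dig_q _ (Lev.up_mem hx)
      rw [vadd_vadd] at h1
      have e : ((L.w, 0) + (0, L.h) : ℤ × ℤ) = (L.w, L.h) := by simp
      rw [e] at h1
      simp [Lev.kV, h1, L.dig_p x hx]) hk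
  simpa using this

lemma val_FP {k : ZMod L.n → Equiv.Perm (Om C)} (hk : ∀ j, k j ∈ AltOn (win C W)) :
    M.SF.val k = M.SP.val (fun i => k i.1) := by
  have : NeZero L.n := ⟨L.n_pos.ne'⟩
  have := M.SF.val_move M.SP hW 0 (by simp) (fun i => i.1) (fun x _ => by simp [Lev.kP]) hk
  simpa using this

lemma val_FPq {k : ZMod L.n → Equiv.Perm (Om C)} (hk : ∀ j, k j ∈ AltOn (win C W)) :
    M.SF.val k = M.SP.val (fun i => sh (-L.w, 0) (k i.1)) := by
  have : NeZero L.n := ⟨L.n_pos.ne'⟩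
  have := M.SF.val_move M.SP hW (L.w, 0) (by simp) (fun i => i.1)
    (fun x hx => by simp [Lev.kP, L.dig_q x hx]) hk
  simpa using this

lemma val_FQ {k : ZMod L.n → Equiv.Perm (Om C)} (hk : ∀ j, k j ∈ AltOn (win C W)) :
    M.SF.val k = M.SQ.val (fun i => k i.1) := by
  have : NeZero L.n := ⟨L.n_pos.ne'⟩
  have := M.SF.val_move M.SQ hW 0 (by simp) (fun i => i.1) (fun x _ => by simp [Lev.kQ]) hk
  simpa using this

lemma val_FQp {k : ZMod L.n → Equiv.Perm (Om C)} (hk : ∀ j, k j ∈ AltOn (win C W)) :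
    M.SF.val k = M.SQ.val (fun i => sh (0, -L.h) (k (i.1 - 1))) := by
  have : NeZero L.n := ⟨L.n_pos.ne'⟩
  have := M.SF.val_move M.SQ hW (0, L.h) (by simp) (fun i => i.1 - 1)
    (fun x hx => by simp [Lev.kQ, L.dig_p x hx]) hk
  simpa using this

lemma val_PV {k : ZMod L.n × Lab → Equiv.Perm (Om C)} (hk : ∀ j, k j ∈ AltOn (win C W)) :
    M.SP.val k = M.SV.val (fun i => k (i.1, L.sPf i.2)) := by
  have : NeZero L.n := ⟨L.n_pos.ne'⟩
  have := M.SP.val_move M.SV hW 0 (by simp) (fun i => (i.1, L.sPf i.2))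
    (fun x hx => by simp [Lev.kV, Lev.kP, L.Pf_st x hx]) hk
  simpa using this

lemma val_PVp {k : ZMod L.n × Lab → Equiv.Perm (Om C)} (hk : ∀ j, k j ∈ AltOn (win C W)) :
    M.SP.val k = M.SV.val (fun i => sh (0, -L.h) (k (i.1 - 1, L.sPb i.2))) := by
  have : NeZero L.n := ⟨L.n_pos.ne'⟩
  have := M.SP.val_move M.SV hW (0, L.h) (by simp) (fun i => (i.1 - 1, L.sPb i.2))
    (fun x hx => by
      have h1 := L.Pb_st _ (Lev.up_mem hx)
      rw [vadd_vadd] at h1
      have e : ((0, -L.h) + (0, L.h) : ℤ × ℤ) = 0 := by simp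
      rw [e, zero_vadd] at h1
      simp [Lev.kV, Lev.kP, L.dig_p x hx, ← h1]) hk
  simpa using this

lemma val_QV {k : ZMod L.n × Lab → Equiv.Perm (Om C)} (hk : ∀ j, k j ∈ AltOn (win C W)) :
    M.SQ.val k = M.SV.val (fun i => k (i.1, L.sQf i.2)) := by
  have : NeZero L.n := ⟨L.n_pos.ne'⟩
  have := M.SQ.val_move M.SV hW 0 (by simp) (fun i => (i.1, L.sQf i.2))
    (fun x hx => by simp [Lev.kV, Lev.kQ, L.Qf_st x hx]) hk
  simpa using this

lemma val_QVq {k : ZMod L.n × Lab → Equiv.Perm (Om C)} (hk : ∀ j, k j ∈ AltOn (win C W)) :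
    M.SQ.val k = M.SV.val (fun i => sh (-L.w, 0) (k (i.1, L.lft i.1 i.2))) := by
  have : NeZero L.n := ⟨L.n_pos.ne'⟩
  have := M.SQ.val_move M.SV hW (L.w, 0) (by simp) (fun i => (i.1, L.lft i.1 i.2))
    (fun x hx => by
      have h1 := L.lft_st _ (Lev.right_mem hx)
      rw [vadd_vadd] at h1
      have e : ((-L.w, 0) + (L.w, 0) : ℤ × ℤ) = 0 := by simp
      rw [e, zero_vadd] at h1
      rw [L.dig_q x hx] at h1
      simp [Lev.kV, Lev.kQ, h1, L.dig_q x hx]) hk
  simpa using this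

end transfer

/-! ### concrete transfers -/

omit [Group T] in
lemma rv_PV {k : ZMod L.n × Lab → Equiv.Perm (Om C)} (hk : ∀ j, k j ∈ PermOn (win C W)) :
    rv L L.kP k = rv L L.kV (fun i => k (i.1, L.sPf i.2)) := by
  have := rv_move (κ := L.kP) (κ' := L.kV) hW 0 (by simp) (fun i => (i.1, L.sPf i.2))
    (fun x hx => by simp [Lev.kV, Lev.kP, L.Pf_st x hx]) hk
  simpa using this

omit [Group T] in
lemma rv_PVp {k : ZMod L.n × Lab → Equiv.Perm (Om C)} (hk : ∀ j, k j ∈ PermOn (win C W)) :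
    rv L L.kP k = rv L L.kV (fun i => sh (0, -L.h) (k (i.1 - 1, L.sPb i.2))) := by
  have := rv_move (κ := L.kP) (κ' := L.kV) hW (0, L.h) (by simp)
    (fun i => (i.1 - 1, L.sPb i.2))
    (fun x hx => by
      have h1 := L.Pb_st _ (Lev.up_mem hx)
      rw [vadd_vadd] at h1
      have e : ((0, -L.h) + (0, L.h) : ℤ × ℤ) = 0 := by simp
      rw [e, zero_vadd] at h1
      simp [Lev.kV, Lev.kP, L.dig_p x hx, ← h1]) hk
  simpa using this

omit [Group T] in
lemma rv_QV {k : ZMod L.n × Lab → Equiv.Perm (Om C)} (hk : ∀ j, k j ∈ PermOn (win C W)) :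
    rv L L.kQ k = rv L L.kV (fun i => k (i.1, L.sQf i.2)) := by
  have := rv_move (κ := L.kQ) (κ' := L.kV) hW 0 (by simp) (fun i => (i.1, L.sQf i.2))
    (fun x hx => by simp [Lev.kV, Lev.kQ, L.Qf_st x hx]) hk
  simpa using this

omit [Group T] in
lemma rv_QVq {k : ZMod L.n × Lab → Equiv.Perm (Om C)} (hk : ∀ j, k j ∈ PermOn (win C W)) :
    rv L L.kQ k = rv L L.kV (fun i => sh (-L.w, 0) (k (i.1, L.lft i.1 i.2))) := by
  have := rv_move (κ := L.kQ) (κ' := L.kV) hW (L.w, 0) (by simp) (fun i => (i.1, L.lft i.1 i.2))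
    (fun x hx => by
      have h1 := L.lft_st _ (Lev.right_mem hx)
      rw [vadd_vadd] at h1
      have e : ((-L.w, 0) + (L.w, 0) : ℤ × ℤ) = 0 := by simp
      rw [e, zero_vadd] at h1
      rw [L.dig_q x hx] at h1
      simp [Lev.kV, Lev.kQ, h1, L.dig_q x hx]) hk
  simpa using this

end Ctx

end Crest.Agent.R189.K
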