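import Crest.Agent.R189.KLocal
import Crest.Agent.R189.KSec
import Crest.Agent.R189.KCtx

-- ▼ part R189/KLocR
section

/-!
# Row 189, part F: local relations for raw families (helper834)
-/

set_option autoImplicit false
set_option linter.unusedSectionVars false

namespace Crest.Agent.R189.K.Lev

open Finset KFlux

variable {X Lab Sta C : Type*} [AddAction (ℤ × ℤ) X] {L : Lev X Lab Sta}
variable [Fintype C] [DecidableEq C] {s t0 t : ℤ}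

/-- the decomposition hypothesis for raw families -/
structure DecR (L : Lev X Lab Sta) (C : Type*) [Fintype C] [DecidableEq C] (s t0 t : ℤ)
    (f : ZMod L.n → Equiv.Perm (Om C)) (eP eQ : ZMod L.n × Lab → Equiv.Perm (Om C))
    (v : ZMod L.n × Sta → Equiv.Perm (Om C)) : Prop where
  f_mem : ∀ j, f j ∈ PermOn (win C L.WF)
  eP_mem : ∀ j, eP j ∈ PermOn (win C (L.WP s t0))
  eQ_mem : ∀ j, eQ j ∈ PermOn (win C (L.WQ s t0))
  v_mem : ∀ j, v j ∈ PermOn (win C (WV t))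
  s_pos : 0 < s
  s_le : s ≤ t0
  t0_le : t0 ≤ t
  w_le : 2 * t ≤ L.w
  h_le : 2 * t ≤ L.h
  one : rv L L.dig f * rv L (fun x => (L.dig x, L.Pf x)) eP *
    rv L (fun x => (L.dig x, L.Qf x)) eQ * rv L (fun x => (L.dig x, L.st x)) v = 1

namespace DecR

variable {f : ZMod L.n → Equiv.Perm (Om C)} {eP eQ : ZMod L.n × Lab → Equiv.Perm (Om C)}
    {v : ZMod L.n × Sta → Equiv.Perm (Om C)}

/-- conversion to the bundled version -/
noncomputable def dec (d : DecR L C s t0 t f eP eQ v) : Dec L C s t0 t where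
  f j := ⟨f j, d.f_mem j⟩
  eP j := ⟨eP j, d.eP_mem j⟩
  eQ j := ⟨eQ j, d.eQ_mem j⟩
  v j := ⟨v j, d.v_mem j⟩
  s_pos := d.s_pos
  s_le := d.s_le
  t0_le := d.t0_le
  w_le := d.w_le
  h_le := d.h_le
  dP := dist_WP (by have := d.w_le; have := d.s_le; have := d.t0_le; omega)
    (by have := d.s_pos; have := d.s_le; omega)
  dQ := dist_WQ (by have := d.h_le; have := d.s_le; have := d.t0_le; omega)
    (by have := d.s_pos; have := d.s_le; omega)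
  dV := dist_WV d.w_le d.h_le
  one := by
    have h1 := d.one
    have g1 := d.w_le
    have g2 := d.h_le
    have g3 := d.s_le
    have g4 := d.t0_le
    have g5 := d.s_pos
    have dP : L.Dist (L.WP s t0) := dist_WP (by omega) (by omega)
    have dQ : L.Dist (L.WQ s t0) := dist_WQ (by omega) (by omega)
    rw [rv_eq (dist_WF (L := L)) d.f_mem, rv_eq dP d.eP_mem,
      rv_eq dQ d.eQ_mem, rv_eq (dist_WV d.w_le d.h_le) d.v_mem] at h1
    exact h1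

variable (d : DecR L C s t0 t f eP eQ v)

include d

theorem mid {x : X} (hx : x ∈ L.D) {u : ℤ × ℤ} (c : C)
    (h : (t ≤ u.1 ∧ u.1 < L.w - t ∧ s ≤ u.2 ∧ u.2 < L.h - s) ∨
      (t ≤ u.2 ∧ u.2 < L.h - t ∧ s ≤ u.1 ∧ u.1 < L.w - s)) :
    f (L.dig x) (u, c) = (u, c) := d.dec.mid hx c h

theorem P1 {x : X} (hx : x ∈ L.D) {u : ℤ × ℤ} (c : C)
    (h1 : 0 ≤ u.1) (h2 : u.1 < s) (h3 : t ≤ u.2) (h4 : u.2 < L.h - t) :
    eP (L.dig x, L.Pf x) (u, c) = (f (L.dig x))⁻¹ (u, c) := d.dec.P1 hx c h1 h2 h3 h4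

theorem P2 {x : X} (hx : x ∈ L.D) {u : ℤ × ℤ} (c : C)
    (h1 : -s ≤ u.1) (h2 : u.1 < 0) (h3 : t ≤ u.2) (h4 : u.2 < L.h - t) :
    eP (L.dig x, L.Pf x) (u, c) = sh (-L.w, 0) (f (L.dig x))⁻¹ (u, c) :=
  d.dec.P2 hx c h1 h2 h3 h4

theorem Q1 {x : X} (hx : x ∈ L.D) {u : ℤ × ℤ} (c : C)
    (h1 : 0 ≤ u.2) (h2 : u.2 < s) (h3 : t ≤ u.1) (h4 : u.1 < L.w - t) :
    eQ (L.dig x, L.Qf x) (u, c) = (f (L.dig x))⁻¹ (u, c) := d.dec.Q1 hx c h1 h2 h3 h4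

theorem Q2 {x : X} (hx : x ∈ L.D) {u : ℤ × ℤ} (c : C)
    (h1 : -s ≤ u.2) (h2 : u.2 < 0) (h3 : t ≤ u.1) (h4 : u.1 < L.w - t) :
    eQ (L.dig x, L.Qf x) (u, c) = sh (0, -L.h) (f (L.dig x - 1))⁻¹ (u, c) :=
  d.dec.Q2 hx c h1 h2 h3 h4


theorem kap_const {Dd x0 y0 : ℤ}
    (hd : ∀ j, ∀ z : Om C, |(f j z).1.1 - z.1.1| ≤ Dd ∧ |(f j z).1.2 - z.1.2| ≤ Dd)
    (hdQ : ∀ j, ∀ z : Om C, |(eQ j z).1.1 - z.1.1| ≤ Dd)
    (hm : Mid L.w L.h s t Dd x0 y0) (hD : L.D.Nonempty) (j : ZMod L.n) :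
    (∃ x ∈ L.D, L.dig x = j) ∧ Ann L.w L.h s t Dd (f j)⁻¹ ∧
    kap L.w s x0 ((f j)⁻¹ : Equiv.Perm (Om C)) = kap L.w s x0 ((f 0)⁻¹ : Equiv.Perm (Om C)) :=
  d.dec.kap_const hd hdQ hm hD j

end DecR

end Crest.Agent.R189.K.Lev
end

-- ▼ part R189/KLoc2
section

/-!
# Row 189, part F (R1x): the hypotheses of the peeling theorem (helper834)

From `w = SF.val f * SP.val eP * SQ.val eQ * SV.val v`, `q w = 1` and zero circulation of face `0`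
all hypotheses of `Geo.peel_family`.
-/

set_option autoImplicit false
set_option linter.unusedSectionVars false

namespace Crest.Agent.R189.K

open Equiv Equiv.Perm
open KFlux (bx mem_bx Ann Mid kap)

variable {X Lab Sta C T : Type*} [AddAction (ℤ × ℤ) X] [Fintype C] [DecidableEq C] [Group T]

namespace Ctx

variable {L : Lev X Lab Sta} {q : T →* Equiv.Perm (X × C)} (M : Ctx L C q)
variable [Finite Lab] [Finite Sta]

/-- hypotheses: a decomposition of a word -/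
structure DecT (w : T) (f : ZMod L.n → Equiv.Perm (Om C))
    (eP eQ : ZMod L.n × Lab → Equiv.Perm (Om C)) (v : ZMod L.n × Sta → Equiv.Perm (Om C)) :
    Prop where
  hf : ∀ j, f j ∈ AltOn (win C (bw 0 M.P.w 0 M.P.h))
  heP : ∀ i, eP i ∈ AltOn (win C (bw (-M.P.s) M.P.s M.P.t0 (M.P.h - M.P.t0)))
  heQ : ∀ i, eQ i ∈ AltOn (win C (bw M.P.t0 (M.P.w - M.P.t0) (-M.P.s) M.P.s))
  hv : ∀ i, v i ∈ AltOn (win C M.WB)
  df : ∀ j, Disp M.P.d (f j)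
  dP : ∀ i, Disp M.P.d (eP i)
  dQ : ∀ i, Disp M.P.d (eQ i)
  hw1 : w = M.SF.val f * M.SP.val eP * M.SQ.val eQ * M.SV.val v

/-- peripheral occurrence of `P` labels -/
def oP (L : Lev X Lab Sta) (j : ZMod L.n) (l : Lab) : Prop := ∃ x ∈ L.D, L.kP x = (j, l)
/-- occurrence of `Q` labels -/
def oQ (L : Lev X Lab Sta) (j : ZMod L.n) (l : Lab) : Prop := ∃ x ∈ L.D, L.kQ x = (j, l)

variable {M} {w : T} {f : ZMod L.n → Equiv.Perm (Om C)}
    {eP eQ : ZMod L.n × Lab → Equiv.Perm (Om C)} {v : ZMod L.n × Sta → Equiv.Perm (Om C)}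

/-- the concrete identity -/
theorem DecT.rv_one (H : M.DecT w f eP eQ v) (hq : q w = 1) :
    rv L L.dig f * rv L L.kP eP * rv L L.kQ eQ * rv L L.kV v = 1 := by
  have hn : NeZero L.n := ⟨L.n_pos.ne'⟩
  have h1 := congrArg q H.hw1
  rw [hq, map_mul, map_mul, map_mul, M.SF.q_val M.dWF H.hf, M.SP.q_val M.dWP H.heP,
    M.SQ.q_val M.dWQ H.heQ, M.SV.q_val M.dB H.hv] at h1
  exact h1.symm

theorem DecT.decR (H : M.DecT w f eP eQ v) (hq : q w = 1) :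
    L.DecR C M.P.s M.P.t0 M.P.t f eP eQ v := by
  have h1 := M.P.m1; have h2 := M.P.m2; have h3 := M.P.m3; have h4 := M.P.m4
  have h5 := M.P.d0; have hw := M.hw; have hh := M.hh; have h6 := M.P.hst; have h7 := M.P.ht0
  have h8 := M.P.s0
  refine ⟨?_, ?_, ?_, fun i => (H.hv i).1, M.P.s0, M.P.hst, by omega, by omega, by omega,
    H.rv_one hq⟩
  · intro j
    have := (H.hf j).1
    rw [hw, hh] at this
    exact this
  · intro i
    have := (H.heP i).1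
    rw [hh] at this
    exact this
  · intro i
    have := (H.heQ i).1
    rw [hw] at this
    exact this

lemma disp_abs {d : ℤ} {z : Equiv.Perm (Om C)} (h : Disp d z) (x : Om C) :
    |(z x).1.1 - x.1.1| ≤ d ∧ |(z x).1.2 - x.1.2| ≤ d := by
  obtain ⟨⟨h1, h2⟩, h3, h4⟩ := h x
  rw [abs_le, abs_le]
  omega

/-- every digit occurs -/
theorem dig_surj (L : Lev X Lab Sta) (hD : L.D.Nonempty) (j : ZMod L.n) :
    ∃ x ∈ L.D, L.dig x = j := by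
  have hn : NeZero L.n := ⟨L.n_pos.ne'⟩
  obtain ⟨x, hx⟩ := hD
  have key : ∀ m : ℕ, ∃ y ∈ L.D, L.dig y = L.dig x + m := by
    intro m
    induction m with
    | zero => exact ⟨x, hx, by simp⟩
    | succ m ih =>
      obtain ⟨y, hy, h1⟩ := ih
      refine ⟨_, Lev.up_mem hy, ?_⟩
      rw [L.dig_p y hy, h1]; push_cast; ring
  obtain ⟨y, hy, h1⟩ := key (j - L.dig x).val
  rw [ZMod.natCast_zmod_val, add_sub_cancel] at h1
  exact ⟨y, hy, h1⟩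

theorem hoP (hD : L.D.Nonempty) (j : ZMod L.n) : ∃ l, oP L j l := by
  obtain ⟨x, hx, h⟩ := dig_surj L hD j
  exact ⟨L.Pf x, x, hx, by rw [Lev.kP, h]⟩

theorem hoQ (hD : L.D.Nonempty) (j : ZMod L.n) : ∃ l, oQ L j l := by
  obtain ⟨x, hx, h⟩ := dig_surj L hD j
  exact ⟨L.Qf x, x, hx, by rw [Lev.kQ, h]⟩

theorem DecT.kap_all (H : M.DecT w f eP eQ v) (hq : q w = 1) (hD : L.D.Nonempty)
    (j : ZMod L.n) :
    Ann M.P.w M.P.h M.P.s M.P.t M.P.d (f j)⁻¹ ∧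
    kap M.P.w M.P.s M.P.mx ((f j)⁻¹ : Equiv.Perm (Om C)) =
      kap M.P.w M.P.s M.P.mx ((f 0)⁻¹ : Equiv.Perm (Om C)) := by
  have hm := M.P.mid
  have h1 := (H.decR hq).kap_const (Dd := M.P.d) (x0 := M.P.mx) (y0 := M.P.my)
    (fun j z => disp_abs (H.df j) z) (fun j z => (disp_abs (H.dQ j) z).1)
    (by rw [← M.hw, ← M.hh]; exact hm) hD j
  rw [← M.hw, ← M.hh] at h1
  exact h1.2

/-- ALL HYPOTHESES of `Geo.peel_family` -/
theorem DecT.peel_hyps (H : M.DecT w f eP eQ v) (hq : q w = 1) (hD : L.D.Nonempty)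
    (hk : kap M.P.w M.P.s M.P.mx ((f 0)⁻¹ : Equiv.Perm (Om C)) = 0) :
    (∀ j, Ann M.P.w M.P.h M.P.s M.P.t M.P.d (f j)⁻¹) ∧
    (∀ j, kap M.P.w M.P.s M.P.mx ((f j)⁻¹ : Equiv.Perm (Om C)) = 0) ∧
    (∀ j l, oP L j l → ∀ x ∈ M.P.vmid C 0 M.P.s, eP (j, l) x = (f j)⁻¹ x) ∧
    (∀ j l, oP L j l → ∀ x ∈ M.P.vmid C (-M.P.s) 0, eP (j, l) x = sh (-M.P.w, 0) (f j)⁻¹ x) ∧
    (∀ j l, oQ L j l → ∀ x ∈ M.P.hmid C 0 M.P.s, eQ (j, l) x = (f j)⁻¹ x) ∧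
    (∀ j l, oQ L j l → ∀ x ∈ M.P.hmid C (-M.P.s) 0,
      eQ (j, l) x = sh (0, -M.P.h) (f (j - 1))⁻¹ x) := by
  have d := H.decR hq
  have hw := M.hw
  have hh := M.hh
  refine ⟨fun j => (H.kap_all hq hD j).1, fun j => by rw [(H.kap_all hq hD j).2, hk], ?_, ?_, ?_,
    ?_⟩
  · rintro j l ⟨y, hy, hyl⟩ x hx
    simp only [Lev.kP, Prod.mk.injEq] at hyl
    obtain ⟨rfl, rfl⟩ := hyl
    simp only [Geo.vmid, mem_bx] at hx
    exact d.P1 hy x.2 (u := x.1) hx.1.1 hx.1.2 hx.2.1 (by omega)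
  · rintro j l ⟨y, hy, hyl⟩ x hx
    simp only [Lev.kP, Prod.mk.injEq] at hyl
    obtain ⟨rfl, rfl⟩ := hyl
    simp only [Geo.vmid, mem_bx] at hx
    rw [hw]
    exact d.P2 hy x.2 (u := x.1) hx.1.1 hx.1.2 hx.2.1 (by omega)
  · rintro j l ⟨y, hy, hyl⟩ x hx
    simp only [Lev.kQ, Prod.mk.injEq] at hyl
    obtain ⟨rfl, rfl⟩ := hyl
    simp only [Geo.hmid, mem_bx] at hx
    exact d.Q1 hy x.2 (u := x.1) hx.2.1 hx.2.2 hx.1.1 (by omega)
  · rintro j l ⟨y, hy, hyl⟩ x hx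
    simp only [Lev.kQ, Prod.mk.injEq] at hyl
    obtain ⟨rfl, rfl⟩ := hyl
    simp only [Geo.hmid, mem_bx] at hx
    rw [hh]
    exact d.Q2 hy x.2 (u := x.1) hx.2.1 hx.2.2 hx.1.1 (by omega)

/-- the peeling theorem applied to a decomposition with zero circulation -/
theorem DecT.peel (H : M.DecT w f eP eQ v) (hq : q w = 1) (hD : L.D.Nonempty)
    (hk : kap M.P.w M.P.s M.P.mx ((f 0)⁻¹ : Equiv.Perm (Om C)) = 0) :
    ∃ gL gR gB gT k00 k10 k01 k11 : ZMod L.n → Equiv.Perm (Om C),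
    ∃ lP uP lQ uQ : ZMod L.n → Lab → Equiv.Perm (Om C),
      (∀ j, M.P.FaceHyp (f j)) ∧ (∀ j, M.P.Face (f j) (gL j) (gR j) (gB j) (gT j)) ∧
      (∀ j, gL j ∈ AltOn (M.P.vS C 0 M.P.s)) ∧
      (∀ j, gR j ∈ AltOn (M.P.vS C (M.P.w - M.P.s) M.P.w)) ∧
      (∀ j, gB j ∈ AltOn (M.P.hS C 0 M.P.s)) ∧
      (∀ j, gT j ∈ AltOn (M.P.hS C (M.P.h - M.P.s) M.P.h)) ∧
      (∀ j, k00 j ∈ AltOn (M.P.c00 C)) ∧ (∀ j, k10 j ∈ AltOn (M.P.c10 C)) ∧
      (∀ j, k01 j ∈ AltOn (M.P.c01 C)) ∧ (∀ j, k11 j ∈ AltOn (M.P.c11 C)) ∧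
      (∀ j, f j * (gL j * gR j * gB j * gT j) = k00 j * k10 j * k01 j * k11 j) ∧
      (∀ j l, lP j l ∈ PermOn (M.P.vlo C (-M.P.s) M.P.s)) ∧
      (∀ j l, uP j l ∈ PermOn (M.P.vup C (-M.P.s) M.P.s)) ∧
      (∀ j l, lQ j l ∈ PermOn (M.P.hlo C (-M.P.s) M.P.s)) ∧
      (∀ j l, uQ j l ∈ PermOn (M.P.hup C (-M.P.s) M.P.s)) ∧
      (∀ j l, sgn (lP j l) = sgn (uP j l)) ∧ (∀ j l, sgn (lQ j l) = sgn (uQ j l)) ∧
      (∀ j l, oP L j l → (Geo.gamP M.P (gL j) (gR j))⁻¹ * eP (j, l) = lP j l * uP j l) ∧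
      (∀ j l, oQ L j l →
        (Geo.gamQ M.P (gB j) (gT (j - 1)))⁻¹ * eQ (j, l) = lQ j l * uQ j l) := by
  obtain ⟨h1, h2, h3, h4, h5, h6⟩ := H.peel_hyps hq hD hk
  exact Geo.peel_family M.P M.hc f (fun j l => eP (j, l)) (fun j l => eQ (j, l))
    (oP L) (oQ L) (hoP hD) (hoQ hD) H.hf (fun j l _ => H.heP (j, l)) (fun j l _ => H.heQ (j, l))
    (fun j l _ => H.dP (j, l)) (fun j l _ => H.dQ (j, l)) h1 h2 h3 h4 h5 h6

end Ctx

end Crest.Agent.R189.K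
end

-- ▼ part R189/KRepE

/-!
# Row 189, part F (kernel), R1y: the edge parts (helper610)

`SP.val (lP * uP) = SV.val z * SP.val (famP a)`, `a i = parN (lP i)`, and the same for `Q`.
-/

set_option autoImplicit false
set_option linter.unusedSectionVars false

namespace Crest.Agent.R189.K

open Equiv Equiv.Perm

variable {X Lab Sta C T : Type*} [AddAction (ℤ × ℤ) X] [Fintype C] [DecidableEq C] [Group T]

lemma parN_le_one {Ω : Type*} [DecidableEq Ω] (π : Equiv.Perm Ω) : parN π ≤ 1 := by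
  unfold parN; split_ifs <;> omega

lemma parN_val {Ω : Type*} [DecidableEq Ω] (π : Equiv.Perm Ω) :
    ((parN π : ℕ) : ZMod 2).val = parN π := by
  rw [ZMod.val_natCast]
  exact Nat.mod_eq_of_lt (Nat.lt_succ_of_le (parN_le_one π))

section gen
variable {L : Lev X Lab Sta} {q : T →* Equiv.Perm (X × C)} {ι : Type*} [Finite ι] {κ : X → ι}

/-- splitting off the reference swaps, in `T` -/
theorem SecSys.val_split (S : SecSys L C q κ) {W A B : Finset (ℤ × ℤ)} (hW : L.Dist W)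
    (hA : A ⊆ W) (hB : B ⊆ W) (hd : Disjoint A B) {l u : ι → Equiv.Perm (Om C)}
    (hl : ∀ i, l i ∈ PermOn (win C A)) (hu : ∀ i, u i ∈ PermOn (win C B))
    (hs : ∀ i, sgn (l i) = sgn (u i)) {t t' : Equiv.Perm (Om C)} (ht : t ∈ PermOn (win C A))
    (ht' : t' ∈ PermOn (win C B)) (h2 : t * t = 1) (h2' : t' * t' = 1) (ht1 : sgn t = -1)
    (ht1' : sgn t' = -1) :
    (∀ i, l i * t ^ parN (l i) ∈ AltOn (win C A)) ∧
    (∀ i, u i * t' ^ parN (l i) ∈ AltOn (win C B)) ∧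
    S.val (fun i => l i * u i) = S.val (fun i => l i * t ^ parN (l i)) *
      S.val (fun i => u i * t' ^ parN (l i)) * S.val (fun i => (t * t') ^ parN (l i)) := by
  have hd' : Disjoint (win C A) (win C B) := by
    rw [Finset.disjoint_left]
    intro p hp hp'
    rw [mem_win] at hp hp'
    exact Finset.disjoint_left.1 hd hp hp'
  have e1 : ∀ i, l i * t ^ parN (l i) ∈ AltOn (win C A) := fun i =>
    mul_pow_mem_AltOn (hl i) ht ht1 (sgn_eq_pow_parN _)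
  have e2 : ∀ i, u i * t' ^ parN (l i) ∈ AltOn (win C B) := fun i =>
    mul_pow_mem_AltOn (hu i) ht' ht1' (by rw [← hs i]; exact sgn_eq_pow_parN _)
  have tW : t ∈ PermOn (win C W) := PermOn_mono (win_mono hA) ht
  have tW' : t' ∈ PermOn (win C W) := PermOn_mono (win_mono hB) ht'
  have e3 : ∀ i, (t * t') ^ parN (l i) ∈ AltOn (win C W) := fun i =>
    (AltOn _).pow_mem ⟨(PermOn _).mul_mem tW tW', by
      rw [sgn_mul_on tW tW', ht1, ht1']; rfl⟩ _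
  refine ⟨e1, e2, ?_⟩
  have e1' : ∀ i, l i * t ^ parN (l i) ∈ AltOn (win C W) := fun i =>
    AltOn_mono (win_mono hA) (e1 i)
  have e2' : ∀ i, u i * t' ^ parN (l i) ∈ AltOn (win C W) := fun i =>
    AltOn_mono (win_mono hB) (e2 i)
  rw [← S.val_mul hW e1' e2', ← S.val_mul hW (fun i => (AltOn _).mul_mem (e1' i) (e2' i)) e3]
  congr 1
  funext i
  exact split_parity hd' (hu i) ht ht' h2 h2' (parN (l i))

end gen

namespace Ctx

variable {L : Lev X Lab Sta} {q : T →* Equiv.Perm (X × C)} (M : Ctx L C q)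

lemma dn_mem : M.dn ∈ PermOn (win C (bw (-M.P.s) M.P.s M.P.t0 M.P.t)) := by
  have := M.P.s0; have := M.P.ht0
  apply sw_mem_PermOn
  rw [mem_bw]; dsimp only; omega

lemma up_mem : M.up ∈ PermOn (win C (bw (-M.P.s) M.P.s (M.P.h - M.P.t) (M.P.h - M.P.t0))) := by
  have := M.P.s0; have := M.P.ht0
  apply sw_mem_PermOn
  rw [mem_bw]; dsimp only; omega

lemma lf_mem : M.lf ∈ PermOn (win C (bw M.P.t0 M.P.t (-M.P.s) M.P.s)) := by
  have := M.P.s0; have := M.P.ht0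
  apply sw_mem_PermOn
  rw [mem_bw]; dsimp only; omega

lemma rt_mem : M.rt ∈ PermOn (win C (bw (M.P.w - M.P.t) (M.P.w - M.P.t0) (-M.P.s) M.P.s)) := by
  have := M.P.s0; have := M.P.ht0
  apply sw_mem_PermOn
  rw [mem_bw]; dsimp only; omega

/-- the edge part of kind `P` -/
theorem edgeP_val [Finite Lab] [Finite Sta] {lP uP : ZMod L.n × Lab → Equiv.Perm (Om C)}
    (hl : ∀ i, lP i ∈ PermOn (win C (bw (-M.P.s) M.P.s M.P.t0 M.P.t)))
    (hu : ∀ i, uP i ∈ PermOn (win C (bw (-M.P.s) M.P.s (M.P.h - M.P.t) (M.P.h - M.P.t0))))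
    (hs : ∀ i, sgn (lP i) = sgn (uP i)) :
    ∃ z : ZMod L.n × Sta → Equiv.Perm (Om C), (∀ i, z i ∈ AltOn (win C M.WB)) ∧
      M.SP.val (fun i => lP i * uP i) =
        M.SV.val z * M.SP.val (M.famP (fun i => (parN (lP i) : ZMod 2))) := by
  have : NeZero L.n := ⟨L.n_pos.ne'⟩
  have g1 := M.P.d0; have g2 := M.P.s0; have g3 := M.P.hst; have g4 := M.P.htd
  have g5 := M.P.ht0; have g6 := M.P.m3; have g7 := M.P.m4; have g8 := M.hh
  have hA : bw (-M.P.s) M.P.s M.P.t0 M.P.t ⊆ bw (-M.P.s) M.P.s M.P.t0 (M.P.h - M.P.t0) := by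
    intro v hv; rw [mem_bw] at hv ⊢; omega
  have hB : bw (-M.P.s) M.P.s (M.P.h - M.P.t) (M.P.h - M.P.t0) ⊆
      bw (-M.P.s) M.P.s M.P.t0 (M.P.h - M.P.t0) := by
    intro v hv; rw [mem_bw] at hv ⊢; omega
  have hd : Disjoint (bw (-M.P.s) M.P.s M.P.t0 M.P.t)
      (bw (-M.P.s) M.P.s (M.P.h - M.P.t) (M.P.h - M.P.t0)) := by
    rw [Finset.disjoint_left]; intro v hv hv'; rw [mem_bw] at hv hv'; omega
  obtain ⟨e1, e2, e3⟩ := M.SP.val_split M.dWP hA hB hd hl hu hs M.dn_mem M.up_mem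
    (sw_mul_self _) (sw_mul_self _) (sgn_sw M.hc _) (sgn_sw M.hc _)
  have z1 : ∀ i : ZMod L.n × Sta,
      lP (i.1, L.sPf i.2) * M.dn ^ parN (lP (i.1, L.sPf i.2)) ∈ AltOn (win C M.WB) := by
    intro i
    refine AltOn_mono (win_mono ?_) (e1 (i.1, L.sPf i.2))
    intro v hv; rw [mem_bw] at hv ⊢; omega
  have z2 : ∀ i : ZMod L.n × Sta,
      sh (0, -L.h) (uP (i.1 - 1, L.sPb i.2) * M.up ^ parN (lP (i.1 - 1, L.sPb i.2))) ∈
        AltOn (win C M.WB) := by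
    intro i
    refine sh_mem_altOn (e2 (i.1 - 1, L.sPb i.2)) ?_
    intro v hv; rw [mem_bw] at hv ⊢
    simp only [Prod.fst_add, Prod.snd_add]; omega
  refine ⟨_, fun i => (AltOn _).mul_mem (z1 i) (z2 i), ?_⟩
  rw [e3, M.val_PV (M.dWP.mono hA) e1, M.val_PVp (M.dWP.mono hB) e2, ← M.SV.val_mul M.dB z1 z2]
  congr 2
  funext i
  rw [famP, parN_val]

/-- the edge part of kind `Q` -/
theorem edgeQ_val [Finite Lab] [Finite Sta] {lQ uQ : ZMod L.n × Lab → Equiv.Perm (Om C)}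
    (hl : ∀ i, lQ i ∈ PermOn (win C (bw M.P.t0 M.P.t (-M.P.s) M.P.s)))
    (hu : ∀ i, uQ i ∈ PermOn (win C (bw (M.P.w - M.P.t) (M.P.w - M.P.t0) (-M.P.s) M.P.s)))
    (hs : ∀ i, sgn (lQ i) = sgn (uQ i)) :
    ∃ z : ZMod L.n × Sta → Equiv.Perm (Om C), (∀ i, z i ∈ AltOn (win C M.WB)) ∧
      M.SQ.val (fun i => lQ i * uQ i) =
        M.SV.val z * M.SQ.val (M.famQ (fun i => (parN (lQ i) : ZMod 2))) := by
  have : NeZero L.n := ⟨L.n_pos.ne'⟩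
  have g1 := M.P.d0; have g2 := M.P.s0; have g3 := M.P.hst; have g4 := M.P.htd
  have g5 := M.P.ht0; have g6 := M.P.m1; have g7 := M.P.m2; have g8 := M.hw
  have hA : bw M.P.t0 M.P.t (-M.P.s) M.P.s ⊆ bw M.P.t0 (M.P.w - M.P.t0) (-M.P.s) M.P.s := by
    intro v hv; rw [mem_bw] at hv ⊢; omega
  have hB : bw (M.P.w - M.P.t) (M.P.w - M.P.t0) (-M.P.s) M.P.s ⊆
      bw M.P.t0 (M.P.w - M.P.t0) (-M.P.s) M.P.s := by
    intro v hv; rw [mem_bw] at hv ⊢; omega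
  have hd : Disjoint (bw M.P.t0 M.P.t (-M.P.s) M.P.s)
      (bw (M.P.w - M.P.t) (M.P.w - M.P.t0) (-M.P.s) M.P.s) := by
    rw [Finset.disjoint_left]; intro v hv hv'; rw [mem_bw] at hv hv'; omega
  obtain ⟨e1, e2, e3⟩ := M.SQ.val_split M.dWQ hA hB hd hl hu hs M.lf_mem M.rt_mem
    (sw_mul_self _) (sw_mul_self _) (sgn_sw M.hc _) (sgn_sw M.hc _)
  have z1 : ∀ i : ZMod L.n × Sta,
      lQ (i.1, L.sQf i.2) * M.lf ^ parN (lQ (i.1, L.sQf i.2)) ∈ AltOn (win C M.WB) := by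
    intro i
    refine AltOn_mono (win_mono ?_) (e1 (i.1, L.sQf i.2))
    intro v hv; rw [mem_bw] at hv ⊢; omega
  have z2 : ∀ i : ZMod L.n × Sta,
      sh (-L.w, 0) (uQ (i.1, L.lft i.1 i.2) * M.rt ^ parN (lQ (i.1, L.lft i.1 i.2))) ∈
        AltOn (win C M.WB) := by
    intro i
    refine sh_mem_altOn (e2 (i.1, L.lft i.1 i.2)) ?_
    intro v hv; rw [mem_bw] at hv ⊢
    simp only [Prod.fst_add, Prod.snd_add]; omega
  refine ⟨_, fun i => (AltOn _).mul_mem (z1 i) (z2 i), ?_⟩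
  rw [e3, M.val_QV (M.dWQ.mono hA) e1, M.val_QVq (M.dWQ.mono hB) e2, ← M.SV.val_mul M.dB z1 z2]
  congr 2
  funext i
  rw [famQ, parN_val]

end Ctx

end Crest.Agent.R189.K
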