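import Crest.Agent.R189.KCtx
import Crest.Agent.R189.KRepE_Mg
import Crest.Agent.R189.KRad
import Crest.Agent.R189.XLev

-- ▼ part R189/KRep
section

/-!
# Row 189, part F (kernel, R1y): from the peeling of all faces and edges to `M.Rep w a b`
-/

set_option autoImplicit false
set_option linter.unusedSectionVars false

namespace Crest.Agent.R189.K

open Equiv Equiv.Perm
open KFlux (bx mem_bx)

section shw
variable {C : Type*} [Fintype C] [DecidableEq C]

lemma sh_bw_mem {x0 x1 y0 y1 : ℤ} {g : Equiv.Perm (Om C)} (hg : g ∈ AltOn (win C (bw x0 x1 y0 y1)))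
    (u : ℤ × ℤ) {x0' x1' y0' y1' : ℤ} (h0 : x0' ≤ x0 + u.1) (h1 : x1 + u.1 ≤ x1')
    (h2 : y0' ≤ y0 + u.2) (h3 : y1 + u.2 ≤ y1') :
    sh u g ∈ AltOn (win C (bw x0' x1' y0' y1')) := by
  have h := sh_mem_AltOn hg (-u)
  rw [neg_neg] at h
  refine AltOn_mono (win_mono ?_) h
  intro v hv
  obtain ⟨v', hv', rfl⟩ := Finset.mem_image.1 hv
  rw [mem_bw] at hv' ⊢
  simp only [Prod.fst_sub, Prod.snd_sub, Prod.fst_neg, Prod.snd_neg]
  omega

lemma bw_mono {x0 x1 y0 y1 x0' x1' y0' y1' : ℤ} (h0 : x0' ≤ x0) (h1 : x1 ≤ x1')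
    (h2 : y0' ≤ y0) (h3 : y1 ≤ y1') {g : Equiv.Perm (Om C)}
    (hg : g ∈ AltOn (win C (bw x0 x1 y0 y1))) : g ∈ AltOn (win C (bw x0' x1' y0' y1')) := by
  refine AltOn_mono (win_mono ?_) hg
  intro v hv
  rw [mem_bw] at hv ⊢
  omega

end shw

variable {X Lab Sta C T : Type*} [AddAction (ℤ × ℤ) X] [Fintype C] [DecidableEq C] [Group T]
variable {L : Lev X Lab Sta} {q : T →* Equiv.Perm (X × C)}

namespace Ctx

variable (M : Ctx L C q) [Finite Lab] [Finite Sta]

/-- the corners of the faces -/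
theorem K_val {k00 k10 k01 k11 : ZMod L.n → Equiv.Perm (Om C)}
    (m00 : ∀ j, k00 j ∈ AltOn (M.P.c00 C)) (m10 : ∀ j, k10 j ∈ AltOn (M.P.c10 C))
    (m01 : ∀ j, k01 j ∈ AltOn (M.P.c01 C)) (m11 : ∀ j, k11 j ∈ AltOn (M.P.c11 C)) :
    ∃ z : ZMod L.n × Sta → Equiv.Perm (Om C), (∀ i, z i ∈ AltOn (win C M.WB)) ∧
      M.SF.val (fun j => k00 j * k10 j * k01 j * k11 j) = M.SV.val z := by
  have : NeZero L.n := ⟨L.n_pos.ne'⟩
  have h1 := M.P.m1; have h2 := M.P.m2; have h3 := M.P.m3; have h4 := M.P.m4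
  have h5 := M.P.d0; have hw := M.hw; have hh := M.hh; have h6 := M.P.hst; have h7 := M.P.ht0
  have h8 := M.P.s0
  have n00 : ∀ j, k00 j ∈ AltOn (win C (bw 0 M.P.t 0 M.P.t)) := m00
  have n10 : ∀ j, k10 j ∈ AltOn (win C (bw (M.P.w - M.P.t) M.P.w 0 M.P.t)) := m10
  have n01 : ∀ j, k01 j ∈ AltOn (win C (bw 0 M.P.t (M.P.h - M.P.t) M.P.h)) := m01
  have n11 : ∀ j, k11 j ∈ AltOn (win C (bw (M.P.w - M.P.t) M.P.w (M.P.h - M.P.t) M.P.h)) := m11
  have d00 : L.Dist (bw 0 M.P.t 0 M.P.t) := Lev.dist_bw (by omega) (by omega)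
  have d10 : L.Dist (bw (M.P.w - M.P.t) M.P.w 0 M.P.t) := Lev.dist_bw (by omega) (by omega)
  have d01 : L.Dist (bw 0 M.P.t (M.P.h - M.P.t) M.P.h) := Lev.dist_bw (by omega) (by omega)
  have d11 : L.Dist (bw (M.P.w - M.P.t) M.P.w (M.P.h - M.P.t) M.P.h) :=
    Lev.dist_bw (by omega) (by omega)
  have f00 : ∀ j, k00 j ∈ AltOn (win C (bw 0 M.P.w 0 M.P.h)) :=
    fun j => bw_mono (by omega) (by omega) (by omega) (by omega) (n00 j)
  have f10 : ∀ j, k10 j ∈ AltOn (win C (bw 0 M.P.w 0 M.P.h)) :=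
    fun j => bw_mono (by omega) (by omega) (by omega) (by omega) (n10 j)
  have f01 : ∀ j, k01 j ∈ AltOn (win C (bw 0 M.P.w 0 M.P.h)) :=
    fun j => bw_mono (by omega) (by omega) (by omega) (by omega) (n01 j)
  have f11 : ∀ j, k11 j ∈ AltOn (win C (bw 0 M.P.w 0 M.P.h)) :=
    fun j => bw_mono (by omega) (by omega) (by omega) (by omega) (n11 j)
  have b00 : ∀ i : ZMod L.n × Sta, k00 i.1 ∈ AltOn (win C M.WB) :=
    fun i => bw_mono (by omega) (by omega) (by omega) (by omega) (n00 _)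
  have b10 : ∀ i : ZMod L.n × Sta, sh (-L.w, 0) (k10 i.1) ∈ AltOn (win C M.WB) :=
    fun i => sh_bw_mem (n10 _) _ (by simp only; omega) (by simp only; omega)
      (by simp only; omega) (by simp only; omega)
  have b01 : ∀ i : ZMod L.n × Sta, sh (0, -L.h) (k01 (i.1 - 1)) ∈ AltOn (win C M.WB) :=
    fun i => sh_bw_mem (n01 _) _ (by simp only; omega) (by simp only; omega)
      (by simp only; omega) (by simp only; omega)
  have b11 : ∀ i : ZMod L.n × Sta, sh (-L.w, -L.h) (k11 (i.1 - 1)) ∈ AltOn (win C M.WB) :=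
    fun i => sh_bw_mem (n11 _) _ (by simp only; omega) (by simp only; omega)
      (by simp only; omega) (by simp only; omega)
  refine ⟨fun i => k00 i.1 * sh (-L.w, 0) (k10 i.1) * sh (0, -L.h) (k01 (i.1 - 1)) *
    sh (-L.w, -L.h) (k11 (i.1 - 1)), fun i => mul_mem (mul_mem (mul_mem (b00 i) (b10 i)) (b01 i))
      (b11 i), ?_⟩
  rw [M.SF.val_mul M.dWF (z := fun j => k00 j * k10 j * k01 j)
      (fun j => mul_mem (mul_mem (f00 j) (f10 j)) (f01 j)) f11,
    M.SF.val_mul M.dWF (z := fun j => k00 j * k10 j) (fun j => mul_mem (f00 j) (f10 j)) f01,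
    M.SF.val_mul M.dWF f00 f10, M.val_FV d00 n00, M.val_FVq d10 n10, M.val_FVp d01 n01,
    M.val_FVpq d11 n11, ← M.SV.val_mul M.dB b00 b10,
    ← M.SV.val_mul M.dB (fun i => mul_mem (b00 i) (b10 i)) b01,
    ← M.SV.val_mul M.dB (fun i => mul_mem (mul_mem (b00 i) (b10 i)) (b01 i)) b11]

/-- the edge pieces of the faces -/
theorem G_val {gL gR gB gT : ZMod L.n → Equiv.Perm (Om C)}
    (mL : ∀ j, gL j ∈ AltOn (M.P.vS C 0 M.P.s))
    (mR : ∀ j, gR j ∈ AltOn (M.P.vS C (M.P.w - M.P.s) M.P.w))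
    (mB : ∀ j, gB j ∈ AltOn (M.P.hS C 0 M.P.s))
    (mT : ∀ j, gT j ∈ AltOn (M.P.hS C (M.P.h - M.P.s) M.P.h)) :
    M.SF.val (fun j => gL j * gR j * gB j * gT j) =
      M.SP.val (fun i => Geo.gamP M.P (gL i.1) (gR i.1)) *
      M.SQ.val (fun i => Geo.gamQ M.P (gB i.1) (gT (i.1 - 1))) := by
  have : NeZero L.n := ⟨L.n_pos.ne'⟩
  have h1 := M.P.m1; have h2 := M.P.m2; have h3 := M.P.m3; have h4 := M.P.m4
  have h5 := M.P.d0; have hw := M.hw; have hh := M.hh; have h6 := M.P.hst; have h7 := M.P.ht0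
  have h8 := M.P.s0; have h9 := M.P.htd
  have nL : ∀ j, gL j ∈ AltOn (win C (bw 0 M.P.s M.P.t0 (M.P.h - M.P.t0))) := mL
  have nR : ∀ j, gR j ∈ AltOn (win C (bw (M.P.w - M.P.s) M.P.w M.P.t0 (M.P.h - M.P.t0))) := mR
  have nB : ∀ j, gB j ∈ AltOn (win C (bw M.P.t0 (M.P.w - M.P.t0) 0 M.P.s)) := mB
  have nT : ∀ j, gT j ∈ AltOn (win C (bw M.P.t0 (M.P.w - M.P.t0) (M.P.h - M.P.s) M.P.h)) := mT
  have dL : L.Dist (bw 0 M.P.s M.P.t0 (M.P.h - M.P.t0)) := Lev.dist_bw (by omega) (by omega)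
  have dR : L.Dist (bw (M.P.w - M.P.s) M.P.w M.P.t0 (M.P.h - M.P.t0)) :=
    Lev.dist_bw (by omega) (by omega)
  have dB : L.Dist (bw M.P.t0 (M.P.w - M.P.t0) 0 M.P.s) := Lev.dist_bw (by omega) (by omega)
  have dT : L.Dist (bw M.P.t0 (M.P.w - M.P.t0) (M.P.h - M.P.s) M.P.h) :=
    Lev.dist_bw (by omega) (by omega)
  have fL : ∀ j, gL j ∈ AltOn (win C (bw 0 M.P.w 0 M.P.h)) :=
    fun j => bw_mono (by omega) (by omega) (by omega) (by omega) (nL j)
  have fR : ∀ j, gR j ∈ AltOn (win C (bw 0 M.P.w 0 M.P.h)) :=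
    fun j => bw_mono (by omega) (by omega) (by omega) (by omega) (nR j)
  have fB : ∀ j, gB j ∈ AltOn (win C (bw 0 M.P.w 0 M.P.h)) :=
    fun j => bw_mono (by omega) (by omega) (by omega) (by omega) (nB j)
  have fT : ∀ j, gT j ∈ AltOn (win C (bw 0 M.P.w 0 M.P.h)) :=
    fun j => bw_mono (by omega) (by omega) (by omega) (by omega) (nT j)
  have pL : ∀ i : ZMod L.n × Lab, gL i.1 ∈
      AltOn (win C (bw (-M.P.s) M.P.s M.P.t0 (M.P.h - M.P.t0))) :=
    fun i => bw_mono (by omega) (by omega) (by omega) (by omega) (nL _)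
  have pR : ∀ i : ZMod L.n × Lab, sh (-L.w, 0) (gR i.1) ∈
      AltOn (win C (bw (-M.P.s) M.P.s M.P.t0 (M.P.h - M.P.t0))) :=
    fun i => sh_bw_mem (nR _) _ (by simp only; omega) (by simp only; omega)
      (by simp only; omega) (by simp only; omega)
  have pB : ∀ i : ZMod L.n × Lab, gB i.1 ∈
      AltOn (win C (bw M.P.t0 (M.P.w - M.P.t0) (-M.P.s) M.P.s)) :=
    fun i => bw_mono (by omega) (by omega) (by omega) (by omega) (nB _)
  have pT : ∀ i : ZMod L.n × Lab, sh (0, -L.h) (gT (i.1 - 1)) ∈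
      AltOn (win C (bw M.P.t0 (M.P.w - M.P.t0) (-M.P.s) M.P.s)) :=
    fun i => sh_bw_mem (nT _) _ (by simp only; omega) (by simp only; omega)
      (by simp only; omega) (by simp only; omega)
  rw [M.SF.val_mul M.dWF (z := fun j => gL j * gR j * gB j)
      (fun j => mul_mem (mul_mem (fL j) (fR j)) (fB j)) fT,
    M.SF.val_mul M.dWF (z := fun j => gL j * gR j) (fun j => mul_mem (fL j) (fR j)) fB,
    M.SF.val_mul M.dWF fL fR, M.val_FP dL nL, M.val_FPq dR nR, M.val_FQ dB nB,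
    M.val_FQp dT nT, ← M.SP.val_mul M.dWP pL pR, mul_assoc, ← M.SQ.val_mul M.dWQ pB pT]
  simp only [Geo.gamP, Geo.gamQ, hw, hh]

/-- the face families -/
theorem F_val {f gL gR gB gT k00 k10 k01 k11 : ZMod L.n → Equiv.Perm (Om C)}
    (hf : ∀ j, f j ∈ AltOn (win C (bw 0 M.P.w 0 M.P.h)))
    (mL : ∀ j, gL j ∈ AltOn (M.P.vS C 0 M.P.s))
    (mR : ∀ j, gR j ∈ AltOn (M.P.vS C (M.P.w - M.P.s) M.P.w))
    (mB : ∀ j, gB j ∈ AltOn (M.P.hS C 0 M.P.s))
    (mT : ∀ j, gT j ∈ AltOn (M.P.hS C (M.P.h - M.P.s) M.P.h))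
    (m00 : ∀ j, k00 j ∈ AltOn (M.P.c00 C)) (m10 : ∀ j, k10 j ∈ AltOn (M.P.c10 C))
    (m01 : ∀ j, k01 j ∈ AltOn (M.P.c01 C)) (m11 : ∀ j, k11 j ∈ AltOn (M.P.c11 C))
    (h : ∀ j, f j * (gL j * gR j * gB j * gT j) = k00 j * k10 j * k01 j * k11 j) :
    ∃ z : ZMod L.n × Sta → Equiv.Perm (Om C), (∀ i, z i ∈ AltOn (win C M.WB)) ∧
      M.SF.val f = M.SV.val z *
        (M.SQ.val (fun i => Geo.gamQ M.P (gB i.1) (gT (i.1 - 1))))⁻¹ *
        (M.SP.val (fun i => Geo.gamP M.P (gL i.1) (gR i.1)))⁻¹ := by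
  have : NeZero L.n := ⟨L.n_pos.ne'⟩
  have h1 := M.P.m1; have h2 := M.P.m2; have h3 := M.P.m3; have h4 := M.P.m4
  have h5 := M.P.d0; have hw := M.hw; have hh := M.hh; have h6 := M.P.hst; have h7 := M.P.ht0
  have h8 := M.P.s0; have h9 := M.P.htd
  obtain ⟨z, hz, hK⟩ := M.K_val m00 m10 m01 m11
  refine ⟨z, hz, ?_⟩
  have nL : ∀ j, gL j ∈ AltOn (win C (bw 0 M.P.s M.P.t0 (M.P.h - M.P.t0))) := mL
  have nR : ∀ j, gR j ∈ AltOn (win C (bw (M.P.w - M.P.s) M.P.w M.P.t0 (M.P.h - M.P.t0))) := mR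
  have nB : ∀ j, gB j ∈ AltOn (win C (bw M.P.t0 (M.P.w - M.P.t0) 0 M.P.s)) := mB
  have nT : ∀ j, gT j ∈ AltOn (win C (bw M.P.t0 (M.P.w - M.P.t0) (M.P.h - M.P.s) M.P.h)) := mT
  have fL : ∀ j, gL j ∈ AltOn (win C (bw 0 M.P.w 0 M.P.h)) :=
    fun j => bw_mono (by omega) (by omega) (by omega) (by omega) (nL j)
  have fR : ∀ j, gR j ∈ AltOn (win C (bw 0 M.P.w 0 M.P.h)) :=
    fun j => bw_mono (by omega) (by omega) (by omega) (by omega) (nR j)
  have fB : ∀ j, gB j ∈ AltOn (win C (bw 0 M.P.w 0 M.P.h)) :=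
    fun j => bw_mono (by omega) (by omega) (by omega) (by omega) (nB j)
  have fT : ∀ j, gT j ∈ AltOn (win C (bw 0 M.P.w 0 M.P.h)) :=
    fun j => bw_mono (by omega) (by omega) (by omega) (by omega) (nT j)
  have e1 : M.SF.val (fun j => f j * (gL j * gR j * gB j * gT j)) =
      M.SF.val f * M.SF.val (fun j => gL j * gR j * gB j * gT j) :=
    M.SF.val_mul M.dWF hf
      (fun j => mul_mem (mul_mem (mul_mem (fL j) (fR j)) (fB j)) (fT j))
  have e2 : M.SF.val (fun j => f j * (gL j * gR j * gB j * gT j)) = M.SV.val z := by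
    rw [← hK]; congr 1; funext j; exact h j
  rw [M.G_val mL mR mB mT] at e1
  rw [mul_assoc, ← mul_inv_rev, ← e2, e1, mul_inv_cancel_right]

/-- windows of the `P` edges and of the `Q` edges are disjoint modulo the lattice -/
lemma PQ_disj : ∀ v ∈ bw (-M.P.s) M.P.s M.P.t0 (M.P.h - M.P.t0),
    ∀ v' ∈ bw M.P.t0 (M.P.w - M.P.t0) (-M.P.s) M.P.s,
      ¬ (L.w ∣ v.1 - v'.1 ∧ L.h ∣ v.2 - v'.2) := by
  have h1 := M.P.m1; have h2 := M.P.m2; have h3 := M.P.m3; have h4 := M.P.m4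
  have h5 := M.P.d0; have hw := M.hw; have hh := M.hh; have h6 := M.P.hst; have h7 := M.P.ht0
  have h8 := M.P.s0; have h9 := M.P.htd
  intro v hv v' hv' ⟨hd, _⟩
  rw [mem_bw] at hv hv'
  refine not_dvd_of (a := L.w) (b := v'.1 - v.1) ?_ ?_ ?_
  · omega
  · omega
  · rw [← neg_sub]; exact (dvd_neg (a := L.w)).2 hd

/-- `P` values and `Q` values commute -/
lemma PQ_comm {z : ZMod L.n × Lab → Equiv.Perm (Om C)} {z' : ZMod L.n × Lab → Equiv.Perm (Om C)}
    (hz : ∀ i, z i ∈ AltOn (win C (bw (-M.P.s) M.P.s M.P.t0 (M.P.h - M.P.t0))))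
    (hz' : ∀ i, z' i ∈ AltOn (win C (bw M.P.t0 (M.P.w - M.P.t0) (-M.P.s) M.P.s))) :
    Commute (M.SP.val z) (M.SQ.val z') := by
  have : NeZero L.n := ⟨L.n_pos.ne'⟩
  exact M.SP.val_commute M.SQ M.dWP M.dWQ hz hz' M.PQ_disj

lemma famP_mem (a : ZMod L.n × Lab → ZMod 2) (i : ZMod L.n × Lab) :
    M.famP a i ∈ AltOn (win C (bw (-M.P.s) M.P.s M.P.t0 (M.P.h - M.P.t0))) := by
  have h1 := M.P.m1; have h2 := M.P.m2; have h3 := M.P.m3; have h4 := M.P.m4
  have h5 := M.P.d0; have h6 := M.P.hst; have h7 := M.P.ht0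
  have h8 := M.P.s0; have h9 := M.P.htd
  apply (AltOn _).pow_mem
  refine sw_mul_sw_mem M.hc ?_ ?_
  · rw [mem_bw]; dsimp only; omega
  · rw [mem_bw]; dsimp only; omega

lemma famQ_mem (b : ZMod L.n × Lab → ZMod 2) (i : ZMod L.n × Lab) :
    M.famQ b i ∈ AltOn (win C (bw M.P.t0 (M.P.w - M.P.t0) (-M.P.s) M.P.s)) := by
  have h1 := M.P.m1; have h2 := M.P.m2; have h3 := M.P.m3; have h4 := M.P.m4
  have h5 := M.P.d0; have h6 := M.P.hst; have h7 := M.P.ht0
  have h8 := M.P.s0; have h9 := M.P.htd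
  apply (AltOn _).pow_mem
  refine sw_mul_sw_mem M.hc ?_ ?_
  · rw [mem_bw]; dsimp only; omega
  · rw [mem_bw]; dsimp only; omega

/-- (R1y) from the conclusion of the peeling theorem to the parities -/
theorem rep_of_peel {w : T} (hc : w ∈ Subgroup.center T)
    {f : ZMod L.n → Equiv.Perm (Om C)} {eP eQ : ZMod L.n × Lab → Equiv.Perm (Om C)}
    {v : ZMod L.n × Sta → Equiv.Perm (Om C)}
    (hf : ∀ j, f j ∈ AltOn (win C (bw 0 M.P.w 0 M.P.h)))
    (heP : ∀ i, eP i ∈ AltOn (win C (bw (-M.P.s) M.P.s M.P.t0 (M.P.h - M.P.t0))))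
    (heQ : ∀ i, eQ i ∈ AltOn (win C (bw M.P.t0 (M.P.w - M.P.t0) (-M.P.s) M.P.s)))
    (hv : ∀ i, v i ∈ AltOn (win C M.WB))
    (hw1 : w = M.SF.val f * M.SP.val eP * M.SQ.val eQ * M.SV.val v)
    {gL gR gB gT k00 k10 k01 k11 : ZMod L.n → Equiv.Perm (Om C)}
    {lP uP lQ uQ : ZMod L.n → Lab → Equiv.Perm (Om C)}
    (mL : ∀ j, gL j ∈ AltOn (M.P.vS C 0 M.P.s))
    (mR : ∀ j, gR j ∈ AltOn (M.P.vS C (M.P.w - M.P.s) M.P.w))
    (mB : ∀ j, gB j ∈ AltOn (M.P.hS C 0 M.P.s))
    (mT : ∀ j, gT j ∈ AltOn (M.P.hS C (M.P.h - M.P.s) M.P.h))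
    (m00 : ∀ j, k00 j ∈ AltOn (M.P.c00 C)) (m10 : ∀ j, k10 j ∈ AltOn (M.P.c10 C))
    (m01 : ∀ j, k01 j ∈ AltOn (M.P.c01 C)) (m11 : ∀ j, k11 j ∈ AltOn (M.P.c11 C))
    (h : ∀ j, f j * (gL j * gR j * gB j * gT j) = k00 j * k10 j * k01 j * k11 j)
    (mlP : ∀ j l, lP j l ∈ PermOn (M.P.vlo C (-M.P.s) M.P.s))
    (muP : ∀ j l, uP j l ∈ PermOn (M.P.vup C (-M.P.s) M.P.s))
    (mlQ : ∀ j l, lQ j l ∈ PermOn (M.P.hlo C (-M.P.s) M.P.s))
    (muQ : ∀ j l, uQ j l ∈ PermOn (M.P.hup C (-M.P.s) M.P.s))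
    (sP : ∀ j l, sgn (lP j l) = sgn (uP j l)) (sQ : ∀ j l, sgn (lQ j l) = sgn (uQ j l))
    (hP : ∀ j l, oP L j l → (Geo.gamP M.P (gL j) (gR j))⁻¹ * eP (j, l) = lP j l * uP j l)
    (hQ : ∀ j l, oQ L j l →
      (Geo.gamQ M.P (gB j) (gT (j - 1)))⁻¹ * eQ (j, l) = lQ j l * uQ j l) :
    ∃ a b, M.Rep w a b := by
  have : NeZero L.n := ⟨L.n_pos.ne'⟩
  have h1 := M.P.m1; have h2 := M.P.m2; have h3 := M.P.m3; have h4 := M.P.m4
  have h5 := M.P.d0; have h6 := M.P.hst; have h7 := M.P.ht0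
  have h8 := M.P.s0; have h9 := M.P.htd
  obtain ⟨z1, hz1, e1⟩ := M.F_val hf mL mR mB mT m00 m10 m01 m11 h
  -- the edge families after peeling
  have nlP : ∀ i : ZMod L.n × Lab, lP i.1 i.2 ∈
      PermOn (win C (bw (-M.P.s) M.P.s M.P.t0 M.P.t)) := fun i => mlP _ _
  have nuP : ∀ i : ZMod L.n × Lab, uP i.1 i.2 ∈
      PermOn (win C (bw (-M.P.s) M.P.s (M.P.h - M.P.t) (M.P.h - M.P.t0))) := fun i => muP _ _
  have nlQ : ∀ i : ZMod L.n × Lab, lQ i.1 i.2 ∈
      PermOn (win C (bw M.P.t0 M.P.t (-M.P.s) M.P.s)) := fun i => mlQ _ _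
  have nuQ : ∀ i : ZMod L.n × Lab, uQ i.1 i.2 ∈
      PermOn (win C (bw (M.P.w - M.P.t) (M.P.w - M.P.t0) (-M.P.s) M.P.s)) := fun i => muQ _ _
  obtain ⟨zP, hzP, eqP⟩ := M.edgeP_val nlP nuP (fun i => sP i.1 i.2)
  obtain ⟨zQ, hzQ, eqQ⟩ := M.edgeQ_val nlQ nuQ (fun i => sQ i.1 i.2)
  have gP : ∀ i : ZMod L.n × Lab, Geo.gamP M.P (gL i.1) (gR i.1) ∈
      AltOn (win C (bw (-M.P.s) M.P.s M.P.t0 (M.P.h - M.P.t0))) :=
    fun i => Geo.gamP_mem (mL _) (mR _)
  have gQ : ∀ i : ZMod L.n × Lab, Geo.gamQ M.P (gB i.1) (gT (i.1 - 1)) ∈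
      AltOn (win C (bw M.P.t0 (M.P.w - M.P.t0) (-M.P.s) M.P.s)) :=
    fun i => Geo.gamQ_mem (mB _) (mT _)
  have aP : ∀ i : ZMod L.n × Lab, lP i.1 i.2 * uP i.1 i.2 ∈
      AltOn (win C (bw (-M.P.s) M.P.s M.P.t0 (M.P.h - M.P.t0))) := by
    intro i
    have hl : lP i.1 i.2 ∈ PermOn (win C (bw (-M.P.s) M.P.s M.P.t0 (M.P.h - M.P.t0))) := by
      refine PermOn_mono (win_mono ?_) (nlP i)
      intro v hv; rw [mem_bw] at hv ⊢; omega
    have hu : uP i.1 i.2 ∈ PermOn (win C (bw (-M.P.s) M.P.s M.P.t0 (M.P.h - M.P.t0))) := by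
      refine PermOn_mono (win_mono ?_) (nuP i)
      intro v hv; rw [mem_bw] at hv ⊢; omega
    refine ⟨mul_mem hl hu, ?_⟩
    rw [sgn_mul_on hl hu, sP]
    exact Int.units_mul_self _
  have aQ : ∀ i : ZMod L.n × Lab, lQ i.1 i.2 * uQ i.1 i.2 ∈
      AltOn (win C (bw M.P.t0 (M.P.w - M.P.t0) (-M.P.s) M.P.s)) := by
    intro i
    have hl : lQ i.1 i.2 ∈ PermOn (win C (bw M.P.t0 (M.P.w - M.P.t0) (-M.P.s) M.P.s)) := by
      refine PermOn_mono (win_mono ?_) (nlQ i)
      intro v hv; rw [mem_bw] at hv ⊢; omega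
    have hu : uQ i.1 i.2 ∈ PermOn (win C (bw M.P.t0 (M.P.w - M.P.t0) (-M.P.s) M.P.s)) := by
      refine PermOn_mono (win_mono ?_) (nuQ i)
      intro v hv; rw [mem_bw] at hv ⊢; omega
    refine ⟨mul_mem hl hu, ?_⟩
    rw [sgn_mul_on hl hu, sQ]
    exact Int.units_mul_self _
  -- SP (gamP)⁻¹ * SP eP = SP (lP uP)
  have e2 : (M.SP.val (fun i => Geo.gamP M.P (gL i.1) (gR i.1)))⁻¹ * M.SP.val eP =
      M.SP.val (fun i : ZMod L.n × Lab => lP i.1 i.2 * uP i.1 i.2) := by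
    rw [← M.SP.val_inv M.dWP gP, ← M.SP.val_mul M.dWP (fun i => inv_mem (gP i)) heP]
    refine M.SP.val_congr M.dWP (fun i => mul_mem (inv_mem (gP i)) (heP i)) aP ?_
    intro x hx
    exact hP _ _ ⟨x, hx, rfl⟩
  have e3 : (M.SQ.val (fun i => Geo.gamQ M.P (gB i.1) (gT (i.1 - 1))))⁻¹ * M.SQ.val eQ =
      M.SQ.val (fun i : ZMod L.n × Lab => lQ i.1 i.2 * uQ i.1 i.2) := by
    rw [← M.SQ.val_inv M.dWQ gQ, ← M.SQ.val_mul M.dWQ (fun i => inv_mem (gQ i)) heQ]
    refine M.SQ.val_congr M.dWQ (fun i => mul_mem (inv_mem (gQ i)) (heQ i)) aQ ?_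
    intro x hx
    exact hQ _ _ ⟨x, hx, rfl⟩
  have c1 : Commute (M.SP.val (fun i : ZMod L.n × Lab => lP i.1 i.2 * uP i.1 i.2))
      (M.SQ.val (fun i => Geo.gamQ M.P (gB i.1) (gT (i.1 - 1)))) := M.PQ_comm aP gQ
  have c2 : Commute (M.SP.val (M.famP (fun i => (parN (lP i.1 i.2) : ZMod 2))))
      (M.SQ.val (fun i : ZMod L.n × Lab => lQ i.1 i.2 * uQ i.1 i.2)) :=
    M.PQ_comm (M.famP_mem _) aQ
  have c3 : Commute (M.SP.val (M.famP (fun i => (parN (lP i.1 i.2) : ZMod 2))))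
      (M.SQ.val (M.famQ (fun i => (parN (lQ i.1 i.2) : ZMod 2)))) :=
    M.PQ_comm (M.famP_mem _) (M.famQ_mem _)
  set GP := M.SP.val (fun i => Geo.gamP M.P (gL i.1) (gR i.1)) with hGP
  set GQ := M.SQ.val (fun i => Geo.gamQ M.P (gB i.1) (gT (i.1 - 1))) with hGQ
  set A := M.SP.val (fun i : ZMod L.n × Lab => lP i.1 i.2 * uP i.1 i.2) with hA
  set B := M.SQ.val (fun i : ZMod L.n × Lab => lQ i.1 i.2 * uQ i.1 i.2) with hB
  set FP := M.SP.val (M.famP (fun i => (parN (lP i.1 i.2) : ZMod 2))) with hFP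
  set FQ := M.SQ.val (M.famQ (fun i => (parN (lQ i.1 i.2) : ZMod 2))) with hFQ
  have e4 : w = M.SV.val z1 * M.SV.val zP * M.SV.val zQ * (FP * FQ) * M.SV.val v := by
    calc w = M.SF.val f * M.SP.val eP * M.SQ.val eQ * M.SV.val v := hw1
      _ = M.SV.val z1 * GQ⁻¹ * (GP⁻¹ * M.SP.val eP) * M.SQ.val eQ * M.SV.val v := by
          rw [e1]; simp only [mul_assoc]
      _ = M.SV.val z1 * (GQ⁻¹ * A) * M.SQ.val eQ * M.SV.val v := by
          rw [e2]; simp only [mul_assoc]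
      _ = M.SV.val z1 * (A * GQ⁻¹) * M.SQ.val eQ * M.SV.val v := by
          rw [(c1.inv_right).eq]
      _ = M.SV.val z1 * A * (GQ⁻¹ * M.SQ.val eQ) * M.SV.val v := by simp only [mul_assoc]
      _ = M.SV.val z1 * A * B * M.SV.val v := by rw [e3]
      _ = M.SV.val z1 * M.SV.val zP * (FP * B) * M.SV.val v := by
          rw [eqP]; simp only [mul_assoc]
      _ = M.SV.val z1 * M.SV.val zP * (B * FP) * M.SV.val v := by rw [c2.eq]
      _ = M.SV.val z1 * M.SV.val zP * M.SV.val zQ * (FQ * FP) * M.SV.val v := by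
          rw [eqQ]; simp only [mul_assoc]
      _ = _ := by rw [c3.eq]
  refine ⟨fun i => (parN (lP i.1 i.2) : ZMod 2), fun i => (parN (lQ i.1 i.2) : ZMod 2),
    fun i => v i * z1 i * zP i * zQ i, ?_, ?_⟩
  · intro i
    exact mul_mem (mul_mem (mul_mem (hv i) (hz1 i)) (hzP i)) (hzQ i)
  · rw [M.SV.val_mul M.dB (z := fun i => v i * z1 i * zP i)
        (fun i => mul_mem (mul_mem (hv i) (hz1 i)) (hzP i)) hzQ,
      M.SV.val_mul M.dB (z := fun i => v i * z1 i) (fun i => mul_mem (hv i) (hz1 i)) hzP,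
      M.SV.val_mul M.dB hv hz1, Es, ← hFP, ← hFQ]
    have hc' := Subgroup.mem_center_iff.1 hc (M.SV.val v)
    have e5 : M.SV.val v * w * (M.SV.val v)⁻¹ = w := by
      rw [hc', mul_inv_cancel_right]
    rw [← e5]
    conv_lhs => rw [e4]
    simp only [mul_assoc, mul_inv_cancel, mul_one]

/-- (R1) from a decomposition of a central word with zero circulation to the parities -/
theorem DecT.exists_rep {M : Ctx L C q} {w : T} {f : ZMod L.n → Equiv.Perm (Om C)}
    {eP eQ : ZMod L.n × Lab → Equiv.Perm (Om C)} {v : ZMod L.n × Sta → Equiv.Perm (Om C)}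
    (H : M.DecT w f eP eQ v) (hq : q w = 1) (hc : w ∈ Subgroup.center T) (hD : L.D.Nonempty)
    (hk : KFlux.kap M.P.w M.P.s M.P.mx ((f 0)⁻¹ : Equiv.Perm (Om C)) = 0) :
    ∃ a b, M.Rep w a b := by
  obtain ⟨gL, gR, gB, gT, k00, k10, k01, k11, lP, uP, lQ, uQ, _, _, mL, mR, mB, mT, m00, m10,
    m01, m11, h, mlP, muP, mlQ, muQ, sP, sQ, hP, hQ⟩ := H.peel hq hD hk
  exact M.rep_of_peel hc H.hf H.heP H.heQ H.hv H.hw1 mL mR mB mT m00 m10 m01 m11 h mlP muP mlQ
    muQ sP sQ hP hQ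

end Ctx

end Crest.Agent.R189.K
end

-- ▼ part R189/KCirc
section

/-!
# Row 189, part F: the circulation as a function of words at all levels (helper834)

`kap0 w h π` = circulation without the strip parameter.  `AnnEv w h π`: the permutations `π k` of
the boxes `[0,w k) × [0,h k)` are annular with constants independent of `k`.  `AnnEv.add`,
`AnnEv.bdd` are the inputs of `KFin.fg_of_flux`.
-/

set_option autoImplicit false

namespace Crest.Agent.R189.KFlux

open Finset Crest.Agent.R189.K Filter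

section one

variable {C : Type*} [Fintype C] {w h s t D : ℤ} {π : Equiv.Perm ((ℤ × ℤ) × C)}

/-- circulation without strip parameter -/
noncomputable def kap0 (w h : ℤ) (π : (ℤ × ℤ) × C → (ℤ × ℤ) × C) : ℤ :=
  fl π (fun z => w / 2 ≤ z.1.1) (bx C 0 w 0 (h / 2))

theorem kap0_eq {y0 : ℤ} (hA : Ann w h s t D π) (hm : Mid w h s t D (w / 2) y0) :
    kap0 w h π = kap w s (w / 2) π := by
  classical
  obtain ⟨a1, a2, a3, a4, a5, a6, a7⟩ := hm
  unfold kap0 kap phiB fl
  have hsub : bx C 0 w 0 s ⊆ bx C 0 w 0 (h / 2) := by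
    intro z; rw [mem_bx, mem_bx]; omega
  symm
  apply Finset.sum_subset hsub
  intro z hz hz'
  rw [mem_bx] at hz hz'
  have hzb : z ∈ bx C 0 w 0 h := by rw [mem_bx]; omega
  obtain ⟨f1, f2, f3, f4, f5, f6⟩ := hA.facts hzb
  split_ifs <;> omega

omit [Fintype C] in
lemma Mid.mono {D' x0 y0 : ℤ} (h' : Mid w h s t D' x0 y0) (hD : 0 ≤ D) (hD' : D ≤ D') :
    Mid w h s t D x0 y0 :=
  ⟨h'.s0, h'.st, hD, by have := h'.xl; omega, by have := h'.xr; omega,
    by have := h'.yl; omega, by have := h'.yr; omega⟩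

lemma Ann.mono_st {s' t' : ℤ} (hA : Ann w h s t D π) (hs : s ≤ s') (ht : t ≤ t') :
    Ann w h s' t' D π where
  box := hA.box
  dispx := hA.dispx
  dispy := hA.dispy
  midx z hz a b c d := hA.midx z hz (by omega) (by omega) (by omega) (by omega)
  midy z hz a b c d := hA.midy z hz (by omega) (by omega) (by omega) (by omega)

theorem kap0_mul {D' y0 : ℤ} {π' : Equiv.Perm ((ℤ × ℤ) × C)} (hA : Ann w h s t D π)
    (hA' : Ann w h s t D' π') (hD : 0 ≤ D) (hD' : 0 ≤ D')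
    (hm : Mid w h s t (D + D') (w / 2) y0) :
    kap0 w h (π * π' : Equiv.Perm ((ℤ × ℤ) × C)) = kap0 w h π + kap0 w h π' := by
  rw [kap0_eq (hA.mul hA') hm, kap0_eq hA (hm.mono hD (by omega)),
    kap0_eq hA' (hm.mono hD' (by omega)), kap_mul hA hA' hm hD hD']

end one

section bound

variable {C : Type*} [Fintype C] {w h s t D : ℤ} {π : Equiv.Perm (Om C)}

theorem kap0_bound {y0 : ℤ} (hA : Ann w h s t D π) (hm : Mid w h s t D (w / 2) y0) :
    |kap0 w h π| ≤ (2 * D + 1) * s * Fintype.card C := by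
  rw [kap0_eq hA hm]
  exact kap_bound hA hm

end bound

section seq

variable {C : Type*} [Fintype C] {w h : ℕ → ℤ} {π π' : ℕ → Equiv.Perm (Om C)}

/-- uniformly annular for large `k` -/
def AnnEv (w h : ℕ → ℤ) (π : ℕ → Equiv.Perm (Om C)) : Prop :=
  ∃ s t D : ℤ, 0 < s ∧ s ≤ t ∧ 0 ≤ D ∧ ∀ᶠ k in atTop, Ann (w k) (h k) s t D (π k)

omit [Fintype C] in
lemma mid_ev (hw : Tendsto w atTop atTop) (hh : Tendsto h atTop atTop) {s t : ℤ} (D : ℤ)
    (h1 : 0 < s) (h2 : s ≤ t) (h3 : 0 ≤ D) :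
    ∀ᶠ k in atTop, Mid (w k) (h k) s t D (w k / 2) (h k / 2) := by
  have e1 := hw.eventually (eventually_ge_atTop (2 * (t + D) + 2))
  have e2 := hh.eventually (eventually_ge_atTop (2 * (t + D) + 2))
  filter_upwards [e1, e2] with k g1 g2
  exact ⟨h1, h2, h3, by omega, by omega, by omega, by omega⟩

lemma AnnEv.mul (hπ : AnnEv w h π) (hπ' : AnnEv w h π') : AnnEv w h (fun k => π k * π' k) := by
  obtain ⟨s, t, D, h1, h2, h3, h4⟩ := hπ
  obtain ⟨s', t', D', h1', h2', h3', h4'⟩ := hπ'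
  refine ⟨max s s', max t t', D + D', lt_max_of_lt_left h1, max_le_max h2 h2', by omega, ?_⟩
  filter_upwards [h4, h4'] with k g1 g2
  exact (g1.mono_st (le_max_left _ _) (le_max_left _ _)).mul
    (g2.mono_st (le_max_right _ _) (le_max_right _ _))

lemma AnnEv.inv (hπ : AnnEv w h π) : AnnEv w h (fun k => (π k)⁻¹) := by
  obtain ⟨s, t, D, h1, h2, h3, h4⟩ := hπ
  refine ⟨s, t, D, h1, h2, h3, ?_⟩
  filter_upwards [h4] with k g1
  exact g1.inv

/-- additivity for large `k` -/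
theorem AnnEv.add (hw : Tendsto w atTop atTop) (hh : Tendsto h atTop atTop)
    (hπ : AnnEv w h π) (hπ' : AnnEv w h π') :
    ∀ᶠ k in atTop, kap0 (w k) (h k) (π k * π' k : Equiv.Perm (Om C)) =
      kap0 (w k) (h k) (π k) + kap0 (w k) (h k) (π' k) := by
  obtain ⟨s, t, D, h1, h2, h3, h4⟩ := hπ
  obtain ⟨s', t', D', h1', h2', h3', h4'⟩ := hπ'
  have h5 := mid_ev hw hh (D + D') (lt_max_of_lt_left (b := s) (c := s') h1)
    (max_le_max h2 h2') (by omega)
  filter_upwards [h4, h4', h5] with k g1 g2 g3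
  exact kap0_mul (g1.mono_st (le_max_left _ _) (le_max_left _ _))
    (g2.mono_st (le_max_right _ _) (le_max_right _ _)) h3 h3' g3

/-- boundedness for large `k` -/
theorem AnnEv.bdd (hw : Tendsto w atTop atTop) (hh : Tendsto h atTop atTop)
    (hπ : AnnEv w h π) :
    ∃ B : ℤ, ∀ᶠ k in atTop, |kap0 (w k) (h k) (π k)| ≤ B := by
  obtain ⟨s, t, D, h1, h2, h3, h4⟩ := hπ
  refine ⟨(2 * D + 1) * s * Fintype.card C, ?_⟩
  filter_upwards [h4, mid_ev hw hh D h1 h2 h3] with k g1 g2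
  exact kap0_bound g1 g2

end seq

/-! ### words in small generators -/




section words

variable {A C : Type*} [Fintype C]


end words

end Crest.Agent.R189.KFlux
end

-- ▼ part R189/KCnt
section

/-!
# Row 189, part F (kernel), M1: the count (helper260)

* `VCL L a b`: the vertex relation at all corners of the level `L`.
* `Count L`: a normalisation of the right signs by toggles, such that a normalised solution of the
  vertex relation is determined by row `0` at the occurring indices.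
* `countX : Count (xLev ..)`.
* `Ctx.card_le_aux`: at most `|(Lab → ZMod 2)²|` kernel elements are represented.
-/

set_option autoImplicit false
set_option linter.unusedSectionVars false

namespace Crest.Agent.R189.K

open Equiv Equiv.Perm

variable {X Lab Sta C T : Type*} [AddAction (ℤ × ℤ) X] [Fintype C] [DecidableEq C] [Group T]

/-- the vertex relation at all corners -/
def VCL (L : Lev X Lab Sta) (a b : ZMod L.n × Lab → ZMod 2) : Prop :=
  ∀ x ∈ L.D, a (L.dig x, L.sPf (L.st x)) + a (L.dig x - 1, L.sPb (L.st x)) +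
    b (L.dig x, L.sQf (L.st x)) + b (L.dig x, L.lft (L.dig x) (L.st x)) = 0

/-- counting data of a level -/
structure Count (L : Lev X Lab Sta) where
  Nrm : (ZMod L.n × Lab → ZMod 2) → Prop
  ex : ∀ b : ZMod L.n × Lab → ZMod 2, ∃ t : ZMod L.n → ZMod 2,
    Nrm (fun i => b i + t i.1 + t (i.1 - 1))
  inj : ∀ a b a' b' : ZMod L.n × Lab → ZMod 2, VCL L a b → VCL L a' b' → Nrm b → Nrm b' →
    (∀ l, a (0, l) = a' (0, l)) → (∀ l, b (0, l) = b' (0, l)) →
    (∀ x ∈ L.D, a (L.kP x) = a' (L.kP x)) ∧ (∀ x ∈ L.D, b (L.kQ x) = b' (L.kQ x))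

/-- the counting data of the concrete levels -/
def countX {a : ℕ} (ha : 3 ≤ a) (hOK : AllOK a) (m : ℕ) : Count (xLev ha hOK m) where
  Nrm b := Normalz a m (fun j l => b (j, l))
  ex b := by
    obtain ⟨t, _, ht⟩ := exists_normalz a m (by omega) (fun j l => b (j, l))
    exact ⟨t, ht⟩
  inj sP sQ sP' sQ' h h' hn hn' hP hQ := by
    have key : ∀ u v : ZMod (3 * (a + 2 * m)) × Label → ZMod 2, VCL (xLev ha hOK m) u v →
        VCz hOK m (fun j l => u (j, l)) (fun j l => v (j, l)) := by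
      rintro u v h j σ ⟨x, hx, hd, hs⟩
      have h1 := h x hx
      rw [← hd, ← hs]
      exact h1
    have := agreez ha hOK m (key _ _ h) (key _ _ h') hn hn' hP hQ
    refine ⟨fun x hx => ?_, fun x hx => ?_⟩
    · exact (this _ _ ⟨x, hx, rfl, rfl⟩).1
    · exact (this _ _ ⟨x, hx, rfl, rfl⟩).2

variable {L : Lev X Lab Sta} {q : T →* Equiv.Perm (X × C)}

/-- **K7**: the count of represented elements, from R2 - R5 -/
theorem Ctx.card_le_aux (M : Ctx L C q) [Finite Lab] (N : Count L) (K : Set T)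
    (hK : ∀ w ∈ K, ∃ a b, M.Rep w a b)
    (R2 : ∀ w ∈ K, ∀ (a b : ZMod L.n × Lab → ZMod 2), M.Rep w a b → ∀ t : ZMod L.n → ZMod 2,
      M.Rep w a (fun i => b i + t i.1 + t (i.1 - 1)))
    (R4 : ∀ w ∈ K, ∀ (a b : ZMod L.n × Lab → ZMod 2), M.Rep w a b → VCL L a b)
    (R3 : ∀ w ∈ K, ∀ w' ∈ K, ∀ (a b : ZMod L.n × Lab → ZMod 2), M.Rep w a b → M.Rep w' a b →
      w = w')
    (R5 : ∀ w ∈ K, ∀ (a b a' b' : ZMod L.n × Lab → ZMod 2), M.Rep w a b →
      (∀ x ∈ L.D, a (L.kP x) = a' (L.kP x)) → (∀ x ∈ L.D, b (L.kQ x) = b' (L.kQ x)) →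
      M.Rep w a' b') :
    K.Finite ∧ K.ncard ≤ Nat.card ((Lab → ZMod 2) × (Lab → ZMod 2)) := by
  have h1 : ∀ w : K, ∃ ab : (ZMod L.n × Lab → ZMod 2) × (ZMod L.n × Lab → ZMod 2),
      M.Rep w.1 ab.1 ab.2 ∧ N.Nrm ab.2 := by
    rintro ⟨w, hw⟩
    obtain ⟨a, b, h⟩ := hK w hw
    obtain ⟨t, ht⟩ := N.ex b
    exact ⟨(a, _), R2 w hw a b h t, ht⟩
  choose f hf hN using h1
  have hinj : Function.Injective (fun w : K =>
      ((fun l => (f w).1 (0, l), fun l => (f w).2 (0, l)) : (Lab → ZMod 2) × (Lab → ZMod 2))) := by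
    intro w w' he
    simp only [Prod.mk.injEq] at he
    obtain ⟨g1, g2⟩ := N.inj _ _ _ _ (R4 _ w.2 _ _ (hf w)) (R4 _ w'.2 _ _ (hf w')) (hN w) (hN w')
      (fun l => congrFun he.1 l) (fun l => congrFun he.2 l)
    have h2 := R5 _ w.2 _ _ _ _ (hf w) g1 g2
    exact Subtype.ext (R3 _ w.2 _ w'.2 _ _ h2 (hf w'))
  have : Finite K := Finite.of_injective _ hinj
  exact ⟨Set.toFinite K, Nat.card_le_card_of_injective _ hinj⟩

end Crest.Agent.R189.K
end

-- ▼ part R189/KVC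
section

/-!
# Row 189, part F (R4): the vertex condition (helper13)

`Ctx.vertex`: if `w ∈ ker q` is represented by the signs `(a, b)` then at every corner the four
signs add up to zero.
-/

set_option autoImplicit false
set_option linter.unusedSectionVars false

namespace Crest.Agent.R189.K

open Equiv Equiv.Perm
open KFlux (bx mem_bx)

variable {X Lab Sta C T : Type*} [AddAction (ℤ × ℤ) X] [Fintype C] [DecidableEq C] [Group T]

namespace VC

lemma sgn_sw_pow {c0 c1 : C} (h : c0 ≠ c1) (v : ℤ × ℤ) (k : ℕ) :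
    sgn (sw c0 c1 v ^ k) = (-1) ^ k := by
  have hm : sw c0 c1 v ∈ PermOn (win C {v}) := sw_mem_PermOn (by simp)
  induction k with
  | zero => simp
  | succ k ih =>
    rw [pow_succ, sgn_mul_on ((PermOn _).pow_mem hm k) hm, ih, sgn_sw h, pow_succ]

lemma sh_pow (u : ℤ × ℤ) (z : Equiv.Perm (Om C)) (k : ℕ) : sh u (z ^ k) = (sh u z) ^ k :=
  map_pow (shHom u) z k

end VC

namespace Ctx

open VC

variable {L : Lev X Lab Sta} {q : T →* Equiv.Perm (X × C)} (M : Ctx L C q)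

lemma vc_dn_mem : M.dn ∈ PermOn (win C (bw (-M.P.s) M.P.s M.P.t0 (M.P.h - M.P.t0))) := by
  have h1 := M.P.m1; have h2 := M.P.m2; have h3 := M.P.m3; have h4 := M.P.m4
  have h5 := M.P.d0; have h6 := M.P.hst; have h7 := M.P.ht0; have h8 := M.P.s0
  refine sw_mem_PermOn ?_
  rw [mem_bw]
  simp only
  omega

lemma vc_up_mem : M.up ∈ PermOn (win C (bw (-M.P.s) M.P.s M.P.t0 (M.P.h - M.P.t0))) := by
  have h1 := M.P.m1; have h2 := M.P.m2; have h3 := M.P.m3; have h4 := M.P.m4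
  have h5 := M.P.d0; have h6 := M.P.hst; have h7 := M.P.ht0; have h8 := M.P.s0
  refine sw_mem_PermOn ?_
  rw [mem_bw]
  simp only
  omega

lemma vc_lf_mem : M.lf ∈ PermOn (win C (bw M.P.t0 (M.P.w - M.P.t0) (-M.P.s) M.P.s)) := by
  have h1 := M.P.m1; have h2 := M.P.m2; have h3 := M.P.m3; have h4 := M.P.m4
  have h5 := M.P.d0; have h6 := M.P.hst; have h7 := M.P.ht0; have h8 := M.P.s0
  refine sw_mem_PermOn ?_
  rw [mem_bw]
  simp only
  omega

lemma vc_rt_mem : M.rt ∈ PermOn (win C (bw M.P.t0 (M.P.w - M.P.t0) (-M.P.s) M.P.s)) := by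
  have h1 := M.P.m1; have h2 := M.P.m2; have h3 := M.P.m3; have h4 := M.P.m4
  have h5 := M.P.d0; have h6 := M.P.hst; have h7 := M.P.ht0; have h8 := M.P.s0
  refine sw_mem_PermOn ?_
  rw [mem_bw]
  simp only
  omega

lemma vc_famP_alt (a : ZMod L.n × Lab → ZMod 2) (i : ZMod L.n × Lab) :
    M.famP a i ∈ AltOn (win C (bw (-M.P.s) M.P.s M.P.t0 (M.P.h - M.P.t0))) := by
  refine (AltOn _).pow_mem ?_ _
  refine ⟨(PermOn _).mul_mem M.vc_dn_mem M.vc_up_mem, ?_⟩
  rw [sgn_mul_on M.vc_dn_mem M.vc_up_mem, dn, up, sgn_sw M.hc, sgn_sw M.hc]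
  rfl

lemma vc_famQ_alt (b : ZMod L.n × Lab → ZMod 2) (i : ZMod L.n × Lab) :
    M.famQ b i ∈ AltOn (win C (bw M.P.t0 (M.P.w - M.P.t0) (-M.P.s) M.P.s)) := by
  refine (AltOn _).pow_mem ?_ _
  refine ⟨(PermOn _).mul_mem M.vc_lf_mem M.vc_rt_mem, ?_⟩
  rw [sgn_mul_on M.vc_lf_mem M.vc_rt_mem, lf, rt, sgn_sw M.hc, sgn_sw M.hc]
  rfl

lemma vc_sh_up : sh (0, -L.h) M.up = sw M.c0 M.c1 (0, -M.P.t0 - 1) := by
  rw [up, sh_sw]
  have hh := M.hh
  congr 1
  ext
  · simp
  · simp only [Prod.mk_add_mk]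
    omega

lemma vc_sh_rt : sh (-L.w, 0) M.rt = sw M.c0 M.c1 (-M.P.t0 - 1, 0) := by
  rw [rt, sh_sw]
  have hw := M.hw
  congr 1
  ext
  · simp only [Prod.mk_add_mk]
    omega
  · simp

lemma vc_dn_memV : sw M.c0 M.c1 (0, M.P.t0) ∈ PermOn (win C M.WB) := by
  have h5 := M.P.d0; have h6 := M.P.hst; have h7 := M.P.ht0; have h8 := M.P.s0
  refine sw_mem_PermOn ?_
  rw [mem_bw]
  simp only
  omega

lemma vc_up_memV : sw M.c0 M.c1 (0, -M.P.t0 - 1) ∈ PermOn (win C M.WB) := by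
  have h5 := M.P.d0; have h6 := M.P.hst; have h7 := M.P.ht0; have h8 := M.P.s0
  refine sw_mem_PermOn ?_
  rw [mem_bw]
  simp only
  omega

lemma vc_lf_memV : sw M.c0 M.c1 (M.P.t0, 0) ∈ PermOn (win C M.WB) := by
  have h5 := M.P.d0; have h6 := M.P.hst; have h7 := M.P.ht0; have h8 := M.P.s0
  refine sw_mem_PermOn ?_
  rw [mem_bw]
  simp only
  omega

lemma vc_rt_memV : sw M.c0 M.c1 (-M.P.t0 - 1, 0) ∈ PermOn (win C M.WB) := by
  have h5 := M.P.d0; have h6 := M.P.hst; have h7 := M.P.ht0; have h8 := M.P.s0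
  refine sw_mem_PermOn ?_
  rw [mem_bw]
  simp only
  omega

lemma vc_rv_famP_aux (a : ZMod L.n × Lab → ZMod 2) :
    rv L L.kP (M.famP a) = rv L L.kV (fun i =>
      sw M.c0 M.c1 (0, M.P.t0) ^ (a (i.1, L.sPf i.2)).val *
        sw M.c0 M.c1 (0, -M.P.t0 - 1) ^ (a (i.1 - 1, L.sPb i.2)).val) := by
  have e : M.famP a = fun i => M.dn ^ (a i).val * M.up ^ (a i).val := by
    funext i
    exact (sw_commute _ _).mul_pow _
  rw [e, rv_mul M.dWP (fun i => (PermOn _).pow_mem M.vc_dn_mem _)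
    (fun i => (PermOn _).pow_mem M.vc_up_mem _),
    rv_PV M.dWP (fun i => (PermOn _).pow_mem M.vc_dn_mem _),
    rv_PVp M.dWP (fun i => (PermOn _).pow_mem M.vc_up_mem _),
    rv_mul M.dB (fun i => (PermOn _).pow_mem M.vc_dn_memV _)
      (fun i => (PermOn _).pow_mem M.vc_up_memV _)]
  simp only [sh_pow, vc_sh_up]
  rfl

lemma vc_rv_famQ_aux (b : ZMod L.n × Lab → ZMod 2) :
    rv L L.kQ (M.famQ b) = rv L L.kV (fun i =>
      sw M.c0 M.c1 (M.P.t0, 0) ^ (b (i.1, L.sQf i.2)).val *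
        sw M.c0 M.c1 (-M.P.t0 - 1, 0) ^ (b (i.1, L.lft i.1 i.2)).val) := by
  have e : M.famQ b = fun i => M.lf ^ (b i).val * M.rt ^ (b i).val := by
    funext i
    exact (sw_commute _ _).mul_pow _
  rw [e, rv_mul M.dWQ (fun i => (PermOn _).pow_mem M.vc_lf_mem _)
    (fun i => (PermOn _).pow_mem M.vc_rt_mem _),
    rv_QV M.dWQ (fun i => (PermOn _).pow_mem M.vc_lf_mem _),
    rv_QVq M.dWQ (fun i => (PermOn _).pow_mem M.vc_rt_mem _),
    rv_mul M.dB (fun i => (PermOn _).pow_mem M.vc_lf_memV _)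
      (fun i => (PermOn _).pow_mem M.vc_rt_memV _)]
  simp only [sh_pow, vc_sh_rt]
  rfl

/-- (R4) the vertex condition -/
theorem vertex [Finite Lab] [Finite Sta] {w : T} (hq : q w = 1)
    {a b : ZMod L.n × Lab → ZMod 2} (h : M.Rep w a b) {x : X} (hx : x ∈ L.D) :
    a (L.dig x, L.sPf (L.st x)) + a (L.dig x - 1, L.sPb (L.st x)) +
      b (L.dig x, L.sQf (L.st x)) + b (L.dig x, L.lft (L.dig x) (L.st x)) = 0 := by
  have : NeZero L.n := ⟨L.n_pos.ne'⟩
  obtain ⟨z, hz, rfl⟩ := h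
  rw [map_mul, Es, map_mul, M.SV.q_val M.dB hz, M.SP.q_val M.dWP (M.vc_famP_alt a),
    M.SQ.q_val M.dWQ (M.vc_famQ_alt b), M.vc_rv_famP_aux, M.vc_rv_famQ_aux] at hq
  have hP : ∀ i : ZMod L.n × Sta, sw M.c0 M.c1 (0, M.P.t0) ^ (a (i.1, L.sPf i.2)).val *
      sw M.c0 M.c1 (0, -M.P.t0 - 1) ^ (a (i.1 - 1, L.sPb i.2)).val ∈ PermOn (win C M.WB) :=
    fun i => (PermOn _).mul_mem ((PermOn _).pow_mem M.vc_dn_memV _)
      ((PermOn _).pow_mem M.vc_up_memV _)
  have hQ : ∀ i : ZMod L.n × Sta, sw M.c0 M.c1 (M.P.t0, 0) ^ (b (i.1, L.sQf i.2)).val *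
      sw M.c0 M.c1 (-M.P.t0 - 1, 0) ^ (b (i.1, L.lft i.1 i.2)).val ∈ PermOn (win C M.WB) :=
    fun i => (PermOn _).mul_mem ((PermOn _).pow_mem M.vc_lf_memV _)
      ((PermOn _).pow_mem M.vc_rt_memV _)
  rw [← rv_mul M.dB hP hQ,
    ← rv_mul M.dB (fun i => (hz i).1) (fun i => (PermOn _).mul_mem (hP i) (hQ i)),
    ← rv_one (L := L) (κ := L.kV)] at hq
  have h1 := rv_inj M.dB
    (fun i => (PermOn _).mul_mem (hz i).1 ((PermOn _).mul_mem (hP i) (hQ i)))
    (fun i => (PermOn _).one_mem) hq hx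
  have h2 := congrArg sgn h1
  simp only [Lev.kV] at h2
  rw [sgn_mul_on (hz _).1 ((PermOn _).mul_mem (hP (L.dig x, L.st x)) (hQ (L.dig x, L.st x))),
    (hz _).2, one_mul, sgn_mul_on (hP (L.dig x, L.st x)) (hQ (L.dig x, L.st x)),
    sgn_mul_on ((PermOn _).pow_mem M.vc_dn_memV _) ((PermOn _).pow_mem M.vc_up_memV _),
    sgn_mul_on ((PermOn _).pow_mem M.vc_lf_memV _) ((PermOn _).pow_mem M.vc_rt_memV _),
    sgn_sw_pow M.hc, sgn_sw_pow M.hc, sgn_sw_pow M.hc, sgn_sw_pow M.hc, sgn_one,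
    ← pow_add, ← pow_add, ← pow_add] at h2
  simp only at h2
  have h3 : Even ((a (L.dig x, L.sPf (L.st x))).val + (a (L.dig x - 1, L.sPb (L.st x))).val +
      ((b (L.dig x, L.sQf (L.st x))).val + (b (L.dig x, L.lft (L.dig x) (L.st x))).val)) := by
    rw [neg_one_pow_eq_one_iff_even] at h2
    · exact h2
    · decide
  have h4 := (ZMod.natCast_eq_zero_iff_even).2 h3
  push_cast at h4
  simp only [ZMod.natCast_val, ZMod.cast_id', id] at h4
  rw [← h4]
  ring

end Ctx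

end Crest.Agent.R189.K
end

-- ▼ part R189/KTog

/-!
# Row 189, part F (K5): the toggle of a face (helper686)

`tw a b A`: the permutation of `Om C` exchanging the colours `a`, `b` at the positions of `A`.
`fam J A`: the raw family `i ↦ tw a b A` for `J i`, `1` otherwise.

`toggle_mem`: the product of the `Q`-values of the two-spot permutation at the digits in `J` and
in `J + 1` lies in the range of the `V`-sections.  `Ctx.rep_toggle` is (R2).
-/

set_option autoImplicit false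

namespace Crest.Agent.R189.K.Tog

open Equiv Equiv.Perm

section tw

variable {C : Type*} [DecidableEq C]

/-- exchange the colours `a` and `b` at the positions of `A` -/
def tw (a b : C) (A : Finset (ℤ × ℤ)) : Equiv.Perm (Om C) where
  toFun p := if p.1 ∈ A then (p.1, swap a b p.2) else p
  invFun p := if p.1 ∈ A then (p.1, swap a b p.2) else p
  left_inv p := by
    by_cases h : p.1 ∈ A <;> simp [h]
  right_inv p := by
    by_cases h : p.1 ∈ A <;> simp [h]

variable (a b : C)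

theorem tw_apply (A : Finset (ℤ × ℤ)) (p : Om C) :
    tw a b A p = if p.1 ∈ A then (p.1, swap a b p.2) else p := rfl

theorem tw_mul (A B : Finset (ℤ × ℤ)) : tw a b A * tw a b B = tw a b (symmDiff A B) := by
  ext1 p
  rw [Equiv.Perm.mul_apply]
  simp only [tw_apply, Finset.mem_symmDiff]
  by_cases hA : p.1 ∈ A <;> by_cases hB : p.1 ∈ B <;> simp [hA, hB]

theorem tw_empty : tw a b ∅ = 1 := by
  ext1 p
  simp [tw_apply]

theorem tw_mul_disj {A B : Finset (ℤ × ℤ)} (h : Disjoint A B) :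
    tw a b A * tw a b B = tw a b (A ∪ B) := by
  rw [tw_mul, h.symmDiff_eq_sup]; rfl

theorem tw_sq (A : Finset (ℤ × ℤ)) : tw a b A * tw a b A = 1 := by
  rw [tw_mul, symmDiff_self]; exact tw_empty a b

theorem tw_inv (A : Finset (ℤ × ℤ)) : (tw a b A)⁻¹ = tw a b A :=
  inv_eq_of_mul_eq_one_left (tw_sq a b A)

theorem tw_singleton (v : ℤ × ℤ) : tw a b {v} = swap (v, a) (v, b) := by
  ext1 p
  obtain ⟨u, c⟩ := p
  rw [tw_apply, swap_apply_def]
  by_cases h : u = v
  · subst h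
    simp only [Finset.mem_singleton, if_true]
    rw [swap_apply_def]
    split_ifs <;> simp_all
  · rw [if_neg (by simpa using h), swap_apply_of_ne_of_ne] <;>
      (intro e; exact h (congrArg Prod.fst e))


theorem sh_tw (u : ℤ × ℤ) (A : Finset (ℤ × ℤ)) :
    sh u (tw a b A) = tw a b (A.image (fun v => v + u)) := by
  ext1 p
  have h : p.1 ∈ A.image (fun v => v + u) ↔ p.1 - u ∈ A := by
    rw [Finset.mem_image]
    constructor
    · rintro ⟨v, hv, e⟩; rw [← e]; simpa using hv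
    · intro h; exact ⟨_, h, by simp⟩
  rw [sh_apply, tw_apply, tw_apply]
  by_cases hp : p.1 - u ∈ A
  · rw [if_pos hp, if_pos (h.2 hp)]; simp
  · rw [if_neg hp, if_neg (fun h' => hp (h.1 h'))]; simp

variable [Fintype C]

theorem tw_mem_PermOn {A W : Finset (ℤ × ℤ)} (h : A ⊆ W) : tw a b A ∈ PermOn (win C W) := by
  intro p hp
  rw [tw_apply, if_neg]
  intro h'
  exact hp (by rw [mem_win]; exact h h')

variable {a b}

theorem sgn_tw (hab : a ≠ b) (A : Finset (ℤ × ℤ)) : sgn (tw a b A) = (-1) ^ A.card := by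
  induction A using Finset.induction_on with
  | empty => rw [tw_empty]; simp
  | @insert v A hv ih =>
    have hd : Disjoint ({v} : Finset (ℤ × ℤ)) A := Finset.disjoint_singleton_left.mpr hv
    rw [Finset.insert_eq, ← tw_mul_disj a b hd,
      sgn_mul (tw_mem_PermOn a b (Finset.Subset.refl _)) (tw_mem_PermOn a b (Finset.Subset.refl _)),
      ih, tw_singleton, sgn_swap (by simpa using hab), Finset.card_union_of_disjoint hd,
      Finset.card_singleton, pow_add, pow_one]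

theorem tw_mem_AltOn (hab : a ≠ b) {A W : Finset (ℤ × ℤ)} (h : A ⊆ W) (he : Even A.card) :
    tw a b A ∈ AltOn (win C W) :=
  ⟨tw_mem_PermOn a b h, by rw [sgn_tw hab, he.neg_one_pow]⟩

end tw

section fam

variable {X Lab Sta C : Type*} [AddAction (ℤ × ℤ) X] [Fintype C] [DecidableEq C]
variable {ι ι' : Type*} {T : Type*} [Group T]
variable {L : Lev X Lab Sta} {q : T →* Equiv.Perm (X × C)} {κ : X → ι} {κ' : X → ι'}

open Classical in
/-- the raw family `tw a b A` at the indices with `J i`, `1` elsewhere -/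
noncomputable def fam (a b : C) (J : ι → Prop) (A : Finset (ℤ × ℤ)) : ι → Equiv.Perm (Om C) :=
  fun i => if J i then tw a b A else 1

variable {a b : C} {J : ι → Prop} {A B W : Finset (ℤ × ℤ)}

theorem fam_mem (hab : a ≠ b) (h : A ⊆ W) (he : Even A.card) (i : ι) :
    fam a b J A i ∈ AltOn (win C W) := by
  unfold fam
  split_ifs
  · exact tw_mem_AltOn hab h he
  · exact (AltOn _).one_mem

omit [Fintype C] in
theorem fam_mul (A B : Finset (ℤ × ℤ)) :
    (fun i => fam a b J A i * fam a b J B i) = fam a b J (symmDiff A B) := by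
  funext i
  unfold fam
  split_ifs
  · exact tw_mul a b A B
  · exact one_mul 1

variable [Finite ι] [Finite ι']

theorem val_fam_symmDiff (S : SecSys L C q κ) (hab : a ≠ b) (hW : L.Dist W) (hA : A ⊆ W)
    (hB : B ⊆ W) (eA : Even A.card) (eB : Even B.card) :
    S.val (fam a b J (symmDiff A B)) = S.val (fam a b J A) * S.val (fam a b J B) := by
  rw [← fam_mul, S.val_mul hW (fam_mem hab hA eA) (fam_mem hab hB eB)]


theorem val_fam_inv (S : SecSys L C q κ) (hab : a ≠ b) (hW : L.Dist W) (hA : A ⊆ W)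
    (eA : Even A.card) : (S.val (fam a b J A))⁻¹ = S.val (fam a b J A) := by
  rw [← S.val_inv hW (fam_mem hab hA eA)]
  congr 1
  funext i
  unfold fam
  split_ifs
  · exact tw_inv a b A
  · exact inv_one

/-- change of kind and base point for the families `fam` -/
theorem val_fam_move (S : SecSys L C q κ) (S' : SecSys L C q κ') (hab : a ≠ b) (hA : L.Dist A)
    (eA : Even A.card) (u : ℤ × ℤ) (hu : L.w ∣ u.1 ∧ L.h ∣ u.2) (ρ : ι' → ι)
    (hρ : ∀ x ∈ L.D, ρ (κ' (u +ᵥ x)) = κ x) {J' : ι' → Prop} (hJ : ∀ i', J' i' ↔ J (ρ i'))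
    {A' : Finset (ℤ × ℤ)} (hA' : A' = A.image (fun v => v + -u)) :
    S.val (fam a b J A) = S'.val (fam a b J' A') := by
  subst hA'
  rw [S.val_move S' hA u hu ρ hρ (fam_mem hab (Finset.Subset.refl A) eA)]
  congr 1
  funext i'
  unfold fam
  by_cases h : J (ρ i')
  · rw [if_pos h, if_pos ((hJ i').2 h), sh_tw]
  · rw [if_neg h, if_neg (fun h' => h ((hJ i').1 h')), sh_one]

theorem val_mem_range (S : SecSys L C q κ) (hW : L.Dist W) {z : ι → Equiv.Perm (Om C)}
    (hz : ∀ i, z i ∈ AltOn (win C W)) : S.val z ∈ (S.s W hW).range :=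
  ⟨_, (S.val_eq hW hz).symm⟩


end fam

section toggle

variable {X Lab Sta C : Type*} [AddAction (ℤ × ℤ) X] [Fintype C] [DecidableEq C]
variable {T : Type*} [Group T] {L : Lev X Lab Sta} {q : T →* Equiv.Perm (X × C)}
variable [Finite Lab] [Finite Sta]

/-- card of an explicit pair of positions -/
theorem even_pair {v v' : ℤ × ℤ} (h : v ≠ v') : Even ({v, v'} : Finset (ℤ × ℤ)).card := by
  rw [Finset.card_pair h]; decide

omit [Finite Lab] [Finite Sta] in
theorem finite_zmod_lev (L : Lev X Lab Sta) : Finite (ZMod L.n) := by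
  have : NeZero L.n := ⟨L.n_pos.ne'⟩
  infer_instance

theorem vz {X : Type*} [AddAction (ℤ × ℤ) X] (x : X) : ((0, 0) : ℤ × ℤ) +ᵥ x = x := zero_vadd _ x

theorem pair_sub {v v' : ℤ × ℤ} {W : Finset (ℤ × ℤ)} (h : v ∈ W) (h' : v' ∈ W) :
    ({v, v'} : Finset (ℤ × ℤ)) ⊆ W := by
  intro u hu
  rw [Finset.mem_insert, Finset.mem_singleton] at hu
  rcases hu with rfl | rfl <;> assumption

theorem image_pair {v v' u w w' : ℤ × ℤ} (h : w = v + u) (h' : w' = v' + u) :
    ({w, w'} : Finset (ℤ × ℤ)) = ({v, v'} : Finset (ℤ × ℤ)).image (fun w => w + u) := by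
  rw [Finset.image_insert, Finset.image_singleton, h, h']

theorem padd {x y x1 y1 x2 y2 : ℤ} (h : x = x1 - x2) (h' : y = y1 - y2) :
    ((x, y) : ℤ × ℤ) = (x1, y1) + -(x2, y2) := by
  rw [h, h']
  ext <;> simp [sub_eq_add_neg]

section regroup
variable {ι : Type*} [Finite ι] {κ : X → ι}

omit [Finite Lab] [Finite Sta] in
theorem val_fam_comm (S : SecSys L C q κ) {a b : C} {J : ι → Prop} (hab : a ≠ b)
    {A B W : Finset (ℤ × ℤ)} (hW : L.Dist W) (hA : A ⊆ W) (hB : B ⊆ W) (eA : Even A.card)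
    (eB : Even B.card) :
    S.val (fam a b J A) * S.val (fam a b J B) = S.val (fam a b J B) * S.val (fam a b J A) := by
  rw [← val_fam_symmDiff S hab hW hA hB eA eB, ← val_fam_symmDiff S hab hW hB hA eB eA,
    symmDiff_comm]

omit [Finite Lab] [Finite Sta] in
theorem regroup (S : SecSys L C q κ) {a b : C} {J : ι → Prop} (hab : a ≠ b)
    {W : Finset (ℤ × ℤ)} (hW : L.Dist W) {p1 p2 p3 p4 : ℤ × ℤ} (m1 : p1 ∈ W) (m2 : p2 ∈ W)
    (m3 : p3 ∈ W) (m4 : p4 ∈ W) (h12 : p1 ≠ p2) (h13 : p1 ≠ p3) (h14 : p1 ≠ p4) (h23 : p2 ≠ p3)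
    (h24 : p2 ≠ p4) (h34 : p3 ≠ p4) :
    S.val (fam a b J {p1, p2}) * S.val (fam a b J {p3, p4}) =
      S.val (fam a b J {p1, p3}) * S.val (fam a b J {p2, p4}) := by
  rw [← val_fam_symmDiff S hab hW (pair_sub m1 m2) (pair_sub m3 m4) (even_pair h12)
    (even_pair h34), ← val_fam_symmDiff S hab hW (pair_sub m1 m3) (pair_sub m2 m4)
    (even_pair h13) (even_pair h24)]
  congr 2
  ext1 x
  simp only [Finset.mem_symmDiff, Finset.mem_insert, Finset.mem_singleton, not_or]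
  by_cases e1 : x = p1
  · subst e1; simp [h12, h13, h14]
  · by_cases e2 : x = p2
    · subst e2; simp [h12.symm, h23, h24]
    · by_cases e3 : x = p3
      · subst e3; simp [h13.symm, h23.symm, h34]
      · by_cases e4 : x = p4
        · subst e4; simp [h14.symm, h24.symm, h34.symm]
        · simp [e1, e2, e3, e4]
end regroup

/-- **the toggle of the faces with digit in `J`** -/
theorem toggle_mem (SF : SecSys L C q L.dig) (SP : SecSys L C q L.kP) (SQ : SecSys L C q L.kQ)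
    (SV : SecSys L C q L.kV) {a b : C} (hab : a ≠ b) {t0 t : ℤ} (h0 : 1 ≤ t0) (h1 : t0 + 1 ≤ t)
    (hw : 2 * t ≤ L.w) (hh : 2 * t ≤ L.h) (hWV : L.Dist (WV t)) (J : ZMod L.n → Prop) :
    SQ.val (fam a b (fun i => J i.1) {(t0, 0), (L.w - 1 - t0, 0)}) *
      SQ.val (fam a b (fun i => J (i.1 - 1)) {(t0, 0), (L.w - 1 - t0, 0)}) ∈
      (SV.s (WV t) hWV).range := by
  classical
  have := finite_zmod_lev L
  have hWF : L.Dist L.WF := Lev.dist_WF
  have hWP : L.Dist (L.WP 1 t0) := Lev.dist_WP (by omega) (by omega)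
  have hWQ : L.Dist (L.WQ 1 t0) := Lev.dist_WQ (by omega) (by omega)
  -- memberships
  have mF : ∀ x y : ℤ, 0 ≤ x → x < L.w → 0 ≤ y → y < L.h → (x, y) ∈ L.WF := by
    intro x y g1 g2 g3 g4
    rw [Lev.mem_WF]; exact ⟨⟨g1, g2⟩, ⟨g3, g4⟩⟩
  have mP : ∀ x y : ℤ, -1 ≤ x → x < 1 → t0 ≤ y → y < L.h - t0 → (x, y) ∈ L.WP 1 t0 := by
    intro x y g1 g2 g3 g4
    rw [Lev.mem_WP]; exact ⟨⟨g1, g2⟩, ⟨g3, g4⟩⟩
  have mQ : ∀ x y : ℤ, t0 ≤ x → x < L.w - t0 → -1 ≤ y → y < 1 → (x, y) ∈ L.WQ 1 t0 := by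
    intro x y g1 g2 g3 g4
    rw [Lev.mem_WQ]; exact ⟨⟨g1, g2⟩, ⟨g3, g4⟩⟩
  have mV : ∀ x y : ℤ, -t ≤ x → x < t → -t ≤ y → y < t → (x, y) ∈ WV t := by
    intro x y g1 g2 g3 g4
    rw [mem_WV]; exact ⟨⟨g1, g2⟩, ⟨g3, g4⟩⟩
  have ne1 : ∀ {x y x' y' : ℤ}, x ≠ x' → ((x, y) : ℤ × ℤ) ≠ (x', y') := by
    intro x y x' y' h e; exact h (congrArg Prod.fst e)
  have ne2 : ∀ {x y x' y' : ℤ}, y ≠ y' → ((x, y) : ℤ × ℤ) ≠ (x', y') := by
    intro x y x' y' h e; exact h (congrArg Prod.snd e)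
  -- the sides
  have eL : SF.val (fam a b (fun i => J i) {(0, t0), (0, L.h - 1 - t0)}) =
      SP.val (fam a b (fun i => J i.1) {(0, t0), (0, L.h - 1 - t0)}) := by
    apply val_fam_move SF SP hab (hWF.mono (pair_sub (mF _ _ (by omega) (by omega) (by omega)
      (by omega)) (mF _ _ (by omega) (by omega) (by omega) (by omega))))
      (even_pair (ne2 (by omega))) (0, 0) ⟨by simp, by simp⟩ Prod.fst
    · intro x hx; show L.dig _ = L.dig x; rw [vz]
    · intro i; rfl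
    · exact image_pair (padd (by omega) (by omega)) (padd (by omega) (by omega))
  have eR : SF.val (fam a b (fun i => J i) {(L.w - 1, t0), (L.w - 1, L.h - 1 - t0)}) =
      SP.val (fam a b (fun i => J i.1) {(-1, t0), (-1, L.h - 1 - t0)}) := by
    apply val_fam_move SF SP hab (hWF.mono (pair_sub (mF _ _ (by omega) (by omega) (by omega)
      (by omega)) (mF _ _ (by omega) (by omega) (by omega) (by omega))))
      (even_pair (ne2 (by omega))) (L.w, 0) ⟨by simp, by simp⟩ Prod.fst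
    · intro x hx; exact L.dig_q x hx
    · intro i; rfl
    · exact image_pair (padd (by omega) (by omega)) (padd (by omega) (by omega))
  have eB : SF.val (fam a b (fun i => J i) {(t0, 0), (L.w - 1 - t0, 0)}) =
      SQ.val (fam a b (fun i => J i.1) {(t0, 0), (L.w - 1 - t0, 0)}) := by
    apply val_fam_move SF SQ hab (hWF.mono (pair_sub (mF _ _ (by omega) (by omega) (by omega)
      (by omega)) (mF _ _ (by omega) (by omega) (by omega) (by omega))))
      (even_pair (ne1 (by omega))) (0, 0) ⟨by simp, by simp⟩ Prod.fst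
    · intro x hx; show L.dig _ = L.dig x; rw [vz]
    · intro i; rfl
    · exact image_pair (padd (by omega) (by omega)) (padd (by omega) (by omega))
  have eT : SF.val (fam a b (fun i => J i) {(t0, L.h - 1), (L.w - 1 - t0, L.h - 1)}) =
      SQ.val (fam a b (fun i => J (i.1 - 1)) {(t0, -1), (L.w - 1 - t0, -1)}) := by
    apply val_fam_move SF SQ hab (hWF.mono (pair_sub (mF _ _ (by omega) (by omega) (by omega)
      (by omega)) (mF _ _ (by omega) (by omega) (by omega) (by omega))))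
      (even_pair (ne1 (by omega))) (0, L.h) ⟨by simp, by simp⟩ (fun i => i.1 - 1)
    · intro x hx
      show L.dig _ - 1 = L.dig x
      rw [L.dig_p x hx]; ring
    · intro i; rfl
    · exact image_pair (padd (by omega) (by omega)) (padd (by omega) (by omega))
  -- the corners
  have kBL : SF.val (fam a b (fun i => J i) {(0, t0), (t0, 0)}) ∈ (SV.s (WV t) hWV).range := by
    rw [val_fam_move SF SV hab (hWF.mono (pair_sub (mF _ _ (by omega) (by omega) (by omega)
      (by omega)) (mF _ _ (by omega) (by omega) (by omega) (by omega))))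
      (even_pair (ne1 (by omega))) (0, 0) ⟨by simp, by simp⟩ Prod.fst
      (J' := fun i => J i.1) (A' := {(0, t0), (t0, 0)})
      (by intro x hx; show L.dig _ = L.dig x; rw [vz]) (by intro i; rfl) (image_pair (padd (by omega) (by omega)) (padd (by omega) (by omega)))]
    exact val_mem_range SV hWV (fam_mem hab (pair_sub (mV _ _ (by omega) (by omega) (by omega)
      (by omega)) (mV _ _ (by omega) (by omega) (by omega) (by omega)))
      (even_pair (ne1 (by omega))))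
  have kBR : SF.val (fam a b (fun i => J i) {(L.w - 1, t0), (L.w - 1 - t0, 0)}) ∈
      (SV.s (WV t) hWV).range := by
    rw [val_fam_move SF SV hab (hWF.mono (pair_sub (mF _ _ (by omega) (by omega) (by omega)
      (by omega)) (mF _ _ (by omega) (by omega) (by omega) (by omega))))
      (even_pair (ne1 (by omega))) (L.w, 0) ⟨by simp, by simp⟩ Prod.fst
      (J' := fun i => J i.1) (A' := {(-1, t0), (-1 - t0, 0)})
      (by intro x hx; exact L.dig_q x hx) (by intro i; rfl)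
      (image_pair (padd (by omega) (by omega)) (padd (by omega) (by omega)))]
    exact val_mem_range SV hWV (fam_mem hab (pair_sub (mV _ _ (by omega) (by omega) (by omega)
      (by omega)) (mV _ _ (by omega) (by omega) (by omega) (by omega)))
      (even_pair (ne1 (by omega))))
  have kTL : SF.val (fam a b (fun i => J i) {(0, L.h - 1 - t0), (t0, L.h - 1)}) ∈
      (SV.s (WV t) hWV).range := by
    rw [val_fam_move SF SV hab (hWF.mono (pair_sub (mF _ _ (by omega) (by omega) (by omega)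
      (by omega)) (mF _ _ (by omega) (by omega) (by omega) (by omega))))
      (even_pair (ne1 (by omega))) (0, L.h) ⟨by simp, by simp⟩ (fun i => i.1 - 1)
      (J' := fun i => J (i.1 - 1)) (A' := {(0, -1 - t0), (t0, -1)})
      (by
        intro x hx
        show L.dig _ - 1 = L.dig x
        rw [L.dig_p x hx]; ring) (by intro i; rfl)
      (image_pair (padd (by omega) (by omega)) (padd (by omega) (by omega)))]
    exact val_mem_range SV hWV (fam_mem hab (pair_sub (mV _ _ (by omega) (by omega) (by omega)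
      (by omega)) (mV _ _ (by omega) (by omega) (by omega) (by omega)))
      (even_pair (ne1 (by omega))))
  have kTR : SF.val (fam a b (fun i => J i) {(L.w - 1, L.h - 1 - t0), (L.w - 1 - t0, L.h - 1)}) ∈
      (SV.s (WV t) hWV).range := by
    rw [val_fam_move SF SV hab (hWF.mono (pair_sub (mF _ _ (by omega) (by omega) (by omega)
      (by omega)) (mF _ _ (by omega) (by omega) (by omega) (by omega))))
      (even_pair (ne1 (by omega))) (L.w, L.h) ⟨by simp, by simp⟩ (fun i => i.1 - 1)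
      (J' := fun i => J (i.1 - 1)) (A' := {(-1, -1 - t0), (-1 - t0, -1)})
      (by
        intro x hx
        show L.dig _ - 1 = L.dig x
        have e : ((L.w, L.h) : ℤ × ℤ) = (L.w, 0) + (0, L.h) := by simp
        rw [e, ← vadd_vadd, L.dig_q _ (Lev.up_mem hx), L.dig_p x hx]; ring) (by intro i; rfl)
      (image_pair (padd (by omega) (by omega)) (padd (by omega) (by omega)))]
    exact val_mem_range SV hWV (fam_mem hab (pair_sub (mV _ _ (by omega) (by omega) (by omega)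
      (by omega)) (mV _ _ (by omega) (by omega) (by omega) (by omega)))
      (even_pair (ne1 (by omega))))
  -- the ends of the `P` line
  have eP : SP.val (fam a b (fun i => J i.1) {(0, t0), (0, L.h - 1 - t0)}) *
      SP.val (fam a b (fun i => J i.1) {(-1, t0), (-1, L.h - 1 - t0)}) ∈
      (SV.s (WV t) hWV).range := by
    rw [regroup SP hab hWP (mP _ _ (by omega) (by omega) (by omega) (by omega))
      (mP _ _ (by omega) (by omega) (by omega) (by omega))
      (mP _ _ (by omega) (by omega) (by omega) (by omega))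
      (mP _ _ (by omega) (by omega) (by omega) (by omega))
      (ne2 (by omega)) (ne1 (by omega)) (ne1 (by omega)) (ne1 (by omega)) (ne1 (by omega))
      (ne2 (by omega))]
    apply Subgroup.mul_mem
    · rw [val_fam_move SP SV hab (hWP.mono (pair_sub (mP _ _ (by omega) (by omega) (by omega)
        (by omega)) (mP _ _ (by omega) (by omega) (by omega) (by omega))))
        (even_pair (ne1 (by omega))) (0, 0) ⟨by simp, by simp⟩ (fun i => (i.1, L.sPf i.2))
        (J' := fun i => J i.1) (A' := {(0, t0), (-1, t0)})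
        (by
          intro x hx
          rw [vz]
          exact Prod.ext rfl (L.Pf_st x hx).symm) (by intro i; rfl)
        (image_pair (padd (by omega) (by omega)) (padd (by omega) (by omega)))]
      exact val_mem_range SV hWV (fam_mem hab (pair_sub (mV _ _ (by omega) (by omega) (by omega)
        (by omega)) (mV _ _ (by omega) (by omega) (by omega) (by omega)))
        (even_pair (ne1 (by omega))))
    · rw [val_fam_move SP SV hab (hWP.mono (pair_sub (mP _ _ (by omega) (by omega) (by omega)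
        (by omega)) (mP _ _ (by omega) (by omega) (by omega) (by omega))))
        (even_pair (ne1 (by omega))) (0, L.h) ⟨by simp, by simp⟩ (fun i => (i.1 - 1, L.sPb i.2))
        (J' := fun i => J (i.1 - 1)) (A' := {(0, -1 - t0), (-1, -1 - t0)})
        (by
          intro x hx
          refine Prod.ext ?_ ?_
          · show L.dig _ - 1 = L.dig x
            rw [L.dig_p x hx]; ring
          · show L.sPb (L.st _) = L.Pf x
            rw [← L.Pb_st _ (Lev.up_mem hx), vadd_vadd]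
            simp only [Prod.mk_add_mk, add_zero, neg_add_cancel]
            rw [vz]) (by intro i; rfl)
        (image_pair (padd (by omega) (by omega)) (padd (by omega) (by omega)))]
      exact val_mem_range SV hWV (fam_mem hab (pair_sub (mV _ _ (by omega) (by omega) (by omega)
        (by omega)) (mV _ _ (by omega) (by omega) (by omega) (by omega)))
        (even_pair (ne1 (by omega))))
  -- the ends of the `Q` line
  have eQ : SQ.val (fam a b (fun i => J (i.1 - 1)) {(t0, -1), (L.w - 1 - t0, -1)}) *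
      SQ.val (fam a b (fun i => J (i.1 - 1)) {(t0, 0), (L.w - 1 - t0, 0)}) ∈
      (SV.s (WV t) hWV).range := by
    rw [regroup SQ hab hWQ (mQ _ _ (by omega) (by omega) (by omega) (by omega))
      (mQ _ _ (by omega) (by omega) (by omega) (by omega))
      (mQ _ _ (by omega) (by omega) (by omega) (by omega))
      (mQ _ _ (by omega) (by omega) (by omega) (by omega))
      (ne1 (by omega)) (ne2 (by omega)) (ne1 (by omega)) (ne1 (by omega)) (ne2 (by omega))
      (ne1 (by omega))]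
    apply Subgroup.mul_mem
    · rw [val_fam_move SQ SV hab (hWQ.mono (pair_sub (mQ _ _ (by omega) (by omega) (by omega)
        (by omega)) (mQ _ _ (by omega) (by omega) (by omega) (by omega))))
        (even_pair (ne2 (by omega))) (0, 0) ⟨by simp, by simp⟩ (fun i => (i.1, L.sQf i.2))
        (J' := fun i => J (i.1 - 1)) (A' := {(t0, -1), (t0, 0)})
        (by
          intro x hx
          rw [vz]
          exact Prod.ext rfl (L.Qf_st x hx).symm) (by intro i; rfl)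
        (image_pair (padd (by omega) (by omega)) (padd (by omega) (by omega)))]
      exact val_mem_range SV hWV (fam_mem hab (pair_sub (mV _ _ (by omega) (by omega) (by omega)
        (by omega)) (mV _ _ (by omega) (by omega) (by omega) (by omega)))
        (even_pair (ne2 (by omega))))
    · rw [val_fam_move SQ SV hab (hWQ.mono (pair_sub (mQ _ _ (by omega) (by omega) (by omega)
        (by omega)) (mQ _ _ (by omega) (by omega) (by omega) (by omega))))
        (even_pair (ne2 (by omega))) (L.w, 0) ⟨by simp, by simp⟩ (fun i => (i.1, L.lft i.1 i.2))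
        (J' := fun i => J (i.1 - 1)) (A' := {(-1 - t0, -1), (-1 - t0, 0)})
        (by
          intro x hx
          have hd := L.dig_q x hx
          refine Prod.ext ?_ ?_
          · exact hd
          · show L.lft (L.dig _) (L.st _) = L.Qf x
            rw [← L.lft_st _ (Lev.right_mem hx), vadd_vadd]
            simp only [Prod.mk_add_mk, add_zero, neg_add_cancel]
            rw [vz]) (by intro i; rfl)
        (image_pair (padd (by omega) (by omega)) (padd (by omega) (by omega)))]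
      exact val_mem_range SV hWV (fam_mem hab (pair_sub (mV _ _ (by omega) (by omega) (by omega)
        (by omega)) (mV _ _ (by omega) (by omega) (by omega) (by omega)))
        (even_pair (ne2 (by omega))))
  -- regrouping the 8 spots of the face
  have key : SF.val (fam a b (fun i => J i) {(0, t0), (0, L.h - 1 - t0)}) *
      SF.val (fam a b (fun i => J i) {(L.w - 1, t0), (L.w - 1, L.h - 1 - t0)}) *
      (SF.val (fam a b (fun i => J i) {(t0, 0), (L.w - 1 - t0, 0)}) *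
      SF.val (fam a b (fun i => J i) {(t0, L.h - 1), (L.w - 1 - t0, L.h - 1)})) =
      SF.val (fam a b (fun i => J i) {(0, t0), (t0, 0)}) *
      SF.val (fam a b (fun i => J i) {(L.w - 1, t0), (L.w - 1 - t0, 0)}) *
      (SF.val (fam a b (fun i => J i) {(0, L.h - 1 - t0), (t0, L.h - 1)}) *
      SF.val (fam a b (fun i => J i) {(L.w - 1, L.h - 1 - t0), (L.w - 1 - t0, L.h - 1)})) := by
    have q1 : ((0, t0) : ℤ × ℤ) ∈ L.WF := mF _ _ (by omega) (by omega) (by omega) (by omega)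
    have q2 : ((0, L.h - 1 - t0) : ℤ × ℤ) ∈ L.WF :=
      mF _ _ (by omega) (by omega) (by omega) (by omega)
    have q3 : ((L.w - 1, t0) : ℤ × ℤ) ∈ L.WF := mF _ _ (by omega) (by omega) (by omega) (by omega)
    have q4 : ((L.w - 1, L.h - 1 - t0) : ℤ × ℤ) ∈ L.WF :=
      mF _ _ (by omega) (by omega) (by omega) (by omega)
    have q5 : ((t0, 0) : ℤ × ℤ) ∈ L.WF := mF _ _ (by omega) (by omega) (by omega) (by omega)
    have q6 : ((L.w - 1 - t0, 0) : ℤ × ℤ) ∈ L.WF :=
      mF _ _ (by omega) (by omega) (by omega) (by omega)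
    have q7 : ((t0, L.h - 1) : ℤ × ℤ) ∈ L.WF := mF _ _ (by omega) (by omega) (by omega) (by omega)
    have q8 : ((L.w - 1 - t0, L.h - 1) : ℤ × ℤ) ∈ L.WF :=
      mF _ _ (by omega) (by omega) (by omega) (by omega)
    rw [regroup SF hab hWF q1 q2 q3 q4 (ne2 (by omega)) (ne1 (by omega)) (ne1 (by omega))
      (ne1 (by omega)) (ne1 (by omega)) (ne2 (by omega))]
    rw [← regroup SF hab hWF q1 q3 q5 q6 (ne1 (by omega)) (ne1 (by omega)) (ne1 (by omega))
      (ne1 (by omega)) (ne1 (by omega)) (ne1 (by omega))]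
    rw [← regroup SF hab hWF q2 q4 q7 q8 (ne1 (by omega)) (ne1 (by omega)) (ne1 (by omega))
      (ne1 (by omega)) (ne1 (by omega)) (ne1 (by omega))]
    have hc := val_fam_comm SF (a := a) (b := b) (J := fun i => J i) hab hWF (pair_sub q2 q4)
      (pair_sub q5 q6) (even_pair (ne1 (by omega))) (even_pair (ne1 (by omega)))
    simp only [mul_assoc]
    rw [← mul_assoc (SF.val (fam a b (fun i => J i) {(0, L.h - 1 - t0), (L.w - 1, L.h - 1 - t0)})),
      hc]
    simp only [mul_assoc]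
  have hinv := val_fam_inv SQ (a := a) (b := b) (J := fun i => J (i.1 - 1)) hab hWQ
    (pair_sub (mQ t0 (-1) (by omega) (by omega) (by omega) (by omega))
      (mQ (L.w - 1 - t0) (-1) (by omega) (by omega) (by omega) (by omega)))
    (even_pair (ne1 (by omega)))
  rw [eL, eR, eB, eT] at key
  set PL := SP.val (fam a b (fun i => J i.1) {(0, t0), (0, L.h - 1 - t0)}) with hPL
  set PR := SP.val (fam a b (fun i => J i.1) {(-1, t0), (-1, L.h - 1 - t0)}) with hPR
  set QB := SQ.val (fam a b (fun i => J i.1) {(t0, 0), (L.w - 1 - t0, 0)}) with hQB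
  set QT := SQ.val (fam a b (fun i => J (i.1 - 1)) {(t0, -1), (L.w - 1 - t0, -1)}) with hQT
  set Q1 := SQ.val (fam a b (fun i => J (i.1 - 1)) {(t0, 0), (L.w - 1 - t0, 0)}) with hQ1
  have hV := Subgroup.mul_mem _ (Subgroup.mul_mem _ kBL kBR) (Subgroup.mul_mem _ kTL kTR)
  rw [← key] at hV
  have e : QB * Q1 = (PL * PR)⁻¹ * (PL * PR * (QB * QT)) * (QT * Q1) := by
    have : QT * QT = 1 := by
      have e1 : QT⁻¹ * QT = 1 := inv_mul_cancel QT
      rwa [hinv] at e1
    calc QB * Q1 = QB * (QT * QT) * Q1 := by rw [this, mul_one]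
      _ = _ := by group
  rw [e]
  exact Subgroup.mul_mem _ (Subgroup.mul_mem _ (Subgroup.inv_mem _ eP) hV) eQ

/-! ### (R2) -/

theorem pow_val_add {G : Type*} [Group G] {z : G} (h : z * z = 1) (x y : ZMod 2) :
    z ^ (x + y).val = z ^ x.val * z ^ y.val := by
  have hx : x = 0 ∨ x = 1 := by revert x; decide
  have hy : y = 0 ∨ y = 1 := by revert y; decide
  rcases hx with rfl | rfl <;> rcases hy with rfl | rfl
  · simp
  · simp [ZMod.val_one]
  · simp [ZMod.val_one]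
  · have e : ((1 : ZMod 2) + 1) = 0 := by decide
    rw [e, ZMod.val_zero, pow_zero, ZMod.val_one, pow_one, h]

end toggle

end Tog

namespace Ctx

open Tog

variable {X Lab Sta C T : Type*} [AddAction (ℤ × ℤ) X] [Fintype C] [DecidableEq C] [Group T]
variable {L : Lev X Lab Sta} {q : T →* Equiv.Perm (X × C)} (M : Ctx L C q)

theorem lf_mul_rt : M.lf * M.rt = tw M.c0 M.c1 {(M.P.t0, 0), (L.w - 1 - M.P.t0, 0)} := by
  have h1 := M.P.m1; have h2 := M.P.m2; have h5 := M.P.d0; have hw := M.hw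
  have h6 := M.P.hst; have h7 := M.P.ht0; have h8 := M.P.s0
  have hd : Disjoint ({(M.P.t0, 0)} : Finset (ℤ × ℤ)) {(L.w - 1 - M.P.t0, 0)} := by
    rw [Finset.disjoint_singleton]
    intro e
    have := congrArg Prod.fst e
    simp only at this
    omega
  rw [Finset.insert_eq, ← tw_mul_disj _ _ hd, tw_singleton, tw_singleton]
  unfold lf rt sw
  have e : M.P.w - M.P.t0 - 1 = L.w - 1 - M.P.t0 := by omega
  rw [e]

theorem famQ_eq_fam (t : ZMod L.n × Lab → ZMod 2) (i : ZMod L.n × Lab) :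
    M.famQ t i = fam M.c0 M.c1 (fun i => t i = 1) {(M.P.t0, 0), (L.w - 1 - M.P.t0, 0)} i := by
  unfold famQ fam
  rw [M.lf_mul_rt]
  have hx : ∀ x : ZMod 2, x = 0 ∨ x = 1 := by decide
  rcases hx (t i) with h | h
  · have h' : ¬ (t i = 1) := by rw [h]; decide
    rw [if_neg h', h, ZMod.val_zero, pow_zero]
  · rw [if_pos h, h, ZMod.val_one, pow_one]

theorem togQ_add (b b' : ZMod L.n × Lab → ZMod 2) (i : ZMod L.n × Lab) :
    M.famQ (fun i => b i + b' i) i = M.famQ b i * M.famQ b' i := by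
  unfold famQ
  apply pow_val_add
  rw [M.lf_mul_rt]
  exact tw_sq _ _ _

theorem togQ_mem (b : ZMod L.n × Lab → ZMod 2) (i : ZMod L.n × Lab) :
    M.famQ b i ∈ AltOn (win C (L.WQ 1 M.P.t0)) := by
  have h1 := M.P.m1; have h2 := M.P.m2; have h5 := M.P.d0; have hw := M.hw
  have h6 := M.P.hst; have h7 := M.P.ht0; have h8 := M.P.s0
  rw [M.famQ_eq_fam]
  apply fam_mem M.hc
  · apply pair_sub
    · rw [Lev.mem_WQ]; exact ⟨⟨le_rfl, by omega⟩, ⟨by norm_num, by norm_num⟩⟩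
    · rw [Lev.mem_WQ]; exact ⟨⟨by show _ ≤ L.w - 1 - M.P.t0; omega,
        by show L.w - 1 - M.P.t0 < _; omega⟩, ⟨by norm_num, by norm_num⟩⟩
  · apply even_pair
    intro e
    have := congrArg Prod.fst e
    simp only at this
    omega

/-- **(R2)** the signs of the `Q` edges may be toggled on both sides of faces -/
theorem rep_toggle [Finite Lab] [Finite Sta] {w : T} {a b : ZMod L.n × Lab → ZMod 2}
    (hw : w ∈ Subgroup.center T) (h : M.Rep w a b) (t : ZMod L.n → ZMod 2) :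
    M.Rep w a (fun i => b i + t i.1 + t (i.1 - 1)) := by
  have hn := finite_zmod_lev L
  have g1 := M.P.m1; have g2 := M.P.m2; have g3 := M.P.m3; have g4 := M.P.m4
  have g5 := M.P.d0; have gw := M.hw; have gh := M.hh
  have g6 := M.P.hst; have g7 := M.P.ht0; have g8 := M.P.s0
  obtain ⟨z, hz, hwz⟩ := h
  have hWQ : L.Dist (L.WQ 1 M.P.t0) := Lev.dist_WQ (by omega) (by omega)
  have key := toggle_mem M.SF M.SP M.SQ M.SV M.hc (t0 := M.P.t0) (t := M.P.t) (by omega)
    (by omega) (by omega) (by omega) M.dB (fun j => t j = 1)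
  have e1 : M.SQ.val (M.famQ (fun i => t i.1)) =
      M.SQ.val (fam M.c0 M.c1 (fun i : ZMod L.n × Lab => t i.1 = 1)
        {(M.P.t0, 0), (L.w - 1 - M.P.t0, 0)}) := by
    congr 1
    funext i
    exact M.famQ_eq_fam _ i
  have e2 : M.SQ.val (M.famQ (fun i => t (i.1 - 1))) =
      M.SQ.val (fam M.c0 M.c1 (fun i : ZMod L.n × Lab => t (i.1 - 1) = 1)
        {(M.P.t0, 0), (L.w - 1 - M.P.t0, 0)}) := by
    congr 1
    funext i
    exact M.famQ_eq_fam _ i
  rw [← e1, ← e2] at key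
  obtain ⟨y, hy⟩ := key
  have hy' : M.SV.val (fun i => (y i : Equiv.Perm (Om C))) =
      M.SQ.val (M.famQ (fun i => t i.1)) * M.SQ.val (M.famQ (fun i => t (i.1 - 1))) := by
    rw [M.SV.val_eq M.dB (fun i => (y i).2)]
    exact hy
  have e3 : M.SQ.val (M.famQ (fun i => b i + t i.1 + t (i.1 - 1))) =
      M.SQ.val (M.famQ b) * M.SV.val (fun i => (y i : Equiv.Perm (Om C))) := by
    rw [hy', ← mul_assoc, ← M.SQ.val_mul hWQ (M.togQ_mem _) (M.togQ_mem _),
      ← M.SQ.val_mul hWQ (fun i => (AltOn _).mul_mem (M.togQ_mem _ i) (M.togQ_mem _ i))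
        (M.togQ_mem _)]
    congr 1
    funext i
    rw [M.togQ_add (fun i => b i + t i.1) (fun i => t (i.1 - 1)) i,
      M.togQ_add b (fun i => t i.1) i]
  refine ⟨fun i => (y i : Equiv.Perm (Om C))⁻¹ * z i, fun i => (AltOn _).mul_mem
    ((AltOn _).inv_mem (y i).2) (hz i), ?_⟩
  rw [M.SV.val_mul M.dB (fun i => (AltOn _).inv_mem (y i).2) hz, M.SV.val_inv M.dB (fun i => (y i).2)]
  have e4 : M.Es a (fun i => b i + t i.1 + t (i.1 - 1)) =
      M.Es a b * M.SV.val (fun i => (y i : Equiv.Perm (Om C))) := by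
    unfold Es
    rw [e3, mul_assoc]
  rw [e4]
  have hc := Subgroup.mem_center_iff.mp hw (M.SV.val (fun i => (y i : Equiv.Perm (Om C))))
  calc w = (M.SV.val (fun i => (y i : Equiv.Perm (Om C))))⁻¹ *
        (w * M.SV.val (fun i => (y i : Equiv.Perm (Om C)))) := by rw [← hc]; group
    _ = _ := by rw [hwz]; group

end Ctx

end Crest.Agent.R189.K
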