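import Crest.Agent.R189.FPBridge_Mg
import Crest.Agent.R189.KWord
import Crest.Agent.R189.AtomOcc_Mg
import Crest.Agent.R189.KRepE_Mg
import Crest.Agent.R189.KTog_Mg
import Crest.Agent.R189.KFin
import Crest.Agent.R189.XLev
import Crest.Agent.R189.XWin
import Crest.Agent.R189.KLayer
import Crest.Agent.R189.StarOf
import Crest.Agent.R189.FPAsm

-- ▼ part R189/FPGenSys
section

/-!
# Row 189 (S0289), assembly of section 3 (helper396): the generating system of `T` for the kernel part,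
centrality of the kernel
-/

set_option autoImplicit false

namespace Crest.Agent.R189.FPMain

section

variable {C : Type} [Fintype C] [DecidableEq C] [Nonempty C] (hC : 30 ≤ Fintype.card C)

/-- the generating system (M6) -/
noncomputable def gsX : K.GenSys (qT (C := C) letter MD letter_match) letter where
  Gam := Gam C
  E := Gam.E
  lam := Gam.lam
  hlam := Gam.lam_le
  phi := Gam.phi hC
  hphi := Gam.q_phi hC
  ne := inferInstance
  surj := tau_surjective hC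

include hC in
/-- **the kernel of `T → Gp` is central** -/
theorem ker_le_center : (qT (C := C) letter MD letter_match).ker ≤
    Subgroup.center (TGrp MD C) := by
  have := centreless_bar (C := C) hC
  rw [Cent.ker_qT_of_occ hC (centre_Gp C hC) (fun n κ =>
    AtomOcc.atom_occ hC (conc_qTbar letter MD letter_match (centre_Gp C hC)) (2 * n) κ)]

include hC in
/-- **the sections of the four kinds**, all even levels -/
theorem secSys (m : ℕ) :
    Nonempty (K.SecSys (LX m) C (qT letter MD letter_match) (LX m).dig) ∧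
    Nonempty (K.SecSys (LX m) C (qT letter MD letter_match) (LX m).kP) ∧
    Nonempty (K.SecSys (LX m) C (qT letter MD letter_match) (LX m).kQ) ∧
    Nonempty (K.SecSys (LX m) C (qT letter MD letter_match) (LX m).kV) :=
  secSys_LX hC (ker_le_center hC) m

end

/-- widths tend to infinity -/
theorem lt_LX_w (m : ℕ) : (m : ℤ) < (LX m).w := by
  have h := lt_xh (a := 4) (by norm_num) m
  have h2 : (m : ℤ) < ((xh 4 m : ℕ) : ℤ) := by exact_mod_cast h
  exact h2

theorem lt_LX_h (m : ℕ) : (m : ℤ) < (LX m).h := by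
  have h := lt_xh (a := 3) (by norm_num) m
  have h2 : (m : ℤ) < ((xh 3 m : ℕ) : ℤ) := by exact_mod_cast h
  exact h2

open Filter in
theorem tendsto_LX_w : Tendsto (fun m => (LX m).w) atTop atTop := by
  apply tendsto_atTop_mono (f := fun m : ℕ => (m : ℤ)) (fun m => (lt_LX_w m).le)
  exact tendsto_natCast_atTop_atTop

open Filter in
theorem tendsto_LX_h : Tendsto (fun m => (LX m).h) atTop atTop := by
  apply tendsto_atTop_mono (f := fun m : ℕ => (m : ℤ)) (fun m => (lt_LX_h m).le)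
  exact tendsto_natCast_atTop_atTop

theorem LX_D_nonempty (m : ℕ) : (LX m).D.Nonempty := by
  obtain ⟨s⟩ := asmNonemptyStar
  exact ⟨⟨0, s⟩, dvd_zero _, dvd_zero _⟩

end Crest.Agent.R189.FPMain
end

-- ▼ part R189/KWord2
section

/-!
# Row 189, part F (M3): circulation of the face permutation of a word (helper834)

`circ_core`: for a decomposition `M0.DecT w f eP eQ v` of a word trivial in `Perm (X × C)` whose
face permutation `f 0` is the nested product of layers, the product over the CONSTANT zone is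
annular (constants depending only on the length) and if its circulation `kap0` vanishes then
`kap (f 0)⁻¹ = 0`, i.e. the hypothesis of `DecT.peel`.
`GenSys.word_rep`: for a word `w` of the free group with `q (tau w) = 1`.
-/

set_option autoImplicit false
set_option linter.unusedSectionVars false

namespace Crest.Agent.R189.K

open Equiv Equiv.Perm Filter
open KFlux (bx mem_bx Ann Mid kap kap0 Int1 NearB wpN LamB AnnEv)

section pure

variable {C : Type*} [Fintype C] [DecidableEq C]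

lemma kap0_inv {w h s t D y0 : ℤ} {π : Equiv.Perm (Om C)} (hA : Ann w h s t D π) (hD : 0 ≤ D)
    (hm : Mid w h s t (D + D) (w / 2) y0) :
    kap0 w h (π⁻¹ : Equiv.Perm (Om C)) = - kap0 w h π := by
  rw [KFlux.kap0_eq hA.inv (hm.mono hD (by omega)), KFlux.kap0_eq hA (hm.mono hD (by omega)),
    KFlux.kap_inv hA hm hD]

lemma prodN_eq_wpN (z : ℕ → Equiv.Perm C) (lam : ℕ → C → ℤ × ℤ)
    (F : ℕ → Set (ℤ × ℤ)) (M : ℕ) :
    prodN (fun i => lay (z i) (lam i) (F i)) M = wpN z lam F M := by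
  induction M with
  | zero => rfl
  | succ M ih => rw [prodN_succ, ih]; rfl

end pure

variable {X Lab Sta A T C : Type*} [AddAction (ℤ × ℤ) X] [Fintype C] [DecidableEq C]
  [Group T]
variable {q : T →* Equiv.Perm (X × C)} [Finite Lab] [Finite Sta]

/-- radii-independence for the face of digit `0` -/
theorem circ_core {L : Lev X Lab Sta} (M0 : Ctx L C q) {M : ℕ} (hs : M0.P.s = 4 * M + 2)
    (ht : M0.P.t = 8 * M + 12)
    (hd : M0.P.d = 2 * M) (hmx : M0.P.mx = L.w / 2)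
    (hw : 100 * ((M : ℤ) + 1) ≤ L.w) (hh : 100 * ((M : ℤ) + 1) ≤ L.h)
    (z : ℕ → Equiv.Perm C) (lam : ℕ → C → ℤ × ℤ) (E : ℕ → Set A) (a : ℤ × ℤ → A)
    (hlam : ∀ i c, |(lam i c).1| ≤ 1 ∧ |(lam i c).2| ≤ 1)
    {w : T} {f : ZMod L.n → Equiv.Perm (Om C)}
    {eP eQ : ZMod L.n × Lab → Equiv.Perm (Om C)} {v : ZMod L.n × Sta → Equiv.Perm (Om C)}
    (H : M0.DecT w f eP eQ v) (hq : q w = 1) (hD : L.D.Nonempty)
    (hf0 : f 0 = prodN (fun i => lay (z i) (lam i)
      (ZF L.w L.h (4 * (i + 1)) (4 * M + 10 + 4 * (i + 1)) ∩ {v | a v ∈ E i})) M) :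
    Ann L.w L.h (6 * M + 2) (10 * M + 12) (2 * M)
      (prodN (fun i => lay (z i) (lam i) ({v | Int1 L.w L.h v} ∩ {v | a v ∈ E i})) M) ∧
    (kap0 L.w L.h (prodN (fun i => lay (z i) (lam i)
      ({v | Int1 L.w L.h v} ∩ {v | a v ∈ E i})) M : Equiv.Perm (Om C)) = 0 →
      kap M0.P.w M0.P.s M0.P.mx ((f 0)⁻¹ : Equiv.Perm (Om C)) = 0) := by
  have hA0 := (H.kap_all hq hD 0).1
  rw [M0.hw, M0.hh, hs, ht, hd] at hA0
  have hA1 : Ann L.w L.h (4 * M + 2) (8 * M + 12) (2 * M) (f 0) := by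
    have := hA0.inv
    rwa [inv_inv] at this
  have hA2 : Ann L.w L.h (6 * M + 2) (10 * M + 12) (2 * M) (f 0) :=
    hA1.mono_st (by omega) (by omega)
  rw [prodN_eq_wpN] at hf0
  rw [prodN_eq_wpN]
  rw [hf0] at hA2
  have hm : Mid L.w L.h (6 * M + 2) (10 * M + 12) (8 * M + 4) (L.w / 2) (L.h / 2) :=
    ⟨by omega, by omega, by omega, by omega, by omega, by omega, by omega⟩
  have key := KFlux.kap_rad (w := L.w) (h := L.h) (s := 6 * M + 2) (t := 10 * M + 12)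
    (D := 2 * M) (x0 := L.w / 2) (y0 := L.h / 2) (z := z) (lam := lam)
    (F := fun i => {v | Int1 L.w L.h v} ∩ {v | a v ∈ E i})
    (F' := fun i => ZF L.w L.h (4 * (i + 1)) (4 * M + 10 + 4 * (i + 1)) ∩ {v | a v ∈ E i})
    (s' := 4 * M + 1) (t' := 8 * M + 11) M (fun i _ c _ => hlam i c) ?_ ?_ ?_
    (by omega) (by omega) hA2 hm (by omega)
  · obtain ⟨g1, g2⟩ := key
    refine ⟨g1, fun hk => ?_⟩
    have hm1 : Mid L.w L.h (6 * M + 2) (10 * M + 12) (2 * M) (L.w / 2) (L.h / 2) :=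
      hm.mono (by omega) (by omega)
    have hm2 : Mid L.w L.h (4 * M + 2) (8 * M + 12) (2 * M) (L.w / 2) (L.h / 2) :=
      ⟨by omega, by omega, by omega, by omega, by omega, by omega, by omega⟩
    have hm3 : Mid L.w L.h (4 * M + 2) (8 * M + 12) (2 * M + 2 * M) (L.w / 2) (L.h / 2) :=
      ⟨by omega, by omega, by omega, by omega, by omega, by omega, by omega⟩
    rw [KFlux.kap0_eq g1 hm1, g2, ← KFlux.kap0_eq hA2 hm1, ← hf0] at hk
    have h3 := kap0_inv hA1 (by omega) hm3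
    rw [hk, neg_zero, KFlux.kap0_eq hA0 hm2] at h3
    rw [M0.hw, hs, hmx]
    exact h3
  · intro i hi u hu
    refine ⟨?_, hu.2⟩
    obtain ⟨h1, h2, h3, h4, _⟩ := hu.1
    show Int1 L.w L.h u
    unfold Int1
    omega
  · intro i _ u hu
    exact hu.1
  · intro i hi u hu hu'
    have hne : u ∉ ZF L.w L.h (4 * (i + 1)) (4 * M + 10 + 4 * (i + 1)) := fun h => hu' ⟨h, hu.2⟩
    constructor
    · intro h4
      apply hne
      refine ⟨?_, ?_, ?_, ?_, Or.inl ⟨?_, ?_⟩⟩ <;> omega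
    · intro h4
      apply hne
      refine ⟨?_, ?_, ?_, ?_, Or.inr ⟨?_, ?_⟩⟩ <;> omega

namespace GenSys

variable {letter : X → A} (G : GenSys q letter)

/-- (M3) for a word trivial in `Perm (X × C)`: for all large `M` and all levels large with respect
to `M`, the constant-zone face permutation is annular, and if its circulation vanishes then `w` has
a reference representation in every context of the geometry `Geo.std M`. -/
theorem word_rep (hK : q.ker ≤ Subgroup.center T) (x : FreeGroup (G.Gam × alternatingGroup C))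
    (hx : q (G.tau x) = 1) :
    ∃ M1 : ℕ, ∀ M ≥ M1, ∀ (L : Lev X Lab Sta) (LL : LevLet L letter) (M0 : Ctx L C q)
      (hw : 20 * (M : ℤ) + 26 ≤ L.w) (hh : 20 * (M : ℤ) + 26 ≤ L.h),
      M0.P = Geo.std M L.w L.h hw hh → L.D.Nonempty →
      100 * ((M : ℤ) + 1) ≤ L.w → 100 * ((M : ℤ) + 1) ≤ L.h →
      Ann L.w L.h (6 * M + 2) (10 * M + 12) (2 * M)
        (G.faceHom {v | Int1 L.w L.h v} (LL.aF 0) x) ∧
      (kap0 L.w L.h (G.faceHom {v | Int1 L.w L.h v} (LL.aF 0) x : Equiv.Perm (Om C)) = 0 →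
        ∃ a b, M0.Rep (G.tau x) a b) := by
  obtain ⟨M1, z, g, hM1⟩ := G.exists_word x
  refine ⟨M1, fun M hM L LL M0 hw hh hP hD hw' hh' => ?_⟩
  obtain ⟨h1, h2⟩ := hM1 M hM
  obtain ⟨f, eP, eQ, v, hf, mf, mP, mQ, mv, df, dP, dQ, hprod⟩ :=
    G.layer_ctx M0 LL M hw hh hP z g
  rw [← h1] at hprod
  have H : M0.DecT (G.tau x) f eP eQ v := ⟨mf, mP, mQ, mv, df, dP, dQ, hprod⟩
  have hs : M0.P.s = 4 * M + 2 := by rw [hP]; rfl
  have ht : M0.P.t = 8 * M + 12 := by rw [hP]; rfl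
  have hd : M0.P.d = 2 * M := by rw [hP]; rfl
  have hmx : M0.P.mx = L.w / 2 := by rw [hP]; rfl
  have key := circ_core M0 hs ht hd hmx hw' hh' (fun i => (z i : Equiv.Perm C))
    (fun i => G.lam (g i)) (fun i => G.E (g i)) (LL.aF 0) (fun i c => G.hlam (g i) c) H hx hD
    (hf 0)
  rw [← h2] at key
  refine ⟨key.1, fun hk => ?_⟩
  exact H.exists_rep hx (hK (MonoidHom.mem_ker.2 hx)) hD (key.2 hk)

/-- the standard context of length `M` -/
def _root_.Crest.Agent.R189.K.Ctx.std {L : Lev X Lab Sta} (SF : SecSys L C q L.dig)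
    (SP : SecSys L C q L.kP) (SQ : SecSys L C q L.kQ) (SV : SecSys L C q L.kV)
    (c0 c1 : C) (hc : c0 ≠ c1) (M : ℕ) (hw : 20 * (M : ℤ) + 26 ≤ L.w)
    (hh : 20 * (M : ℤ) + 26 ≤ L.h) : Ctx L C q where
  P := Geo.std M L.w L.h hw hh
  hw := rfl
  hh := rfl
  SF := SF
  SP := SP
  SQ := SQ
  SV := SV
  c0 := c0
  c1 := c1
  hc := hc

/-- the face permutations of a word trivial in `Perm (X × C)` are uniformly annular -/
theorem word_annEv (hK : q.ker ≤ Subgroup.center T) (L : ℕ → Lev X Lab Sta)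
    (LL : ∀ k, LevLet (L k) letter) (SF : ∀ k, SecSys (L k) C q (L k).dig)
    (SP : ∀ k, SecSys (L k) C q (L k).kP) (SQ : ∀ k, SecSys (L k) C q (L k).kQ)
    (SV : ∀ k, SecSys (L k) C q (L k).kV) {c0 c1 : C} (hc : c0 ≠ c1)
    (hw : Tendsto (fun k => (L k).w) atTop atTop) (hh : Tendsto (fun k => (L k).h) atTop atTop)
    (hD : ∀ k, (L k).D.Nonempty) (x : FreeGroup (G.Gam × alternatingGroup C))
    (hx : q (G.tau x) = 1) :
    AnnEv (fun k => (L k).w) (fun k => (L k).h)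
      (fun k => G.faceHom {v | Int1 (L k).w (L k).h v} ((LL k).aF 0) x) := by
  obtain ⟨M1, h1⟩ := G.word_rep (Lab := Lab) (Sta := Sta) hK x hx
  refine ⟨6 * M1 + 2, 10 * M1 + 12, 2 * M1, by omega, by omega, by omega, ?_⟩
  filter_upwards [hw.eventually (eventually_ge_atTop (100 * ((M1 : ℤ) + 1))),
    hh.eventually (eventually_ge_atTop (100 * ((M1 : ℤ) + 1)))] with k g1 g2
  have e1 : 20 * (M1 : ℤ) + 26 ≤ (L k).w := by omega
  have e2 : 20 * (M1 : ℤ) + 26 ≤ (L k).h := by omega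
  exact (h1 M1 le_rfl (L k) (LL k)
    (Ctx.std (SF k) (SP k) (SQ k) (SV k) c0 c1 hc M1 e1 e2) e1 e2 rfl (hD k) g1 g2).1

/-- circulation at level `k` -/
noncomputable def circ (L : ℕ → Lev X Lab Sta) (LL : ∀ k, LevLet (L k) letter) (k : ℕ)
    (x : FreeGroup (G.Gam × alternatingGroup C)) : ℤ :=
  kap0 (L k).w (L k).h (G.faceHom {v | Int1 (L k).w (L k).h v} ((LL k).aF 0) x)

/-- `bdd` of `KFin.fg_of_flux` -/
theorem circ_bdd (hK : q.ker ≤ Subgroup.center T) (L : ℕ → Lev X Lab Sta)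
    (LL : ∀ k, LevLet (L k) letter) (SF : ∀ k, SecSys (L k) C q (L k).dig)
    (SP : ∀ k, SecSys (L k) C q (L k).kP) (SQ : ∀ k, SecSys (L k) C q (L k).kQ)
    (SV : ∀ k, SecSys (L k) C q (L k).kV) {c0 c1 : C} (hc : c0 ≠ c1)
    (hw : Tendsto (fun k => (L k).w) atTop atTop) (hh : Tendsto (fun k => (L k).h) atTop atTop)
    (hD : ∀ k, (L k).D.Nonempty) (x : FreeGroup (G.Gam × alternatingGroup C))
    (hx : q (G.tau x) = 1) : ∃ B : ℤ, ∀ᶠ k in atTop, |G.circ L LL k x| ≤ B :=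
  (G.word_annEv hK L LL SF SP SQ SV hc hw hh hD x hx).bdd hw hh

/-- `add` of `KFin.fg_of_flux` -/
theorem circ_add (hK : q.ker ≤ Subgroup.center T) (L : ℕ → Lev X Lab Sta)
    (LL : ∀ k, LevLet (L k) letter) (SF : ∀ k, SecSys (L k) C q (L k).dig)
    (SP : ∀ k, SecSys (L k) C q (L k).kP) (SQ : ∀ k, SecSys (L k) C q (L k).kQ)
    (SV : ∀ k, SecSys (L k) C q (L k).kV) {c0 c1 : C} (hc : c0 ≠ c1)
    (hw : Tendsto (fun k => (L k).w) atTop atTop) (hh : Tendsto (fun k => (L k).h) atTop atTop)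
    (hD : ∀ k, (L k).D.Nonempty) (x y : FreeGroup (G.Gam × alternatingGroup C))
    (hx : q (G.tau x) = 1) (hy : q (G.tau y) = 1) :
    ∀ᶠ k in atTop, G.circ L LL k (x * y) = G.circ L LL k x + G.circ L LL k y := by
  have h1 := G.word_annEv hK L LL SF SP SQ SV hc hw hh hD x hx
  have h2 := G.word_annEv hK L LL SF SP SQ SV hc hw hh hD y hy
  have h3 := h1.add hw hh h2
  filter_upwards [h3] with k hk
  unfold circ
  rw [map_mul]
  exact hk

/-- `cnt` of `KFin.fg_of_flux`, first half: a finite set of trivial words with zero circulation at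
a large level has reference representations in ONE context -/
theorem circ_rep (hK : q.ker ≤ Subgroup.center T) (L : ℕ → Lev X Lab Sta)
    (LL : ∀ k, LevLet (L k) letter) (SF : ∀ k, SecSys (L k) C q (L k).dig)
    (SP : ∀ k, SecSys (L k) C q (L k).kP) (SQ : ∀ k, SecSys (L k) C q (L k).kQ)
    (SV : ∀ k, SecSys (L k) C q (L k).kV) {c0 c1 : C} (hc : c0 ≠ c1)
    (hw : Tendsto (fun k => (L k).w) atTop atTop) (hh : Tendsto (fun k => (L k).h) atTop atTop)
    (hD : ∀ k, (L k).D.Nonempty) (S : Set (FreeGroup (G.Gam × alternatingGroup C)))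
    (hS : S.Finite) (hx : ∀ x ∈ S, q (G.tau x) = 1) :
    ∀ᶠ k in atTop, (∀ x ∈ S, G.circ L LL k x = 0) →
      ∃ M0 : Ctx (L k) C q, ∀ x ∈ S, ∃ a b, M0.Rep (G.tau x) a b := by
  have h1 : ∀ x ∈ S, ∃ M1 : ℕ, ∀ M ≥ M1, ∀ (L : Lev X Lab Sta) (LL : LevLet L letter)
      (M0 : Ctx L C q)
      (hw : 20 * (M : ℤ) + 26 ≤ L.w) (hh : 20 * (M : ℤ) + 26 ≤ L.h),
      M0.P = Geo.std M L.w L.h hw hh → L.D.Nonempty →
      100 * ((M : ℤ) + 1) ≤ L.w → 100 * ((M : ℤ) + 1) ≤ L.h →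
      Ann L.w L.h (6 * M + 2) (10 * M + 12) (2 * M)
        (G.faceHom {v | Int1 L.w L.h v} (LL.aF 0) x) ∧
      (kap0 L.w L.h (G.faceHom {v | Int1 L.w L.h v} (LL.aF 0) x : Equiv.Perm (Om C)) = 0 →
        ∃ a b, M0.Rep (G.tau x) a b) := fun x hxS => G.word_rep hK x (hx x hxS)
  choose! M1 hM1 using h1
  obtain ⟨M, hM⟩ : ∃ M : ℕ, ∀ x ∈ S, M1 x ≤ M := by
    obtain ⟨M, hM⟩ := (hS.image M1).bddAbove
    exact ⟨M, fun x hx => hM ⟨x, hx, rfl⟩⟩
  filter_upwards [hw.eventually (eventually_ge_atTop (100 * ((M : ℤ) + 1))),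
    hh.eventually (eventually_ge_atTop (100 * ((M : ℤ) + 1)))] with k g1 g2 hk
  have e1 : 20 * (M : ℤ) + 26 ≤ (L k).w := by omega
  have e2 : 20 * (M : ℤ) + 26 ≤ (L k).h := by omega
  refine ⟨Ctx.std (SF k) (SP k) (SQ k) (SV k) c0 c1 hc M e1 e2, fun x hxS => ?_⟩
  exact (hM1 x hxS M (hM x hxS) (L k) (LL k) _ e1 e2 rfl (hD k) g1 g2).2 (hk x hxS)

end GenSys

end Crest.Agent.R189.K
end

-- ▼ part R189/KMainA
section

/-!
# Row 189, part F: the kernel is finitely generated, given the count (helper834)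
-/

set_option autoImplicit false
set_option linter.unusedSectionVars false

namespace Crest.Agent.R189.K

open Equiv Equiv.Perm Filter

variable {X Lab Sta A T C : Type*} [AddAction (ℤ × ℤ) X] [Fintype C] [DecidableEq C]
  [Group T]
variable {q : T →* Equiv.Perm (X × C)} [Finite Lab] [Finite Sta]

/-- the kernel of `q` is finitely generated -/
theorem kernel_fg_of_count {letter : X → A} (G : GenSys q letter)
    (hK : q.ker ≤ Subgroup.center T) (L : ℕ → Lev X Lab Sta)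
    (LL : ∀ k, LevLet (L k) letter) (SF : ∀ k, SecSys (L k) C q (L k).dig)
    (SP : ∀ k, SecSys (L k) C q (L k).kP) (SQ : ∀ k, SecSys (L k) C q (L k).kQ)
    (SV : ∀ k, SecSys (L k) C q (L k).kV) {c0 c1 : C} (hc : c0 ≠ c1)
    (hw : Tendsto (fun k => (L k).w) atTop atTop) (hh : Tendsto (fun k => (L k).h) atTop atTop)
    (hD : ∀ k, (L k).D.Nonempty) (N : ℕ)
    (hcnt : ∀ k (M0 : Ctx (L k) C q) (K : Set T),
      (∀ w ∈ K, q w = 1 ∧ ∃ a b, M0.Rep w a b) → K.ncard ≤ N) : Group.FG q.ker := by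
  let R := (q.comp G.tau).ker
  let p : R →* q.ker := (G.tau.comp R.subtype).codRestrict q.ker (fun x => by
    have := x.2
    rw [MonoidHom.mem_ker] at this ⊢
    exact this)
  have hp : Function.Surjective p := by
    rintro ⟨w, hw⟩
    obtain ⟨x, hx⟩ := G.tau_surj w
    refine ⟨⟨x, ?_⟩, ?_⟩
    · rw [MonoidHom.mem_ker, MonoidHom.comp_apply, hx]
      exact hw
    · apply Subtype.ext
      exact hx
  have hR : ∀ x : R, q (G.tau x.1) = 1 := fun x => x.2
  refine KFin.fg_of_flux p hp (fun k x => G.circ L LL k x.1) ?_ ?_ N ?_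
  · intro x
    exact G.circ_bdd hK L LL SF SP SQ SV hc hw hh hD x.1 (hR x)
  · intro x y
    exact G.circ_add hK L LL SF SP SQ SV hc hw hh hD x.1 y.1 (hR x) (hR y)
  · intro S hS
    have h1 := G.circ_rep hK L LL SF SP SQ SV hc hw hh hD (Subtype.val '' S) (hS.image _)
      (by rintro _ ⟨x, _, rfl⟩; exact hR x)
    filter_upwards [h1] with k hk hz
    obtain ⟨M0, hM0⟩ := hk (by rintro _ ⟨x, hx, rfl⟩; exact hz x hx)
    have h2 := hcnt k M0 (Subtype.val '' (p '' S)) ?_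
    · rwa [Set.ncard_image_of_injective _ Subtype.val_injective] at h2
    · rintro _ ⟨_, ⟨x, hx, rfl⟩, rfl⟩
      exact ⟨hR x, hM0 x.1 ⟨x, hx, rfl⟩⟩


end Crest.Agent.R189.K
end

-- ▼ part R189/XLet
section

/-!
Row 189 (S0289), helper781.  The letter functions of the concrete space at the even levels:
`LevLet (xLev le_rfl (allOK le_rfl) m) letter` .
-/

set_option autoImplicit false

namespace Crest.Agent.R189

namespace XLetAux

/-- the labels along a `Q` line of level `a+1`, seen one level below -/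
theorem V_row {a : ℕ} (ha : 1 ≤ a) (s : Star) (X Y : ℤ) {c : ℤ} (h0 : 0 ≤ c)
    (h1 : c < ((3 * a : ℕ) : ℤ)) :
    V a s.flip Y (((3 * a : ℕ) : ℤ) * X + c) =
      if dg (3 * (a + 1)) Y = 0 then Hf (a + 1) s X Y
      else { Hf (a + 1) s X Y with u := umem a (dg (3 * a) c) (dg (3 * (a + 1)) Y) } := by
  have hz : (((3 * a : ℕ) : ℤ) * X + c) / ((3 * a : ℕ) : ℤ) = X := by
    rw [add_div_of_small (by omega), Int.ediv_eq_zero_of_lt h0 h1, add_zero]
  by_cases h : dg (3 * (a + 1)) Y = 0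
  · rw [if_pos h]
    obtain ⟨Y, rfl⟩ := (dg_eq_zero (by omega)).1 h
    rw [V_mul ha, Hf_mul (by omega), hz]
  · rw [if_neg h, V_of_ne _ _ h, Hf, if_neg h, hz, dg_add_mul']

theorem V_row' {a : ℕ} (ha : 1 ≤ a) (s : Star) (X Y : ℤ) {c : ℤ} (h0 : 0 ≤ c)
    (h1 : c < ((3 * a : ℕ) : ℤ)) :
    V a s.flip Y (((3 * a : ℕ) : ℤ) * (X - 1) + c) =
      if dg (3 * (a + 1)) Y = 0 then Hb (a + 1) s X Y
      else { Hb (a + 1) s X Y with u := umem a (dg (3 * a) c) (dg (3 * (a + 1)) Y) } := by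
  rw [V_row ha s (X - 1) Y h0 h1]
  by_cases h : dg (3 * (a + 1)) Y = 0
  · rw [if_pos h, if_pos h, Hf, Hb, if_pos h, if_pos h]
  · rw [if_neg h, if_neg h, Hf, Hb, if_neg h, if_neg h]

/-- the labels of a row of order `≥ 2m+2` -/
theorem Hf_row {a : ℕ} (ha : 1 ≤ a) (m : ℕ) (s : Star) (x Y : ℤ) :
    Hf a s x ((xh a (m + 1) : ℕ) * Y) =
      V (a + 1 + 2 * m) s.flip Y (x / (xh (a + 1) m : ℕ)) := by
  have e : ((xh a (m + 1) : ℕ) : ℤ) * Y = ((3 * a : ℕ) : ℤ) * ((xh (a + 1 + 1) m : ℕ) * Y) := by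
    rw [xh_succ]; push_cast; ring
  rw [e, Hf_mul ha, V_inflate (by omega)]

theorem Hb_row {a : ℕ} (ha : 1 ≤ a) (m : ℕ) (s : Star) (x Y : ℤ) :
    Hb a s x ((xh a (m + 1) : ℕ) * Y) =
      V (a + 1 + 2 * m) s.flip Y ((x - 1) / (xh (a + 1) m : ℕ)) := by
  have e : ((xh a (m + 1) : ℕ) : ℤ) * Y = ((3 * a : ℕ) : ℤ) * ((xh (a + 1 + 1) m : ℕ) * Y) := by
    rw [xh_succ]; push_cast; ring
  rw [e, Hb_mul ha, V_inflate (by omega)]

/-- splitting `v + w X` with `w = h * n` -/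
theorem split_div {h n : ℕ} (hh : 0 < h) (X v : ℤ) :
    (((h * n : ℕ) : ℤ) * X + v) / (h : ℤ) = (n : ℤ) * X + v / (h : ℤ) := by
  have e : ((h * n : ℕ) : ℤ) * X + v = (h : ℤ) * ((n : ℤ) * X) + v := by push_cast; ring
  rw [e, add_div_of_small hh]

/-- the row of the `Q` line of level `2m+2`, right of the corner -/
theorem rowR {a : ℕ} (ha : 1 ≤ a) (m : ℕ) (s : Star) (X Y : ℤ) {v : ℤ} (h0 : 0 ≤ v)
    (h1 : v < (xh (a + 1) (m + 1) : ℕ)) :
    V (a + 1 + 2 * m) s.flip Y ((((xh (a + 1) (m + 1) : ℕ) : ℤ) * X + v) / (xh (a + 1) m : ℕ)) =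
      if dg (3 * (a + 1 + 2 * m + 1)) Y = 0 then Hf (a + 1 + 2 * m + 1) s X Y
      else { Hf (a + 1 + 2 * m + 1) s X Y with
        u := umem (a + 1 + 2 * m) (dg (3 * (a + 1 + 2 * m)) (v / (xh (a + 1) m : ℕ)))
          (dg (3 * (a + 1 + 2 * m + 1)) Y) } := by
  have hp := xh_pos (a := a + 1) (by omega) m
  rw [xh_succ'] at h1 ⊢
  rw [split_div hp]
  apply V_row (by omega)
  · exact Int.ediv_nonneg h0 (by positivity)
  · apply Int.ediv_lt_of_lt_mul (by exact_mod_cast hp)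
    push_cast at h1 ⊢
    linarith [h1]

/-- the row of the `Q` line of level `2m+2`, left of the corner -/
theorem rowL {a : ℕ} (ha : 1 ≤ a) (m : ℕ) (s : Star) (X Y : ℤ) {v : ℤ}
    (h0 : -((xh (a + 1) (m + 1) : ℕ) : ℤ) ≤ v) (h1 : v < 0) :
    V (a + 1 + 2 * m) s.flip Y ((((xh (a + 1) (m + 1) : ℕ) : ℤ) * X + v) / (xh (a + 1) m : ℕ)) =
      if dg (3 * (a + 1 + 2 * m + 1)) Y = 0 then Hb (a + 1 + 2 * m + 1) s X Y
      else { Hb (a + 1 + 2 * m + 1) s X Y with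
        u := umem (a + 1 + 2 * m)
          (dg (3 * (a + 1 + 2 * m)) ((v + (xh (a + 1) (m + 1) : ℕ)) / (xh (a + 1) m : ℕ)))
          (dg (3 * (a + 1 + 2 * m + 1)) Y) } := by
  have hp := xh_pos (a := a + 1) (by omega) m
  have e : ((xh (a + 1) (m + 1) : ℕ) : ℤ) * X + v =
      ((xh (a + 1) (m + 1) : ℕ) : ℤ) * (X - 1) + (v + (xh (a + 1) (m + 1) : ℕ)) := by ring
  rw [e]
  have h2 : (0 : ℤ) ≤ v + (xh (a + 1) (m + 1) : ℕ) := by omega
  have h3 : v + (xh (a + 1) (m + 1) : ℕ) < (xh (a + 1) (m + 1) : ℕ) := by omega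
  generalize v + (xh (a + 1) (m + 1) : ℕ) = c at h2 h3 ⊢
  rw [xh_succ'] at h3 ⊢
  rw [split_div hp]
  apply V_row' (by omega)
  · exact Int.ediv_nonneg h2 (by positivity)
  · apply Int.ediv_lt_of_lt_mul (by exact_mod_cast hp)
    push_cast at h3 ⊢
    linarith [h3]

section cong

variable {a : ℕ} (ha : 3 ≤ a) (m : ℕ) {s s' : Star} {X X' Y Y' : ℤ}
  (hd : ((3 * (a + 2 * m) : ℕ) : ℤ) ∣ Y - Y')

include hd in
theorem row_dvd (v : ℤ) : ((xh a (m + 1) : ℕ) : ℤ) ∣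
    (v + (xh a m : ℕ) * Y) - (v + (xh a m : ℕ) * Y') := by
  rw [xh_succ']
  obtain ⟨k, hk⟩ := hd
  refine ⟨k, ?_⟩
  push_cast at hk ⊢
  linear_combination (xh a m : ℤ) * hk

include ha hd in
/-- interior of the faces -/
theorem rstar_F {v₁ v₂ : ℤ} (h1 : ¬ ((xh (a + 1) m : ℕ) : ℤ) ∣ v₁)
    (h2 : ¬ ((xh a m : ℕ) : ℤ) ∣ v₂) :
    rstar a s (v₁ + (xh (a + 1) m : ℕ) * X) (v₂ + (xh a m : ℕ) * Y) =
      rstar a s' (v₁ + (xh (a + 1) m : ℕ) * X') (v₂ + (xh a m : ℕ) * Y') := by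
  have hx : ¬ ((xh (a + 1) m : ℕ) : ℤ) ∣ v₁ + (xh (a + 1) m : ℕ) * X := by
    rwa [Int.dvd_add_left (Dvd.intro _ rfl)]
  have hy : ¬ ((xh a m : ℕ) : ℤ) ∣ v₂ + (xh a m : ℕ) * Y := by
    rwa [Int.dvd_add_left (Dvd.intro _ rfl)]
  have hxx : ((xh (a + 1) m : ℕ) : ℤ) ∣
      (v₁ + (xh (a + 1) m : ℕ) * X) - (v₁ + (xh (a + 1) m : ℕ) * X') := ⟨X - X', by ring⟩
  have hyy : ((xh a m : ℕ) : ℤ) ∣
      (v₂ + (xh a m : ℕ) * Y) - (v₂ + (xh a m : ℕ) * Y') := ⟨Y - Y', by ring⟩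
  have hyy' := row_dvd (a := a) m hd v₂
  unfold rstar
  rw [dom_congr (by omega) m s s' (Or.inl hy) hyy hxx,
    Hf_congr (by omega) m s s' hy hyy hxx, Hb_congr (by omega) m s s' hy hyy hxx,
    V_congr (by omega) m s s' hx hxx hyy',
    V_congr (by omega) m s s' hx hxx (y := v₂ + (xh a m : ℕ) * Y - 1)
      (y' := v₂ + (xh a m : ℕ) * Y' - 1) (by rwa [sub_sub_sub_cancel_right])]

include ha in
/-- upper half of the `P` line -/
theorem rstar_Pf {v₂ : ℤ} (h0 : 0 < v₂) (h1 : v₂ < (xh a m : ℕ))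
    (hV : V (a + 2 * m) s X Y = V (a + 2 * m) s' X' Y') :
    rstar a s ((xh (a + 1) m : ℕ) * X) (v₂ + (xh a m : ℕ) * Y) =
      rstar a s' ((xh (a + 1) m : ℕ) * X') (v₂ + (xh a m : ℕ) * Y') := by
  have hp := xh_pos (a := a) (by omega) m
  have hy : ¬ ((xh a m : ℕ) : ℤ) ∣ v₂ + (xh a m : ℕ) * Y := by
    rw [Int.dvd_add_left (Dvd.intro _ rfl)]
    exact not_dvd_of_small (by omega) h1 h0.ne'
  have hxx : ((xh (a + 1) m : ℕ) : ℤ) ∣
      ((xh (a + 1) m : ℕ) * X) - ((xh (a + 1) m : ℕ) * X') := ⟨X - X', by ring⟩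
  have hyy : ((xh a m : ℕ) : ℤ) ∣
      (v₂ + (xh a m : ℕ) * Y) - (v₂ + (xh a m : ℕ) * Y') := ⟨Y - Y', by ring⟩
  have key : ∀ (s : Star) (X Y c : ℤ), 0 ≤ c → c < (xh a m : ℕ) →
      V a s ((xh (a + 1) m : ℕ) * X) ((xh a m : ℕ) * Y + c) = V (a + 2 * m) s X Y := by
    intro s X Y c h2 h3
    rw [V_inflate (by omega), add_div_of_small hp, Int.ediv_eq_zero_of_lt h2 h3, add_zero]
  have e1 : ∀ Y : ℤ, v₂ + (xh a m : ℕ) * Y = (xh a m : ℕ) * Y + v₂ := fun Y => add_comm _ _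
  have e2 : ∀ Y : ℤ, v₂ + (xh a m : ℕ) * Y - 1 = (xh a m : ℕ) * Y + (v₂ - 1) := fun Y => by ring
  unfold rstar
  rw [dom_congr (by omega) m s s' (Or.inl hy) hyy hxx,
    Hf_congr (by omega) m s s' hy hyy hxx, Hb_congr (by omega) m s s' hy hyy hxx, e2, e2, e1, e1,
    key s X Y _ (by omega) (by omega), key s X Y _ (by omega) (by omega),
    key s' X' Y' _ (by omega) (by omega), key s' X' Y' _ (by omega) (by omega), hV]

include ha in
/-- lower half of the `P` line -/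
theorem rstar_Pb {v₂ : ℤ} (h0 : -((xh a m : ℕ) : ℤ) < v₂) (h1 : v₂ < 0)
    (hV : V (a + 2 * m) s X (Y - 1) = V (a + 2 * m) s' X' (Y' - 1)) :
    rstar a s ((xh (a + 1) m : ℕ) * X) (v₂ + (xh a m : ℕ) * Y) =
      rstar a s' ((xh (a + 1) m : ℕ) * X') (v₂ + (xh a m : ℕ) * Y') := by
  have e : ∀ Y : ℤ, v₂ + (xh a m : ℕ) * Y = (v₂ + (xh a m : ℕ)) + (xh a m : ℕ) * (Y - 1) :=
    fun Y => by ring
  have hp := xh_pos (a := a) (by omega) m
  have hy : ¬ ((xh a m : ℕ) : ℤ) ∣ v₂ + (xh a m : ℕ) * Y := by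
    rw [Int.dvd_add_left (Dvd.intro _ rfl)]
    exact not_dvd_of_small h0 (by omega) h1.ne
  have hxx : ((xh (a + 1) m : ℕ) : ℤ) ∣
      ((xh (a + 1) m : ℕ) * X) - ((xh (a + 1) m : ℕ) * X') := ⟨X - X', by ring⟩
  have hyy : ((xh a m : ℕ) : ℤ) ∣
      (v₂ + (xh a m : ℕ) * Y) - (v₂ + (xh a m : ℕ) * Y') := ⟨Y - Y', by ring⟩
  have key : ∀ (s : Star) (X Y c : ℤ), -((xh a m : ℕ) : ℤ) ≤ c → c < 0 →
      V a s ((xh (a + 1) m : ℕ) * X) ((xh a m : ℕ) * Y + c) = V (a + 2 * m) s X (Y - 1) := by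
    intro s X Y c h2 h3
    rw [V_inflate (by omega), add_div_of_small hp, div_eq_neg_one h2 h3, Int.sub_eq_add_neg]
  have e1 : ∀ Y : ℤ, v₂ + (xh a m : ℕ) * Y = (xh a m : ℕ) * Y + v₂ := fun Y => add_comm _ _
  have e2 : ∀ Y : ℤ, v₂ + (xh a m : ℕ) * Y - 1 = (xh a m : ℕ) * Y + (v₂ - 1) := fun Y => by ring
  unfold rstar
  rw [dom_congr (by omega) m s s' (Or.inl hy) hyy hxx,
    Hf_congr (by omega) m s s' hy hyy hxx, Hb_congr (by omega) m s s' hy hyy hxx, e2, e2, e1, e1,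
    key s X Y _ (by omega) (by omega), key s X Y _ (by omega) (by omega),
    key s' X' Y' _ (by omega) (by omega), key s' X' Y' _ (by omega) (by omega), hV]

include ha hd in
/-- right half of the `Q` line -/
theorem rstar_Qf {v₁ : ℤ} (h0 : 0 < v₁) (h1 : v₁ < (xh (a + 1) m : ℕ))
    (hV : Hf (a + 2 * m) s X Y = Hf (a + 2 * m) s' X' Y') :
    rstar a s (v₁ + (xh (a + 1) m : ℕ) * X) ((xh a m : ℕ) * Y) =
      rstar a s' (v₁ + (xh (a + 1) m : ℕ) * X') ((xh a m : ℕ) * Y') := by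
  have hdg : dg (3 * (a + 2 * m)) Y = dg (3 * (a + 2 * m)) Y' := dg_congr dvd_rfl hd
  have hx : ¬ ((xh (a + 1) m : ℕ) : ℤ) ∣ v₁ + (xh (a + 1) m : ℕ) * X := by
    rw [Int.dvd_add_left (Dvd.intro _ rfl)]
    exact not_dvd_of_small (by omega) h1 h0.ne'
  have hxx : ((xh (a + 1) m : ℕ) : ℤ) ∣
      (v₁ + (xh (a + 1) m : ℕ) * X) - (v₁ + (xh (a + 1) m : ℕ) * X') := ⟨X - X', by ring⟩
  have hyy : ((xh a m : ℕ) : ℤ) ∣ ((xh a m : ℕ) * Y) - ((xh a m : ℕ) * Y') := ⟨Y - Y', by ring⟩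
  have hyy' := row_dvd (a := a) m hd 0
  rw [zero_add, zero_add] at hyy'
  have e1 : ∀ X : ℤ, v₁ + (xh (a + 1) m : ℕ) * X = (xh (a + 1) m : ℕ) * X + v₁ :=
    fun X => add_comm _ _
  have e2 : ∀ X : ℤ, v₁ + (xh (a + 1) m : ℕ) * X - 1 = (xh (a + 1) m : ℕ) * X + (v₁ - 1) :=
    fun X => by ring
  cases m with
  | zero => simp at h1; omega
  | succ m =>
    have ea : a + 2 * (m + 1) = a + 1 + 2 * m + 1 := by ring
    rw [ea] at hV hdg
    unfold rstar
    rw [dom_congr (by omega) (m + 1) s s' (Or.inr hx) hyy hxx,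
      V_congr (by omega) (m + 1) s s' hx hxx hyy',
      V_congr (by omega) (m + 1) s s' hx hxx (y := (xh a (m + 1) : ℕ) * Y - 1)
        (y' := (xh a (m + 1) : ℕ) * Y' - 1) (by rwa [sub_sub_sub_cancel_right]),
      Hf_row (by omega), Hf_row (by omega), Hb_row (by omega), Hb_row (by omega), e2, e2,
      e1, e1, rowR (by omega) m s X Y (by omega) (by omega),
      rowR (by omega) m s X Y (by omega) (by omega),
      rowR (by omega) m s' X' Y' (by omega) (by omega),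
      rowR (by omega) m s' X' Y' (by omega) (by omega), hV, hdg]

include ha hd in
/-- left half of the `Q` line -/
theorem rstar_Qb {v₁ : ℤ} (h0 : -((xh (a + 1) m : ℕ) : ℤ) < v₁) (h1 : v₁ < 0)
    (hV : Hb (a + 2 * m) s X Y = Hb (a + 2 * m) s' X' Y') :
    rstar a s (v₁ + (xh (a + 1) m : ℕ) * X) ((xh a m : ℕ) * Y) =
      rstar a s' (v₁ + (xh (a + 1) m : ℕ) * X') ((xh a m : ℕ) * Y') := by
  have hdg : dg (3 * (a + 2 * m)) Y = dg (3 * (a + 2 * m)) Y' := dg_congr dvd_rfl hd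
  have hx : ¬ ((xh (a + 1) m : ℕ) : ℤ) ∣ v₁ + (xh (a + 1) m : ℕ) * X := by
    rw [Int.dvd_add_left (Dvd.intro _ rfl)]
    exact not_dvd_of_small h0 (by omega) h1.ne
  have hxx : ((xh (a + 1) m : ℕ) : ℤ) ∣
      (v₁ + (xh (a + 1) m : ℕ) * X) - (v₁ + (xh (a + 1) m : ℕ) * X') := ⟨X - X', by ring⟩
  have hyy : ((xh a m : ℕ) : ℤ) ∣ ((xh a m : ℕ) * Y) - ((xh a m : ℕ) * Y') := ⟨Y - Y', by ring⟩
  have hyy' := row_dvd (a := a) m hd 0
  rw [zero_add, zero_add] at hyy'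
  have e1 : ∀ X : ℤ, v₁ + (xh (a + 1) m : ℕ) * X = (xh (a + 1) m : ℕ) * X + v₁ :=
    fun X => add_comm _ _
  have e2 : ∀ X : ℤ, v₁ + (xh (a + 1) m : ℕ) * X - 1 = (xh (a + 1) m : ℕ) * X + (v₁ - 1) :=
    fun X => by ring
  cases m with
  | zero => simp at h0; omega
  | succ m =>
    have ea : a + 2 * (m + 1) = a + 1 + 2 * m + 1 := by ring
    rw [ea] at hV hdg
    unfold rstar
    rw [dom_congr (by omega) (m + 1) s s' (Or.inr hx) hyy hxx,
      V_congr (by omega) (m + 1) s s' hx hxx hyy',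
      V_congr (by omega) (m + 1) s s' hx hxx (y := (xh a (m + 1) : ℕ) * Y - 1)
        (y' := (xh a (m + 1) : ℕ) * Y' - 1) (by rwa [sub_sub_sub_cancel_right]),
      Hf_row (by omega), Hf_row (by omega), Hb_row (by omega), Hb_row (by omega), e2, e2,
      e1, e1, rowL (by omega) m s X Y (by omega) (by omega),
      rowL (by omega) m s X Y (by omega) (by omega),
      rowL (by omega) m s' X' Y' (by omega) (by omega),
      rowL (by omega) m s' X' Y' (by omega) (by omega), hV, hdg]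

end cong

/-- the star of level `m` in terms of coordinates -/
theorem coords {a : ℕ} (ha : 3 ≤ a) {m : ℕ} {y : X} (hy : y ∈ xD a m) :
    ∃ X Y : ℤ, y.p.1 = (xh (a + 1) m : ℕ) * X ∧ y.p.2 = (xh a m : ℕ) * Y ∧
      (xst (allOK ha) m y).1 = rstar (a + 2 * m) y.s X Y ∧
      xdig a m y = ((Y : ℤ) : ZMod (3 * (a + 2 * m))) := by
  obtain ⟨X, hX⟩ := hy.1
  obtain ⟨Y, hY⟩ := hy.2
  have hw : ((xh (a + 1) m : ℕ) : ℤ) ≠ 0 := by exact_mod_cast (xh_pos (by omega) m).ne'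
  have hh : ((xh a m : ℕ) : ℤ) ≠ 0 := by exact_mod_cast (xh_pos (by omega) m).ne'
  refine ⟨X, Y, hX, hY, ?_, ?_⟩
  · show rstar (a + 2 * m) y.s (y.p.1 / _) (y.p.2 / _) = _
    rw [hX, hY, Int.mul_ediv_cancel_left _ hw, Int.mul_ediv_cancel_left _ hh]
  · unfold xdig
    rw [hY, Int.mul_ediv_cancel_left _ hh]

/-- letters agree when the data agree -/
theorem letter_eq {m : ℕ} {y y' : X} (hy : y ∈ xD 3 m) (hy' : y' ∈ xD 3 m)
    (hdig : xdig 3 m y = xdig 3 m y') {v : ℤ × ℤ}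
    (h1 : -((xh 4 m : ℕ) : ℤ) < v.1) (h2 : v.1 < (xh 4 m : ℕ))
    (h3 : -((xh 3 m : ℕ) : ℤ) < v.2) (h4 : v.2 < (xh 3 m : ℕ))
    (hPf : v.1 = 0 → 0 < v.2 → (xst (allOK le_rfl) m y).Pf = (xst (allOK le_rfl) m y').Pf)
    (hPb : v.1 = 0 → v.2 < 0 → (xst (allOK le_rfl) m y).Pb = (xst (allOK le_rfl) m y').Pb)
    (hQf : v.2 = 0 → 0 < v.1 → (xst (allOK le_rfl) m y).Qf = (xst (allOK le_rfl) m y').Qf)
    (hQb : v.2 = 0 → v.1 < 0 → (xst (allOK le_rfl) m y).Qb = (xst (allOK le_rfl) m y').Qb)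
    (hV : v.1 = 0 → v.2 = 0 → xst (allOK le_rfl) m y = xst (allOK le_rfl) m y') :
    letter (v +ᵥ y) = letter (v +ᵥ y') := by
  obtain ⟨X, Y, hX, hY, hs, hdg⟩ := coords le_rfl hy
  obtain ⟨X', Y', hX', hY', hs', hdg'⟩ := coords le_rfl hy'
  rw [hdg, hdg', ZMod.intCast_eq_intCast_iff_dvd_sub] at hdig
  have hd : ((3 * (3 + 2 * m) : ℕ) : ℤ) ∣ Y - Y' := by
    rw [← Int.dvd_neg, neg_sub]; exact hdig
  have e1 : (v +ᵥ y).p = (v.1 + (xh 4 m : ℕ) * X, v.2 + (xh 3 m : ℕ) * Y) := by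
    rw [R189.X.vadd_p]
    exact Prod.ext (by rw [Prod.fst_add, hX]) (by rw [Prod.snd_add, hY])
  have e2 : (v +ᵥ y').p = (v.1 + (xh 4 m : ℕ) * X', v.2 + (xh 3 m : ℕ) * Y') := by
    rw [R189.X.vadd_p]
    exact Prod.ext (by rw [Prod.fst_add, hX']) (by rw [Prod.snd_add, hY'])
  rw [letter_eq_iff, e1, e2, R189.X.vadd_s, R189.X.vadd_s]
  constructor
  · apply dg_congr (N := xh 3 (m + 1)) _ (row_dvd m hd v.2)
    exact xh_dvd (a := 3) (m := 1) (m' := m + 1) (by omega)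
  · show rstar 3 y.s (v.1 + (xh 4 m : ℕ) * X) (v.2 + (xh 3 m : ℕ) * Y) =
      rstar 3 y'.s (v.1 + (xh 4 m : ℕ) * X') (v.2 + (xh 3 m : ℕ) * Y')
    rcases eq_or_ne v.1 0 with hv1 | hv1
    · rcases lt_trichotomy v.2 0 with hv2 | hv2 | hv2
      · rw [hv1, zero_add, zero_add]
        refine rstar_Pb (a := 3) le_rfl m h3 hv2 ?_
        have := hPb hv1 hv2
        show (rstar (3 + 2 * m) y.s X Y).Pb = (rstar (3 + 2 * m) y'.s X' Y').Pb
        rw [← hs, ← hs']; exact this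
      · rw [hv1, hv2, zero_add, zero_add, zero_add, zero_add]
        rw [rstar_inflate (a := 3) (by omega), rstar_inflate (a := 3) (by omega), ← hs, ← hs',
          hV hv1 hv2]
      · rw [hv1, zero_add, zero_add]
        refine rstar_Pf (a := 3) le_rfl m hv2 h4 ?_
        have := hPf hv1 hv2
        show (rstar (3 + 2 * m) y.s X Y).Pf = (rstar (3 + 2 * m) y'.s X' Y').Pf
        rw [← hs, ← hs']; exact this
    · rcases eq_or_ne v.2 0 with hv2 | hv2
      · rw [hv2, zero_add, zero_add]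
        rcases lt_or_gt_of_ne hv1 with hv | hv
        · refine rstar_Qb (a := 3) le_rfl m hd h1 hv ?_
          have := hQb hv2 hv
          show (rstar (3 + 2 * m) y.s X Y).Qb = (rstar (3 + 2 * m) y'.s X' Y').Qb
          rw [← hs, ← hs']; exact this
        · refine rstar_Qf (a := 3) le_rfl m hd hv h2 ?_
          have := hQf hv2 hv
          show (rstar (3 + 2 * m) y.s X Y).Qf = (rstar (3 + 2 * m) y'.s X' Y').Qf
          rw [← hs, ← hs']; exact this
      · exact rstar_F (a := 3) le_rfl m hd (not_dvd_of_small h1 h2 hv1)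
          (not_dvd_of_small h3 h4 hv2)

open Classical in
/-- a function chosen through a key -/
noncomputable def pick {κ : Type} (D : Set X) (k : X → κ) (i : κ) (v : ℤ × ℤ) : Fin 9 × Star :=
  if h : ∃ y ∈ D, k y = i then letter (v +ᵥ h.choose) else letter ⟨0, quietStar ⟨.f0, none, .A⟩ rfl⟩

theorem pick_eq {κ : Type} {D : Set X} {k : X → κ} {y : X} (hy : y ∈ D) {v : ℤ × ℤ}
    (h : ∀ y' ∈ D, k y = k y' → letter (v +ᵥ y) = letter (v +ᵥ y')) :
    letter (v +ᵥ y) = pick D k (k y) v := by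
  have he : ∃ y' ∈ D, k y' = k y := ⟨y, hy, rfl⟩
  unfold pick
  rw [dif_pos he]
  exact h _ he.choose_spec.1 he.choose_spec.2.symm

end XLetAux

/-- **The letter functions of the even levels.** -/
noncomputable def levLet (m : ℕ) : K.LevLet (xLev (a := 3) le_rfl (allOK le_rfl) m) letter where
  aF := XLetAux.pick (xD 3 m) (xLev (a := 3) le_rfl (allOK le_rfl) m).dig
  aP := XLetAux.pick (xD 3 m) (xLev (a := 3) le_rfl (allOK le_rfl) m).kP
  aQ := XLetAux.pick (xD 3 m) (xLev (a := 3) le_rfl (allOK le_rfl) m).kQ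
  aV := XLetAux.pick (xD 3 m) (xLev (a := 3) le_rfl (allOK le_rfl) m).kV
  hF y hy v h1 h2 h3 h4 := by
    refine XLetAux.pick_eq hy fun y' hy' hk => ?_
    replace h2 : v.1 < (xh 4 m : ℕ) := h2
    replace h4 : v.2 < (xh 3 m : ℕ) := h4
    exact XLetAux.letter_eq hy hy' hk (by omega) h2 (by omega) h4 (by omega) (by omega) (by omega)
      (by omega) (by omega)
  hP y hy v h1 h2 h3 h4 := by
    refine XLetAux.pick_eq hy fun y' hy' hk => ?_
    replace h1 : -((xh 4 m : ℕ) : ℤ) < v.1 := h1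
    replace h2 : v.1 < (xh 4 m : ℕ) := h2
    replace h4 : v.2 < (xh 3 m : ℕ) := h4
    exact XLetAux.letter_eq hy hy' (congrArg Prod.fst hk) h1 h2 (by omega) h4
      (fun _ _ => congrArg Prod.snd hk) (by omega) (by omega) (by omega) (by omega)
  hQ y hy v h1 h2 h3 h4 := by
    refine XLetAux.pick_eq hy fun y' hy' hk => ?_
    replace h2 : v.1 < (xh 4 m : ℕ) := h2
    replace h3 : -((xh 3 m : ℕ) : ℤ) < v.2 := h3
    replace h4 : v.2 < (xh 3 m : ℕ) := h4
    exact XLetAux.letter_eq hy hy' (congrArg Prod.fst hk) (by omega) h2 h3 h4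
      (by omega) (by omega) (fun _ _ => congrArg Prod.snd hk) (by omega) (by omega)
  hV y hy v h1 h2 h3 h4 := by
    refine XLetAux.pick_eq hy fun y' hy' hk => ?_
    replace h1 : -((xh 4 m : ℕ) : ℤ) < v.1 := h1
    replace h2 : v.1 < (xh 4 m : ℕ) := h2
    replace h3 : -((xh 3 m : ℕ) : ℤ) < v.2 := h3
    replace h4 : v.2 < (xh 3 m : ℕ) := h4
    have hs : xst (allOK le_rfl) m y = xst (allOK le_rfl) m y' := congrArg Prod.snd hk
    exact XLetAux.letter_eq hy hy' (congrArg Prod.fst hk) h1 h2 h3 h4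
      (fun _ _ => by rw [hs]) (fun _ _ => by rw [hs]) (fun _ _ => by rw [hs])
      (fun _ _ => by rw [hs]) (fun _ _ => hs)

end Crest.Agent.R189
end

-- ▼ part R189/FPFinal
section

/-!
# Row 189 (S0289), helper396: finite presentability of `GG` from the count
-/

set_option autoImplicit false

namespace Crest.Agent.R189.FPMain

open K

theorem hCol : 30 ≤ Fintype.card Col := by simp

/-- the kernel of `T → Gp` is finitely generated, given the count -/
theorem fg_ker_of_count (N : ℕ)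
    (hcnt : ∀ k (M0 : Ctx (LX k) Col qTL) (K : Set (TGrp MD Col)),
      (∀ w ∈ K, qTL w = 1 ∧ ∃ a b, M0.Rep w a b) → K.ncard ≤ N) :
    Group.FG (qTL).ker :=
  K.kernel_fg_of_count (gsX hCol) (ker_le_center hCol) LX levLet
    (fun k => Classical.choice (secSys hCol k).1)
    (fun k => Classical.choice (secSys hCol k).2.1)
    (fun k => Classical.choice (secSys hCol k).2.2.1)
    (fun k => Classical.choice (secSys hCol k).2.2.2)
    (c0 := (0 : Col)) (c1 := (1 : Col)) (by decide)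
    tendsto_LX_w tendsto_LX_h LX_D_nonempty N hcnt

/-- the group is finitely presented, given the count -/
theorem GG_fp_of_count (N : ℕ)
    (hcnt : ∀ k (M0 : Ctx (LX k) Col qTL) (K : Set (TGrp MD Col)),
      (∀ w ∈ K, qTL w = 1 ∧ ∃ a b, M0.Rep w a b) → K.ncard ≤ N) :
    Group.IsFinitelyPresented GG :=
  fp_of_FG_ker (fg_ker_of_count N hcnt)

end Crest.Agent.R189.FPMain
end

-- ▼ part R189/FPCnt

/-!
# Row 189 (S0289), helper396: uniqueness, congruence of representations, and the count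
-/

set_option autoImplicit false

namespace Crest.Agent.R189.FPMain

open K
open Equiv Equiv.Perm

section

variable {X Lab Sta C T : Type*} [AddAction (ℤ × ℤ) X] [Fintype C] [DecidableEq C] [Group T]
variable {L : Lev X Lab Sta} {q : T →* Equiv.Perm (X × C)} (M : Ctx L C q)

/-- uniqueness of the represented kernel element -/
theorem rep_uniq_c [Finite Lab] [Finite Sta] {w w' : T} (hw : q w = 1) (hw' : q w' = 1)
    {a b : ZMod L.n × Lab → ZMod 2} (h : M.Rep w a b) (h' : M.Rep w' a b) : w = w' := by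
  have : NeZero L.n := ⟨L.n_pos.ne'⟩
  obtain ⟨z, hz, rfl⟩ := h
  obtain ⟨z', hz', rfl⟩ := h'
  have e : q (M.SV.val z) = q (M.SV.val z') := by
    have := hw.trans hw'.symm
    rw [map_mul, map_mul] at this
    exact mul_right_cancel this
  rw [M.SV.val_inj M.dB hz hz' e]

/-- the representation depends on the occurring signs only -/
theorem rep_congr_c [Finite Lab] [Finite Sta] {w : T}
    {a b a' b' : ZMod L.n × Lab → ZMod 2} (h : M.Rep w a b)
    (ha : ∀ x ∈ L.D, a (L.kP x) = a' (L.kP x)) (hb : ∀ x ∈ L.D, b (L.kQ x) = b' (L.kQ x)) :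
    M.Rep w a' b' := by
  have : NeZero L.n := ⟨L.n_pos.ne'⟩
  obtain ⟨z, hz, hw⟩ := h
  refine ⟨z, hz, ?_⟩
  rw [hw]
  congr 1
  unfold Ctx.Es
  congr 1
  · apply M.SP.val_congr M.dWP (fun i => M.vc_famP_alt a i) (fun i => M.vc_famP_alt a' i)
    intro x hx
    unfold Ctx.famP
    rw [ha x hx]
  · apply M.SQ.val_congr M.dWQ (fun i => M.vc_famQ_alt b i) (fun i => M.vc_famQ_alt b' i)
    intro x hx
    unfold Ctx.famQ
    rw [hb x hx]

end

/-- **the count** -/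
theorem hcnt (k : ℕ) (M : Ctx (LX k) Col qTL) (K : Set (TGrp MD Col))
    (hK : ∀ w ∈ K, qTL w = 1 ∧ ∃ a b, M.Rep w a b) :
    K.ncard ≤ Nat.card ((Label → ZMod 2) × (Label → ZMod 2)) := by
  refine (M.card_le_aux (countX le_rfl (allOK le_rfl) k) K (fun w hw => (hK w hw).2)
    ?_ ?_ ?_ ?_).2
  · intro w hw a b h t
    exact M.rep_toggle (ker_le_center hCol (MonoidHom.mem_ker.2 (hK w hw).1)) h t
  · intro w hw a b h x hx
    exact M.vertex (hK w hw).1 h hx
  · intro w hw w' hw' a b h h'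
    exact rep_uniq_c M (hK w hw).1 (hK w' hw').1 h h'
  · intro w hw a b a' b' h ha hb
    exact rep_congr_c M h ha hb


/-- **`GG` is finitely presented** -/
theorem GG_fp : Group.IsFinitelyPresented GG := GG_fp_of_count _ hcnt

end Crest.Agent.R189.FPMain
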