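import Crest.Agent.R189.KCount
import Crest.Agent.R189.XDef

/-!
Row 189: the corners occurring in the concrete configurations of `XDef.lean` are `Rich` and `Tame`.
-/

set_option autoImplicit false

namespace Crest.Agent.R189.KCount

open Crest.Agent.R189

/-- the star `σ` occurs at a corner with row digit `j` of a configuration with parameter `a` -/
def occX (a j : ℕ) (σ : Star) : Prop :=
  ∃ (s : Star) (x y : ℤ), dg (3 * a) y = j ∧ rstar a s x y = σ.1

theorem coreList_valid : ∀ c ∈ coreList, (validU c.t c.u && validU c.t c.u' &&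
    validSt c.ts c.b && validSt c.ts c.b') = true := by decide +kernel

theorem validU_A (t : Tau) : validU t .A = true := by cases t <;> rfl
theorem validU_B (t : Tau) : validU t .B = true := by cases t <;> rfl

theorem Rule.valid {D D' L L' : Label} (h : Rule D D' L L') :
    D.Valid = true ∧ D'.Valid = true ∧ L.Valid = true ∧ L'.Valid = true := by
  obtain ⟨h1, h2, ⟨h3, _⟩, h4, h5, h6, h7⟩ := h
  have := coreList_valid _ h7
  simp only [Bool.and_eq_true] at this
  obtain ⟨⟨⟨g1, g2⟩, g3⟩, g4⟩ := this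
  simp only [Label.Valid, Bool.and_eq_true]
  refine ⟨⟨h3, g1⟩, ⟨?_, ?_⟩, ⟨g3, ?_⟩, ⟨?_, ?_⟩⟩
  · rw [← h1, ← h2]; exact h3
  · rw [← h1]; exact g2
  · rw [h5]; exact validU_B _
  · rw [← h4]; exact g4
  · rw [h6]; exact validU_A _

theorem OK_valid {σ : RStar} (h : σ.OK) : σ.Pb.Valid = true ∧ σ.Pf.Valid = true ∧
    σ.Qb.Valid = true ∧ σ.Qf.Valid = true := by
  unfold RStar.OK at h
  split_ifs at h
  · have := Rule.valid h; tauto
  · have := Rule.valid h; tauto

/-- quiet core over a blank line -/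
theorem quiet_mem : ∀ t : Tau, ∀ u : Mem, validU t u = true →
    (⟨t, u, u, .f0, none, none⟩ : Core) ∈ coreList := by decide +kernel

/-- the quiet star with column label `lam` -/
def quiet (lam : Label) (h : lam.Valid = true) : Star :=
  ⟨⟨true, lam, lam, ⟨.f0, none, .B⟩, ⟨.f0, none, .A⟩⟩, by
    simp only [Label.Valid, Bool.and_eq_true] at h
    exact ⟨rfl, rfl, ⟨h.1, by simp [BadX]⟩, rfl, rfl, rfl, quiet_mem _ _ h.2⟩⟩

theorem sub_one_div {n : ℕ} (hn : 0 < n) {y : ℤ} (h : dg n y ≠ 0) :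
    (y - 1) / (n : ℤ) = y / (n : ℤ) ∧ dg n (y - 1) = dg n y - 1 := by
  have h1 := div_mul_add_dg hn y
  have h2 := dg_lt hn y
  have h3 : y - 1 = ((dg n y - 1 : ℕ) : ℤ) + n * (y / n) := by
    push_cast [Nat.cast_sub (show 1 ≤ dg n y by omega)]
    linarith
  constructor
  · rw [h3, Int.add_mul_ediv_left _ _ (by exact_mod_cast hn.ne'),
      Int.ediv_eq_zero_of_lt (by positivity) (by exact_mod_cast (by omega : dg n y - 1 < n))]
    rw [← h3] at *
    ring
  · rw [h3, dg_add_mul, dg_natCast (by omega)]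


/-- the digit of `x - 1` is the cyclic predecessor of the digit of `x` -/
theorem dg_sub_one (a : ℕ) (x : ℤ) : dg (3 * (a + 1)) (x - 1) = prev a (dg (3 * (a + 1)) x) := by
  unfold prev
  by_cases h : dg (3 * (a + 1)) x = 0
  · rw [if_pos h]
    obtain ⟨k, rfl⟩ := (dg_eq_zero (by omega)).1 h
    rw [dg_mul_sub_one (by omega)]
  · rw [if_neg h, (sub_one_div (by omega) h).2]

/-- along a block of rows, the label of the `P` line `x` is `pLab` of its label above row `0` -/
theorem V_eq_pLab {a : ℕ} (ha : 1 ≤ a) (s : Star) (x y : ℤ) :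
    V a s x y = pLab a (dg (3 * a) y) (dg (3 * (a + 1)) x)
      (V a s x (((3 * a : ℕ) : ℤ) * (y / ((3 * a : ℕ) : ℤ)))) := by
  have hp : (0 : ℤ) < ((3 * a : ℕ) : ℤ) := by exact_mod_cast (by omega : 0 < 3 * a)
  by_cases hx : dg (3 * (a + 1)) x = 0
  · rw [hx, pLab_zero]
    obtain ⟨k, rfl⟩ := (dg_eq_zero (by omega)).1 hx
    rw [V_mul ha, V_mul ha, Int.mul_ediv_cancel_left _ hp.ne']
  · unfold pLab
    rw [if_neg hx, V_of_ne _ _ hx, V_of_ne _ _ hx, Int.mul_ediv_cancel_left _ hp.ne']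

/-- the label above a row `≡ 0` occurs -/
theorem V_valid (s : Star) : ∀ (m a : ℕ) (x y : ℤ), 2 ≤ a → x.natAbs ≤ m →
    (V a s x y).Valid = true := by
  intro m
  induction m with
  | zero =>
    intro a x y _ hm
    have : x = 0 := Int.natAbs_eq_zero.1 (by omega)
    subst this
    rw [V_zero]
    have := OK_valid s.2
    split_ifs
    · exact this.2.1
    · exact this.1
  | succ m ih =>
    intro a x y ha hm
    by_cases hx : dg (3 * (a + 1)) x = 0
    · obtain ⟨k, rfl⟩ := (dg_eq_zero (by omega)).1 hx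
      rw [V_mul (by omega)]
      by_cases hk : k = 0
      · subst hk
        exact ih (a + 2) 0 _ (by omega) (by simp)
      · apply ih (a + 2) k _ (by omega)
        rw [Int.natAbs_mul] at hm
        have e1 : (((3 * (a + 1) : ℕ) : ℤ)).natAbs = 3 * (a + 1) := rfl
        rw [e1] at hm
        have := Int.natAbs_pos.2 hk
        nlinarith [Nat.zero_le (a * k.natAbs)]
    · rw [V_of_ne _ _ hx]
      have h1 := valid_pLab (a := a) (j := dg (3 * a) y) (j' := dg (3 * (a + 1)) x) ha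
        (POcc_of_ne (j'' := dg (3 * (a + 2)) (y / ((3 * a : ℕ) : ℤ))) hx (dg_lt (by omega) _))
      unfold pLab at h1
      rw [if_neg hx] at h1
      exact h1

theorem POcc_V {a : ℕ} (ha : 2 ≤ a) (s : Star) (x Y : ℤ) :
    POcc a (dg (3 * (a + 1)) x) (V a s x (((3 * a : ℕ) : ℤ) * Y)) := by
  have hp : (0 : ℤ) < ((3 * a : ℕ) : ℤ) := by exact_mod_cast (by omega : 0 < 3 * a)
  by_cases hx : dg (3 * (a + 1)) x = 0
  · rw [hx]
    exact POcc_zero (V_valid s _ a x _ ha le_rfl)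
  · have := POcc_of_ne (a := a) (j' := dg (3 * (a + 1)) x) (j'' := dg (3 * (a + 2)) Y) hx
      (dg_lt (by omega) _)
    rw [V_of_ne _ _ hx, Int.mul_ediv_cancel_left _ hp.ne', dg_mul (by omega), umem_zero (by omega)]
    exact this

/-- the corners of the rows of digit `j ≠ 0` -/
theorem isCorner_rstar {a : ℕ} (ha : 2 ≤ a) (s : Star) (x y : ℤ) (hy : dg (3 * a) y ≠ 0) (σ : Star)
    (hσ : rstar a s x y = σ.1) :
    IsCorner a (dg (3 * a) y) (dg (3 * (a + 1)) x)
      (V a s x (((3 * a : ℕ) : ℤ) * (y / ((3 * a : ℕ) : ℤ)))) σ := by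
  have hd := sub_one_div (n := 3 * a) (by omega) hy
  refine ⟨?_, ?_, ?_, ?_, ?_⟩
  · show σ.1.domP = true
    rw [← hσ]
    exact dom_of_ne s x hy
  · show σ.1.Pb = _
    rw [← hσ]
    show V a s x (y - 1) = _
    rw [V_eq_pLab (by omega) s x (y - 1), hd.1, hd.2]
  · show σ.1.Pf = _
    rw [← hσ]
    exact V_eq_pLab (by omega) s x y
  · show σ.1.Qb = _
    rw [← hσ]
    show Hb a s x y = _
    rw [Hb, if_neg hy, dg_sub_one]
    rfl
  · show σ.1.Qf = _
    rw [← hσ]
    show Hf a s x y = _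
    rw [Hf, if_neg hy]
    rfl

theorem Rich_occX {a : ℕ} (ha : 2 ≤ a) (hOK : ∀ s x y, (rstar a s x y).OK) : Rich a (occX a) := by
  intro j h1 h2 j' h3 lam hl
  by_cases h0 : j' = 0
  · subst h0
    have hv : lam.Valid = true := by
      unfold POcc at hl; rwa [if_pos rfl] at hl
    have hj : dg (3 * a) (j : ℤ) = j := dg_natCast h2
    refine ⟨⟨rstar a (quiet lam hv) 0 j, hOK _ _ _⟩, ⟨quiet lam hv, 0, j, hj, rfl⟩, ?_⟩
    have := isCorner_rstar ha (quiet lam hv) 0 j (by rw [hj]; omega)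
      ⟨rstar a (quiet lam hv) 0 j, hOK _ _ _⟩ rfl
    have hz : dg (3 * (a + 1)) 0 = 0 := (dg_eq_zero (by omega)).2 (dvd_zero _)
    rw [hj, hz, V_zero, if_pos (mul_nonneg (by positivity) (Int.ediv_nonneg (by positivity)
      (by positivity)))] at this
    exact this
  · unfold POcc at hl
    rw [if_neg h0] at hl
    obtain ⟨j'', h4, rfl⟩ := hl
    have hp : (0 : ℤ) < ((3 * a : ℕ) : ℤ) := by exact_mod_cast (by omega : 0 < 3 * a)
    let s : Star := quiet ⟨.f0, none, .A⟩ rfl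
    let y : ℤ := ((3 * a : ℕ) : ℤ) * (j'' : ℤ) + (j : ℤ)
    have hy : dg (3 * a) y = j := by
      show dg (3 * a) (((3 * a : ℕ) : ℤ) * (j'' : ℤ) + (j : ℤ)) = j
      rw [dg_add_mul', dg_natCast h2]
    have hY : y / ((3 * a : ℕ) : ℤ) = j'' := by
      show (((3 * a : ℕ) : ℤ) * (j'' : ℤ) + (j : ℤ)) / ((3 * a : ℕ) : ℤ) = j''
      rw [add_comm, Int.add_mul_ediv_left _ _ hp.ne', Int.ediv_eq_zero_of_lt (by positivity)
        (by exact_mod_cast h2), zero_add]
    have hx : dg (3 * (a + 1)) (j' : ℤ) = j' := dg_natCast h3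
    refine ⟨⟨rstar a s j' y, hOK _ _ _⟩, ⟨s, j', y, hy, rfl⟩, ?_⟩
    have := isCorner_rstar ha s j' y (by rw [hy]; omega) ⟨rstar a s j' y, hOK _ _ _⟩ rfl
    rw [hy, hx, hY, V_of_ne _ _ (by rw [hx]; exact h0), hx, Int.mul_ediv_cancel_left _ hp.ne',
      dg_mul (by omega), umem_zero (by omega), dg_natCast h4] at this
    exact this

theorem Tame_occX {a : ℕ} (ha : 2 ≤ a) : Tame a (occX a) := by
  rintro j h1 h2 σ ⟨s, x, y, hy, hσ⟩
  refine ⟨dg (3 * (a + 1)) x, V a s x (((3 * a : ℕ) : ℤ) * (y / ((3 * a : ℕ) : ℤ))),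
    dg_lt (by omega) _, POcc_V ha s x _, ?_⟩
  have := isCorner_rstar ha s x y (by rw [hy]; omega) σ hσ
  rwa [hy] at this

end Crest.Agent.R189.KCount
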